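import Vale.Agent.P157.Casc.Glue
import Vale.Agent.P157.Casc.Cov

/-!
Gaussian coordinates on a tree, split into those of the root and the labels of the vertices, and
linear fields along the branches.
-/

open MeasureTheory ProbabilityTheory Filter Topology

namespace Vale.Agent.P166.Casc

open Vale.Agent.P157.Casc

variable {Z L : Type*} [Fintype Z] [Fintype L] {K n : ℕ}

/-- All coordinates from those of the root and the labels of the vertices. -/
def joinT (z : Z ⊕ L → ℝ) (ξ : Node K n → L → ℝ) : Z ⊕ (Option (Node K n) × L) → ℝ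
  | Sum.inl p => z (Sum.inl p)
  | Sum.inr (none, i) => z (Sum.inr i)
  | Sum.inr (some u, i) => ξ u i

omit [Fintype Z] [Fintype L] in
theorem measurable_joinT :
    Measurable fun p : (Z ⊕ L → ℝ) × (Node K n → L → ℝ) => joinT p.1 p.2 := by
  refine measurable_pi_lambda _ fun i => ?_
  rcases i with q | ⟨_ | u, i⟩
  · exact (measurable_pi_apply (Sum.inl q : Z ⊕ L)).comp measurable_fst
  · exact (measurable_pi_apply (Sum.inr i : Z ⊕ L)).comp measurable_fst
  · exact (measurable_pi_apply i).comp ((measurable_pi_apply u).comp measurable_snd)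

omit [Fintype Z] [Fintype L] in
theorem continuous_joinT :
    Continuous fun p : (Z ⊕ L → ℝ) × (Node K n → L → ℝ) => joinT p.1 p.2 := by
  refine continuous_pi fun i => ?_
  rcases i with q | ⟨_ | u, i⟩ <;> simp only [joinT] <;> fun_prop

/-- The Gaussian coordinates are those of the root and independent labels. -/
theorem mp_joinT : MeasurePreserving
    (fun p : (Z ⊕ L → ℝ) × (Node K n → L → ℝ) => joinT p.1 p.2)
    ((gaus (Z ⊕ L)).prod (casX K n (gaus L))) (gaus (Z ⊕ (Option (Node K n) × L))) := by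
  refine ⟨measurable_joinT, (Measure.pi_eq fun s hs => ?_).symm⟩
  rw [Measure.map_apply measurable_joinT (MeasurableSet.univ_pi hs)]
  have e : (fun p : (Z ⊕ L → ℝ) × (Node K n → L → ℝ) => joinT p.1 p.2) ⁻¹' Set.univ.pi s
      = (Set.univ.pi fun i : Z ⊕ L => s (Sum.elim Sum.inl (fun l => Sum.inr (none, l)) i)) ×ˢ
        Set.univ.pi fun u : Node K n => Set.univ.pi fun l => s (Sum.inr (some u, l)) := by
    ext ⟨z, ξ⟩
    simp only [Set.mem_preimage, Set.mem_univ_pi, Set.mem_prod]
    constructor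
    · intro h
      refine ⟨fun i => ?_, fun u l => h (Sum.inr (some u, l))⟩
      rcases i with p | l
      · exact h (Sum.inl p)
      · exact h (Sum.inr (none, l))
    · rintro ⟨h1, h2⟩ (p | ⟨_ | u, l⟩)
      · exact h1 (Sum.inl p)
      · exact h1 (Sum.inr l)
      · exact h2 u l
  rw [e, Measure.prod_prod, gaus, Measure.pi_pi, casX, Measure.pi_pi]
  simp only [gaus, Measure.pi_pi, Fintype.prod_sum_type, Sum.elim_inl, Sum.elim_inr,
    Fintype.prod_prod_type, Fintype.prod_option]
  ring

/-- A sum against a product of two direction families. -/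
theorem sum_treeDir {v0 v0' : Z → ℝ} {u u' : Fin (K + 1) → L → ℝ} (cz : Z → ℝ)
    (cl : Fin (K + 1) → L → ℝ) (td td' : Z ⊕ (Option (Node K n) × L) → ℝ)
    (pc : Z ⊕ (Option (Node K n) × L) → ℝ) (α β : Leaf K n)
    (htd : ∀ i, td i = Sum.elim v0 (fun p => below α p.1 * u (lev p.1) p.2) i)
    (htd' : ∀ i, td' i = Sum.elim v0' (fun p => below β p.1 * u' (lev p.1) p.2) i)
    (hpc : ∀ i, pc i = Sum.elim cz (fun p => cl (lev p.1) p.2) i) :
    ∑ i, pc i * (td i * td' i)
      = (∑ p, cz p * (v0 p * v0' p))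
        + ∑ l ∈ Finset.Iic (com α β), ∑ i, cl l i * (u l i * u' l i) := by
  simp only [htd, htd', hpc, Fintype.sum_sum_type, Sum.elim_inl, Sum.elim_inr,
    Fintype.sum_prod_type]
  congr 1
  rw [← sum_below_pair α β fun l => ∑ i, cl l i * (u l i * u' l i)]
  refine Finset.sum_congr rfl fun o _ => ?_
  rw [Finset.mul_sum]
  exact Finset.sum_congr rfl fun i _ => by ring

/-- A linear field along the branch of a leaf. -/
theorem lin_treeDir {v0 : Z → ℝ} {u : Fin (K + 1) → L → ℝ} (cz : Z → ℝ)
    (cl : Fin (K + 1) → L → ℝ) (td : Z ⊕ (Option (Node K n) × L) → ℝ)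
    (pc : Z ⊕ (Option (Node K n) × L) → ℝ) (z : Z ⊕ L → ℝ) (ξ : Node K n → L → ℝ) (α : Leaf K n)
    (htd : ∀ i, td i = Sum.elim v0 (fun p => below α p.1 * u (lev p.1) p.2) i)
    (hpc : ∀ i, pc i = Sum.elim cz (fun p => cl (lev p.1) p.2) i) :
    ∑ i, √(pc i) * td i * joinT z ξ i
      = (∑ p, √(cz p) * v0 p * z (Sum.inl p))
        + ((∑ i, √(cl 0 i) * u 0 i * z (Sum.inr i))
          + ∑ l, ∑ i, √(cl l.succ i) * u l.succ i * path ξ α l i) := by
  simp only [htd, hpc, Fintype.sum_sum_type, Sum.elim_inl, Sum.elim_inr, Fintype.sum_prod_type,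
    joinT]
  congr 1
  have h := sum_below α fun o => ∑ i, √(cl (lev o) i) * u (lev o) i * joinT z ξ (Sum.inr (o, i))
  simp only [joinT, show lev (none : Option (Node K n)) = 0 from rfl,
    show ∀ l, lev (some (node α l)) = l.succ from fun l => rfl] at h
  simp only [path]
  rw [← h]
  refine Finset.sum_congr rfl fun o _ => ?_
  rw [Finset.mul_sum]
  rcases o with _ | u' <;> exact Finset.sum_congr rfl fun i _ => by simp only [lev, joinT]; ring

end Vale.Agent.P166.Casc
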