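import Vale.Agent.P166.Casc.VInterpBase

/-!
Continuity and derivative of the free energy of systems with vector fields, and the mean value
identity under random weights.
-/

open MeasureTheory ProbabilityTheory Filter Topology Set

namespace Vale.Agent.P166.Casc

open Vale.Agent.P157.Casc Vale.Agent.P157.Casc.Itp

namespace VItp

variable {T I : Type*} [Fintype T] [Fintype I] {M d : ℕ}

/-- Mean of `vdir`. -/
noncomputable def vfU (P : VPot d) (w : T → ℝ) (b : Fin M → Fin d → T → I → ℝ) (bz : T → I → ℝ) (qd : T → I → ℝ)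
    (lam : I → ℝ) (i : I) (G : I → ℝ) : ℝ :=
  ∑ x, gibbs (vbw P w b bz qd lam G) x * vdir P b bz lam G x i

/-- Mean compensator. -/
noncomputable def vfV (P : VPot d) (w : T → ℝ) (b : Fin M → Fin d → T → I → ℝ) (bz : T → I → ℝ) (qd : T → I → ℝ)
    (δ : I → ℝ) (lam : I → ℝ) (G : I → ℝ) : ℝ :=
  ∑ x, gibbs (vbw P w b bz qd lam G) x * vcst bz qd δ x

/-- Derivative of the mean of `vdir`, up to the amplitude. -/
noncomputable def vfW (P : VPot d) (w : T → ℝ) (b : Fin M → Fin d → T → I → ℝ) (bz : T → I → ℝ) (qd : T → I → ℝ)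
    (lam : I → ℝ) (i : I) (G : I → ℝ) : ℝ :=
  ∑ x, gibbs (vbw P w b bz qd lam G) x *
    (vcrv P b lam G x i + vdir P b bz lam G x i * (vdir P b bz lam G x i - vfU P w b bz qd lam i G))

/-- Bound on `vkern`. -/
noncomputable def vgbd (P : VPot d) (b : Fin M → Fin d → T → I → ℝ) (bz : T → I → ℝ) (qd : T → I → ℝ)
    (δ : I → ℝ) : ℝ :=
  (∑ x, ∑ y, ((∑ a, ∑ k, ∑ l, |bcov b δ a k l x y| * (|P.b1| * |P.b1|))
      + |∑ i, δ i * (bz x i * bz y i)|))
    + (∑ x, ∑ a, ∑ k, ∑ l, |bcov b δ a k l x x| * (|P.b2| + |P.b1| * |P.b1|))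
    + 2 * ∑ x, |∑ i, δ i * qd x i|

/-- Envelope of the logarithm for variances bounded by `R`. -/
noncomputable def vlenv (P : VPot d) (M : ℕ) (bz : T → I → ℝ) (qd : T → I → ℝ) (R : ℝ) (G : I → ℝ) : ℝ :=
  (M * P.bF + (∑ x, ∑ i, R * bz x i ^ 2) + ∑ x, ∑ i, R * |qd x i|)
    + (√R * ∑ x, ∑ i, |bz x i|) * ∑ i, |G i|

variable (P : VPot d) {w : T → ℝ} (b : Fin M → Fin d → T → I → ℝ) (bz : T → I → ℝ)
  (qd : T → I → ℝ)

theorem integrable_vlenv (R : ℝ) : Integrable (vlenv P M bz qd R) (gaus I) :=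
  (integrable_const _).add
    ((integrable_finsetSum _ fun i _ => (integrable_coord i).abs).const_mul _)

omit [Fintype T] in
theorem vdir_mul_sum (hD : VDisj b bz) (lam δ G : I → ℝ) (x y : T) :
    ∑ i, δ i * (vdir P b bz lam G x i * vdir P b bz lam G y i) = vgrad P b bz lam δ G x y := by
  set gx := fun a k => P.g k (vfld b lam G x a)
  set gy := fun a k => P.g k (vfld b lam G y a)
  have e : ∀ i, δ i * (vdir P b bz lam G x i * vdir P b bz lam G y i)
      = (∑ a, ∑ k, ∑ l, δ i * (b a k x i * b a l y i) * (gx a k * gy a l))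
        + δ i * (bz x i * bz y i) := by
    intro i
    have h1 : (∑ a, ∑ k, gx a k * b a k x i) * bz y i = 0 := by
      rw [Finset.sum_mul]
      refine Finset.sum_eq_zero fun a _ => ?_
      rw [Finset.sum_mul]
      exact Finset.sum_eq_zero fun k _ => by rw [mul_assoc, hD.orthz, mul_zero]
    have h2 : bz x i * (∑ a, ∑ k, gy a k * b a k y i) = 0 := by
      rw [Finset.mul_sum]
      refine Finset.sum_eq_zero fun a _ => ?_
      rw [Finset.mul_sum]
      exact Finset.sum_eq_zero fun k _ => by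
        rw [mul_left_comm, mul_comm (bz x i), hD.orthz, mul_zero]
    have h3 : (∑ a, ∑ k, gx a k * b a k x i) * (∑ a, ∑ k, gy a k * b a k y i)
        = ∑ a, ∑ k, ∑ l, b a k x i * b a l y i * (gx a k * gy a l) := by
      rw [Finset.sum_mul]
      refine Finset.sum_congr rfl fun a _ => ?_
      rw [Finset.sum_mul]
      refine Finset.sum_congr rfl fun k _ => ?_
      rw [Finset.mul_sum, Finset.sum_eq_single a]
      · rw [Finset.mul_sum]
        exact Finset.sum_congr rfl fun l _ => by ring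
      · intro a' _ ha
        rw [Finset.mul_sum]
        exact Finset.sum_eq_zero fun l _ => by
          rw [mul_mul_mul_comm, hD.orth a a' (Ne.symm ha), mul_zero]
      · simp
    change δ i * (((∑ a, ∑ k, gx a k * b a k x i) + bz x i) *
      ((∑ a, ∑ k, gy a k * b a k y i) + bz y i)) = _
    rw [show ∀ A B z z' : ℝ, (A + z) * (B + z') = A * B + A * z' + z * B + z * z' from
      fun _ _ _ _ => by ring, h1, h2, h3, add_zero, add_zero, mul_add, Finset.mul_sum]
    congr 1
    refine Finset.sum_congr rfl fun a _ => ?_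
    rw [Finset.mul_sum]
    refine Finset.sum_congr rfl fun k _ => ?_
    rw [Finset.mul_sum]
    exact Finset.sum_congr rfl fun l _ => by ring
  simp only [e, Finset.sum_add_distrib, vgrad, bcov, Finset.sum_mul]
  congr 1
  rw [Finset.sum_comm]
  refine Finset.sum_congr rfl fun a _ => ?_
  rw [Finset.sum_comm]
  refine Finset.sum_congr rfl fun k _ => ?_
  rw [Finset.sum_comm]

omit [Fintype T] in
theorem vcrv_add_self (δ lam G : I → ℝ) (x : T) :
    (∑ i, δ i * vcrv P b lam G x i) + vgrad P b bz lam δ G x x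
      = vdiag P b lam δ G x + comp bz δ x := by
  have h : ∑ i, δ i * vcrv P b lam G x i
      = ∑ a, ∑ k, ∑ l, bcov b δ a k l x x * P.h k l (vfld b lam G x a) := by
    simp only [vcrv, bcov, Finset.mul_sum, Finset.sum_mul]
    rw [Finset.sum_comm]
    refine Finset.sum_congr rfl fun a _ => ?_
    rw [Finset.sum_comm]
    refine Finset.sum_congr rfl fun k _ => ?_
    rw [Finset.sum_comm]
    exact Finset.sum_congr rfl fun l _ => Finset.sum_congr rfl fun i _ => by ring
  rw [h, vgrad, vdiag, comp]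
  simp only [mul_add, Finset.sum_add_distrib, ← pow_two]
  ring

variable (hw : ∀ x, 0 < w x)
include hw
variable [Nonempty T]

theorem cont_vfU (lam : I → ℝ) (i : I) : Continuous (vfU P w b bz qd lam i) := by
  have := cont_vgibbs P b bz qd hw lam
  have := fun x => cont_vdir P b bz lam x i
  unfold vfU; fun_prop

theorem cont_vfV (δ lam : I → ℝ) : Continuous (vfV P w b bz qd δ lam) := by
  have := cont_vgibbs P b bz qd hw lam
  unfold vfV; fun_prop

theorem cont_vfW (lam : I → ℝ) (i : I) : Continuous (vfW P w b bz qd lam i) := by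
  have := cont_vgibbs P b bz qd hw lam
  have := fun x => cont_vdir P b bz lam x i
  have := fun x => cont_vcrv P b lam x i
  have := cont_vfU P b bz qd hw lam i
  unfold vfW; fun_prop

theorem abs_vfU_le (lam : I → ℝ) (i : I) (G : I → ℝ) :
    |vfU P w b bz qd lam i G| ≤ vbd P b bz :=
  abs_mean_le (vbw_pos P b bz qd hw lam G) fun x => abs_vdir_le P b bz lam G x i

theorem abs_vfV_le (δ lam G : I → ℝ) :
    |vfV P w b bz qd δ lam G| ≤ ∑ x, |vcst bz qd δ x| :=
  abs_mean_le (vbw_pos P b bz qd hw lam G) fun x =>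
    Finset.single_le_sum (f := fun x => |vcst bz qd δ x|) (fun y _ => abs_nonneg _)
      (Finset.mem_univ x)

theorem abs_vfW_le (lam : I → ℝ) (i : I) (G : I → ℝ) :
    |vfW P w b bz qd lam i G| ≤ vbd P b bz + vbd P b bz * (vbd P b bz + vbd P b bz) :=
  abs_mean_le (vbw_pos P b bz qd hw lam G) fun x => by
    refine (abs_add_le _ _).trans (add_le_add (abs_vcrv_le P b bz lam G x i) ?_)
    rw [abs_mul]
    exact mul_le_mul (abs_vdir_le P b bz lam G x i) ((abs_sub _ _).trans (add_le_add
      (abs_vdir_le P b bz lam G x i) (abs_vfU_le P b bz qd hw lam i G)))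
      (abs_nonneg _) (vbd_nonneg P b bz)

theorem deriv_vlog_t {l0 δ : I → ℝ} (hpos : ∀ t ∈ Icc (0 : ℝ) 1, ∀ i, 0 ≤ l0 i + t * δ i)
    {r : ℝ} (hr : r ∈ Ioo (0 : ℝ) 1) (G : I → ℝ) :
    HasDerivAt (fun q => Real.log (∑ x, vbw P w b bz qd (seg l0 δ q) G x))
      ((∑ i, rate l0 δ r i * G i * vfU P w b bz qd (seg l0 δ r) i G)
        + vfV P w b bz qd δ (seg l0 δ r) G) r := by
  refine (deriv_logsum (v := fun q => vbw P w b bz qd (seg l0 δ q) G)
    (vbw_pos P b bz qd hw _ G) fun x => deriv_vbw_t P b bz qd hpos hr G x).congr_deriv ?_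
  simp only [vfU, vfV, Finset.mul_sum]
  rw [Finset.sum_comm, ← Finset.sum_add_distrib]
  refine Finset.sum_congr rfl fun x _ => ?_
  rw [mul_add, Finset.mul_sum]
  congr 1
  exact Finset.sum_congr rfl fun i _ => by ring

theorem deriv_vfU_G [DecidableEq I] (lam : I → ℝ) (i : I) (G : I → ℝ) :
    HasDerivAt (fun z => vfU P w b bz qd lam i (Function.update G i z))
      (√(lam i) * vfW P w b bz qd lam i G) (G i) := by
  refine (deriv_mean (v := fun z => vbw P w b bz qd lam (Function.update G i z))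
    (dv := fun x => √(lam i) * vdir P b bz lam G x i) (s := G i)
    (fun x => vbw_pos P b bz qd hw _ _ x)
    (fun x => by simpa using deriv_vbw_G P b bz qd lam G i x)
    (F := fun z x => vdir P b bz lam (Function.update G i z) x i)
    (fun x => deriv_vdir_G P b bz lam G i x)).congr_deriv ?_
  simp only [Function.update_eq_self]
  have hm : ∑ y, gibbs (vbw P w b bz qd lam G) y * (√(lam i) * vdir P b bz lam G y i)
      = √(lam i) * vfU P w b bz qd lam i G := by
    rw [vfU, Finset.mul_sum]; exact Finset.sum_congr rfl fun y _ => by ring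
  rw [hm, vfW, Finset.mul_sum]
  exact Finset.sum_congr rfl fun x _ => by ring

theorem vfree_identity (hD : VDisj b bz) (δ lam G : I → ℝ) :
    (∑ i, δ i / 2 * vfW P w b bz qd lam i G) + vfV P w b bz qd δ lam G
      = -(1 / 2) * avg2 (vbw P w b bz qd lam G) (vkern P b bz qd lam δ G) := by
  set γ := gibbs (vbw P w b bz qd lam G)
  set u := vdir P b bz lam G
  have hs : ∑ y, γ y = 1 := sum_gibbs (vbw_pos P b bz qd hw lam G)
  have e1 : ∀ x, ∑ i, δ i * (vcrv P b lam G x i + u x i * (u x i - vfU P w b bz qd lam i G))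
      = comp bz δ x - 2 * (∑ i, δ i * qd x i)
          - ∑ y, γ y * vkern P b bz qd lam δ G x y := fun x => by
    have h1 : ∑ i, δ i * (u x i * vfU P w b bz qd lam i G)
        = ∑ y, γ y * vgrad P b bz lam δ G x y := by
      simp only [vfU, ← vdir_mul_sum P b bz hD lam δ G, Finset.mul_sum]
      rw [Finset.sum_comm]
      exact Finset.sum_congr rfl fun y _ => Finset.sum_congr rfl fun i _ => by ring
    have h2 : ∑ y, γ y * vkern P b bz qd lam δ G x y
        = (∑ y, γ y * vgrad P b bz lam δ G x y) - vdiag P b lam δ G x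
          - 2 * ∑ i, δ i * qd x i := by
      simp only [vkern, mul_sub, Finset.sum_sub_distrib, ← Finset.sum_mul, hs, one_mul]
    have h3 := vcrv_add_self P b bz δ lam G x
    have h4 : ∑ i, δ i * (u x i * u x i) = vgrad P b bz lam δ G x x :=
      vdir_mul_sum P b bz hD lam δ G x x
    rw [h2]
    simp only [mul_add, mul_sub, Finset.sum_add_distrib, Finset.sum_sub_distrib, h1, h4]
    linarith
  have e2 : (∑ i, δ i / 2 * vfW P w b bz qd lam i G) + vfV P w b bz qd δ lam G
      = ∑ x, γ x * (1 / 2 * (∑ i, δ i * (vcrv P b lam G x i + u x i *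
          (u x i - vfU P w b bz qd lam i G))) + vcst bz qd δ x) := by
    simp only [vfW, vfV, Finset.mul_sum, mul_add (γ _)]
    rw [Finset.sum_comm, ← Finset.sum_add_distrib]
    refine Finset.sum_congr rfl fun x _ => ?_
    congr 1
    exact Finset.sum_congr rfl fun i _ => by ring
  rw [e2, avg2_eq, Finset.mul_sum]
  refine Finset.sum_congr rfl fun x _ => ?_
  rw [e1, vcst]; ring

omit hw [Nonempty T] in
theorem abs_vkern_le (lam δ G : I → ℝ) (x y : T) :
    |vkern P b bz qd lam δ G x y| ≤ vgbd P b bz qd δ := by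
  have hn : ∀ x y, 0 ≤ (∑ a, ∑ k, ∑ l, |bcov b δ a k l x y| * (|P.b1| * |P.b1|))
      + |∑ i, δ i * (bz x i * bz y i)| := fun x y => add_nonneg
    (Finset.sum_nonneg fun a _ => Finset.sum_nonneg fun k _ =>
      Finset.sum_nonneg fun l _ => by positivity) (abs_nonneg _)
  have hg : ∀ k y, |P.g k y| ≤ |P.b1| := fun k y => (P.h1 k y).trans (le_abs_self _)
  refine (abs_sub _ _).trans (add_le_add ((abs_sub _ _).trans (add_le_add ?_ ?_)) ?_)
  · refine le_trans ?_ ((Finset.single_le_sum (fun j _ => hn x j) (Finset.mem_univ y)).trans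
      (Finset.single_le_sum (f := fun x => ∑ y, ((∑ a, ∑ k, ∑ l, |bcov b δ a k l x y| *
        (|P.b1| * |P.b1|)) + |∑ i, δ i * (bz x i * bz y i)|))
        (fun z _ => Finset.sum_nonneg fun j _ => hn z j) (Finset.mem_univ x)))
    refine (abs_add_le _ _).trans (add_le_add ((Finset.abs_sum_le_sum_abs _ _).trans
      (Finset.sum_le_sum fun a _ => (Finset.abs_sum_le_sum_abs _ _).trans
        (Finset.sum_le_sum fun k _ => (Finset.abs_sum_le_sum_abs _ _).trans
          (Finset.sum_le_sum fun l _ => ?_)))) le_rfl)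
    rw [abs_mul, abs_mul (P.g k _)]
    exact mul_le_mul_of_nonneg_left (mul_le_mul (hg k _) (hg l _) (abs_nonneg _) (abs_nonneg _))
      (abs_nonneg _)
  · refine le_trans ?_ (Finset.single_le_sum (f := fun x => ∑ a, ∑ k, ∑ l, |bcov b δ a k l x x| *
      (|P.b2| + |P.b1| * |P.b1|)) (fun z _ => Finset.sum_nonneg fun a _ =>
        Finset.sum_nonneg fun k _ => Finset.sum_nonneg fun l _ => by positivity)
      (Finset.mem_univ x))
    refine (Finset.abs_sum_le_sum_abs _ _).trans (Finset.sum_le_sum fun a _ =>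
      (Finset.abs_sum_le_sum_abs _ _).trans (Finset.sum_le_sum fun k _ =>
        (Finset.abs_sum_le_sum_abs _ _).trans (Finset.sum_le_sum fun l _ => ?_)))
    rw [abs_mul]
    refine mul_le_mul_of_nonneg_left ((abs_add_le _ _).trans
      (add_le_add ((P.h2 _ _ _).trans (le_abs_self _)) ?_)) (abs_nonneg _)
    rw [abs_mul]
    exact mul_le_mul (hg k _) (hg l _) (abs_nonneg _) (abs_nonneg _)
  · rw [abs_mul, abs_two]
    exact mul_le_mul_of_nonneg_left (Finset.single_le_sum (f := fun x => |∑ i, δ i * qd x i|)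
      (fun z _ => abs_nonneg _) (Finset.mem_univ x)) zero_le_two

theorem abs_vlog_le (lam G : I → ℝ) :
    |Real.log (∑ x, vbw P w b bz qd lam G x) - Real.log (∑ x, w x)|
      ≤ M * P.bF + ∑ x, ∑ i,
        (√(lam i) * |bz x i| * |G i| + |lam i| * (bz x i ^ 2 + |qd x i|)) := by
  set B := M * P.bF + ∑ x, ∑ i,
    (√(lam i) * |bz x i| * |G i| + |lam i| * (bz x i ^ 2 + |qd x i|))
  have hn : ∀ x i, 0 ≤ √(lam i) * |bz x i| * |G i| + |lam i| * (bz x i ^ 2 + |qd x i|) :=
    fun x i => by positivity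
  have hh : ∀ x, |vham P b bz qd lam G x| ≤ B := fun x => by
    refine le_trans ?_ (add_le_add le_rfl (Finset.single_le_sum
      (fun y _ => Finset.sum_nonneg fun i _ => hn y i) (Finset.mem_univ x)))
    have h1 : |∑ a, P.f (vfld b lam G x a)| ≤ M * P.bF :=
      (Finset.abs_sum_le_sum_abs _ _).trans
        ((Finset.sum_le_sum fun a _ => P.hF _).trans (by simp))
    have h2 : |lin bz lam G x - 1 / 2 * ∑ i, lam i * bz x i ^ 2 + ∑ i, lam i * qd x i|
        ≤ ∑ i, (√(lam i) * |bz x i| * |G i| + |lam i| * (bz x i ^ 2 + |qd x i|)) := by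
      simp only [mul_add, Finset.sum_add_distrib, ← add_assoc]
      refine (abs_add_le _ _).trans (add_le_add ((abs_sub _ _).trans ?_)
        ((Finset.abs_sum_le_sum_abs _ _).trans (Finset.sum_le_sum fun i _ => (abs_mul _ _).le)))
      refine add_le_add ((Finset.abs_sum_le_sum_abs _ _).trans (Finset.sum_le_sum fun i _ => ?_)) ?_
      · rw [abs_mul, abs_mul, abs_of_nonneg (Real.sqrt_nonneg _)]
      · rw [abs_mul, abs_of_pos (by norm_num : (0 : ℝ) < 1 / 2)]
        refine le_trans (b := |∑ i, lam i * bz x i ^ 2|) ?_ ((Finset.abs_sum_le_sum_abs _ _).trans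
          (Finset.sum_le_sum (g := fun i => |lam i| * bz x i ^ 2) fun i _ => ?_))
        · linarith [abs_nonneg (∑ i, lam i * bz x i ^ 2)]
        · rw [abs_mul, abs_of_nonneg (sq_nonneg (bz x i))]
    rw [vham, add_sub_assoc, add_assoc]
    exact (abs_add_le _ _).trans (add_le_add h1 h2)
  have hsw := sum_u_pos hw
  have hsb := sum_u_pos (vbw_pos P b bz qd hw lam G)
  have hup : ∑ x, vbw P w b bz qd lam G x ≤ Real.exp B * ∑ x, w x := by
    rw [Finset.mul_sum]
    refine Finset.sum_le_sum fun x _ => ?_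
    rw [vbw, mul_comm]
    exact mul_le_mul_of_nonneg_right (Real.exp_le_exp.2 (abs_le.1 (hh x)).2) (hw x).le
  have hlo : Real.exp (-B) * ∑ x, w x ≤ ∑ x, vbw P w b bz qd lam G x := by
    rw [Finset.mul_sum]
    refine Finset.sum_le_sum fun x _ => ?_
    rw [vbw, mul_comm (w x)]
    exact mul_le_mul_of_nonneg_right (Real.exp_le_exp.2 (abs_le.1 (hh x)).1) (hw x).le
  have l1 := Real.log_le_log hsb hup
  have l2 := Real.log_le_log (mul_pos (Real.exp_pos _) hsw) hlo
  rw [Real.log_mul (Real.exp_pos _).ne' hsw.ne', Real.log_exp] at l1 l2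
  rw [abs_le]; constructor <;> linarith

theorem abs_vlog_env {lam : I → ℝ} {R : ℝ} (hR : ∀ i, |lam i| ≤ R) (G : I → ℝ) :
    |Real.log (∑ x, vbw P w b bz qd lam G x)| ≤ |Real.log (∑ x, w x)| + vlenv P M bz qd R G := by
  have h := abs_vlog_le P b bz qd hw lam G
  have h' : ∑ x, ∑ i, (√(lam i) * |bz x i| * |G i| + |lam i| * (bz x i ^ 2 + |qd x i|))
      ≤ (∑ x, ∑ i, R * bz x i ^ 2) + (∑ x, ∑ i, R * |qd x i|)
        + (√R * ∑ x, ∑ i, |bz x i|) * ∑ i, |G i| := by
    simp only [Finset.mul_sum (a := √R), Finset.sum_mul]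
    rw [← Finset.sum_add_distrib, ← Finset.sum_add_distrib]
    refine Finset.sum_le_sum fun x _ => ?_
    rw [← Finset.sum_add_distrib, ← Finset.sum_add_distrib]
    refine Finset.sum_le_sum fun i _ => ?_
    rw [← mul_add, add_comm (R * _)]
    refine add_le_add (mul_le_mul (mul_le_mul_of_nonneg_right
      (Real.sqrt_le_sqrt ((le_abs_self _).trans (hR i))) (abs_nonneg _))
      (Finset.single_le_sum (f := fun i => |G i|) (fun j _ => abs_nonneg _) (Finset.mem_univ i))
      (abs_nonneg _) (mul_nonneg (Real.sqrt_nonneg _) (abs_nonneg _)))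
      (mul_le_mul_of_nonneg_right (hR i) (add_nonneg (sq_nonneg _) (abs_nonneg _)))
  have := abs_sub_abs_le_abs_sub (Real.log (∑ x, vbw P w b bz qd lam G x)) (Real.log (∑ x, w x))
  unfold vlenv
  linarith

theorem integrable_vlog (lam : I → ℝ) :
    Integrable (fun G => Real.log (∑ x, vbw P w b bz qd lam G x)) (gaus I) := by
  refine Integrable.mono'
    ((integrable_const |Real.log (∑ x, w x)|).add
      (integrable_vlenv (M := M) P bz qd (∑ i, |lam i|)))
    (cont_vlogsum P b bz qd hw lam).aestronglyMeasurable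
    (ae_of_all _ fun G => ?_)
  simpa [Real.norm_eq_abs] using abs_vlog_env P b bz qd hw
    (fun i => Finset.single_le_sum (f := fun i => |lam i|) (fun j _ => abs_nonneg _)
      (Finset.mem_univ i)) G

theorem abs_vfree_le {lam : I → ℝ} {R : ℝ} (hR : ∀ i, |lam i| ≤ R) :
    |vfree P w b bz qd lam| ≤ |Real.log (∑ x, w x)| + ∫ G, vlenv P M bz qd R G ∂gaus I := by
  refine abs_integral_le_integral_abs.trans ?_
  refine (integral_mono (integrable_vlog P b bz qd hw lam).abs
    ((integrable_const _).add (integrable_vlenv P bz qd R))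
    fun G => abs_vlog_env P b bz qd hw hR G).trans_eq ?_
  rw [integral_add' (integrable_const _) (integrable_vlenv P bz qd R)]
  simp

end VItp

open VItp

section Interp

variable {T I : Type*} [Fintype T] [Nonempty T] [Fintype I] {M d : ℕ} (P : VPot d) {w : T → ℝ}
  (b : Fin M → Fin d → T → I → ℝ) (bz : T → I → ℝ) (qd : T → I → ℝ)

theorem continuous_vfree (hw : ∀ x, 0 < w x) : Continuous fun lam => vfree P w b bz qd lam := by
  refine continuous_iff_continuousAt.2 fun lam0 => ?_
  set R := ∑ i, |lam0 i| + 1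
  refine continuousAt_of_dominated
    (bound := fun G => |Real.log (∑ x, w x)| + vlenv P M bz qd R G)
    (Eventually.of_forall fun lam => (integrable_vlog P b bz qd hw lam).aestronglyMeasurable) ?_
    ((integrable_const _).add (integrable_vlenv P bz qd R))
    (ae_of_all _ fun G =>
      ((cont_vlogsum2 P b bz qd hw).comp (continuous_id.prodMk continuous_const)).continuousAt)
  have hev : ∀ᶠ lam : I → ℝ in 𝓝 lam0, ∀ i, |lam i| ≤ R := eventually_all.2 fun i => by
    refine ((continuous_apply i).abs.continuousAt).eventually (eventually_le_nhds ?_)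
    have := Finset.single_le_sum (f := fun i => |lam0 i|) (fun j _ => abs_nonneg _)
      (Finset.mem_univ i)
    simp only [R]
    linarith
  filter_upwards [hev] with lam hlam
  exact ae_of_all _ fun G => (Real.norm_eq_abs _).trans_le (abs_vlog_env P b bz qd hw hlam G)

theorem continuous_vpair (hw : ∀ x, 0 < w x) {O : (I → ℝ) → (I → ℝ) → T → T → ℝ} {C : ℝ}
    (hO : ∀ x y, Continuous fun p : (I → ℝ) × (I → ℝ) => O p.1 p.2 x y)
    (hC : ∀ l G x y, |O l G x y| ≤ C) :
    Continuous fun lam => vpair P w b bz qd lam (O lam) := by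
  have hc : Continuous fun p : (I → ℝ) × (I → ℝ) =>
      avg2 (vbw P w b bz qd p.1 p.2) (O p.1 p.2) := by
    have := fun x => cont_vgibbs2 P b bz qd hw x
    unfold avg2; fun_prop
  have h1 : ∀ lam : I → ℝ, Continuous fun G => avg2 (vbw P w b bz qd lam G) (O lam G) := fun lam =>
    Continuous.comp (g := fun p : (I → ℝ) × (I → ℝ) => avg2 (vbw P w b bz qd p.1 p.2) (O p.1 p.2))
      (f := fun G => (lam, G)) hc (continuous_const.prodMk continuous_id)
  have h2 : ∀ G : I → ℝ, Continuous fun lam => avg2 (vbw P w b bz qd lam G) (O lam G) := fun G =>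
    Continuous.comp (g := fun p : (I → ℝ) × (I → ℝ) => avg2 (vbw P w b bz qd p.1 p.2) (O p.1 p.2))
      (f := fun lam => (lam, G)) hc (continuous_id.prodMk continuous_const)
  unfold vpair
  exact continuous_of_dominated (bound := fun _ => C) (fun lam => (h1 lam).aestronglyMeasurable)
    (fun lam => ae_of_all _ fun G =>
      (Real.norm_eq_abs _).trans_le (abs_avg2_le (vbw_pos P b bz qd hw lam G) (hC lam G)))
    (integrable_const C) (ae_of_all _ h2)

theorem hasDerivAt_vfree (hD : VDisj b bz) (hw : ∀ x, 0 < w x) {l0 δ : I → ℝ}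
    (hpos : ∀ t ∈ Icc (0 : ℝ) 1, ∀ i, 0 ≤ l0 i + t * δ i) {t : ℝ} (ht : t ∈ Ioo (0 : ℝ) 1) :
    HasDerivAt (fun r : ℝ => vfree P w b bz qd fun i => l0 i + r * δ i)
      (-(1 / 2) * vpair P w b bz qd (fun i => l0 i + t * δ i)
        (vkern P b bz qd (fun i => l0 i + t * δ i) δ)) t := by
  classical
  have h := deriv_gauss hpos ht
    (Φ := fun r G => Real.log (∑ x, vbw P w b bz qd (seg l0 δ r) G x))
    (U := fun r => vfU P w b bz qd (seg l0 δ r)) (V := fun r => vfV P w b bz qd δ (seg l0 δ r))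
    (W := vfW P w b bz qd (seg l0 δ t))
    (fun r => cont_vlogsum P b bz qd hw _) (integrable_vlog P b bz qd hw _)
    (fun r => cont_vfU P b bz qd hw _) (fun r => cont_vfV P b bz qd hw δ _)
    (fun r i G => (abs_vfU_le P b bz qd hw _ i G).trans (le_max_left _ (∑ x, |vcst bz qd δ x|)))
    (fun r G => (abs_vfV_le P b bz qd hw δ _ G).trans (le_max_right (vbd P b bz) _))
    (fun r hr G => deriv_vlog_t P b bz qd hw hpos hr G) (fun i G => deriv_vfU_G P b bz qd hw _ i G)
    (fun i => cont_vfW P b bz qd hw _ i) (fun i G => abs_vfW_le P b bz qd hw _ i G)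
  refine h.congr_deriv ?_
  rw [vpair, ← integral_const_mul]
  exact integral_congr_ae (ae_of_all _ fun G => vfree_identity P b bz qd hw hD δ _ G)

/-- Averaged over random weights and starting points. -/
theorem vfree_avg_mvt (hD : VDisj b bz) {Ω : Type*} [MeasurableSpace Ω] (μ : Measure Ω)
    [IsProbabilityMeasure μ]
    {w : Ω → T → ℝ} (hwm : ∀ x, Measurable fun ω => w ω x) (hw : ∀ ω x, 0 < w ω x)
    (hwi : Integrable (fun ω => Real.log (∑ x, w ω x)) μ)
    {l0 : Ω → I → ℝ} (hlm : ∀ i, Measurable fun ω => l0 ω i) {R : ℝ} (hR : ∀ ω i, |l0 ω i| ≤ R)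
    {δ : I → ℝ} (hpos : ∀ ω, ∀ t ∈ Icc (0 : ℝ) 1, ∀ i, 0 ≤ l0 ω i + t * δ i) :
    ∃ t ∈ Ioo (0 : ℝ) 1,
      (∫ ω, vfree P (w ω) b bz qd (fun i => l0 ω i + δ i) ∂μ) - ∫ ω, vfree P (w ω) b bz qd (l0 ω) ∂μ
        = -(1 / 2) * ∫ ω, vpair P (w ω) b bz qd (fun i => l0 ω i + t * δ i)
            (vkern P b bz qd (fun i => l0 ω i + t * δ i) δ) ∂μ := by
  have mf := P.cf.measurable
  have mg := fun k => (P.cg k).measurable
  have mh := fun k l => (P.ch k l).measurable
  have mfld : ∀ r x a, Measurable fun p : Ω × (I → ℝ) =>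
      vfld b (seg (l0 p.1) δ r) p.2 x a := fun r x a =>
    measurable_pi_lambda _ fun k => by unfold vfld lin seg; fun_prop
  have mbw : ∀ r x, Measurable fun p : Ω × (I → ℝ) =>
      vbw P (w p.1) b bz qd (seg (l0 p.1) δ r) p.2 x := fun r x => by
    unfold vbw vham
    refine ((hwm x).comp measurable_fst).mul (Measurable.exp ?_)
    refine (((Finset.measurable_sum _ fun a _ => mf.comp (mfld r x a)).add ?_).sub ?_).add ?_
    · unfold lin seg; fun_prop
    · unfold seg; fun_prop
    · unfold seg; fun_prop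
  have mF : ∀ r, AEStronglyMeasurable (fun ω => vfree P (w ω) b bz qd (seg (l0 ω) δ r)) μ :=
    fun r => by
    have hm : Measurable fun p : Ω × (I → ℝ) =>
        Real.log (∑ x, vbw P (w p.1) b bz qd (seg (l0 p.1) δ r) p.2 x) :=
      (Finset.measurable_sum _ fun x _ => mbw r x).log
    exact (hm.stronglyMeasurable.integral_prod_right' (ν := gaus I)).aestronglyMeasurable
  have mP : ∀ r, AEStronglyMeasurable (fun ω => -(1 / 2) * vpair P (w ω) b bz qd (seg (l0 ω) δ r)
      (vkern P b bz qd (seg (l0 ω) δ r) δ)) μ := fun r => by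
    have hk : ∀ x y, Measurable fun p : Ω × (I → ℝ) =>
        vkern P b bz qd (seg (l0 p.1) δ r) δ p.2 x y := fun x y => by
      have := fun x a k => (mg k).comp (mfld r x a)
      have := fun x a k l => (mh k l).comp (mfld r x a)
      unfold vkern vgrad vdiag
      fun_prop
    have hm : Measurable fun p : Ω × (I → ℝ) =>
        avg2 (vbw P (w p.1) b bz qd (seg (l0 p.1) δ r) p.2)
          (vkern P b bz qd (seg (l0 p.1) δ r) δ p.2) := by
      have := mbw r
      unfold avg2 gibbs
      fun_prop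
    exact (hm.stronglyMeasurable.integral_prod_right' (ν := gaus I)).aestronglyMeasurable.const_mul
      (-(1 / 2))
  set R' := R + ∑ i, |δ i|
  set K := ∫ G, vlenv P M bz qd R' G ∂gaus I
  have hseg : ∀ r ∈ Icc (0 : ℝ) 1, ∀ ω i, |seg (l0 ω) δ r i| ≤ R' := fun r hr ω i => by
    refine (abs_add_le _ _).trans (add_le_add (hR ω i) ?_)
    rw [abs_mul, abs_of_nonneg hr.1]
    exact (mul_le_of_le_one_left (abs_nonneg _) hr.2).trans
      (Finset.single_le_sum (f := fun i => |δ i|) (fun j _ => abs_nonneg _) (Finset.mem_univ i))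
  have hb : ∀ r ∈ Icc (0 : ℝ) 1, ∀ ω,
      ‖vfree P (w ω) b bz qd (seg (l0 ω) δ r)‖ ≤ |Real.log (∑ x, w ω x)| + K := fun r hr ω =>
    (Real.norm_eq_abs _).trans_le (abs_vfree_le P b bz qd (hw ω) (hseg r hr ω))
  have hbi : Integrable (fun ω => |Real.log (∑ x, w ω x)| + K) μ :=
    hwi.abs.add (integrable_const K)
  have hc : ContinuousOn (fun r => ∫ ω, vfree P (w ω) b bz qd (seg (l0 ω) δ r) ∂μ) (Icc 0 1) :=
    continuousOn_of_dominated (fun r _ => mF r) (fun r hr => ae_of_all _ (hb r hr)) hbi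
      (ae_of_all _ fun ω => ((continuous_vfree P b bz qd (hw ω)).comp
        (by unfold seg; fun_prop)).continuousOn)
  have hd' : ∀ t ∈ Ioo (0 : ℝ) 1,
      HasDerivAt (fun r => ∫ ω, vfree P (w ω) b bz qd (seg (l0 ω) δ r) ∂μ)
      (∫ ω, -(1 / 2) * vpair P (w ω) b bz qd (seg (l0 ω) δ t)
        (vkern P b bz qd (seg (l0 ω) δ t) δ) ∂μ) t := fun t ht =>
    (hasDerivAt_integral_of_dominated_loc_of_deriv_le (μ := μ)
      (F := fun r ω => vfree P (w ω) b bz qd (seg (l0 ω) δ r))
      (F' := fun r ω => -(1 / 2) * vpair P (w ω) b bz qd (seg (l0 ω) δ r)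
        (vkern P b bz qd (seg (l0 ω) δ r) δ))
      (bound := fun _ => 1 / 2 * vgbd P b bz qd δ) (Ioo_mem_nhds ht.1 ht.2)
      (Eventually.of_forall mF) (hbi.mono' (mF t) (ae_of_all _ (hb t (Ioo_subset_Icc_self ht))))
      (mP t)
      (ae_of_all _ fun ω r _ => by
        rw [Real.norm_eq_abs, abs_mul, abs_neg, abs_of_pos (by norm_num : (0 : ℝ) < 1 / 2)]
        refine mul_le_mul_of_nonneg_left ?_ (by norm_num)
        rw [← Real.norm_eq_abs, vpair]
        refine (norm_integral_le_of_norm_le_const (ae_of_all _ fun G =>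
          (Real.norm_eq_abs _).trans_le (abs_avg2_le (vbw_pos P b bz qd (hw ω) _ G)
            fun x y => abs_vkern_le P b bz qd _ δ G x y))).trans_eq ?_
        simp)
      (integrable_const _)
      (ae_of_all _ fun ω r hr => hasDerivAt_vfree P b bz qd hD (hw ω) (hpos ω) hr)).2
  obtain ⟨t, ht, he⟩ := exists_hasDerivAt_eq_slope _ _ zero_lt_one hc hd'
  refine ⟨t, ht, ?_⟩
  rw [sub_zero, div_one, integral_const_mul] at he
  have s1 : ∀ ω, seg (l0 ω) δ 1 = fun i => l0 ω i + δ i := fun ω => funext fun i => by simp [seg]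
  have s0 : ∀ ω, seg (l0 ω) δ 0 = l0 ω := fun ω => funext fun i => by simp [seg]
  simp only [s1, s0] at he
  exact he.symm

end Interp

end Vale.Agent.P166.Casc
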