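import Vale.Agent.P166.Casc.Model
import Vale.Agent.P166.Casc.Tree
import Vale.Agent.P166.Casc.VInterp

/-!
The vector model as a cascade: root coordinates, labels of the vertices, factors of the leaves;
covariances of its fields.
-/

open MeasureTheory ProbabilityTheory Filter Topology

namespace Vale.Agent.P166.Casc

open Vale.Agent.P157.Casc

variable {N M d R D K n : ℕ}

theorem vpull_eq (c : VCIdx N M d R D K → ℝ) (i : VGIdx N M d R D K n) :
    vpull c i = Sum.elim (fun p => c (Sum.inl p)) (fun p => c (Sum.inr (lev p.1, p.2))) i := by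
  rcases i with p | ⟨o, i⟩ <;> rfl

theorem treeDir_eq {Z L : Type*} (v0 : Z → ℝ) (u : Fin (K + 1) → L → ℝ) (α : Leaf K n)
    (i : Z ⊕ (Option (Node K n) × L)) :
    treeDir v0 u α i = Sum.elim v0 (fun p => below α p.1 * u (lev p.1) p.2) i := by
  rcases i with p | ⟨o, i⟩ <;> rfl

theorem vbranch_eq_joinT (z : VRIdx N M d R D → ℝ) (y : Fin K → VLIdx N M d R D → ℝ) :
    vbranch z y = joinT z (fun u : Node K 1 => y u.1) := by
  funext i
  rcases i with p | ⟨_ | u, i⟩ <;> rfl

theorem lin_branch_eq {T : Type*} (v : T → ZIdx N M → ℝ)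
    (u : T → Fin (K + 1) → VLIdx N M d R D → ℝ) (c : VCIdx N M d R D K → ℝ)
    (z : VRIdx N M d R D → ℝ) (ξ : Node K n → VLIdx N M d R D → ℝ) (σ : T) (α : Leaf K n) :
    lin (fun st : T × Leaf K n => treeDir (v st.1) (u st.1) st.2) (vpull c) (joinT z ξ) (σ, α)
      = lin (fun st : T × Leaf K 1 => treeDir (v st.1) (u st.1) st.2) (vpull c)
          (vbranch z (path ξ α)) (σ, fun _ => 0) := by
  rw [vbranch_eq_joinT]
  simp only [lin]
  rw [lin_treeDir _ (fun l i => c (Sum.inr (l, i))) _ _ z ξ α (treeDir_eq _ _ α) (vpull_eq c),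
    lin_treeDir _ (fun l i => c (Sum.inr (l, i))) _ _ z (fun u : Node K 1 => path ξ α u.1)
      (fun _ => 0) (treeDir_eq _ _ _) (vpull_eq c)]
  rfl

/-- Covariance of two row fields. -/
theorem cov_vbpat (π : VPrior N d R D) (Φ : VFac N d K) (c : VCIdx N M d R D K → ℝ) (a : Fin M)
    (k k' : Fin d) (st st' : VState π K n) :
    ∑ i, vpull c i * (vbpat π Φ a k st i * vbpat π Φ a k' st' i)
      = (∑ j, c (Sum.inl (Sum.inl (a, j))) * (π.cfg st.1 j k * π.cfg st'.1 j k')) / N
        + ∑ l ∈ Finset.Iic (com st.2 st'.2), ∑ s, ∑ r,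
            c (Sum.inr (l, Sum.inl (s, a, r))) * (Φ.1 s l k r * Φ.1 s l k' r) := by
  simp only [vbpat]
  rw [sum_treeDir _ (fun l i => c (Sum.inr (l, i))) _ _ _ st.2 st'.2 (treeDir_eq _ _ _)
    (treeDir_eq _ _ _) (vpull_eq c)]
  congr 1
  · simp only [Fintype.sum_sum_type, Fintype.sum_prod_type, rowZ, mul_zero,
      Finset.sum_const_zero, add_zero, mul_ite, ite_mul, zero_mul]
    rw [Finset.sum_comm, Finset.sum_div]
    refine Finset.sum_congr rfl fun j _ => ?_
    simp only [Finset.sum_ite_eq', Finset.mem_univ, if_true]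
    rw [show π.cfg st.1 j k / √(N : ℝ) * (π.cfg st'.1 j k' / √(N : ℝ))
      = π.cfg st.1 j k * π.cfg st'.1 j k' / (√(N : ℝ) * √(N : ℝ)) by ring,
      Real.mul_self_sqrt (Nat.cast_nonneg N)]
    ring
  · refine Finset.sum_congr rfl fun l _ => ?_
    simp only [Fintype.sum_sum_type, Fintype.sum_prod_type, rowL, mul_zero,
      Finset.sum_const_zero, add_zero, mul_ite, ite_mul, zero_mul]
    refine Finset.sum_congr rfl fun s _ => ?_
    rw [Finset.sum_comm]
    exact Finset.sum_congr rfl fun r _ => by simp [Finset.sum_ite_eq']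

/-- Covariance of two linear fields. -/
theorem cov_vbspin (π : VPrior N d R D) (Φ : VFac N d K) (c : VCIdx N M d R D K → ℝ)
    (st st' : VState π K n) :
    ∑ i, vpull c i * (vbspin (M := M) π Φ st i * vbspin (M := M) π Φ st' i)
      = (∑ l ∈ Finset.Iic (com st.2 st'.2), ∑ s, ∑ j : Fin N, ∑ r,
          c (Sum.inr (l, Sum.inr (Sum.inl (s, j, r)))) *
            ((∑ k, π.cfg st.1 j k * Φ.2.1 s j l k r) * ∑ k, π.cfg st'.1 j k * Φ.2.1 s j l k r))
        + ∑ κ, ∑ t : PIdx D,
          ((∏ q, π.ker κ st.1 (t.2.2 q)) * ∏ q, π.ker κ st'.1 (t.2.2 q)) *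
            ∑ l ∈ Finset.Iic (com st.2 st'.2), c (Sum.inr (l, Sum.inr (Sum.inr (κ, t)))) := by
  simp only [vbspin]
  rw [sum_treeDir _ (fun l i => c (Sum.inr (l, i))) _ _ _ st.2 st'.2 (treeDir_eq _ _ _)
    (treeDir_eq _ _ _) (vpull_eq c)]
  simp only [mul_zero, Finset.sum_const_zero, zero_add]
  rw [Finset.sum_congr rfl fun κ (_ : κ ∈ (Finset.univ : Finset (Fin R))) =>
    Finset.sum_congr rfl fun t (_ : t ∈ (Finset.univ : Finset (PIdx D))) => Finset.mul_sum _ _ _]
  rw [Finset.sum_congr rfl fun κ (_ : κ ∈ (Finset.univ : Finset (Fin R))) => Finset.sum_comm,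
    Finset.sum_comm (s := (Finset.univ : Finset (Fin R))), ← Finset.sum_add_distrib]
  refine Finset.sum_congr rfl fun l _ => ?_
  simp only [Fintype.sum_sum_type, Fintype.sum_prod_type, spinL, zero_mul, mul_zero,
    Finset.sum_const_zero, zero_add]
  congr 1
  exact Finset.sum_congr rfl fun κ _ => Finset.sum_congr rfl fun t _ => by ring

/-- The tilt of a state. -/
theorem sum_vqd (π : VPrior N d R D) (Φ : VFac N d K) (c : VCIdx N M d R D K → ℝ)
    (st : VState π K n) :
    ∑ i, vpull c i * vqd (M := M) π Φ st i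
      = ∑ j, c (Sum.inl (Sum.inr j)) *
          ((∑ k, ∑ l, Φ.2.2 j k l * (π.cfg st.1 j k * π.cfg st.1 j l)) / 2) := by
  simp [vqd, treeDir, vpull, tiltQ, Fintype.sum_sum_type, Fintype.sum_prod_type]

/-- The energy of a state only involves the root and the labels on its branch. -/
theorem vham_branch (P : VPot d) (π : VPrior N d R D) (Φ : VFac N d K)
    (c : VCIdx N M d R D K → ℝ) (z : VRIdx N M d R D → ℝ) (ξ : Node K n → VLIdx N M d R D → ℝ)
    (σ : Fin π.c) (α : Leaf K n) :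
    vham P (vbpat π Φ) (vbspin π Φ) (vqd π Φ) (vpull c) (joinT z ξ) (σ, α)
      = vbham P π Φ c σ (vbranch z (path ξ α)) := by
  have h1 : ∀ a, vfld (vbpat π Φ) (vpull c) (joinT z ξ) (σ, α) a
      = vfld (vbpat π Φ) (vpull c) (vbranch z (path ξ α)) ((σ, fun _ => 0) : VState π K 1) a :=
    fun a => funext fun k => lin_branch_eq (fun σ => rowZ π a k σ) (fun _ => rowL Φ a k) c z ξ σ α
  have h2 := lin_branch_eq (fun _ : Fin π.c => fun _ : ZIdx N M => (0 : ℝ)) (fun σ => spinL π Φ σ)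
    c z ξ σ α
  simp only [vbham, vham, h1, pow_two]
  rw [cov_vbspin, cov_vbspin, sum_vqd, sum_vqd, com_self, com_self]
  rw [show lin (vbspin π Φ) (vpull c) (joinT z ξ) (σ, α) = _ from h2]
  rfl

theorem vleafY_pos (P : VPot d) (π : VPrior N d R D) (Φ : VFac N d K)
    (c : VCIdx N M d R D K → ℝ) (z : VRIdx N M d R D → ℝ)
    (y : Fin K → VLIdx N M d R D → ℝ) : 0 < vleafY P π Φ c z y := by
  have : Nonempty (Fin π.c) := ⟨⟨0, π.c_pos⟩⟩
  exact Finset.sum_pos (fun σ _ => mul_pos (π.w_pos σ) (Real.exp_pos _)) Finset.univ_nonempty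

/-- Weight of a state in root and branch coordinates. -/
theorem vmbw_join (P : VPot d) (π : VPrior N d R D) (Φ : VFac N d K)
    (c : VCIdx N M d R D K → ℝ) (W : Node K n → ℝ) (z : VRIdx N M d R D → ℝ)
    (ξ : Node K n → VLIdx N M d R D → ℝ) (σ : Fin π.c) (α : Leaf K n) :
    vmbw P π Φ c (W, joinT z ξ) (σ, α) = wgt (mlev K) W α * (π.w σ *
      Real.exp (vbham P π Φ c σ (vbranch z (path ξ α)))) := by
  simp only [vmbw, vbw, vstw, vham_branch]
  ring

theorem sum_vmbw_join (P : VPot d) (π : VPrior N d R D) (Φ : VFac N d K)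
    (c : VCIdx N M d R D K → ℝ) (W : Node K n → ℝ) (z : VRIdx N M d R D → ℝ)
    (ξ : Node K n → VLIdx N M d R D → ℝ) :
    ∑ st, vmbw P π Φ c (W, joinT z ξ) st
      = ∑ α, wgt (mlev K) W α * vleafY P π Φ c z (path ξ α) := by
  rw [Fintype.sum_prod_type, Finset.sum_comm]
  refine Finset.sum_congr rfl fun α _ => ?_
  simp only [vmbw_join, vleafY, ← Finset.mul_sum]

theorem log_sum_vmbw_join (P : VPot d) (π : VPrior N d R D) (Φ : VFac N d K)
    (c : VCIdx N M d R D K → ℝ) (W : Node K n → ℝ) (z : VRIdx N M d R D → ℝ)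
    (ξ : Node K n → VLIdx N M d R D → ℝ) :
    Real.log (∑ st, vmbw P π Φ c (W, joinT z ξ) st)
      = logS (mlev K) (vleafY P π Φ c z) W ξ :=
  congrArg Real.log (sum_vmbw_join P π Φ c W z ξ)

/-- Pair averages of a product of functions of each state reduce to leaf averages. -/
theorem avg2_vmbw_join (P : VPot d) (π : VPrior N d R D) (Φ : VFac N d K)
    (c : VCIdx N M d R D K → ℝ) (W : Node K n → ℝ) (z : VRIdx N M d R D → ℝ)
    (ξ : Node K n → VLIdx N M d R D → ℝ) {p : ℕ}
    (φ ψ : Fin p → Fin π.c → (VGIdx N M d R D K 1 → ℝ) → ℝ) (l : Fin (K + 1)) :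
    avg2 (vmbw P π Φ c (W, joinT z ξ)) (fun st st' => onLev l (vlev π st st')
        (∑ i, φ i st.1 (vbranch z (path ξ st.2)) * ψ i st'.1 (vbranch z (path ξ st'.2))))
      = avg2 (fun α => wgt (mlev K) W α * vleafY P π Φ c z (path ξ α))
          (fun α β => if com α β = l then
            ∑ i, vleafAvg P π Φ c (φ i) z (path ξ α) * vleafAvg P π Φ c (ψ i) z (path ξ β)
          else 0) := by
  simp only [avg2, gibbs, sum_vmbw_join, vlev, onLev]
  set S := ∑ y, wgt (mlev K) W y * vleafY P π Φ c z (path ξ y)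
  simp only [Fintype.sum_prod_type, vmbw_join]
  rw [Finset.sum_comm]
  refine Finset.sum_congr rfl fun α _ => ?_
  rw [Finset.sum_congr rfl fun σ (_ : σ ∈ (Finset.univ : Finset (Fin π.c))) => Finset.sum_comm]
  rw [Finset.sum_comm]
  refine Finset.sum_congr rfl fun β _ => ?_
  split_ifs
  · simp only [vleafAvg, Finset.mul_sum, Finset.sum_div, Finset.sum_mul]
    conv_rhs => rw [Finset.sum_congr rfl fun i (_ : i ∈ (Finset.univ : Finset (Fin p))) =>
      Finset.sum_comm, Finset.sum_comm]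
    refine Finset.sum_congr rfl fun σ _ => ?_
    rw [Finset.sum_comm]
    refine Finset.sum_congr rfl fun i _ => ?_
    refine Finset.sum_congr rfl fun τ _ => ?_
    have := (vleafY_pos P π Φ c z (path ξ α)).ne'
    have := (vleafY_pos P π Φ c z (path ξ β)).ne'
    field_simp
  · simp

/-- The directions of different rows and of the linear field are disjoint. -/
theorem vdisj (π : VPrior N d R D) (Φ : VFac N d K) :
    VDisj (vbpat (M := M) (n := n) π Φ) (vbspin π Φ) := by
  refine ⟨fun a a' h k l x y i => ?_, fun a k x y i => ?_⟩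
  · rcases i with (⟨a'', j⟩ | j) | ⟨o, ⟨s, a'', r⟩ | u⟩ <;>
      simp only [vbpat, treeDir, rowZ, rowL, mul_zero] <;> split_ifs <;> simp_all
  · rcases i with (⟨a'', j⟩ | j) | ⟨o, ⟨s, a'', r⟩ | u⟩ <;>
      simp [vbpat, vbspin, treeDir, rowZ, rowL, spinL]

end Vale.Agent.P166.Casc
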