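import Vale.Agent.P157.Casc.LimitDefs
import Vale.Agent.P166.Casc.VGlue

/-!
The random environment of the vector model in root and branch coordinates, and bounds on the
factors of the leaves.
-/

open MeasureTheory ProbabilityTheory Filter Topology

namespace Vale.Agent.P166.Casc

open Vale.Agent.P157.Casc

variable {N M d R D K n : ℕ}

/-- The random environment from root, weights and labels. -/
theorem mp_venv : MeasurePreserving
    (fun q : (VRIdx N M d R D → ℝ) × (Node K n → ℝ) × (Node K n → VLIdx N M d R D → ℝ) =>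
      (q.2.1, joinT q.1 q.2.2))
    ((gaus (VRIdx N M d R D)).prod
      ((casW (mlev K) n).prod (casX K n (gaus (VLIdx N M d R D)))))
    (venv N M d R D K n) := by
  set μz := gaus (VRIdx N M d R D)
  set μW := casW (mlev K) n
  set μξ := casX K n (gaus (VLIdx N M d R D))
  have h1 : MeasurePreserving
      (fun q : (VRIdx N M d R D → ℝ) × (Node K n → ℝ) × (Node K n → VLIdx N M d R D → ℝ) =>
        (q.2.1, (q.1, q.2.2)))
      (μz.prod (μW.prod μξ)) (μW.prod (μz.prod μξ)) :=
    ((measurePreserving_prodAssoc μW μz μξ).comp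
      ((Measure.measurePreserving_swap (μ := μz) (ν := μW)).prod (MeasurePreserving.id μξ))).comp
      (MeasurePreserving.symm MeasurableEquiv.prodAssoc (measurePreserving_prodAssoc μz μW μξ))
  exact ((MeasurePreserving.id μW).prod mp_joinT).comp h1

theorem integral_venv {f : (Node K n → ℝ) × (VGIdx N M d R D K n → ℝ) → ℝ}
    (hm : AEStronglyMeasurable f (venv N M d R D K n))
    (hf : Integrable
      (fun q : (VRIdx N M d R D → ℝ) × (Node K n → ℝ) × (Node K n → VLIdx N M d R D → ℝ) =>
        f (q.2.1, joinT q.1 q.2.2))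
      ((gaus (VRIdx N M d R D)).prod
        ((casW (mlev K) n).prod (casX K n (gaus (VLIdx N M d R D)))))) :
    ∫ p, f p ∂venv N M d R D K n = ∫ z, ∫ W, ∫ ξ, f (W, joinT z ξ)
      ∂casX K n (gaus (VLIdx N M d R D)) ∂casW (mlev K) n ∂gaus (VRIdx N M d R D) := by
  have h := mp_venv (N := N) (M := M) (d := d) (R := R) (D := D) (K := K) (n := n)
  rw [← h.map_eq] at hm ⊢
  rw [integral_map h.measurable.aemeasurable hm, integral_prod _ hf]
  refine integral_congr_ae ?_
  filter_upwards [hf.prod_right_ae] with z hz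
  exact integral_prod _ hz

theorem continuous_vbranch :
    Continuous fun p : (VRIdx N M d R D → ℝ) × (Fin K → VLIdx N M d R D → ℝ) =>
      vbranch p.1 p.2 := by
  refine continuous_pi fun i => ?_
  rcases i with q | ⟨_ | u, i⟩ <;> simp only [vbranch] <;> fun_prop

theorem continuous_vpull :
    Continuous fun c : VCIdx N M d R D K → ℝ => (vpull c : VGIdx N M d R D K n → ℝ) := by
  refine continuous_pi fun i => ?_
  rcases i with q | ⟨o, i⟩ <;> simp only [vpull] <;> fun_prop

theorem continuous_vham_comp {T I X : Type*} [Fintype I] [TopologicalSpace X] (P : VPot d)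
    (b : Fin M → Fin d → T → I → ℝ) (bz qd : T → I → ℝ) {u v : X → I → ℝ} (hu : Continuous u)
    (hv : Continuous v) (x : T) : Continuous fun a => vham P b bz qd (u a) (v a) x := by
  have hl : ∀ w : T → I → ℝ, Continuous fun a => lin w (u a) (v a) x := fun w => by
    unfold lin
    exact continuous_finsetSum _ fun i _ =>
      (((continuous_apply i).comp' hu).sqrt.mul continuous_const).mul ((continuous_apply i).comp' hv)
  have hf : ∀ a', Continuous fun a => P.f (vfld b (u a) (v a) x a') := fun a' =>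
    P.cf.comp' (continuous_pi fun k => hl (b a' k))
  have hs : ∀ i, Continuous fun a => u a i := fun i => (continuous_apply i).comp' hu
  unfold vham
  exact (((continuous_finsetSum _ fun a' _ => hf a').add (hl bz)).sub
    ((continuous_finsetSum _ fun i _ => (hs i).mul continuous_const).const_mul (1 / 2 : ℝ))).add
    (continuous_finsetSum _ fun i _ => (hs i).mul continuous_const)

theorem continuous_vbham (P : VPot d) (π : VPrior N d R D) (Φ : VFac N d K) (σ : Fin π.c) :
    Continuous fun p : (VCIdx N M d R D K → ℝ) × (VRIdx N M d R D → ℝ) ×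
        (Fin K → VLIdx N M d R D → ℝ) =>
      vbham P π Φ p.1 σ (vbranch p.2.1 p.2.2) := by
  unfold vbham
  exact continuous_vham_comp P (vbpat (n := 1) π Φ) (vbspin (n := 1) π Φ) (vqd (n := 1) π Φ)
    (continuous_vpull.comp' continuous_fst) (continuous_vbranch.comp' continuous_snd) _

theorem continuous_vleafY (P : VPot d) (π : VPrior N d R D) (Φ : VFac N d K) :
    Continuous fun p : (VCIdx N M d R D K → ℝ) × (VRIdx N M d R D → ℝ) ×
        (Fin K → VLIdx N M d R D → ℝ) =>
      vleafY P π Φ p.1 p.2.1 p.2.2 := by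
  unfold vleafY
  exact continuous_finsetSum _ fun σ _ =>
    (Real.continuous_exp.comp (continuous_vbham P π Φ σ)).const_mul _

theorem continuous_vmbw2 (P : VPot d) (π : VPrior N d R D) (Φ : VFac N d K)
    (st : VState π K n) :
    Continuous fun y : (VCIdx N M d R D K → ℝ) × (Node K n → ℝ) × (VGIdx N M d R D K n → ℝ) =>
      vmbw P π Φ y.1 y.2 st := by
  have h : Continuous fun y : (VCIdx N M d R D K → ℝ) × (Node K n → ℝ) ×
      (VGIdx N M d R D K n → ℝ) =>
      vham P (vbpat π Φ) (vbspin π Φ) (vqd π Φ) (vpull y.1) y.2.2 st :=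
    continuous_vham_comp P (vbpat π Φ) (vbspin π Φ) (vqd π Φ)
      (continuous_vpull.comp' continuous_fst) (continuous_snd.comp' continuous_snd) st
  unfold vmbw vbw vstw wgt
  fun_prop

theorem continuous_vmbw (P : VPot d) (π : VPrior N d R D) (Φ : VFac N d K)
    (c : VCIdx N M d R D K → ℝ) (st : VState π K n) :
    Continuous fun p : (Node K n → ℝ) × (VGIdx N M d R D K n → ℝ) => vmbw P π Φ c p st :=
  (continuous_vmbw2 P π Φ st).comp (f := fun p => (c, p)) (continuous_const.prodMk continuous_id)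

/-- Size of the Gaussian coordinates of one branch. -/
noncomputable def vabsSum (z : VRIdx N M d R D → ℝ) (y : Fin K → VLIdx N M d R D → ℝ) : ℝ :=
  1 + ((∑ i, |z i|) + ∑ l, ∑ i, |y l i|)

theorem one_le_vabsSum (z : VRIdx N M d R D → ℝ) (y : Fin K → VLIdx N M d R D → ℝ) :
    1 ≤ vabsSum z y :=
  le_add_of_nonneg_right (add_nonneg (Finset.sum_nonneg fun i _ => abs_nonneg _)
    (Finset.sum_nonneg fun l _ => Finset.sum_nonneg fun i _ => abs_nonneg _))

theorem sum_abs_vbranch (z : VRIdx N M d R D → ℝ) (y : Fin K → VLIdx N M d R D → ℝ) :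
    ∑ i : VGIdx N M d R D K 1, |vbranch z y i| = vabsSum z y - 1 := by
  rw [Fintype.sum_sum_type, Fintype.sum_prod_type, Fintype.sum_option, Fintype.sum_sigma]
  simp only [vabsSum, add_sub_cancel_left, Fintype.sum_sum_type (α₁ := ZIdx N M), vbranch,
    Fintype.sum_unique]
  ring

theorem integrable_exp_vabsSum (t : ℝ) :
    Integrable (fun p : (VRIdx N M d R D → ℝ) × (Fin K → VLIdx N M d R D → ℝ) =>
      Real.exp (t * vabsSum p.1 p.2))
      ((gaus (VRIdx N M d R D)).prod (Measure.pi fun _ => gaus (VLIdx N M d R D))) := by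
  have h0 : ∀ (I : Type) [Fintype I],
      Integrable (fun z : I → ℝ => ∏ i, Real.exp (t * |z i|)) (gaus I) := fun I _ =>
    Integrable.fintype_prod fun _ => integrable_exp_abs t
  have h1 := ((h0 (VRIdx N M d R D)).mul_prod (Integrable.fintype_prod
    (μ := fun _ : Fin K => gaus (VLIdx N M d R D))
      fun _ => h0 (VLIdx N M d R D))).const_mul (Real.exp t)
  refine h1.congr (ae_of_all _ fun p => ?_)
  simp only [vabsSum, ← Real.exp_sum, ← Real.exp_add]
  congr 1
  simp only [mul_add, Finset.mul_sum]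
  ring

theorem vstate_nonempty (π : VPrior N d R D) (hn : 0 < n) : Nonempty (VState π K n) :=
  ⟨(⟨0, π.c_pos⟩, fun _ => ⟨0, hn⟩)⟩

/-- A bound on the energy of a branch for bounded variances. -/
theorem abs_vbham_le (P : VPot d) (π : VPrior N d R D) (Φ : VFac N d K) (B : ℝ) : ∃ A : ℝ, 0 ≤ A ∧
    ∀ c : VCIdx N M d R D K → ℝ, (∀ i, |c i| ≤ B) → ∀ z y σ,
      |vbham P π Φ c σ (vbranch z y)| ≤ A * vabsSum z y := by
  set S : ℝ := ∑ σ : Fin π.c, ∑ i : VGIdx N M d R D K 1,
    (|vbspin π Φ (σ, fun _ => 0) i| + vbspin π Φ (σ, fun _ => 0) i ^ 2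
      + |vqd π Φ (σ, fun _ => 0) i|)
  have hS : 0 ≤ S := Finset.sum_nonneg fun σ _ => Finset.sum_nonneg fun i _ => by positivity
  refine ⟨(M : ℝ) * |P.bF| + √|B| * S + 2 * |B| * S, by positivity, fun c hc z y σ => ?_⟩
  set st : VState π K 1 := (σ, fun _ => 0)
  have hR : ∀ i : VGIdx N M d R D K 1, |vpull c i| ≤ |B| := fun i => by
    rcases i with q | ⟨o, i⟩ <;> exact (hc _).trans (le_abs_self B)
  have hi : ∀ i, |vbspin π Φ st i| + vbspin π Φ st i ^ 2 + |vqd π Φ st i| ≤ S := fun i =>
    (Finset.single_le_sum (f := fun i : VGIdx N M d R D K 1 =>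
      |vbspin π Φ st i| + vbspin π Φ st i ^ 2 + |vqd π Φ st i|) (fun i _ => by positivity)
      (Finset.mem_univ i)).trans (Finset.single_le_sum
        (f := fun σ : Fin π.c => ∑ i : VGIdx N M d R D K 1,
          (|vbspin π Φ (σ, fun _ => 0) i| + vbspin π Φ (σ, fun _ => 0) i ^ 2
            + |vqd π Φ (σ, fun _ => 0) i|))
        (fun σ _ => Finset.sum_nonneg fun i _ => by positivity) (Finset.mem_univ σ))
  have hs : ∑ i, (|vbspin π Φ st i| + vbspin π Φ st i ^ 2 + |vqd π Φ st i|) ≤ S :=
    Finset.single_le_sum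
      (f := fun σ : Fin π.c => ∑ i : VGIdx N M d R D K 1,
        (|vbspin π Φ (σ, fun _ => 0) i| + vbspin π Φ (σ, fun _ => 0) i ^ 2
          + |vqd π Φ (σ, fun _ => 0) i|))
      (fun σ _ => Finset.sum_nonneg fun i _ => by positivity) (Finset.mem_univ σ)
  have h1 : |∑ a, P.f (vfld (vbpat π Φ) (vpull c) (vbranch z y) st a)| ≤ M * |P.bF| := by
    refine (Finset.abs_sum_le_sum_abs _ _).trans ?_
    refine (Finset.sum_le_sum fun a _ => (P.hF _).trans (le_abs_self _)).trans (le_of_eq ?_)
    simp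
  have h2 : |lin (vbspin π Φ) (vpull c) (vbranch z y) st| ≤ √|B| * S * (vabsSum z y - 1) := by
    rw [← sum_abs_vbranch, Finset.mul_sum]
    refine (Finset.abs_sum_le_sum_abs _ _).trans (Finset.sum_le_sum fun i _ => ?_)
    rw [abs_mul, abs_mul, abs_of_nonneg (Real.sqrt_nonneg _)]
    refine mul_le_mul_of_nonneg_right (mul_le_mul (Real.sqrt_le_sqrt ?_) ?_ (abs_nonneg _)
      (Real.sqrt_nonneg _)) (abs_nonneg _)
    · exact (le_abs_self _).trans (hR i)
    · linarith [hi i, sq_nonneg (vbspin π Φ st i), abs_nonneg (vqd π Φ st i)]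
  have h3 : |∑ i, vpull c i * vbspin π Φ st i ^ 2| ≤ |B| * S := by
    refine (Finset.abs_sum_le_sum_abs _ _).trans (le_trans (Finset.sum_le_sum fun i _ => ?_)
      (mul_le_mul_of_nonneg_left hs (abs_nonneg B) |>.trans' (le_of_eq (Finset.mul_sum _ _ _).symm)))
    rw [abs_mul, abs_of_nonneg (sq_nonneg (vbspin π Φ st i))]
    exact mul_le_mul (hR i) (by linarith [abs_nonneg (vbspin π Φ st i), abs_nonneg (vqd π Φ st i)])
      (sq_nonneg _) (abs_nonneg B)
  have h4 : |∑ i, vpull c i * vqd π Φ st i| ≤ |B| * S := by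
    refine (Finset.abs_sum_le_sum_abs _ _).trans (le_trans (Finset.sum_le_sum fun i _ => ?_)
      (mul_le_mul_of_nonneg_left hs (abs_nonneg B) |>.trans' (le_of_eq (Finset.mul_sum _ _ _).symm)))
    rw [abs_mul]
    exact mul_le_mul (hR i)
      (by linarith [abs_nonneg (vbspin π Φ st i), sq_nonneg (vbspin π Φ st i)])
      (abs_nonneg _) (abs_nonneg B)
  have hA := one_le_vabsSum z y
  have hM : (0 : ℝ) ≤ M * |P.bF| := by positivity
  have hRB : 0 ≤ |B| * S := by positivity
  have hsB : 0 ≤ √|B| * S := by positivity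
  rw [vbham, vham]
  rw [abs_le] at h1 h2 h3 h4 ⊢
  constructor <;> nlinarith

/-- Common envelope of the factors of the leaves for bounded variances. -/
theorem vleafY_bound (P : VPot d) (π : VPrior N d R D) (Φ : VFac N d K) (B : ℝ) : ∃ A : ℝ, 0 ≤ A ∧
    ∀ c : VCIdx N M d R D K → ℝ, (∀ i, |c i| ≤ B) → ∀ z y,
      Real.exp (-(A * vabsSum z y)) ≤ vleafY P π Φ c z y ∧
        vleafY P π Φ c z y ≤ Real.exp (A * vabsSum z y) := by
  obtain ⟨A, hA, h⟩ := abs_vbham_le (M := M) P π Φ B
  have : Nonempty (Fin π.c) := ⟨⟨0, π.c_pos⟩⟩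
  set S := ∑ σ, π.w σ
  have hS : 0 < S := Finset.sum_pos (fun σ _ => π.w_pos σ) Finset.univ_nonempty
  refine ⟨A + |Real.log S|, add_nonneg hA (abs_nonneg _), fun c hc z y => ?_⟩
  have h1 := one_le_vabsSum z y
  have hSe : Real.exp (Real.log S) = S := Real.exp_log hS
  have hlog := neg_abs_le (Real.log S)
  have hlog' := le_abs_self (Real.log S)
  have hl0 := abs_nonneg (Real.log S)
  constructor
  · calc Real.exp (-((A + |Real.log S|) * vabsSum z y))
        ≤ S * Real.exp (-(A * vabsSum z y)) := by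
          rw [← hSe, ← Real.exp_add, hSe]
          exact Real.exp_le_exp.2 (by nlinarith)
      _ ≤ _ := by
          rw [Finset.sum_mul]
          exact Finset.sum_le_sum fun σ _ => mul_le_mul_of_nonneg_left
            (Real.exp_le_exp.2 (abs_le.1 (h c hc z y σ)).1) (π.w_pos σ).le
  · calc vleafY P π Φ c z y ≤ S * Real.exp (A * vabsSum z y) := by
          rw [Finset.sum_mul]
          exact Finset.sum_le_sum fun σ _ => mul_le_mul_of_nonneg_left
            (Real.exp_le_exp.2 (abs_le.1 (h c hc z y σ)).2) (π.w_pos σ).le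
      _ ≤ _ := by
          rw [← hSe, ← Real.exp_add, hSe]
          exact Real.exp_le_exp.2 (by nlinarith)

/-- The factors of the leaves along a convergent sequence of variances. -/
theorem vleafY_conv (P : VPot d) (π : VPrior N d R D) (Φ : VFac N d K)
    {c : ℕ → VCIdx N M d R D K → ℝ} {cl : VCIdx N M d R D K → ℝ} {B : ℝ}
    (hB : ∀ k i, |c k i| ≤ B) (hc : Tendsto c atTop (𝓝 cl)) :
    ∃ A : ℝ, Conv (gaus (VRIdx N M d R D)) (gaus (VLIdx N M d R D))
      (fun k => vleafY P π Φ (c k)) (vleafY P π Φ cl) fun z y => A * vabsSum z y := by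
  obtain ⟨A, -, hA⟩ := vleafY_bound (M := M) P π Φ B
  have hl : ∀ i, |cl i| ≤ B := fun i =>
    le_of_tendsto' ((tendsto_pi_nhds.1 hc i).abs) fun k => hB k i
  have hy := continuous_vleafY (M := M) P π Φ
  have hcont : ∀ c0 : VCIdx N M d R D K → ℝ, Measurable
      fun p : (VRIdx N M d R D → ℝ) × (Fin K → VLIdx N M d R D → ℝ) =>
        vleafY P π Φ c0 p.1 p.2 := fun c0 =>
    (hy.comp (f := fun p => (c0, p)) (continuous_const.prodMk continuous_id)).measurable
  have hm : Measurable fun p : (VRIdx N M d R D → ℝ) × (Fin K → VLIdx N M d R D → ℝ) =>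
      A * vabsSum p.1 p.2 := by
    unfold vabsSum; fun_prop
  refine ⟨A, fun k => hcont _, hcont _, hm, fun k z y => hA (c k) (hB k) z y, fun z y => ?_,
    fun t => ?_⟩
  · exact (Continuous.tendsto (hy.comp (f := fun c0 => (c0, z, y))
      (continuous_id.prodMk continuous_const)) cl).comp hc
  · simpa only [mul_assoc] using integrable_exp_vabsSum (N := N) (M := M) (d := d) (R := R)
      (D := D) (K := K) (t * A)

theorem ae_vmbw_pos (P : VPot d) (π : VPrior N d R D) (Φ : VFac N d K)
    (c : VCIdx N M d R D K → ℝ) :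
    ∀ᵐ p ∂venv N M d R D K n, ∀ st, 0 < vmbw P π Φ c p st := by
  filter_upwards [Measure.quasiMeasurePreserving_fst.ae (ae_casW_pos (mlev K) n)] with p hp st
  exact mul_pos (mul_pos (π.w_pos _) (wgt_pos _ hp _)) (Real.exp_pos _)

theorem measurable_vavg2 (P : VPot d) (π : VPrior N d R D) (Φ : VFac N d K)
    (c : VCIdx N M d R D K → ℝ)
    {O : (VGIdx N M d R D K n → ℝ) → VState π K n → VState π K n → ℝ}
    (hO : ∀ x y, Continuous fun G => O G x y) :
    Measurable fun p => avg2 (vmbw P π Φ c p) (O p.2) := by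
  have h1 : ∀ st, Measurable fun p : (Node K n → ℝ) × (VGIdx N M d R D K n → ℝ) =>
      vmbw P π Φ c p st :=
    fun st => (continuous_vmbw P π Φ c st).measurable
  unfold avg2 gibbs
  refine Finset.measurable_sum _ fun x _ => Finset.measurable_sum _ fun y _ => ?_
  exact (((h1 x).div (Finset.measurable_sum _ fun z _ => h1 z)).mul
    ((h1 y).div (Finset.measurable_sum _ fun z _ => h1 z))).mul
    ((hO x y).measurable.comp measurable_snd)

/-- Level averages of products of one-state functions as cascade pair averages. -/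
theorem vmpair_level (P : VPot d) (π : VPrior N d R D) (Φ : VFac N d K)
    (c : VCIdx N M d R D K → ℝ) {p : ℕ}
    (φ : Fin p → Fin π.c → (VGIdx N M d R D K 1 → ℝ) → ℝ) {B : ℝ}
    (l : Fin (K + 1))
    (O : (VGIdx N M d R D K n → ℝ) → VState π K n → VState π K n → ℝ)
    (hO : ∀ z ξ st st', O (joinT z ξ) st st' = onLev l (vlev π st st')
      (∑ i, φ i st.1 (vbranch z (path ξ st.2)) * φ i st'.1 (vbranch z (path ξ st'.2))))
    (hOc : ∀ x y, Continuous fun G => O G x y) (hOb : ∀ G x y, |O G x y| ≤ p * B ^ 2) :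
    vmpair n P π Φ c O = ∫ z, ∫ W, ∫ ξ,
        avg2 (fun α => wgt (mlev K) W α * vleafY P π Φ c z (path ξ α))
        (fun α β => if com α β = l then
          ∑ i, vleafAvg P π Φ c (φ i) z (path ξ α) * vleafAvg P π Φ c (φ i) z (path ξ β) else 0)
      ∂casX K n (gaus (VLIdx N M d R D)) ∂casW (mlev K) n ∂gaus (VRIdx N M d R D) := by
  have hm := measurable_vavg2 P π Φ c hOc
  have hb : ∀ᵐ q ∂venv N M d R D K n, ‖avg2 (vmbw P π Φ c q) (O q.2)‖ ≤ p * B ^ 2 := by
    filter_upwards [ae_vmbw_pos P π Φ c] with q hq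
    exact abs_avg2_le _ (fun x => (hq x).le) (by positivity) (hOb q.2)
  rw [vmpair, integral_venv hm.aestronglyMeasurable]
  · refine integral_congr_ae (ae_of_all _ fun z => integral_congr_ae (ae_of_all _ fun W => ?_))
    refine integral_congr_ae (ae_of_all _ fun ξ => ?_)
    simp only
    rw [show O (joinT z ξ) = _ from funext fun st => funext fun st' => hO z ξ st st']
    exact avg2_vmbw_join P π Φ c W z ξ φ φ l
  · refine Integrable.mono' (integrable_const ((p : ℝ) * B ^ 2))
      (hm.comp mp_venv.measurable).aestronglyMeasurable ?_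
    exact mp_venv.quasiMeasurePreserving.ae hb

end Vale.Agent.P166.Casc
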