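import Vale.Agent.P157.Casc.Segment
import Vale.Agent.P166.Casc.VEnv

/-!
The free energy of the vector model along segments of variances: reduction to a fixed environment,
the mean value identity, and the covariance and size of the perturbations.
-/

open MeasureTheory ProbabilityTheory Filter Topology Set

namespace Vale.Agent.P166.Casc

open Vale.Agent.P157.Casc

variable {N M d R D K n : ℕ}

/-- Weights of the states in a repaired environment. -/
noncomputable def vpwt (π : VPrior N d R D) (W : Node K n → ℝ) : VState π K n → ℝ :=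
  vstw π (posV W)

theorem vpwt_pos (π : VPrior N d R D) (W : Node K n → ℝ) (st : VState π K n) : 0 < vpwt π W st :=
  mul_pos (π.w_pos _) (wgt_pos _ (posV_pos W) _)

theorem measurable_vpwt (π : VPrior N d R D) (st : VState π K n) :
    Measurable fun W : Node K n → ℝ => vpwt π W st := by
  unfold vpwt vstw wgt
  exact (Finset.measurable_prod _ fun l _ =>
    ((measurable_pi_apply (node st.2 l)).comp measurable_posV).mul_const _).const_mul _

/-- The prior on no spins with one configuration. -/
noncomputable def unitPrior : Prior 0 where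
  c := 1
  w := fun _ => 1
  spin := fun _ j => j.elim0
  w_pos := fun _ => one_pos
  w_sum := by simp
  norm_spin := fun _ => by simp

theorem integrable_log_vpwt (π : VPrior N d R D) (hn : 0 < n) :
    Integrable (fun W : Node K n → ℝ => Real.log (∑ st, vpwt π W st)) (casW (mlev K) n) := by
  have : Nonempty (Fin π.c) := ⟨⟨0, π.c_pos⟩⟩
  have hS : 0 < ∑ σ, π.w σ := Finset.sum_pos (fun σ _ => π.w_pos σ) Finset.univ_nonempty
  refine ((integrable_const (Real.log (∑ σ, π.w σ))).add
    (integrable_log_pwt (K := K) unitPrior hn)).congr (ae_of_all _ fun W => ?_)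
  have : Nonempty (Leaf K n) := ⟨fun _ => ⟨0, hn⟩⟩
  have hW : 0 < ∑ α : Leaf K n, wgt (mlev K) (posV W) α :=
    Finset.sum_pos (fun α _ => wgt_pos _ (posV_pos W) α) Finset.univ_nonempty
  have e1 : ∑ st, pwt unitPrior W st = ∑ α : Leaf K n, wgt (mlev K) (posV W) α := by
    simp [pwt, stw, unitPrior]
    exact (Fintype.sum_prod_type _).trans (Fin.sum_univ_one _)
  have e2 : ∑ st, vpwt π W st = (∑ σ, π.w σ) * ∑ α : Leaf K n, wgt (mlev K) (posV W) α := by
    simp only [vpwt, vstw, Fintype.sum_prod_type, ← Finset.mul_sum, ← Finset.sum_mul]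
  simp only [Pi.add_apply, e1, e2, Real.log_mul hS.ne' hW.ne']

theorem abs_vpull_le {c : VCIdx N M d R D K → ℝ} {B : ℝ} (h : ∀ i, |c i| ≤ B)
    (i : VGIdx N M d R D K n) : |vpull c i| ≤ B := by
  rcases i with q | ⟨o, i⟩ <;> exact h _

theorem vpull_add (c e : VCIdx N M d R D K → ℝ) (t : ℝ) (i : VGIdx N M d R D K n) :
    vpull (fun j => c j + t * e j) i = vpull c i + t * vpull e i := by
  rcases i with q | ⟨o, i⟩ <;> rfl

section Meas

variable {Y T I : Type*} [MeasurableSpace Y] [Fintype I]

theorem measurable_vbw (P : VPot d) (b : Fin M → Fin d → T → I → ℝ) (bz qd : T → I → ℝ)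
    {w : Y → T → ℝ} {l G : Y → I → ℝ} (hw : ∀ x, Measurable fun y => w y x)
    (hl : ∀ i, Measurable fun y => l y i) (hG : ∀ i, Measurable fun y => G y i) (x : T) :
    Measurable fun y => vbw P (w y) b bz qd (l y) (G y) x := by
  have hfld : ∀ a, Measurable fun y => vfld b (l y) (G y) x a := fun a =>
    measurable_pi_lambda _ fun k => by unfold vfld lin; fun_prop
  have := fun a => P.cf.measurable.comp (hfld a)
  unfold vbw vham lin
  fun_prop

theorem measurable_vkern (P : VPot d) (b : Fin M → Fin d → T → I → ℝ) (bz qd : T → I → ℝ)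
    (δ : I → ℝ) {l G : Y → I → ℝ} (hl : ∀ i, Measurable fun y => l y i)
    (hG : ∀ i, Measurable fun y => G y i) (x x' : T) :
    Measurable fun y => vkern P b bz qd (l y) δ (G y) x x' := by
  have hfld : ∀ z a, Measurable fun y => vfld b (l y) (G y) z a := fun z a =>
    measurable_pi_lambda _ fun k => by unfold vfld lin; fun_prop
  have := fun z a k => (P.cg k).measurable.comp (hfld z a)
  have := fun z a k k' => (P.ch k k').measurable.comp (hfld z a)
  unfold vkern vgrad vdiag
  fun_prop

end Meas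

theorem measurable_vmbw_env (P : VPot d) (π : VPrior N d R D) (Φ : VFac N d K) {Y : Type*}
    [MeasurableSpace Y] {W : Y → Node K n → ℝ} (hW : Measurable W)
    {c : Y → VCIdx N M d R D K → ℝ} (hc : ∀ i, Measurable fun y => c y i)
    {G : Y → VGIdx N M d R D K n → ℝ} (hG : ∀ i, Measurable fun y => G y i) (st : VState π K n) :
    Measurable fun y => vbw P (vpwt π (W y)) (vbpat π Φ) (vbspin π Φ) (vqd π Φ)
      (vpull (c y)) (G y) st :=
  measurable_vbw P _ _ _ (fun x => (measurable_vpwt π x).comp hW)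
    (fun i => by rcases i with q | ⟨o, i⟩ <;> exact hc _) hG st

/-- The free energy of the model as an average of fixed-environment free energies. -/
theorem vmfree_eq (P : VPot d) (π : VPrior N d R D) (Φ : VFac N d K) (hn : 0 < n)
    (c : VCIdx N M d R D K → ℝ) :
    Integrable (fun W => vfree P (vpwt π W) (vbpat π Φ) (vbspin π Φ) (vqd π Φ) (vpull c))
      (casW (mlev K) n) ∧
    vmfree n P π Φ c
      = (∫ W, vfree P (vpwt π W) (vbpat π Φ) (vbspin π Φ) (vqd π Φ) (vpull c) ∂casW (mlev K) n)
        - cst (mlev K) n := by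
  have := vstate_nonempty (K := K) π hn
  set F : (Node K n → ℝ) × (VGIdx N M d R D K n → ℝ) → ℝ := fun p =>
    Real.log (∑ st, vbw P (vpwt π p.1) (vbpat π Φ) (vbspin π Φ) (vqd π Φ) (vpull c) p.2 st) with hF
  have hFm : Measurable F :=
    (Finset.measurable_sum _ fun st _ => measurable_vmbw_env P π Φ measurable_fst
      (c := fun _ => c) (fun _ => measurable_const)
      (fun i => (measurable_pi_apply i).comp measurable_snd) st).log
  set B := ∑ i, |vpull (n := n) c i|
  have hB : ∀ i, |vpull (n := n) c i| ≤ B := fun i =>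
    Finset.single_le_sum (f := fun i => |vpull (n := n) c i|) (fun _ _ => abs_nonneg _)
      (Finset.mem_univ i)
  have hFi : Integrable F (venv N M d R D K n) := by
    have hg : Integrable (fun p : (Node K n → ℝ) × (VGIdx N M d R D K n → ℝ) =>
        |Real.log (∑ st, vpwt π p.1 st)| + VItp.vlenv P M (vbspin π Φ) (vqd π Φ) B p.2)
        ((casW (mlev K) n).prod (gaus (VGIdx N M d R D K n))) :=
      ((integrable_log_vpwt (K := K) (n := n) π hn).abs.comp_fst _).add
        ((VItp.integrable_vlenv (M := M) P (vbspin (n := n) π Φ) (vqd π Φ) B).comp_snd _)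
    refine hg.mono' hFm.aestronglyMeasurable (ae_of_all _ fun p => ?_)
    rw [Real.norm_eq_abs]
    exact VItp.abs_vlog_env P (vbpat π Φ) (vbspin π Φ) (vqd π Φ) (vpwt_pos π p.1) hB p.2
  have he : ∀ᵐ p ∂venv N M d R D K n, Real.log (∑ st, vmbw P π Φ c p st) = F p := by
    filter_upwards [Measure.quasiMeasurePreserving_fst.ae (ae_posV (mlev K))] with p hp
    simp only [hF, vmbw, vpwt, hp]
  refine ⟨hFi.integral_prod_left, ?_⟩
  rw [vmfree, integral_congr_ae he, venv, integral_prod _ hFi]
  rfl

/-- Pair averages of bounded observables as averages over the environment. -/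
theorem vmpair_eq (P : VPot d) (π : VPrior N d R D) (Φ : VFac N d K) (hn : 0 < n)
    (c : VCIdx N M d R D K → ℝ)
    {O : (VGIdx N M d R D K n → ℝ) → VState π K n → VState π K n → ℝ}
    (hO : ∀ x y, Continuous fun G => O G x y) {C : ℝ} (hC : ∀ G x y, |O G x y| ≤ C) :
    vmpair n P π Φ c O
      = ∫ W, vpair P (vpwt π W) (vbpat π Φ) (vbspin π Φ) (vqd π Φ) (vpull c) O
        ∂casW (mlev K) n := by
  have := vstate_nonempty (K := K) π hn
  have hb : ∀ st, Measurable fun p : (Node K n → ℝ) × (VGIdx N M d R D K n → ℝ) =>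
      vbw P (vpwt π p.1) (vbpat π Φ) (vbspin π Φ) (vqd π Φ) (vpull c) p.2 st := fun st =>
    measurable_vmbw_env P π Φ measurable_fst (c := fun _ => c) (fun _ => measurable_const)
      (fun i => (measurable_pi_apply i).comp measurable_snd) st
  have hm : Measurable fun p : (Node K n → ℝ) × (VGIdx N M d R D K n → ℝ) =>
      avg2 (vbw P (vpwt π p.1) (vbpat π Φ) (vbspin π Φ) (vqd π Φ) (vpull c) p.2) (O p.2) := by
    have hO' : ∀ x y, Measurable fun p : (Node K n → ℝ) × (VGIdx N M d R D K n → ℝ) => O p.2 x y :=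
      fun x y => (hO x y).measurable.comp measurable_snd
    unfold avg2 gibbs; fun_prop
  have hi : Integrable (fun p : (Node K n → ℝ) × (VGIdx N M d R D K n → ℝ) =>
      avg2 (vbw P (vpwt π p.1) (vbpat π Φ) (vbspin π Φ) (vqd π Φ) (vpull c) p.2) (O p.2))
      (venv N M d R D K n) :=
    integrable_of_bdd hm.aestronglyMeasurable fun p =>
      Itp.abs_avg2_le (VItp.vbw_pos P (vbpat π Φ) (vbspin π Φ) (vqd π Φ) (vpwt_pos π p.1) _ p.2)
        (hC p.2)
  have he : ∀ᵐ p ∂venv N M d R D K n, avg2 (vmbw P π Φ c p) (O p.2)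
      = avg2 (vbw P (vpwt π p.1) (vbpat π Φ) (vbspin π Φ) (vqd π Φ) (vpull c) p.2) (O p.2) := by
    filter_upwards [Measure.quasiMeasurePreserving_fst.ae (ae_posV (mlev K))] with p hp
    simp only [vmbw, vpwt, hp]
  rw [vmpair, integral_congr_ae he, venv, integral_prod _ hi]
  rfl

theorem continuous_vkern (P : VPot d) (π : VPrior N d R D) (Φ : VFac N d K)
    (c e : VGIdx N M d R D K n → ℝ) (x y : VState π K n) :
    Continuous fun G => vkern P (vbpat π Φ) (vbspin π Φ) (vqd π Φ) c e G x y := by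
  have := fun z a k => (P.cg k).comp' (VItp.cont_vfld (vbpat (M := M) π Φ) c z a)
  have := fun z a k l => (P.ch k l).comp' (VItp.cont_vfld (vbpat (M := M) π Φ) c z a)
  unfold vkern vgrad vdiag; fun_prop

theorem integrable_vfree_param (P : VPot d) (π : VPrior N d R D) (Φ : VFac N d K) (hn : 0 < n)
    {X : Type*} [MeasurableSpace X] (μ : Measure X) [IsFiniteMeasure μ]
    {c : X → VCIdx N M d R D K → ℝ} (hcm : ∀ i, Measurable fun x => c x i) {B : ℝ}
    (hB : ∀ x i, |c x i| ≤ B) :
    Integrable (fun p : X × (Node K n → ℝ) =>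
        vfree P (vpwt π p.2) (vbpat π Φ) (vbspin π Φ) (vqd π Φ) (vpull (c p.1)))
      (μ.prod (casW (mlev K) n)) ∧
    Integrable (fun x => vmfree n P π Φ (c x)) μ := by
  have := vstate_nonempty (K := K) π hn
  have hm : Measurable fun p : (X × (Node K n → ℝ)) × (VGIdx N M d R D K n → ℝ) =>
      Real.log (∑ st, vbw P (vpwt π p.1.2) (vbpat π Φ) (vbspin π Φ) (vqd π Φ)
        (vpull (c p.1.1)) p.2 st) :=
    (Finset.measurable_sum _ fun st _ => measurable_vmbw_env P π Φ
      (measurable_snd.comp measurable_fst) (c := fun p => c p.1.1)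
      (fun i => (hcm i).comp (measurable_fst.comp measurable_fst))
      (fun i => (measurable_pi_apply i).comp measurable_snd) st).log
  have hmeas : AEStronglyMeasurable (fun p : X × (Node K n → ℝ) =>
      vfree P (vpwt π p.2) (vbpat π Φ) (vbspin π Φ) (vqd π Φ) (vpull (c p.1)))
      (μ.prod (casW (mlev K) n)) :=
    (hm.stronglyMeasurable.integral_prod_right'
      (ν := gaus (VGIdx N M d R D K n))).aestronglyMeasurable
  have hI : Integrable (fun p : X × (Node K n → ℝ) =>
      vfree P (vpwt π p.2) (vbpat π Φ) (vbspin π Φ) (vqd π Φ) (vpull (c p.1)))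
      (μ.prod (casW (mlev K) n)) := by
    refine (((integrable_log_vpwt (K := K) (n := n) π hn).abs.comp_snd μ).add
      (integrable_const (∫ G, VItp.vlenv P M (vbspin π Φ) (vqd π Φ) B G
        ∂gaus (VGIdx N M d R D K n)))).mono' hmeas (ae_of_all _ fun p => ?_)
    rw [Real.norm_eq_abs]
    exact VItp.abs_vfree_le P (vbpat π Φ) (vbspin π Φ) (vqd π Φ) (vpwt_pos π p.2)
      (abs_vpull_le (hB p.1))
  refine ⟨hI, (hI.integral_prod_left.sub (integrable_const (cst (mlev K) n))).congr ?_⟩
  exact ae_of_all _ fun x => ((vmfree_eq P π Φ hn (c x)).2).symm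

theorem integrable_vpair_seg (P : VPot d) (π : VPrior N d R D) (Φ : VFac N d K) (hn : 0 < n)
    {X : Type*} [MeasurableSpace X] (μ : Measure X) [IsFiniteMeasure μ]
    {c : X → VCIdx N M d R D K → ℝ} (hcm : ∀ i, Measurable fun x => c x i)
    (e : VCIdx N M d R D K → ℝ) (t : ℝ) :
    Integrable (fun p : X × (Node K n → ℝ) =>
      vpair P (vpwt π p.2) (vbpat π Φ) (vbspin π Φ) (vqd π Φ)
        (vpull fun i => c p.1 i + t * e i)
        (vkern P (vbpat π Φ) (vbspin π Φ) (vqd π Φ) (vpull fun i => c p.1 i + t * e i) (vpull e)))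
      (μ.prod (casW (mlev K) n)) := by
  have := vstate_nonempty (K := K) π hn
  have hti : ∀ i : VGIdx N M d R D K n,
      Measurable fun p : (X × (Node K n → ℝ)) × (VGIdx N M d R D K n → ℝ) =>
        vpull (fun j => c p.1.1 j + t * e j) i := fun i => by
    rcases i with q | ⟨o, i⟩ <;>
      exact ((hcm _).add_const _).comp (measurable_fst.comp measurable_fst)
  have hpm : Measurable fun p : (X × (Node K n → ℝ)) × (VGIdx N M d R D K n → ℝ) =>
      avg2 (vbw P (vpwt π p.1.2) (vbpat π Φ) (vbspin π Φ) (vqd π Φ)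
          (vpull fun i => c p.1.1 i + t * e i) p.2)
        (vkern P (vbpat π Φ) (vbspin π Φ) (vqd π Φ) (vpull fun i => c p.1.1 i + t * e i)
          (vpull e) p.2) := by
    have hb := measurable_vbw (Y := (X × (Node K n → ℝ)) × (VGIdx N M d R D K n → ℝ)) P
      (vbpat π Φ) (vbspin π Φ) (vqd π Φ) (w := fun p => vpwt π p.1.2)
      (l := fun p => vpull fun i => c p.1.1 i + t * e i) (G := fun p => p.2)
      (fun x => (measurable_vpwt π x).comp (measurable_snd.comp measurable_fst)) hti
      (fun i => (measurable_pi_apply i).comp measurable_snd)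
    have hg := measurable_vkern (Y := (X × (Node K n → ℝ)) × (VGIdx N M d R D K n → ℝ)) P
      (vbpat π Φ) (vbspin π Φ) (vqd π Φ) (vpull e)
      (l := fun p => vpull fun i => c p.1.1 i + t * e i) (G := fun p => p.2) hti
      (fun i => (measurable_pi_apply i).comp measurable_snd)
    unfold avg2 gibbs; fun_prop
  refine integrable_of_bdd
    (hpm.stronglyMeasurable.integral_prod_right'
      (ν := gaus (VGIdx N M d R D K n))).aestronglyMeasurable
    (C := VItp.vgbd P (vbpat (n := n) π Φ) (vbspin π Φ) (vqd π Φ) (vpull e)) fun p => ?_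
  rw [vpair, ← Real.norm_eq_abs]
  refine (norm_integral_le_of_norm_le_const (ae_of_all _ fun G =>
    (Real.norm_eq_abs _).trans_le (Itp.abs_avg2_le
      (VItp.vbw_pos P (vbpat π Φ) (vbspin π Φ) (vqd π Φ) (vpwt_pos π p.2) _ G)
      fun x y => VItp.abs_vkern_le P (vbpat π Φ) (vbspin π Φ) (vqd π Φ) _ _ G x y))).trans_eq ?_
  simp

/-- Mean value identity for the averaged free energy along a segment. -/
theorem vmfree_mvt (P : VPot d) (π : VPrior N d R D) (Φ : VFac N d K) (hn : 0 < n) {X : Type*}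
    [MeasurableSpace X] (μ : Measure X) [IsProbabilityMeasure μ]
    {c : X → VCIdx N M d R D K → ℝ} (hcm : ∀ i, Measurable fun x => c x i) {B : ℝ}
    (hB : ∀ x i, |c x i| ≤ B) {e : VCIdx N M d R D K → ℝ}
    (hpos : ∀ x, ∀ t ∈ Icc (0 : ℝ) 1, ∀ i, 0 ≤ c x i + t * e i) :
    ∃ t ∈ Ioo (0 : ℝ) 1,
      (∫ x, vmfree n P π Φ (fun i => c x i + e i) ∂μ) - ∫ x, vmfree n P π Φ (c x) ∂μ
        = -(1 / 2) * ∫ x, vmpair n P π Φ (fun i => c x i + t * e i)
            (vkern P (vbpat π Φ) (vbspin π Φ) (vqd π Φ)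
              (vpull fun i => c x i + t * e i) (vpull e)) ∂μ := by
  have := vstate_nonempty (K := K) π hn
  set ν := casW (mlev K) n with hν
  have hi : ∀ i : VGIdx N M d R D K n, Measurable fun x => vpull (c x) i := fun i => by
    rcases i with q | ⟨o, i⟩ <;> exact hcm _
  obtain ⟨t, ht, he⟩ := vfree_avg_mvt P (vbpat π Φ) (vbspin π Φ) (vqd π Φ) (vdisj π Φ) (μ.prod ν)
    (w := fun p => vpwt π p.2) (fun st => (measurable_vpwt π st).comp measurable_snd)
    (fun p => vpwt_pos π p.2)
    ((integrable_log_vpwt (K := K) (n := n) π hn).comp_snd μ)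
    (l0 := fun p => vpull (c p.1)) (fun i => (hi i).comp measurable_fst) (R := B)
    (fun p => abs_vpull_le (hB p.1)) (δ := vpull e)
    (fun p s hs i => by rw [← vpull_add]; rcases i with q | ⟨o, i⟩ <;> exact hpos p.1 s hs _)
  refine ⟨t, ht, ?_⟩
  have hB1 : ∀ x i, |c x i + e i| ≤ B + ∑ i, |e i| := fun x i => (abs_add_le _ _).trans
    (add_le_add (hB x i) (Finset.single_le_sum (f := fun i => |e i|) (fun _ _ => abs_nonneg _)
      (Finset.mem_univ i)))
  have hcm1 : ∀ i, Measurable fun x => c x i + e i := fun i => (hcm i).add_const _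
  obtain ⟨h0, -⟩ := integrable_vfree_param P π Φ hn μ hcm hB
  obtain ⟨h1, -⟩ := integrable_vfree_param P π Φ hn μ hcm1 hB1
  have e1 : ∀ x, (fun i => vpull (c x) i + vpull e i) = vpull (n := n) fun i => c x i + e i :=
    fun x => funext fun i => by rcases i with q | ⟨o, i⟩ <;> rfl
  have et : ∀ x, (fun i => vpull (c x) i + t * vpull e i)
      = vpull (n := n) fun i => c x i + t * e i :=
    fun x => funext fun i => (vpull_add (c x) e t i).symm
  simp only [e1, et] at he
  rw [integral_prod _ h1, integral_prod _ h0] at he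
  have i1 : Integrable (fun x => ∫ W, vfree P (vpwt π W) (vbpat π Φ) (vbspin π Φ) (vqd π Φ)
      (vpull fun i => c x i + e i) ∂ν) μ := h1.integral_prod_left
  have i0 : Integrable (fun x => ∫ W, vfree P (vpwt π W) (vbpat π Φ) (vbspin π Φ) (vqd π Φ)
      (vpull (c x)) ∂ν) μ := h0.integral_prod_left
  simp only [(vmfree_eq P π Φ hn _).2]
  rw [integral_sub i1 (integrable_const _), integral_sub i0 (integrable_const _)]
  simp only [hν] at he ⊢
  rw [show ∀ a b k : ℝ, a - k - (b - k) = a - b from fun a b k => by ring, he]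
  congr 1
  rw [integral_prod _ (integrable_vpair_seg P π Φ hn μ hcm e t)]
  refine integral_congr_ae (ae_of_all _ fun x => ?_)
  dsimp only
  rw [vmpair_eq P π Φ hn (fun i => c x i + t * e i)
    (O := vkern P (vbpat π Φ) (vbspin π Φ) (vqd π Φ) (vpull fun i => c x i + t * e i) (vpull e))
    (fun st st' => continuous_vkern P π Φ _ _ st st')
    (C := VItp.vgbd P (vbpat (n := n) π Φ) (vbspin π Φ) (vqd π Φ) (vpull e))
    (fun G st st' => VItp.abs_vkern_le P (vbpat π Φ) (vbspin π Φ) (vqd π Φ) _ _ G st st')]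

theorem vpert_nonneg (J : ℕ) (x : Fin R → ℕ → ℝ) (i : VCIdx N M d R D K) :
    0 ≤ vpert J x i := by
  rcases i with p | ⟨l, u | u | ⟨κ, j, i, t⟩⟩ <;> simp only [vpert, le_refl]
  split_ifs
  · refine div_nonneg (mul_nonneg (sq_nonneg _) (mul_nonneg (by positivity) ?_)) (by positivity)
    refine Fin.cases ?_ (fun r => ?_) l
    · simp only [incr, Fin.cases_zero, powPath]; positivity
    · simp only [incr, Fin.cases_succ, powPath, Fin.val_succ, Fin.val_castSucc]
      have : ((r : ℕ) : ℝ) ^ (j.val + 1 - i.val) ≤ ((r : ℕ) + 1 : ℝ) ^ (j.val + 1 - i.val) :=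
        pow_le_pow_left₀ (Nat.cast_nonneg _) (by linarith) _
      push_cast
      linarith
  · exact le_rfl

/-- The covariance of one family of perturbation fields: a series in powers of its kernel. -/
theorem cov_vpert (π : VPrior N d R D) (J : ℕ) (x : Fin R → ℕ → ℝ) (κ : Fin R)
    (st st' : VState π K n) :
    (∑ t : PIdx D, ((∏ q, π.ker κ st.1 (t.2.2 q)) * ∏ q, π.ker κ st'.1 (t.2.2 q))
        * ∑ l ∈ Finset.Iic (com st.2 st'.2),
            (vpert (M := M) (N := N) (d := d) J x (Sum.inr (l, Sum.inr (Sum.inr (κ, t))))))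
      = ∑ j ∈ Finset.univ.filter (fun j : Fin D => j.val < J),
          (amp J j * x κ j) ^ 2 * vS π κ st st' ^ (j.val + 1) := by
  classical
  set u := com st.2 st'.2
  rw [Fintype.sum_sigma, Finset.sum_filter]
  refine Finset.sum_congr rfl fun j _ => ?_
  by_cases hj : j.val < J
  swap
  · simp [vpert, hj]
  rw [if_pos hj, Fintype.sum_sigma, vS, show vlev π st st' = u from rfl, div_pow, add_pow,
    Finset.sum_div, Finset.mul_sum,
    ← Fin.sum_univ_eq_sum_range (fun i => (amp J j * x κ j) ^ 2 *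
      (vkerov π κ st st' ^ i * (3 * ((u : ℕ) : ℝ)) ^ (j.val + 1 - i) * (j.val + 1).choose i
        / ((3 * K + 1 : ℕ) : ℝ) ^ (j.val + 1)))]
  refine Finset.sum_congr rfl fun i _ => ?_
  have hstep : ∀ t : Fin i.val → Fin D,
      (∑ l ∈ Finset.Iic u,
        vpert (M := M) (N := N) (d := d) J x (Sum.inr (l, Sum.inr (Sum.inr (κ, ⟨j, i, t⟩)))))
        = (amp J j * x κ j) ^ 2 * ((j.val + 1).choose i.val
            * 3 ^ (j.val + 1 - i.val) * powPath K (j.val + 1 - i.val) u)
            / ((3 * K + 1 : ℕ) : ℝ) ^ (j.val + 1) := fun t => by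
    simp only [vpert, hj, if_true]
    rw [← sum_incr (powPath K (j.val + 1 - i.val)) u, Finset.mul_sum, Finset.mul_sum,
      Finset.sum_div]
  simp only [hstep]
  rw [← Finset.sum_mul]
  have hprod : (∑ t : Fin i.val → Fin D, (∏ q, π.ker κ st.1 (t q)) * ∏ q, π.ker κ st'.1 (t q))
      = vkerov π κ st st' ^ i.val := by
    simp only [← Finset.prod_mul_distrib, vkerov]
    rw [← Fintype.prod_sum fun (_ : Fin i.val) k => π.ker κ st.1 k * π.ker κ st'.1 k]
    simp
  rw [hprod, mul_pow, powPath]
  ring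

end Vale.Agent.P166.Casc
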