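import Vale.Agent.P166.Casc.Atoms
import Vale.Agent.P166.Casc.VSegment
import Vale.Agent.P166.Pen.PenLimit

/-!
The finite priors of the penalised Gaussian spins, with kernels of unit size for every entry of the
self-overlaps, and the free energy of the model with rows only as the penalised free energy.
-/

open MeasureTheory ProbabilityTheory Filter Topology

namespace Vale.Agent.P166.Casc

open Vale.Agent.P157.Casc Vale.Agent.P166.Pen

variable {N M K L J : ℕ}

/-- The weight of the spins: Gaussian, inside the cut, penalised around `d`. -/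
noncomputable def spinMeas (τ : ℝ) (γ : Fin K → ℝ) (B lam : ℝ) (d : OIdx K → ℝ) (N : ℕ) :
    Measure (Fin K → Fin N → ℝ) :=
  ((spinLaw K N).restrict (cutSet B K N)).withDensity fun ω =>
    ENNReal.ofReal (Real.exp (-(lam * N * ∑ i, (ovl τ γ ω i - d i) ^ 2)))

/-- The spins seen by the model: present blocks only, of variance `τ`. -/
noncomputable def cfgOf (τ : ℝ) (γ : Fin K → ℝ) (ω : Fin K → Fin N → ℝ) (j : Fin N)
    (k : Fin K) : ℝ :=
  if j.val < blk γ N k then √τ * ω k j else 0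

/-- Scaled combination, with coefficients `v`, of the spins of one type. -/
noncomputable def kvec (τ B : ℝ) (γ : Fin K → ℝ) (ω : Fin K → Fin N → ℝ) (t : Finset (Fin K))
    (v : Fin K → ℝ) (j : Fin N) : ℝ :=
  if typ γ j = t then (∑ k, v k * cfgOf τ γ ω j k) / √(8 * τ * B * N) else 0

/-- Kernel vector of a combination: the combination, completed to unit size in the direction of
the label `ξ`. -/
noncomputable def kfeat (τ B : ℝ) (γ : Fin K → ℝ) (J : ℕ) (ω : Fin K → Fin N → ℝ) (ξ : Fin L)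
    (t : Finset (Fin K)) (v : Fin K → ℝ) : Fin (N + L + J) → ℝ :=
  Fin.append (Fin.append (kvec τ B γ ω t v)
    fun ξ' => if ξ' = ξ then √(1 - ∑ j, kvec τ B γ ω t v j ^ 2) else 0) fun _ => 0

section Feat

variable {τ B : ℝ} {γ : Fin K → ℝ}

theorem sum_kfeat_mul (ω ω' : Fin K → Fin N → ℝ) (ξ ξ' : Fin L) (t : Finset (Fin K))
    (v : Fin K → ℝ) :
    ∑ u, kfeat τ B γ J ω ξ t v u * kfeat τ B γ J ω' ξ' t v u
      = (∑ j, kvec τ B γ ω t v j * kvec τ B γ ω' t v j)
        + if ξ = ξ' then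
            √(1 - ∑ j, kvec τ B γ ω t v j ^ 2) * √(1 - ∑ j, kvec τ B γ ω' t v j ^ 2) else 0 := by
  simp only [kfeat, Fin.sum_univ_add, Fin.append_left, Fin.append_right, mul_zero,
    Finset.sum_const_zero, add_zero]
  congr 1
  simp only [mul_ite, ite_mul, zero_mul, mul_zero, Finset.sum_ite_eq', Finset.mem_univ, if_true]
  by_cases h : ξ = ξ' <;> simp [h, eq_comm]

theorem sum_kvec_sq_le (hτ : 0 ≤ τ) {ω : Fin K → Fin N → ℝ} (hω : ω ∈ cutSet B K N)
    (t : Finset (Fin K)) {v : Fin K → ℝ} (hv : ∑ k, |v k| ≤ 2) :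
    ∑ j, kvec τ B γ ω t v j ^ 2 ≤ 1 / 2 := by
  have h0 : 0 ≤ ∑ k, ∑ j, ω k j ^ 2 :=
    Finset.sum_nonneg fun k _ => Finset.sum_nonneg fun j _ => sq_nonneg _
  have hBN : 0 ≤ B * N := h0.trans hω
  set Q := 8 * τ * B * N
  have hQ0 : 0 ≤ Q := by
    have := mul_nonneg (mul_nonneg (by norm_num : (0 : ℝ) ≤ 8) hτ) hBN
    linarith
  rcases hQ0.eq_or_lt with hQ | hQ
  · refine le_of_eq_of_le (Finset.sum_eq_zero fun j _ => ?_) (by norm_num)
    simp [kvec, show 8 * τ * B * N = 0 from hQ.symm]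
  have hc : ∀ k j, cfgOf τ γ ω j k ^ 2 ≤ τ * ω k j ^ 2 := fun k j => by
    unfold cfgOf
    split_ifs
    · rw [mul_pow, Real.sq_sqrt hτ]
    · rw [zero_pow two_ne_zero]; positivity
  have hv1 : ∀ k, |v k| ≤ 2 := fun k => (Finset.single_le_sum (f := fun k => |v k|)
    (fun k _ => abs_nonneg _) (Finset.mem_univ k)).trans hv
  have hk : ∀ j, kvec τ B γ ω t v j ^ 2 ≤ (4 * τ * ∑ k, ω k j ^ 2) / Q := fun j => by
    by_cases h : typ γ j = t
    · rw [kvec, if_pos h, div_pow, Real.sq_sqrt hQ0]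
      refine div_le_div_of_nonneg_right ?_ hQ0
      have hcs := Finset.sum_sq_le_sum_mul_sum_of_sq_le_mul (s := Finset.univ)
        (r := fun k => v k * cfgOf τ γ ω j k) (f := fun k => |v k|)
        (g := fun k => |v k| * cfgOf τ γ ω j k ^ 2) (fun k _ => abs_nonneg _)
        (fun k _ => mul_nonneg (abs_nonneg _) (sq_nonneg _))
        (fun k _ => (by rw [← mul_assoc, ← pow_two, sq_abs, mul_pow] :
          (v k * cfgOf τ γ ω j k) ^ 2 = |v k| * (|v k| * cfgOf τ γ ω j k ^ 2)).le)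
      refine hcs.trans ((mul_le_mul hv (Finset.sum_le_sum fun k _ => mul_le_mul (hv1 k) (hc k j)
        (sq_nonneg _) zero_le_two) (Finset.sum_nonneg fun k _ =>
          mul_nonneg (abs_nonneg _) (sq_nonneg _)) zero_le_two).trans_eq ?_)
      simp only [← Finset.mul_sum]
      ring
    · rw [kvec, if_neg h, zero_pow two_ne_zero]
      positivity
  refine (Finset.sum_le_sum fun j _ => hk j).trans ?_
  rw [← Finset.sum_div, div_le_iff₀ hQ, ← Finset.mul_sum, Finset.sum_comm]
  have := mul_le_mul_of_nonneg_left hω (show 0 ≤ 4 * τ by positivity)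
  simp only [Q]
  linarith

theorem kfeat_unit (hτ : 0 ≤ τ) {ω : Fin K → Fin N → ℝ} (hω : ω ∈ cutSet B K N) (ξ : Fin L)
    (t : Finset (Fin K)) {v : Fin K → ℝ} (hv : ∑ k, |v k| ≤ 2) :
    ∑ u, kfeat τ B γ J ω ξ t v u ^ 2 = 1 := by
  simp only [pow_two]
  rw [sum_kfeat_mul, if_pos rfl,
    Real.mul_self_sqrt (by linarith [sum_kvec_sq_le (γ := γ) hτ hω t hv])]
  simp only [← pow_two]
  ring

theorem continuous_kfeat (ξ : Fin L) (t : Finset (Fin K)) (v : Fin K → ℝ) (u : Fin (N + L + J)) :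
    Continuous fun ω : Fin K → Fin N → ℝ => kfeat τ B γ J ω ξ t v u := by
  have hc : ∀ j k, Continuous fun ω : Fin K → Fin N → ℝ => cfgOf τ γ ω j k := fun j k => by
    unfold cfgOf; split_ifs <;> fun_prop
  have hv : ∀ j, Continuous fun ω : Fin K → Fin N → ℝ => kvec τ B γ ω t v j := fun j => by
    unfold kvec; split_ifs <;> fun_prop
  unfold kfeat
  refine Fin.addCases (fun u => ?_) (fun u => ?_) u
  · refine Fin.addCases (fun u => ?_) (fun u => ?_) u
    · simp only [Fin.append_left]; exact hv u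
    · simp only [Fin.append_left, Fin.append_right]
      split_ifs <;> fun_prop
  · simp only [Fin.append_right]; fun_prop

end Feat

/-- Number of kernels: one per type and vector of coefficients. -/
abbrev nker (K nA : ℕ) : ℕ := Fintype.card (Finset (Fin K) × Fin nA)

/-- The type and the coefficient vector of a kernel. -/
noncomputable def kerIdx {nA : ℕ} (κ : Fin (nker K nA)) : Finset (Fin K) × Fin nA :=
  (Fintype.equivFin (Finset (Fin K) × Fin nA)).symm κ

/-- A finite family of coefficient vectors of bounded size. -/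
structure Coeffs (K nA : ℕ) where
  a : Fin nA → Fin K → ℝ
  l1 : ∀ i, ∑ k, |a i k| ≤ 2

/-- The feature of one kernel. -/
noncomputable def kerFeat (τ B : ℝ) (γ : Fin K → ℝ) (J : ℕ) {nA : ℕ} (A : Coeffs K nA)
    (ω : Fin K → Fin N → ℝ) (ξ : Fin L) (κ : Fin (nker K nA)) : Fin (N + L + J) → ℝ :=
  kfeat τ B γ J ω ξ (kerIdx κ).1 (A.a (kerIdx κ).2)

/-- The finite prior: the atoms with an independent uniform label among `L`. -/
noncomputable def penPrior {τ B : ℝ} {γ : Fin K → ℝ} {ν : Measure (Fin K → Fin N → ℝ)} {ε : ℝ}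
    (hτ : 0 ≤ τ) {nA : ℕ} (A : Coeffs K nA) (a : Atoms ν (cutSet B K N) ε) (hL : 0 < L) (J : ℕ) :
    VPrior N K (nker K nA) (N + L + J) where
  c := a.c * L
  c_pos := Nat.mul_pos a.c_pos hL
  w := fun σ => a.w (finProdFinEquiv.symm σ).1 / L
  cfg := fun σ => cfgOf τ γ (a.x (finProdFinEquiv.symm σ).1)
  ker := fun κ σ => kerFeat τ B γ J A (a.x (finProdFinEquiv.symm σ).1)
    (finProdFinEquiv.symm σ).2 κ
  w_pos := fun _ => div_pos (a.w_pos _) (Nat.cast_pos.2 hL)
  ker_unit := fun _ _ => kfeat_unit hτ (a.mem _) _ _ (A.l1 _)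

theorem sum_penPrior {τ B : ℝ} {γ : Fin K → ℝ} {ν : Measure (Fin K → Fin N → ℝ)} {ε : ℝ}
    (hτ : 0 ≤ τ) {nA : ℕ} (A : Coeffs K nA) (a : Atoms ν (cutSet B K N) ε) (hL : 0 < L)
    (F : (Fin N → Fin K → ℝ) → (Fin (nker K nA) → Fin (N + L + J) → ℝ) → ℝ) :
    ∑ σ, (penPrior (γ := γ) hτ A a hL J).w σ
        * F ((penPrior (γ := γ) hτ A a hL J).cfg σ) (fun κ => (penPrior (γ := γ) hτ A a hL J).ker κ σ)
      = ∑ ξ : Fin L, (1 / (L : ℝ)) * ∑ σ, a.w σ
          * F (cfgOf τ γ (a.x σ)) (fun κ => kerFeat τ B γ J A (a.x σ) ξ κ) := by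
  show ∑ σ : Fin (a.c * L), _ = _
  rw [← finProdFinEquiv.sum_comp, Fintype.sum_prod_type, Finset.sum_comm]
  refine Finset.sum_congr rfl fun ξ _ => ?_
  rw [Finset.mul_sum]
  refine Finset.sum_congr rfl fun σ _ => ?_
  simp only [penPrior, Equiv.symm_apply_apply]
  ring

/-- Factors of the model with rows only. -/
def noFac (N d K : ℕ) : VFac N d K := (fun _ _ _ _ => 0, fun _ _ _ _ _ => 0, fun _ _ _ => 0)

/-- Variances with rows of strength `s` only. -/
def rowc {d R D : ℕ} (s : ℝ) : VCIdx N M d R D K → ℝ :=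
  vfldc (fun _ _ => s) (fun _ => 0) (fun _ _ => 0) fun _ _ => 0

/-- The free energy with rows only does not see the tree. -/
theorem vmfree_rows {d R D n : ℕ} (P : VPot d) (π : VPrior N d R D) (Φ : VFac N d K) (hn : 0 < n)
    (s : ℝ) :
    vmfree (M := M) n P π Φ (rowc s)
      = ∫ G : Fin M × Fin N → ℝ, Real.log (∑ σ, π.w σ * Real.exp (∑ a, P.f fun k =>
          ∑ j, √s * (π.cfg σ j k / √(N : ℝ)) * G (a, j))) ∂gaus (Fin M × Fin N) := by
  have : Nonempty (Fin π.c) := ⟨⟨0, π.c_pos⟩⟩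
  have : Nonempty (Leaf K n) := ⟨fun _ => ⟨0, hn⟩⟩
  set Fσ : (Fin M × Fin N → ℝ) → ℝ := fun G => ∑ σ, π.w σ * Real.exp (∑ a, P.f fun k =>
    ∑ j, √s * (π.cfg σ j k / √(N : ℝ)) * G (a, j)) with hFσ
  obtain ⟨hi, heq⟩ := vmfree_eq (M := M) P π Φ hn (rowc s)
  have hmp : MeasurePreserving
      (fun (G : VGIdx N M d R D K n → ℝ) (p : Fin M × Fin N) => G (Sum.inl (Sum.inl p)))
      (gaus (VGIdx N M d R D K n)) (gaus (Fin M × Fin N)) :=
    P157.mp_comp (gaussianReal 0 1) (Sum.inl_injective.comp Sum.inl_injective)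
  have hham : ∀ (G : VGIdx N M d R D K n → ℝ) (st : VState π K n),
      vham P (vbpat π Φ) (vbspin π Φ) (vqd π Φ) (vpull (rowc s)) G st
        = ∑ a, P.f fun k => ∑ j, √s * (π.cfg st.1 j k / √(N : ℝ))
            * G (Sum.inl (Sum.inl (a, j))) := fun G st => by
    have hz : ∀ i, vpull (rowc (d := d) (R := R) (D := D) (N := N) (M := M) (K := K) s) i ≠ 0 →
        ∃ p : Fin M × Fin N, i = (Sum.inl (Sum.inl p) : VGIdx N M d R D K n) := fun i h => by
      rcases i with (p | p) | ⟨o, p | p | p⟩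
      · exact ⟨p, rfl⟩
      all_goals simp [vpull, rowc, vfldc] at h
    have hb : ∀ i, vpull (rowc (d := d) (R := R) (D := D) (N := N) (M := M) (K := K) s) i = 0 ∨
        (vbspin π Φ st i = 0 ∧ vqd π Φ st i = 0) := fun i => by
      by_cases h : vpull (rowc (d := d) (R := R) (D := D) (N := N) (M := M) (K := K) s) i = 0
      · exact Or.inl h
      · obtain ⟨p, rfl⟩ := hz i h
        exact Or.inr ⟨by simp [vbspin, treeDir], by simp [vqd, treeDir, tiltQ]⟩
    have h1 : lin (vbspin π Φ) (vpull (rowc s)) G st = 0 :=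
      Finset.sum_eq_zero fun i _ => by
        rcases hb i with h | h <;> simp [h]
    have h2 : ∑ i, vpull (rowc s) i * vbspin π Φ st i ^ 2 = 0 :=
      Finset.sum_eq_zero fun i _ => by rcases hb i with h | h <;> simp [h]
    have h3 : ∑ i, vpull (rowc s) i * vqd π Φ st i = 0 :=
      Finset.sum_eq_zero fun i _ => by rcases hb i with h | h <;> simp [h]
    simp only [vham, h1, h2, h3, mul_zero, add_zero, sub_zero]
    refine Finset.sum_congr rfl fun a _ => congrArg P.f (funext fun k => ?_)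
    simp only [vfld, lin, Fintype.sum_sum_type, Fintype.sum_prod_type, vbpat, treeDir, rowZ, vpull,
      rowc, vfldc]
    simp [Finset.sum_ite_eq', mul_ite, ite_mul]
  have hpt : ∀ W : Node K n → ℝ,
      vfree P (vpwt π W) (vbpat π Φ) (vbspin π Φ) (vqd π Φ) (vpull (rowc (M := M) s))
        = Real.log (∑ α : Leaf K n, P157.Casc.wgt (mlev K) (posV W) α)
          + ∫ G : Fin M × Fin N → ℝ, Real.log (Fσ G) ∂gaus (Fin M × Fin N) := fun W => by
    have hW : 0 < ∑ α : Leaf K n, P157.Casc.wgt (mlev K) (posV W) α :=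
      Finset.sum_pos (fun α _ => P157.Casc.wgt_pos _ (posV_pos W) α) Finset.univ_nonempty
    have hF : ∀ G, 0 < Fσ G := fun G =>
      Finset.sum_pos (fun σ _ => mul_pos (π.w_pos σ) (Real.exp_pos _)) Finset.univ_nonempty
    have e : ∀ G : VGIdx N M d R D K n → ℝ,
        ∑ st, vbw P (vpwt π W) (vbpat π Φ) (vbspin π Φ) (vqd π Φ) (vpull (rowc s)) G st
          = (∑ α : Leaf K n, P157.Casc.wgt (mlev K) (posV W) α) * Fσ fun p => G (Sum.inl (Sum.inl p)) :=
      fun G => by
        simp only [hFσ, vbw, hham, vpwt, vstw, Fintype.sum_prod_type, Finset.sum_mul, Finset.mul_sum]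
        exact Finset.sum_congr rfl fun σ _ => Finset.sum_congr rfl fun α _ => by ring
    simp only [vfree, e, Real.log_mul hW.ne' (hF _).ne']
    have hm : Measurable fun G => Real.log (Fσ G) := by
      refine (Finset.measurable_sum _ fun σ _ => ?_).log
      have := P.cf.measurable
      fun_prop
    have hbd : ∀ G, |Real.log (Fσ G)| ≤ |Real.log (∑ σ, π.w σ)| + M * |P.bF| := fun G => by
      have hS : 0 < ∑ σ, π.w σ := Finset.sum_pos (fun σ _ => π.w_pos σ) Finset.univ_nonempty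
      have hE : ∀ σ, |∑ a, P.f fun k => ∑ j, √s * (π.cfg σ j k / √(N : ℝ)) * G (a, j)|
          ≤ M * |P.bF| := fun σ =>
        ((Finset.abs_sum_le_sum_abs _ _).trans (Finset.sum_le_sum fun a _ =>
          (P.hF _).trans (le_abs_self _))).trans_eq (by simp)
      have h1 : Real.exp (-(M * |P.bF|)) * ∑ σ, π.w σ ≤ Fσ G := by
        rw [Finset.mul_sum]
        exact Finset.sum_le_sum fun σ _ => by
          rw [mul_comm]
          exact mul_le_mul_of_nonneg_left (Real.exp_le_exp.2 (neg_le_of_abs_le (hE σ))) (π.w_pos σ).le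
      have h2 : Fσ G ≤ Real.exp (M * |P.bF|) * ∑ σ, π.w σ := by
        rw [Finset.mul_sum]
        exact Finset.sum_le_sum fun σ _ => by
          rw [mul_comm (Real.exp _)]
          exact mul_le_mul_of_nonneg_left (Real.exp_le_exp.2 (le_of_abs_le (hE σ))) (π.w_pos σ).le
      have l1 := Real.log_le_log (mul_pos (Real.exp_pos _) hS) h1
      have l2 := Real.log_le_log (hF G) h2
      rw [Real.log_mul (Real.exp_pos _).ne' hS.ne', Real.log_exp] at l1 l2
      exact abs_le.2 ⟨by linarith [neg_abs_le (Real.log (∑ σ, π.w σ))],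
        by linarith [le_abs_self (Real.log (∑ σ, π.w σ))]⟩
    have hint : Integrable (fun G => Real.log (Fσ G)) (gaus (Fin M × Fin N)) :=
      (integrable_const _).mono' hm.aestronglyMeasurable (ae_of_all _ hbd)
    have hint' : Integrable (fun G : VGIdx N M d R D K n → ℝ =>
        Real.log (Fσ fun p => G (Sum.inl (Sum.inl p)))) (gaus (VGIdx N M d R D K n)) :=
      hmp.integrable_comp_of_integrable hint
    rw [integral_add (integrable_const _) hint', integral_const,
      probReal_univ, one_smul, ← hmp.map_eq,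
      integral_map hmp.measurable.aemeasurable (by rw [hmp.map_eq]; exact hint.aestronglyMeasurable)]
  have hlog : Integrable (fun W : Node K n → ℝ =>
      Real.log (∑ α : Leaf K n, P157.Casc.wgt (mlev K) (posV W) α)) (casW (mlev K) n) := by
    refine (hi.sub (integrable_const (∫ G : Fin M × Fin N → ℝ, Real.log (Fσ G)
      ∂gaus (Fin M × Fin N)))).congr (ae_of_all _ fun W => ?_)
    simp [hpt W]
  have hcst : ∫ W, Real.log (∑ α : Leaf K n, P157.Casc.wgt (mlev K) (posV W) α) ∂casW (mlev K) n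
      = cst (mlev K) n := by
    refine integral_congr_ae ?_
    filter_upwards [ae_posV (mlev K)] with W hW
    simp only [hW]
  rw [heq, integral_congr_ae (ae_of_all _ hpt), integral_add hlog (integrable_const _), hcst]
  simp [hFσ]

section Limit

variable {τ : ℝ} {γ : Fin K → ℝ} {B lam : ℝ}

theorem ae_mem_cut (d : OIdx K → ℝ) : ∀ᵐ ω ∂spinMeas τ γ B lam d N, ω ∈ cutSet B K N :=
  (withDensity_absolutelyContinuous _ _).ae_le (ae_restrict_mem (measurableSet_cut B K N))

theorem isCompact_cut (B : ℝ) (K N : ℕ) : IsCompact (cutSet B K N) := by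
  refine Metric.isCompact_of_isClosed_isBounded (isClosed_le (by fun_prop) continuous_const) ?_
  refine isBounded_iff_forall_norm_le.2 ⟨√|B * N|, fun ω hω => ?_⟩
  refine (pi_norm_le_iff_of_nonneg (Real.sqrt_nonneg _)).2 fun k => ?_
  refine (pi_norm_le_iff_of_nonneg (Real.sqrt_nonneg _)).2 fun j => ?_
  rw [Real.norm_eq_abs, ← Real.sqrt_sq_eq_abs]
  refine Real.sqrt_le_sqrt (le_trans ?_ (le_abs_self _))
  exact ((Finset.single_le_sum (f := fun j => ω k j ^ 2) (fun j _ => sq_nonneg _)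
    (Finset.mem_univ j)).trans (Finset.single_le_sum (f := fun k => ∑ j, ω k j ^ 2)
    (fun k _ => Finset.sum_nonneg fun j _ => sq_nonneg _) (Finset.mem_univ k))).trans hω

theorem zero_mem_cut (hB : 0 ≤ B) : (0 : Fin K → Fin N → ℝ) ∈ cutSet B K N := by
  simp [cutSet]; positivity

theorem spinMeas_finite (hlam : 0 ≤ lam) (d : OIdx K → ℝ) :
    IsFiniteMeasure (spinMeas τ γ B lam d N) := by
  refine isFiniteMeasure_withDensity (lt_of_le_of_lt (lintegral_mono fun ω => ?_)
    (b := ∫⁻ _, 1 ∂(spinLaw K N).restrict (cutSet B K N)) (by simp [measure_lt_top])).ne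
  refine ENNReal.ofReal_le_one.2 (Real.exp_le_one_iff.2 (neg_nonpos.2 ?_))
  exact mul_nonneg (mul_nonneg hlam (Nat.cast_nonneg N)) (Finset.sum_nonneg fun i _ => sq_nonneg _)

theorem integral_spinMeas (d : OIdx K → ℝ) (g : (Fin K → Fin N → ℝ) → ℝ) :
    ∫ ω, Real.exp (g ω) ∂spinMeas τ γ B lam d N
      = zpen (spinLaw K N) g (ovl τ γ) (cutSet B K N) (lam * N) d := by
  have hm : Measurable fun ω : Fin K → Fin N → ℝ =>
      Real.exp (-(lam * N * ∑ i, (ovl τ γ ω i - d i) ^ 2)) := by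
    have := fun i => measurable_ovl (N := N) τ γ i
    fun_prop
  rw [spinMeas, integral_withDensity_eq_integral_toReal_smul hm.ennreal_ofReal
    (ae_of_all _ fun ω => ENNReal.ofReal_lt_top), zpen]
  refine integral_congr_ae (ae_of_all _ fun ω => ?_)
  dsimp only
  rw [ENNReal.toReal_ofReal (Real.exp_pos _).le, smul_eq_mul, ← Real.exp_add, sub_eq_neg_add]

theorem spinMeas_ne (hlam : 0 ≤ lam) (d : OIdx K → ℝ)
    (hS : 0 < (spinLaw K N).real (cutSet B K N)) : spinMeas τ γ B lam d N ≠ 0 := by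
  have := spinMeas_finite (τ := τ) (γ := γ) (B := B) (N := N) hlam d
  intro h
  have h0 := integral_spinMeas (τ := τ) (γ := γ) (B := B) (lam := lam) (N := N) d fun _ => 0
  rw [h, integral_zero_measure] at h0
  have hi := integrable_zpen (π := spinLaw K N) (H := fun _ => 0) (b := 0)
    (κ := lam * N) measurable_const (fun _ => by simp) (measurable_ovl τ γ)
    (mul_nonneg hlam (Nat.cast_nonneg N)) d
  have hpos : (0 : ℝ) < zpen (spinLaw K N) (fun _ => 0) (ovl τ γ) (cutSet B K N) (lam * N) d := by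
    rw [zpen, setIntegral_pos_iff_support_of_nonneg_ae (ae_of_all _ fun x => (Real.exp_pos _).le)
      hi.integrableOn]
    rw [Function.support_eq_univ fun x => (Real.exp_pos _).ne', Set.univ_inter]
    exact pos_iff_ne_zero.2 fun h => hS.ne' (by simp [Measure.real, h])
  linarith

/-- The rows as one vector of coordinates. -/
theorem mp_rows (N : ℕ) : MeasurePreserving
    (fun (G : Fin N → Fin N → ℝ) (p : Fin N × Fin N) => G p.1 p.2) (rowsLaw N)
    (gaus (Fin N × Fin N)) := by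
  have h : MeasurePreserving (MeasurableEquiv.curry (Fin N) (Fin N) ℝ)
      (Measure.pi fun _ : Fin N × Fin N => gaussianReal 0 1) (rowsLaw N) := by
    refine ⟨MeasurableEquiv.measurable _, ?_⟩
    have := Measure.infinitePi_map_curry fun (_ : Fin N) (_ : Fin N) => gaussianReal 0 1
    simpa [Measure.infinitePi_eq_pi, rowsLaw, gs] using this
  exact h.symm

/-- Partition function of the atoms. -/
noncomputable def zAtoms {ν : Measure (Fin K → Fin N → ℝ)} {ε : ℝ} (τ : ℝ) (γ : Fin K → ℝ)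
    (f : (Fin K → ℝ) → ℝ) (a : Atoms ν (cutSet B K N) ε) (G : Fin N → Fin N → ℝ) : ℝ :=
  ∑ σ, a.w σ * Real.exp (ene τ f γ G (a.x σ))

theorem vmfree_penPrior {ν : Measure (Fin K → Fin N → ℝ)} {ε : ℝ} (hτ : 0 ≤ τ) (P : VPot K)
    {nA : ℕ} (A : Coeffs K nA) (a : Atoms ν (cutSet B K N) ε) (hL : 0 < L) (J : ℕ) {K' n : ℕ} (hn : 0 < n)
    (Φ : VFac N K K') :
    vmfree (M := N) n P (penPrior (γ := γ) hτ A a hL J) Φ (rowc 1)
      = ∫ G, Real.log (zAtoms τ γ P.f a G) ∂rowsLaw N := by
  rw [vmfree_rows P _ Φ hn 1, ← (mp_rows N).map_eq,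
    integral_map (mp_rows N).measurable.aemeasurable
    (by
      refine (Finset.measurable_sum _ fun σ _ => ?_).log.aestronglyMeasurable
      have := P.cf.measurable
      fun_prop)]
  refine integral_congr_ae (ae_of_all _ fun G => congrArg Real.log ?_)
  have h := sum_penPrior (γ := γ) hτ A a hL (J := J) fun x _ => Real.exp (∑ i, P.f fun k =>
    ∑ j, √(1 : ℝ) * (x j k / √(N : ℝ)) * G i j)
  refine h.trans ?_
  rw [Finset.sum_const, Finset.card_univ, Fintype.card_fin, nsmul_eq_mul, ← mul_assoc,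
    mul_one_div_cancel (Nat.cast_pos.2 hL).ne', one_mul]
  refine Finset.sum_congr rfl fun σ _ => ?_
  simp only [ene, Real.sqrt_one, one_mul]
  congr 2
  refine Finset.sum_congr rfl fun i _ => congrArg P.f (funext fun k =>
    Finset.sum_congr rfl fun j _ => ?_)
  unfold cfgOf
  split_ifs <;> ring

theorem abs_log_zAtoms {ν : Measure (Fin K → Fin N → ℝ)} [IsFiniteMeasure ν] {ε : ℝ} (P : VPot K)
    (hν : 0 < ν.real Set.univ) (a : Atoms ν (cutSet B K N) ε) (G : Fin N → Fin N → ℝ) :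
    |Real.log (zAtoms τ γ P.f a G)| ≤ |Real.log (ν.real Set.univ)| + N * |P.bF| := by
  have hm : ∑ σ, a.w σ = ν.real Set.univ := by simpa using a.repr fun _ => 1
  have hb : ∀ σ, |ene τ P.f γ G (a.x σ)| ≤ N * |P.bF| := fun σ =>
    abs_ene_le (fun y => (P.hF y).trans (le_abs_self _)) γ G _
  have h1 : Real.exp (-(N * |P.bF|)) * ν.real Set.univ ≤ zAtoms τ γ P.f a G := by
    rw [← hm, Finset.mul_sum]
    exact Finset.sum_le_sum fun σ _ => by
      rw [mul_comm]
      exact mul_le_mul_of_nonneg_left (Real.exp_le_exp.2 (neg_le_of_abs_le (hb σ))) (a.w_pos σ).le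
  have h2 : zAtoms τ γ P.f a G ≤ Real.exp (N * |P.bF|) * ν.real Set.univ := by
    rw [← hm, Finset.mul_sum]
    exact Finset.sum_le_sum fun σ _ => by
      rw [mul_comm (Real.exp _)]
      exact mul_le_mul_of_nonneg_left (Real.exp_le_exp.2 (le_of_abs_le (hb σ))) (a.w_pos σ).le
  have hp := (mul_pos (Real.exp_pos _) hν).trans_le h1
  have l1 := Real.log_le_log (mul_pos (Real.exp_pos _) hν) h1
  have l2 := Real.log_le_log hp h2
  rw [Real.log_mul (Real.exp_pos _).ne' hν.ne', Real.log_exp] at l1 l2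
  exact abs_le.2 ⟨by linarith [neg_abs_le (Real.log (ν.real Set.univ))],
    by linarith [le_abs_self (Real.log (ν.real Set.univ))]⟩

theorem measurable_zAtoms {ν : Measure (Fin K → Fin N → ℝ)} {ε : ℝ} (P : VPot K)
    (a : Atoms ν (cutSet B K N) ε) :
    Measurable fun G : Fin N → Fin N → ℝ => zAtoms τ γ P.f a G := by
  unfold zAtoms
  refine Finset.measurable_sum _ fun σ _ => ?_
  have : Measurable fun G : Fin N → Fin N → ℝ => ene τ P.f γ G (a.x σ) :=
    ((measurable_ene τ P.cf γ).comp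
      (Continuous.prodMk continuous_id continuous_const)).measurable
  fun_prop

theorem continuous_exp_ene (P : VPot K) (G : Fin N → Fin N → ℝ) :
    Continuous fun ω : Fin K → Fin N → ℝ => Real.exp (ene τ P.f γ G ω) :=
  Real.continuous_exp.comp ((measurable_ene (N := N) τ P.cf γ).comp
    (f := fun ω : Fin K → Fin N → ℝ => (G, ω)) (Continuous.prodMk continuous_const continuous_id))

theorem tendsto_zAtoms (P : VPot K) (d : OIdx K → ℝ) (hlam : 0 ≤ lam) {ε : ℕ → ℝ}
    (hε : Tendsto ε atTop (𝓝 0))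
    (a : ∀ W, Atoms (spinMeas τ γ B lam d N) (cutSet B K N) (ε W)) (G : Fin N → Fin N → ℝ) :
    Tendsto (fun W => zAtoms τ γ P.f (a W) G) atTop
      (𝓝 (∫ ω, Real.exp (ene τ P.f γ G ω) ∂spinMeas τ γ B lam d N)) := by
  have := spinMeas_finite (τ := τ) (γ := γ) (B := B) (N := N) hlam d
  exact tendsto_atoms (h := fun ω => Real.exp (ene τ P.f γ G ω)) (spinMeas τ γ B lam d N)
    (isCompact_cut B K N) (ae_mem_cut d) hε a (continuous_exp_ene P G)

theorem mul_freePen (d : OIdx K → ℝ) (f : (Fin K → ℝ) → ℝ) (hN : 0 < N) :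
    N * freePen τ f γ B lam d N
      = ∫ G, Real.log (∫ ω, Real.exp (ene τ f γ G ω) ∂spinMeas τ γ B lam d N) ∂rowsLaw N := by
  rw [freePen, ← mul_assoc, mul_one_div_cancel (Nat.cast_pos.2 hN).ne', one_mul]
  exact integral_congr_ae (ae_of_all _ fun G => congrArg Real.log (integral_spinMeas d _).symm)

/-- With rows of full strength the model tends to the penalised free energy. -/
theorem tendsto_vmfree_rows (hτ : 0 ≤ τ) (hlam : 0 ≤ lam) (d : OIdx K → ℝ) (P : VPot K)
    (hN : 0 < N) (hS : 0 < (spinLaw K N).real (cutSet B K N)) {ε : ℕ → ℝ}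
    (hε : Tendsto ε atTop (𝓝 0))
    {nA : ℕ} (A : Coeffs K nA)
    (a : ∀ W, Atoms (spinMeas τ γ B lam d N) (cutSet B K N) (ε W)) (hL : 0 < L) (J : ℕ)
    {K' n : ℕ} (hn : 0 < n) (Φ : VFac N K K') :
    Tendsto (fun W => vmfree (M := N) n P (penPrior (γ := γ) hτ A (a W) hL J) Φ (rowc 1))
      atTop (𝓝 (N * freePen τ P.f γ B lam d N)) := by
  have := spinMeas_finite (τ := τ) (γ := γ) (B := B) (N := N) hlam d
  have hν : 0 < (spinMeas τ γ B lam d N).real Set.univ :=
    ENNReal.toReal_pos (Measure.measure_univ_ne_zero.2 (spinMeas_ne hlam d hS)) (measure_ne_top _ _)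
  rw [mul_freePen d P.f hN]
  refine Tendsto.congr (fun W => (vmfree_penPrior hτ P A (a W) hL J hn Φ).symm) ?_
  refine tendsto_integral_of_dominated_convergence
    (fun _ => |Real.log ((spinMeas τ γ B lam d N).real Set.univ)| + N * |P.bF|)
    (fun W => (measurable_zAtoms P (a W)).log.aestronglyMeasurable) (integrable_const _)
    (fun W => ae_of_all _ fun G => abs_log_zAtoms P hν (a W) G) (ae_of_all _ fun G => ?_)
  have hb : ∀ ω, |ene τ P.f γ G ω| ≤ N * |P.bF| := fun ω =>
    abs_ene_le (fun y => (P.hF y).trans (le_abs_self _)) γ G ω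
  have hc := continuous_exp_ene (τ := τ) (γ := γ) P G
  refine (tendsto_zAtoms P d hlam hε a G).log ?_
  have hi : Integrable (fun ω => Real.exp (ene τ P.f γ G ω)) (spinMeas τ γ B lam d N) :=
    (integrable_const (Real.exp (N * |P.bF|))).mono' hc.aestronglyMeasurable (ae_of_all _ fun ω => by
      rw [Real.norm_eq_abs, abs_of_pos (Real.exp_pos _)]
      exact Real.exp_le_exp.2 (le_of_abs_le (hb ω)))
  have h : Real.exp (-(N * |P.bF|)) * (spinMeas τ γ B lam d N).real Set.univ
      ≤ ∫ ω, Real.exp (ene τ P.f γ G ω) ∂spinMeas τ γ B lam d N :=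
    le_of_eq_of_le (by simp [mul_comm]) (integral_mono (integrable_const _) hi
      fun ω => Real.exp_le_exp.2 (neg_le_of_abs_le (hb ω)))
  exact ((mul_pos (Real.exp_pos _) hν).trans_le h).ne'

end Limit

end Vale.Agent.P166.Casc
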