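import Vale.Agent.P166.Casc.VTriple

/-!
Expected replica averages of matrix observables.
-/

open MeasureTheory ProbabilityTheory Filter Topology

namespace Vale.Agent.P166.Casc

open Vale.Agent.P157.Casc

variable {d : ℕ}

/-- The sum of the absolute values of the entries. -/
def mabs (A : Matrix (Fin d) (Fin d) ℝ) : ℝ := ∑ k, ∑ l, |A k l|

theorem mabs_nonneg (A : Matrix (Fin d) (Fin d) ℝ) : 0 ≤ mabs A :=
  Finset.sum_nonneg fun _ _ => Finset.sum_nonneg fun _ _ => abs_nonneg _

theorem abs_le_mabs (A : Matrix (Fin d) (Fin d) ℝ) (k l : Fin d) : |A k l| ≤ mabs A :=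
  (Finset.single_le_sum (f := fun l => |A k l|) (fun _ _ => abs_nonneg _) (Finset.mem_univ l)).trans
    (Finset.single_le_sum (f := fun k => ∑ l, |A k l|)
      (fun _ _ => Finset.sum_nonneg fun _ _ => abs_nonneg _) (Finset.mem_univ k))

@[simp] theorem mabs_zero : mabs (0 : Matrix (Fin d) (Fin d) ℝ) = 0 := by simp [mabs]

theorem mabs_add (A B : Matrix (Fin d) (Fin d) ℝ) : mabs (A + B) ≤ mabs A + mabs B := by
  simp only [mabs, Matrix.add_apply, ← Finset.sum_add_distrib]
  exact Finset.sum_le_sum fun k _ => Finset.sum_le_sum fun l _ => abs_add_le _ _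

theorem mabs_neg (A : Matrix (Fin d) (Fin d) ℝ) : mabs (-A) = mabs A := by simp [mabs]

theorem mabs_sub (A B : Matrix (Fin d) (Fin d) ℝ) : mabs (A - B) ≤ mabs A + mabs B := by
  rw [sub_eq_add_neg]
  exact (mabs_add _ _).trans_eq (by rw [mabs_neg])

theorem mabs_sub_comm (A B : Matrix (Fin d) (Fin d) ℝ) : mabs (A - B) = mabs (B - A) := by
  rw [← mabs_neg, neg_sub]

theorem mabs_smul (c : ℝ) (A : Matrix (Fin d) (Fin d) ℝ) : mabs (c • A) = |c| * mabs A := by
  simp [mabs, abs_mul, Finset.mul_sum]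

theorem mabs_transpose (A : Matrix (Fin d) (Fin d) ℝ) : mabs A.transpose = mabs A := by
  simp only [mabs, Matrix.transpose_apply]
  exact Finset.sum_comm

theorem mabs_sum {ι : Type*} (s : Finset ι) (A : ι → Matrix (Fin d) (Fin d) ℝ) :
    mabs (∑ i ∈ s, A i) ≤ ∑ i ∈ s, mabs (A i) := by
  classical
  induction s using Finset.induction_on with
  | empty => simp
  | insert i s hi ih =>
    rw [Finset.sum_insert hi, Finset.sum_insert hi]
    exact (mabs_add _ _).trans (by linarith)

theorem mabs_mul (A B : Matrix (Fin d) (Fin d) ℝ) : mabs (A * B) ≤ mabs A * mabs B := by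
  have h : ∀ k, ∑ l, |(A * B) k l| ≤ ∑ j, |A k j| * mabs B := fun k => by
    refine (Finset.sum_le_sum fun l _ => (Matrix.mul_apply (M := A) (N := B)).symm ▸
      Finset.abs_sum_le_sum_abs _ _).trans ?_
    rw [Finset.sum_comm]
    refine Finset.sum_le_sum fun j _ => ?_
    simp only [abs_mul, ← Finset.mul_sum]
    exact mul_le_mul_of_nonneg_left (Finset.single_le_sum (f := fun j => ∑ l, |B j l|)
      (fun _ _ => Finset.sum_nonneg fun _ _ => abs_nonneg _) (Finset.mem_univ j)) (abs_nonneg _)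
  refine (Finset.sum_le_sum fun k _ => h k).trans_eq ?_
  simp only [mabs, Finset.sum_mul]

theorem mabs_mul_le {A B : Matrix (Fin d) (Fin d) ℝ} {a b : ℝ} (hA : mabs A ≤ a) (hB : mabs B ≤ b) :
    mabs (A * B) ≤ a * b :=
  (mabs_mul A B).trans (mul_le_mul hA hB (mabs_nonneg _) ((mabs_nonneg _).trans hA))

/-- Replacing the outer factors of a product of three matrices. -/
theorem mabs_tri_sub {A A' X B B' : Matrix (Fin d) (Fin d) ℝ} {a x b : ℝ} (hA' : mabs A' ≤ a)
    (hX : mabs X ≤ x) (hB : mabs B ≤ b) :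
    mabs (A * X * B - A' * X * B') ≤ mabs (A - A') * (x * b) + a * x * mabs (B - B') := by
  have e : A * X * B - A' * X * B' = (A - A') * (X * B) + A' * X * (B - B') := by
    simp only [Matrix.sub_mul, Matrix.mul_sub, Matrix.mul_assoc]; abel
  rw [e]
  exact (mabs_add _ _).trans (add_le_add (mabs_mul_le le_rfl (mabs_mul_le hX hB))
    (mabs_mul_le (mabs_mul_le hA' hX) le_rfl))

variable {T Ω : Type*} [Fintype T] [MeasurableSpace Ω]

/-- Expected average of a matrix observable of replicas. -/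
noncomputable def mexp (μ : Measure Ω) (u : Ω → T → ℝ) (n : ℕ)
    (F : Ω → (Fin n → T) → Matrix (Fin d) (Fin d) ℝ) : Matrix (Fin d) (Fin d) ℝ :=
  Matrix.of fun k l => reavg μ u n fun ω x => F ω x k l

/-- A measurable bounded matrix observable. -/
structure MTest {n : ℕ} (F : Ω → (Fin n → T) → Matrix (Fin d) (Fin d) ℝ) (B : ℝ) : Prop where
  meas : ∀ x k l, Measurable fun ω => F ω x k l
  bound : ∀ ω x, mabs (F ω x) ≤ B

section Tests

variable {n : ℕ} {F G : Ω → (Fin n → T) → Matrix (Fin d) (Fin d) ℝ} {A B : ℝ}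

omit [Fintype T] in
theorem MTest.entry (hF : MTest F B) (k l : Fin d) : BTest (fun ω x => F ω x k l) B :=
  ⟨fun x => hF.meas x k l, fun ω x => (abs_le_mabs _ k l).trans (hF.bound ω x)⟩

omit [Fintype T] in
theorem MTest.mono (hF : MTest F A) (h : A ≤ B) : MTest F B :=
  ⟨hF.meas, fun ω x => (hF.bound ω x).trans h⟩

omit [Fintype T] in
theorem MTest.add (hF : MTest F A) (hG : MTest G B) : MTest (fun ω x => F ω x + G ω x) (A + B) :=
  ⟨fun x k l => (hF.meas x k l).add (hG.meas x k l),
    fun ω x => (mabs_add _ _).trans (add_le_add (hF.bound ω x) (hG.bound ω x))⟩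

omit [Fintype T] in
theorem MTest.sub (hF : MTest F A) (hG : MTest G B) : MTest (fun ω x => F ω x - G ω x) (A + B) :=
  ⟨fun x k l => (hF.meas x k l).sub (hG.meas x k l),
    fun ω x => (mabs_sub _ _).trans (add_le_add (hF.bound ω x) (hG.bound ω x))⟩

omit [Fintype T] in
theorem MTest.smul (c : ℝ) (hF : MTest F B) : MTest (fun ω x => c • F ω x) (|c| * B) :=
  ⟨fun x k l => (hF.meas x k l).const_mul c,
    fun ω x => (mabs_smul _ _).trans_le (mul_le_mul_of_nonneg_left (hF.bound ω x) (abs_nonneg _))⟩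

omit [Fintype T] in
theorem MTest.mul (hF : MTest F A) (hG : MTest G B) : MTest (fun ω x => F ω x * G ω x) (A * B) := by
  refine ⟨fun x k l => ?_, fun ω x => mabs_mul_le (hF.bound ω x) (hG.bound ω x)⟩
  simp only [Matrix.mul_apply]
  exact Finset.measurable_sum _ fun j _ => (hF.meas x k j).mul (hG.meas x j l)

omit [Fintype T] in
theorem MTest.ite (P : (Fin n → T) → Prop) [DecidablePred P] (hF : MTest F B) :
    MTest (fun ω x => if P x then F ω x else 0) B := by
  refine ⟨fun x k l => ?_, fun ω x => ?_⟩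
  · by_cases h : P x <;> simp [h, hF.meas x k l]
  · by_cases h : P x
    · simp [h, hF.bound ω x]
    · simpa [h] using (mabs_nonneg _).trans (hF.bound ω x)

omit [Fintype T] in
theorem mtest_const {F : (Fin n → T) → Matrix (Fin d) (Fin d) ℝ} (h : ∀ x, mabs (F x) ≤ B) :
    MTest (fun _ : Ω => F) B :=
  ⟨fun _ _ _ => measurable_const, fun _ x => h x⟩

end Tests

variable {μ : Measure Ω} [IsProbabilityMeasure μ] {u : Ω → T → ℝ} [Nonempty T]
  (hm : ∀ x, Measurable fun ω => u ω x) (hp : ∀ ω x, 0 < u ω x)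
  {n : ℕ} {F G : Ω → (Fin n → T) → Matrix (Fin d) (Fin d) ℝ} {A B : ℝ}

include hm hp

theorem reavg_mono {f g : Ω → (Fin n → T) → ℝ} (hf : BTest f A) (hg : BTest g B)
    (h : ∀ ω x, f ω x ≤ g ω x) : reavg μ u n f ≤ reavg μ u n g :=
  integral_mono (integrable_reavg hm hp hf) (integrable_reavg hm hp hg)
    fun ω => avg_mono' (hp ω) (h ω)

theorem mexp_add (hF : MTest F A) (hG : MTest G B) :
    mexp μ u n (fun ω x => F ω x + G ω x) = mexp μ u n F + mexp μ u n G := by
  ext k l
  exact reavg_add hm hp (hF.entry k l) (hG.entry k l)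

omit hm hp [IsProbabilityMeasure μ] [Nonempty T] in
theorem mexp_smul (c : ℝ) (F : Ω → (Fin n → T) → Matrix (Fin d) (Fin d) ℝ) :
    mexp μ u n (fun ω x => c • F ω x) = c • mexp μ u n F := by
  ext k l
  exact reavg_smul c _

theorem mexp_sub (hF : MTest F A) (hG : MTest G B) :
    mexp μ u n (fun ω x => F ω x - G ω x) = mexp μ u n F - mexp μ u n G := by
  have e : (fun ω x => F ω x - G ω x) = fun ω x => F ω x + (-1 : ℝ) • G ω x := by
    funext ω x; simp [sub_eq_add_neg]
  rw [e, mexp_add hm hp hF (hG.smul (-1)), mexp_smul]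
  simp [sub_eq_add_neg]

theorem mexp_sum {ι : Type*} (s : Finset ι) {F : ι → Ω → (Fin n → T) → Matrix (Fin d) (Fin d) ℝ}
    {B : ι → ℝ} (hF : ∀ i ∈ s, MTest (F i) (B i)) :
    mexp μ u n (fun ω x => ∑ i ∈ s, F i ω x) = ∑ i ∈ s, mexp μ u n (F i) := by
  ext k l
  simp only [Matrix.sum_apply, mexp, Matrix.of_apply]
  exact reavg_sum hm hp s fun i hi => (hF i hi).entry k l

theorem mexp_const_mul (M : Matrix (Fin d) (Fin d) ℝ) (hF : MTest F B) :
    mexp μ u n (fun ω x => M * F ω x) = M * mexp μ u n F := by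
  ext k l
  simp only [mexp, Matrix.mul_apply, Matrix.of_apply, ← reavg_smul]
  have hb : ∀ j, BTest (fun ω x => M k j * F ω x j l) (|M k j| * B) := fun j =>
    ⟨fun x => (hF.meas x j l).const_mul _, fun ω x => (abs_mul _ _).trans_le
      (mul_le_mul_of_nonneg_left ((hF.entry j l).bound ω x) (abs_nonneg _))⟩
  exact reavg_sum hm hp _ fun j _ => hb j

theorem mexp_mul_const (M : Matrix (Fin d) (Fin d) ℝ) (hF : MTest F B) :
    mexp μ u n (fun ω x => F ω x * M) = mexp μ u n F * M := by
  ext k l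
  simp only [mexp, Matrix.mul_apply, Matrix.of_apply]
  have hb : ∀ j, BTest (fun ω x => M j l * F ω x k j) (|M j l| * B) := fun j =>
    ⟨fun x => (hF.meas x k j).const_mul _, fun ω x => (abs_mul _ _).trans_le
      (mul_le_mul_of_nonneg_left ((hF.entry k j).bound ω x) (abs_nonneg _))⟩
  simp only [mul_comm _ (M _ l)]
  rw [reavg_sum hm hp _ fun j _ => hb j]
  exact Finset.sum_congr rfl fun j _ => reavg_smul _ _

omit hm hp [IsProbabilityMeasure μ] [Nonempty T] in
theorem mexp_perm (e : Equiv.Perm (Fin n)) (F : Ω → (Fin n → T) → Matrix (Fin d) (Fin d) ℝ) :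
    mexp μ u n (fun ω x => F ω (x ∘ e)) = mexp μ u n F := by
  ext k l
  exact reavg_perm e fun ω x => F ω x k l

omit hm hp [IsProbabilityMeasure μ] [Nonempty T] in
theorem mexp_transpose (F : Ω → (Fin n → T) → Matrix (Fin d) (Fin d) ℝ) :
    mexp μ u n (fun ω x => (F ω x).transpose) = (mexp μ u n F).transpose := by
  ext k l
  rfl

theorem mabs_mexp_le (hF : MTest F B) :
    mabs (mexp μ u n F) ≤ reavg μ u n fun ω x => mabs (F ω x) := by
  have hb : ∀ k l, BTest (fun ω x => |F ω x k l|) B := fun k l =>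
    ⟨fun x => (hF.meas x k l).abs, fun ω x => by
      rw [abs_abs]; exact (hF.entry k l).bound ω x⟩
  have hs : ∀ k, BTest (fun ω x => ∑ l, |F ω x k l|) B := fun k =>
    ⟨fun x => Finset.measurable_sum _ fun l _ => (hF.meas x k l).abs, fun ω x => by
      rw [abs_of_nonneg (Finset.sum_nonneg fun _ _ => abs_nonneg _)]
      exact (Finset.single_le_sum (f := fun k => ∑ l, |F ω x k l|)
        (fun _ _ => Finset.sum_nonneg fun _ _ => abs_nonneg _) (Finset.mem_univ k)).trans
        (hF.bound ω x)⟩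
  simp only [mabs]
  rw [reavg_sum hm hp _ fun k _ => hs k]
  refine Finset.sum_le_sum fun k _ => ?_
  rw [reavg_sum hm hp _ fun l _ => hb k l]
  refine Finset.sum_le_sum fun l _ => ?_
  rw [mexp, Matrix.of_apply, abs_le]
  have h := hF.entry k l
  constructor
  · have := reavg_smul (μ := μ) (u := u) (n := n) (-1) fun ω x => |F ω x k l|
    have hle := reavg_mono (μ := μ) hm hp (f := fun ω x => -1 * |F ω x k l|) (A := B)
      ⟨fun x => ((hF.meas x k l).abs).const_mul _, fun ω x => by
        simpa using h.bound ω x⟩ h fun ω x => by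
        linarith [neg_abs_le (F ω x k l)]
    linarith
  · exact reavg_mono hm hp h (hb k l) fun ω x => le_abs_self _

/-- Two observables are close in expectation if they are close pointwise. -/
theorem mexp_close (hF : MTest F A) (hG : MTest G B) {e : Ω → (Fin n → T) → ℝ} {E : ℝ}
    (he : BTest e E) (h : ∀ ω x, mabs (F ω x - G ω x) ≤ e ω x) :
    mabs (mexp μ u n F - mexp μ u n G) ≤ reavg μ u n e := by
  rw [← mexp_sub hm hp hF hG]
  refine (mabs_mexp_le hm hp (hF.sub hG)).trans (reavg_mono hm hp (A := A + B) ⟨fun x => ?_,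
    fun ω x => ?_⟩ he h)
  · exact Finset.measurable_sum _ fun k _ => Finset.measurable_sum _ fun l _ =>
      ((hF.meas x k l).sub (hG.meas x k l)).abs
  · rw [abs_of_nonneg (mabs_nonneg _)]
    exact (hF.sub hG).bound ω x

/-- Only the first replicas are seen. -/
theorem reavg_snoc {f : Ω → (Fin n → T) → ℝ} :
    reavg μ u (n + 1) (fun ω x => f ω fun i => x i.castSucc) = reavg μ u n f :=
  integral_congr_ae (Eventually.of_forall fun ω => by
    dsimp only
    rw [avg_snoc']
    simp [← Finset.sum_mul, gibbs_sum' (hp ω)])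

/-- Two observables are close in expectation if a combination of small errors dominates their
difference. -/
theorem mexp_close_sum {ι : Type*} [Fintype ι] (hF : MTest F A) (hG : MTest G B) (c : ι → ℝ)
    (hc : ∀ i, 0 ≤ c i) (f : ι → (Fin n → T) → ℝ) {ε : ℝ}
    (he : ∀ i, reavg μ u n (fun _ => f i) ≤ ε)
    (h : ∀ ω x, mabs (F ω x - G ω x) ≤ ∑ i, c i * f i x) :
    mabs (mexp μ u n F - mexp μ u n G) ≤ ε * ∑ i, c i := by
  have hb : ∀ i, BTest (fun (_ : Ω) x => c i * f i x) (∑ x, |c i * f i x|) := fun i =>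
    bTest_const _ fun x =>
      Finset.single_le_sum (f := fun x => |c i * f i x|) (fun _ _ => abs_nonneg _) (Finset.mem_univ x)
  refine (mexp_close hm hp hF hG (e := fun _ x => ∑ i, c i * f i x)
    (E := ∑ x, |∑ i, c i * f i x|) (bTest_const _ fun x => Finset.single_le_sum
      (f := fun x => |∑ i, c i * f i x|) (fun _ _ => abs_nonneg _) (Finset.mem_univ x)) h).trans ?_
  rw [reavg_sum hm hp _ (fun i _ => hb i), Finset.mul_sum]
  refine Finset.sum_le_sum fun i _ => ?_
  rw [reavg_smul, mul_comm ε]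
  exact mul_le_mul_of_nonneg_left (he i) (hc i)

end Vale.Agent.P166.Casc
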