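import Vale.Agent.P166.Casc.BlockShell
import Vale.Agent.P166.Casc.Prior
import Vale.Agent.P166.Formula.Stable

/-!
The penalised Gaussian spins inside the cut keep an exponentially small mass, at a rate that does
not depend on the strength of the penalty.
-/

open MeasureTheory ProbabilityTheory Filter Topology Matrix

namespace Vale.Agent.P166.Casc

open Vale.Agent.P157.Casc Vale.Agent.P166.Formula Vale.Agent.P166.Pen

/-- The rate of the mass of one shell. -/
noncomputable def shellRate (s : ℕ) (τ κ U : ℝ) : ℝ :=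
  (s : ℝ) ^ 2 / κ + U / τ + s * |Real.log τ| + s / τ + 1

/-- The shell around a definite matrix has exponentially small mass, at a rate free of its width. -/
theorem shell_mass_lower (s : ℕ) {τ es κ U : ℝ} (hτ : 0 < τ) (hes : 0 < es) (hes1 : es ≤ 1)
    (hκ : 0 < κ) (hU : 0 < U) :
    ∃ n0 : ℕ, ∀ n : ℕ, n0 ≤ n → ∀ D : Matrix (Fin s) (Fin s) ℝ, D.transpose = D →
      (D - κ • (1 : Matrix (Fin s) (Fin s) ℝ)).PosSemidef → Casc.mabs D ≤ U →
      Real.exp (-((n : ℝ) * shellRate s τ κ U))
        ≤ (blockGauss s n).real (blockShell τ es D n) := by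
  obtain ⟨n0, h⟩ := block_lower s (B := (s : ℝ) ^ 2 / κ) hτ hes one_pos le_rfl
    (inv_pos.2 hU) one_pos
  refine ⟨n0, fun n hn D hD hlow hup => ?_⟩
  obtain ⟨hpd, hinv⟩ := mabs_inv_le hκ hlow
  have hu := isUnit_iff_ne_zero.2 hpd.det_pos.ne'
  have hm := gridM_levels 0
  have hpath : IsPath 0 (fun _ => (0 : Matrix (Fin s) (Fin s) ℝ)) :=
    ⟨Matrix.PosSemidef.zero, fun l hl => absurd hl (Nat.not_lt_zero l)⟩
  have hT : tT (gridM 0) 0 D (fun _ => 0) 0 = D := by simp [tT_top hm]
  have hL : tLam (gridM 0) 0 D⁻¹ (fun _ => (0 : Matrix (Fin s) (Fin s) ℝ)) 0 = D⁻¹ := by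
    simp [tLam_top hm]
  have hsymm : D.IsHermitian := hpd.isHermitian
  have hc : (D⁻¹ - U⁻¹ • (1 : Matrix (Fin s) (Fin s) ℝ)).PosSemidef := by
    have hP : (U • (1 : Matrix (Fin s) (Fin s) ℝ) + -D).PosSemidef :=
      sub_smul_one_psd hsymm.neg (by
        refine le_trans (le_of_eq ?_) hup
        simp [Casc.mabs])
    have hA : (U • (1 : Matrix (Fin s) (Fin s) ℝ)).PosDef :=
      (Matrix.PosDef.one (n := Fin s) (R := ℝ)).smul hU
    have hAinv : (U • (1 : Matrix (Fin s) (Fin s) ℝ))⁻¹ = U⁻¹ • (1 : Matrix (Fin s) (Fin s) ℝ) :=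
      Matrix.inv_eq_right_inv (by simp [smul_smul, hU.ne'])
    have := inv_antitone hA hpd hP (by abel)
    rwa [hAinv] at this
  obtain ⟨hpos, hlo⟩ := h n hn 0 D⁻¹ D (fun _ => 0) (fun _ => 0) hpath hD
    (fun l hl => by
      obtain rfl := Nat.le_zero.1 hl
      rw [hT, hL, Matrix.nonsing_inv_mul D hu])
    (by simp)
    (fun l hl => by
      obtain rfl := Nat.le_zero.1 hl
      rw [hL]; exact hc)
    (by simp [Casc.mabs]; positivity) hinv (fun l _ _ => rfl)
  have hsmall : ∀ (y : Fin 0 → Fin n × Fin s → ℝ) (g : Fin n → Fin s → ℝ),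
      blockH τ (0 : Matrix (Fin s) (Fin s) ℝ) (blockFac fun _ => 0) y g = 0 := fun y g => by
    refine Finset.sum_eq_zero fun j _ => ?_
    simp [leafW, blockField]
  have hval : blockVal τ es 0 D (fun _ => 0) n
      = Real.log ((blockGauss s n).real (blockShell τ es D n)) := by
    simp only [blockVal, casc, hsmall, Real.exp_zero, integral_const, smul_eq_mul, mul_one,
      measureReal_restrict_apply_univ]
  rw [hval] at hlo
  rw [measureReal_restrict_apply_univ] at hpos
  rw [← Real.le_log_iff_exp_le hpos] at *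
  refine le_trans ?_ hlo
  have hLD : D⁻¹ * D = 1 := Matrix.nonsing_inv_mul D hu
  have hld := P150.Fast.logdet_tangent hpd.inv (Matrix.PosDef.one (n := Fin s) (R := ℝ))
  rw [Matrix.det_one, Real.log_one, inv_one, Matrix.one_mul, Matrix.trace_sub, Matrix.trace_one,
    Fintype.card_fin, Matrix.det_nonsing_inv, Ring.inverse_eq_inv', Real.log_inv] at hld
  have htr := (le_abs_self _).trans ((abs_trace_le D⁻¹).trans hinv)
  have htrD := (le_abs_self _).trans ((abs_trace_le D).trans hup)
  have hsv : spinVal (gridM 0) 0 τ D D⁻¹ (fun _ => 0)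
      = 1 / 2 * (Real.log D.det + s - D.trace / τ - s * Real.log τ) := by
    simp only [spinVal, levelSum, hL, Finset.range_zero, Finset.sum_empty, Matrix.zero_mul,
      Matrix.trace_zero, Matrix.det_nonsing_inv, Ring.inverse_eq_inv', Real.log_inv, hLD,
      Matrix.trace_one, Fintype.card_fin]
    ring
  have h1 : D.trace / τ ≤ U / τ := div_le_div_of_nonneg_right htrD hτ.le
  have h2 : (s : ℝ) * Real.log τ ≤ s * |Real.log τ| :=
    mul_le_mul_of_nonneg_left (le_abs_self _) (Nat.cast_nonneg s)
  have h3 : ((s : ℝ) ^ 2 / κ + s / τ) * es ≤ (s : ℝ) ^ 2 / κ + s / τ :=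
    mul_le_of_le_one_right (by positivity) hes1
  have h4 : 0 ≤ (s : ℝ) ^ 2 / κ := by positivity
  have h5 : 0 ≤ U / τ := by positivity
  have h6 : 0 ≤ (s : ℝ) * |Real.log τ| := by positivity
  have h7 : 0 ≤ (s : ℝ) / τ := by positivity
  have h8 : 0 ≤ (s : ℝ) := Nat.cast_nonneg s
  rw [← mul_neg]
  refine mul_le_mul_of_nonneg_left ?_ (Nat.cast_nonneg n)
  rw [hsv]
  simp only [shellRate]
  linarith

/-- The shells of the types inside the shell of the block, as masses. -/
theorem mass_shellSet {m d : ℕ} (T : Fin m → Finset (Fin d)) {τ es B : ℝ} (hτ : 0 < τ)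
    {D : Finset (Fin d) → Matrix (Fin d) (Fin d) ℝ}
    (hB : (∑ i, actB τ es D (T i)) + 2 * (d * m) ≤ B * m) :
    1 / 2 * ∏ t ∈ Finset.univ.image T, (blockGauss t.card (typSize T t)).real
        (blockShell τ es ((D t).submatrix (comp t) (comp t)) (typSize T t))
      ≤ (spinLaw d m).real (shellSet T τ es B D) := by
  classical
  set TT := Finset.univ.image T
  set sh : (t : Finset (Fin d)) → Set (Fin (typSize T t) → Fin t.card → ℝ) := fun t =>
    blockShell τ es ((D t).submatrix (comp t) (comp t)) (typSize T t)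
  set G : Set (Fin d → Fin m → ℝ) := {ω | inact T ω ≤ 2 * ((d : ℝ) * m)}
  set X := shellSet T τ es B D
  have hGm : MeasurableSet G := measurableSet_le (continuous_inact T).measurable measurable_const
  have hXm : MeasurableSet X := (isClosed_shellSet T τ es B D).measurableSet
  have hshm : ∀ t, MeasurableSet (sh t) := fun t => measurableSet_blockShell τ es _ _
  have key := integral_prod_types T (fun t => (sh t).indicator fun _ => (1 : ℝ))
    (G.indicator fun _ => (1 : ℝ))
    (fun ω ω' hω => by
      have e : inact T ω = inact T ω' := Finset.sum_congr rfl fun i _ =>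
        Finset.sum_congr rfl fun k hk => by rw [hω k i (Finset.mem_sdiff.1 hk).2]
      simp only [Set.indicator_apply, G, Set.mem_ofPred_eq, e])
    (fun t => measurable_const.indicator (hshm t)) (measurable_const.indicator hGm) TT
  simp only [integral_indicator (hshm _), integral_indicator hGm, integral_const, smul_eq_mul,
    mul_one, measureReal_restrict_apply_univ] at key
  refine (mul_le_mul_of_nonneg_right (half_le_inact T)
    (Finset.prod_nonneg fun t _ => measureReal_nonneg)).trans (key.symm.trans_le ?_)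
  have e : (spinLaw d m).real X = ∫ ω, X.indicator (fun _ => (1 : ℝ)) ω ∂spinLaw d m := by
    rw [integral_indicator hXm, setIntegral_const, smul_eq_mul, mul_one]
  rw [e]
  refine integral_mono_of_nonneg (ae_of_all _ fun ω => mul_nonneg
    (Set.indicator_nonneg (fun _ _ => zero_le_one) _)
    (Finset.prod_nonneg fun t _ => Set.indicator_nonneg (fun _ _ => zero_le_one) _))
    ((integrable_const (1 : ℝ)).indicator hXm) (ae_of_all _ fun ω => ?_)
  by_cases hin : ω ∈ G ∧ ∀ t ∈ TT, subG T t ω ∈ sh t
  · have hX : ω ∈ X := mem_shellSet T hτ hB hin.2 hin.1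
    simp only [Set.indicator_of_mem hX, Set.indicator_of_mem hin.1, one_mul]
    rw [Finset.prod_congr rfl fun t ht => Set.indicator_of_mem (hin.2 t ht) _,
      Finset.prod_const_one]
  · refine le_trans (le_of_eq ?_) (Set.indicator_nonneg (fun _ _ => zero_le_one) _)
    show G.indicator (fun _ => (1 : ℝ)) ω
      * ∏ t ∈ TT, (sh t).indicator (fun _ => (1 : ℝ)) (subG T t ω) = 0
    rcases not_and_or.1 hin with hno | hno
    · rw [Set.indicator_of_notMem hno, zero_mul]
    · push Not at hno
      obtain ⟨t, ht, hno⟩ := hno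
      rw [Finset.prod_eq_zero ht (Set.indicator_of_notMem hno _), mul_zero]

variable {N K : ℕ}

/-- The targets of the shells: a table per type, divided by the fraction of the coordinates. -/
noncomputable def centreMat (γ : Fin K → ℝ) (d : OIdx K → ℝ) (N : ℕ) (t : Finset (Fin K)) :
    Matrix (Fin K) (Fin K) ℝ :=
  Matrix.of fun k l => (N : ℝ) / typSize (typ (N := N) γ) t * d (t, k, l)

/-- Near the targets the self-overlaps are near the table. -/
theorem ovl_near {τ es B : ℝ} (hτ : 0 < τ) (hes : 0 ≤ es) {γ : Fin K → ℝ} {d : OIdx K → ℝ}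
    (hd : Clean γ d) (hocc : ∀ t, Occupied γ t → 0 < typSize (typ (N := N) γ) t)
    {ω : Fin K → Fin N → ℝ}
    (hω : ω ∈ shellSet (typ γ) τ es B (centreMat γ d N)) (i : OIdx K) :
    |ovl τ γ ω i - d i| ≤ es := by
  obtain ⟨t, k, l⟩ := i
  by_cases h : Occupied γ t ∧ k ∈ t ∧ l ∈ t
  swap
  · rw [(ovl_clean γ τ ω).2 t k l h, hd.2 t k l h]
    simpa using hes
  obtain ⟨ho, hk, hl⟩ := h
  have hn := hocc t ho
  obtain ⟨j, hj⟩ := Finset.card_pos.1 hn
  have hjt : typ γ j = t := (Finset.mem_filter.1 hj).2
  have hb := hω.2 j k (hjt ▸ hk) l (hjt ▸ hl)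
  rw [hjt] at hb
  set n := typSize (typ (N := N) γ) t
  have hnN : (n : ℝ) ≤ N := Nat.cast_le.2 ((Finset.card_le_univ _).trans_eq (Fintype.card_fin N))
  have hn0 : (0 : ℝ) < n := Nat.cast_pos.2 hn
  have hN0 : (0 : ℝ) < N := hn0.trans_le hnN
  have e : ovl τ γ ω (t, k, l) - d (t, k, l)
      = (n : ℝ) / N * (typeOv (typ γ) τ ω t k l - centreMat γ d N t k l) := by
    have e1 : ∑ j ∈ typSet (typ γ) t, maskCfg (typ γ) τ ω j k * maskCfg (typ γ) τ ω j l
        = τ * ∑ j ∈ Finset.univ.filter (fun j : Fin N => typ γ j = t), ω k j * ω l j := by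
      rw [Finset.mul_sum]
      refine Finset.sum_congr rfl fun j hj => ?_
      have hjt := (Finset.mem_filter.1 hj).2
      simp only [maskCfg, hjt, hk, hl, if_true]
      linear_combination (ω k j * ω l j) * Real.mul_self_sqrt hτ.le
    simp only [ovl, hk, hl, and_self, if_true, typeOv, centreMat, Matrix.of_apply, e1]
    simp only [n] at hn0 ⊢
    field_simp
  rw [e, abs_mul, abs_of_nonneg (div_nonneg hn0.le hN0.le)]
  exact (mul_le_of_le_one_left (abs_nonneg _) ((div_le_one hN0).2 hnN)).trans hb

/-- The penalised spins keep the mass `exp (-C N)`, with `C` free of the penalty. -/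
theorem pen_mass {τ κ L B : ℝ} (hτ : 0 < τ) {γ : Fin K → ℝ}
    (hγ : ∀ k, 0 < γ k ∧ γ k ≤ 1) (hκ : 0 < κ) :
    ∃ C : ℝ, ∀ d, GoodCentre γ κ L d →
      ((∑ t, ∑ k, d (t, k, k)) + K) / τ + 2 * K ≤ B → ∀ lam : ℝ, 0 ≤ lam →
      ∀ᶠ N : ℕ in atTop, Real.exp (-(C * N)) ≤ (spinMeas τ γ B lam d N).real Set.univ := by
  obtain ⟨a, ha, hev⟩ := occupied_count hγ
  set U := (K : ℝ) ^ 2 * (|L| / a) + 1
  have hU : 0 < U := by positivity
  set C0 := shellRate K τ κ U
  refine ⟨C0 + Real.log 2 + Fintype.card (OIdx K), fun d hd hB lam hlam => ?_⟩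
  set es := min 1 (1 / √(lam + 1))
  have hs : 0 < √(lam + 1) := Real.sqrt_pos.2 (by linarith)
  have hes : 0 < es := lt_min one_pos (div_pos one_pos hs)
  have hes1 : es ≤ 1 := min_le_left _ _
  have hes2 : lam * es ^ 2 ≤ 1 := by
    have h1 : es ^ 2 ≤ (1 / √(lam + 1)) ^ 2 := pow_le_pow_left₀ hes.le (min_le_right _ _) 2
    rw [div_pow, one_pow, Real.sq_sqrt (by linarith)] at h1
    have h2 := mul_le_mul_of_nonneg_left h1 hlam
    have h3 : lam * (1 / (lam + 1)) ≤ 1 := by
      rw [mul_one_div, div_le_one (by linarith)]; linarith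
    linarith
  choose n0 hn0 using fun s : Fin (K + 1) => shell_mass_lower s.val hτ hes hes1 hκ hU
  filter_upwards [hev, eventually_gt_atTop 0,
    (tendsto_natCast_atTop_atTop.const_mul_atTop ha).eventually
      (eventually_ge_atTop ((Finset.univ.sup n0 : ℕ) + 1 : ℝ))] with N hN hNp hNbig
  set T : Fin N → Finset (Fin K) := typ γ
  set TT := Finset.univ.image T
  have hocc : ∀ t, Occupied γ t → Finset.univ.sup n0 < typSize T t ∧ a * N ≤ typSize T t :=
    fun t ht => by
      have h1 : a * N ≤ (typSize T t : ℝ) := hN t ht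
      refine ⟨?_, h1⟩
      have : ((Finset.univ.sup n0 : ℕ) : ℝ) < typSize T t := by linarith
      exact_mod_cast this
  have hpos' : ∀ t, Occupied γ t → 0 < typSize T t := fun t ht =>
    (Nat.zero_le _).trans_lt (hocc t ht).1
  have hdiag : ∀ t k, 0 ≤ d (t, k, k) := fun t k => by
    by_cases h : Occupied γ t ∧ k ∈ t ∧ k ∈ t
    · have := hd.2.2 t h.1 (fun l => if l = k then 1 else 0) fun l hl =>
        if_neg fun e => hl (by rw [e]; exact h.2.1)
      simp [apply_ite, ite_mul, mul_ite, Finset.sum_ite_eq'] at this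
      linarith
    · rw [hd.1.2 t k k h]
  have htyp : ∀ t ∈ TT, t = ∅ ∨ Occupied γ t := fun t ht => by
    obtain ⟨j, -, rfl⟩ := Finset.mem_image.1 ht
    exact typ_nonocc γ j
  -- room in the cut
  have hmaps : ∀ i ∈ (Finset.univ : Finset (Fin N)), T i ∈ TT :=
    fun i hi => Finset.mem_image_of_mem T hi
  have hcut : (∑ i, actB τ es (centreMat γ d N) (T i)) + 2 * (K * N) ≤ B * N := by
    have h1 : ∑ i, actB τ es (centreMat γ d N) (T i)
        ≤ (N : ℝ) * (((∑ t, ∑ k, d (t, k, k)) + K) / τ) := by
      have hper : ∀ i, actB τ es (centreMat γ d N) (T i)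
          ≤ ((N : ℝ) / typSize T (T i) * (∑ k, d (T i, k, k)) + K) / τ := fun i => by
        refine div_le_div_of_nonneg_right (add_le_add ?_ ?_) hτ.le
        · simp only [Matrix.trace, Matrix.diag, Matrix.submatrix_apply, centreMat, Matrix.of_apply,
            ← Finset.mul_sum]
          refine mul_le_mul_of_nonneg_left ?_ (by positivity)
          rw [← sum_comp_eq (T i) fun k => d (T i, k, k)]
          exact Finset.sum_le_sum_of_subset_of_nonneg (Finset.subset_univ _)
            fun k _ _ => hdiag _ k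
        · exact (mul_le_of_le_one_right (Nat.cast_nonneg _) hes1).trans
            (Nat.cast_le.2 ((Finset.card_le_univ _).trans_eq (Fintype.card_fin K)))
      refine (Finset.sum_le_sum fun i _ => hper i).trans ?_
      rw [← Finset.sum_div, mul_div_assoc']
      refine div_le_div_of_nonneg_right ?_ hτ.le
      rw [Finset.sum_add_distrib, Finset.sum_const, Finset.card_univ, Fintype.card_fin,
        nsmul_eq_mul, mul_add]
      refine add_le_add ?_ le_rfl
      rw [← Finset.sum_fiberwise_of_maps_to hmaps, Finset.mul_sum]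
      refine (Finset.sum_le_sum fun t _ => ?_).trans (Finset.sum_le_sum_of_subset_of_nonneg
        (Finset.subset_univ TT) fun t _ _ =>
          mul_nonneg (Nat.cast_nonneg N) (Finset.sum_nonneg fun k _ => hdiag t k))
      rw [Finset.sum_congr rfl fun i hi => by rw [(Finset.mem_filter.1 hi).2], Finset.sum_const,
        nsmul_eq_mul]
      show (typSize T t : ℝ) * _ ≤ _
      rcases Nat.eq_zero_or_pos (typSize T t) with h0 | h0
      · rw [h0, Nat.cast_zero, zero_mul]
        exact mul_nonneg (Nat.cast_nonneg N) (Finset.sum_nonneg fun k _ => hdiag t k)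
      · refine le_of_eq ?_
        field_simp
    have h2 := mul_le_mul_of_nonneg_left hB (Nat.cast_nonneg (α := ℝ) N)
    linarith
  -- the shells
  have hshell : ∀ t ∈ TT, Real.exp (-((typSize T t : ℝ) * C0)) ≤
      (blockGauss t.card (typSize T t)).real
        (blockShell τ es ((centreMat γ d N t).submatrix (comp t) (comp t)) (typSize T t)) := by
    intro t ht
    have hC0 : 0 ≤ C0 := by simp only [C0, shellRate]; positivity
    rcases htyp t ht with rfl | ho
    · rw [Set.eq_univ_of_forall fun g => show g ∈ blockShell τ es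
          ((centreMat γ d N ∅).submatrix (comp ∅) (comp ∅)) (typSize T ∅) from
        fun k => k.elim0, probReal_univ]
      exact Real.exp_le_one_iff.2 (neg_nonpos.2 (mul_nonneg (Nat.cast_nonneg _) hC0))
    have hn := hpos' t ho
    have hnR : (0 : ℝ) < typSize T t := Nat.cast_pos.2 hn
    have hnN : (typSize T t : ℝ) ≤ N :=
      Nat.cast_le.2 ((Finset.card_le_univ _).trans_eq (Fintype.card_fin N))
    have hr1 : 1 ≤ (N : ℝ) / typSize T t := by rwa [one_le_div hnR]
    have hr2 : (N : ℝ) / typSize T t ≤ 1 / a := by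
      rw [div_le_div_iff₀ hnR ha, one_mul, mul_comm]
      exact (hocc t ho).2
    set E := (centreMat γ d N t).submatrix (comp t) (comp t)
    have hEs : E.transpose = E := by
      ext b b'
      simp [E, centreMat, hd.1.1 t (comp t b) (comp t b')]
    have hlow : (E - κ • (1 : Matrix (Fin t.card) (Fin t.card) ℝ)).PosSemidef := by
      refine Matrix.PosSemidef.of_dotProduct_mulVec_nonneg ?_ fun x => ?_
      · refine Matrix.IsHermitian.sub ?_ (Matrix.isHermitian_one.smul (IsSelfAdjoint.all κ))
        rw [Matrix.IsHermitian, conjTranspose_eq_transpose_of_trivial, hEs]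
      simp only [star_trivial, Matrix.sub_mulVec, Matrix.smul_mulVec, Matrix.one_mulVec,
        dotProduct_sub, dotProduct_smul, smul_eq_mul, sub_nonneg]
      set v : Fin K → ℝ := fun k => ∑ b, if comp t b = k then x b else 0
      have hv : ∀ b, v (comp t b) = x b := fun b => by
        simp [v, (comp t).injective.eq_iff]
      have hv0 : ∀ k ∉ t, v k = 0 := fun k hk => Finset.sum_eq_zero fun b _ =>
        if_neg fun e => hk (by rw [← e]; exact comp_mem t b)
      have h := hd.2.2 t ho v hv0
      have hred : ∀ F : Fin K → ℝ, (∀ k ∉ t, F k = 0) → ∑ k, F k = ∑ b, F (comp t b) :=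
        fun F hF => by
          rw [← sum_comp_eq t F]
          exact (Finset.sum_subset (Finset.subset_univ t) fun k _ hk => hF k hk).symm
      rw [hred _ fun k hk => by simp [hv0 k hk], hred _ fun k hk => by simp [hv0 k hk]] at h
      simp only [hv] at h
      rw [Finset.sum_congr rfl fun b _ => hred (fun l => x b * v l * d (t, comp t b, l))
        fun l hl => by simp [hv0 l hl]] at h
      simp only [hv] at h
      have e1 : x ⬝ᵥ E *ᵥ x = (N : ℝ) / typSize T t
          * ∑ b, ∑ b', x b * x b' * d (t, comp t b, comp t b') := by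
        simp only [dotProduct, Matrix.mulVec, E, Matrix.submatrix_apply, centreMat,
          Matrix.of_apply, Finset.mul_sum]
        exact Finset.sum_congr rfl fun b _ => Finset.sum_congr rfl fun b' _ => by ring
      have e2 : x ⬝ᵥ x = ∑ b, x b ^ 2 := by simp [dotProduct, pow_two]
      rw [e1, e2]
      have h0 : 0 ≤ κ * ∑ b, x b ^ 2 :=
        mul_nonneg hκ.le (Finset.sum_nonneg fun b _ => sq_nonneg _)
      nlinarith
    have hs : t.card ≤ K := (Finset.card_le_univ _).trans_eq (Fintype.card_fin K)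
    have hup : Casc.mabs E ≤ U := by
      have hb : ∀ b b', |E b b'| ≤ |L| / a := fun b b' => by
        simp only [E, Matrix.submatrix_apply, centreMat, Matrix.of_apply, abs_mul]
        rw [abs_of_nonneg (show (0 : ℝ) ≤ (N : ℝ) / typSize (typ (N := N) γ) t from
          zero_le_one.trans hr1)]
        refine (mul_le_mul hr2 ((hd.2.1 _).trans (le_abs_self L)) (abs_nonneg _)
          (by positivity)).trans_eq ?_
        ring
      have hs' : (t.card : ℝ) ≤ K := Nat.cast_le.2 hs
      refine (Finset.sum_le_sum fun b _ => Finset.sum_le_sum fun b' _ => hb b b').trans ?_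
      simp only [Finset.sum_const, Finset.card_univ, Fintype.card_fin, nsmul_eq_mul, U]
      have h0 : 0 ≤ |L| / a := by positivity
      nlinarith [mul_le_mul hs' hs' (Nat.cast_nonneg _) (Nat.cast_nonneg _)]
    refine le_trans (Real.exp_le_exp.2 (neg_le_neg (mul_le_mul_of_nonneg_left ?_
      (Nat.cast_nonneg _)))) (hn0 ⟨t.card, Nat.lt_succ_of_le hs⟩ (typSize T t)
        ((Finset.le_sup (Finset.mem_univ _)).trans (hocc t ho).1.le) E hEs hlow hup)
    simp only [C0, shellRate]
    have hs' : (t.card : ℝ) ≤ K := Nat.cast_le.2 hs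
    gcongr
  have hmass : Real.exp (-((C0 + Real.log 2) * N))
      ≤ (spinLaw K N).real (shellSet T τ es B (centreMat γ d N)) := by
    refine le_trans ?_ (mass_shellSet T hτ hcut)
    refine le_trans ?_ (mul_le_mul_of_nonneg_left
      (Finset.prod_le_prod (fun t _ => (Real.exp_pos _).le) hshell) (by norm_num))
    have hsumn : ∑ t ∈ TT, (typSize T t : ℝ) = N := by
      rw [← Nat.cast_sum]
      simp only [typSize, typSet]
      rw [← Finset.card_eq_sum_card_fiberwise hmaps]
      simp
    have h2 : (1 : ℝ) / 2 = Real.exp (-Real.log 2) := by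
      rw [Real.exp_neg, Real.exp_log two_pos, one_div]
    rw [← Real.exp_sum, h2, ← Real.exp_add, Real.exp_le_exp, Finset.sum_neg_distrib,
      ← Finset.sum_mul, hsumn]
    have hN1 : (1 : ℝ) ≤ N := Nat.one_le_cast.2 hNp
    nlinarith [Real.log_pos one_lt_two]
  -- the penalty on the shells
  have hfin := spinMeas_finite (τ := τ) (γ := γ) (B := B) (N := N) hlam d
  have hint := integral_spinMeas (τ := τ) (γ := γ) (B := B) (lam := lam) (N := N) d fun _ => 0
  simp only [Real.exp_zero, integral_const, smul_eq_mul, mul_one] at hint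
  rw [hint, zpen]
  have hi := integrable_zpen (π := spinLaw K N) (H := fun _ => 0) (b := 0)
    (κ := lam * N) measurable_const (fun _ => by simp) (measurable_ovl τ γ)
    (mul_nonneg hlam (Nat.cast_nonneg N)) d
  refine le_trans ?_ (setIntegral_mono_set hi.integrableOn (ae_of_all _ fun x => (Real.exp_pos _).le)
    (HasSubset.Subset.eventuallyLE (show shellSet T τ es B (centreMat γ d N) ⊆ cutSet B K N from
      Set.inter_subset_left)))
  refine le_trans ?_ (setIntegral_mono_on (integrableOn_const (measure_ne_top _ _))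
    hi.integrableOn (isClosed_shellSet T τ es B _).measurableSet fun ω hω =>
      show Real.exp (-((Fintype.card (OIdx K) : ℝ) * N)) ≤ _ from Real.exp_le_exp.2 ?_)
  · rw [setIntegral_const, smul_eq_mul]
    refine le_trans (le_of_eq ?_) (mul_le_mul_of_nonneg_right hmass (Real.exp_pos _).le)
    rw [← Real.exp_add]
    congr 1
    ring
  · have h1 : ∑ i, (ovl τ γ ω i - d i) ^ 2 ≤ Fintype.card (OIdx K) * es ^ 2 := by
      refine (Finset.sum_le_sum fun i _ => ?_).trans_eq
        (by rw [Finset.sum_const, Finset.card_univ, nsmul_eq_mul])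
      rw [← sq_abs]
      exact pow_le_pow_left₀ (abs_nonneg _) (ovl_near hτ hes.le hd.1 hpos' hω i) 2
    have h2 : lam * N * ∑ i, (ovl τ γ ω i - d i) ^ 2 ≤ Fintype.card (OIdx K) * N := by
      refine (mul_le_mul_of_nonneg_left h1 (mul_nonneg hlam (Nat.cast_nonneg N))).trans ?_
      have h3 := mul_le_mul_of_nonneg_left hes2
        (show 0 ≤ (Fintype.card (OIdx K) : ℝ) * N by positivity)
      linarith
    linarith

end Vale.Agent.P166.Casc
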