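import Vale.Agent.P157.Casc.Limit
import Vale.Agent.P166.Casc.VSegment

/-!
The vector model along converging variances: the limit of the free energy as the degree of the
tree grows is the cascade recursion of the factors of the leaves.
-/

open MeasureTheory ProbabilityTheory Filter Topology

namespace Vale.Agent.P166.Casc

open Vale.Agent.P157.Casc

variable {N M d R D K : ℕ}

/-- The cascade value of the vector model: the limit free energy. -/
noncomputable def vcasc (P : VPot d) (π : VPrior N d R D) (Φ : VFac N d K)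
    (c : VCIdx N M d R D K → ℝ) : ℝ :=
  ∫ z, casc (gaus (VLIdx N M d R D)) K (mlev K) (fun y => Real.log (vleafY P π Φ c z y))
    ∂gaus (VRIdx N M d R D)

theorem vleafY_conv_const (P : VPot d) (π : VPrior N d R D) (Φ : VFac N d K)
    (c : VCIdx N M d R D K → ℝ) : ∃ A : ℝ, Conv (gaus (VRIdx N M d R D))
      (gaus (VLIdx N M d R D)) (fun _ => vleafY P π Φ c) (vleafY P π Φ c)
      fun z y => A * vabsSum z y :=
  vleafY_conv P π Φ (c := fun _ => c) (cl := c) (B := ∑ i, |c i|)
    (fun _ i => Finset.single_le_sum (f := fun i => |c i|) (fun i _ => abs_nonneg _)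
      (Finset.mem_univ i)) tendsto_const_nhds

theorem integrable_casc_vleafY (P : VPot d) (π : VPrior N d R D) (Φ : VFac N d K)
    (c : VCIdx N M d R D K → ℝ) :
    Integrable (fun z => casc (gaus (VLIdx N M d R D)) K (mlev K)
      fun y => Real.log (vleafY P π Φ c z y)) (gaus (VRIdx N M d R D)) := by
  obtain ⟨A, hA⟩ := vleafY_conv_const P π Φ c
  exact integrable_casc (grid_mlev K) hA

/-- The free energy in root and label coordinates. -/
theorem vmfree_logS (P : VPot d) (π : VPrior N d R D) (Φ : VFac N d K) {n : ℕ} (hn : 0 < n)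
    (c : VCIdx N M d R D K → ℝ) :
    vmfree n P π Φ c = (∫ z, ∫ W, ∫ ξ, logS (mlev K) (vleafY P π Φ c z) W ξ
      ∂casX K n (gaus (VLIdx N M d R D)) ∂casW (mlev K) n ∂gaus (VRIdx N M d R D))
        - cst (mlev K) n := by
  obtain ⟨A, hA⟩ := vleafY_conv_const P π Φ c
  have hi := integrable_logS (grid_mlev K) hn hA
  rw [vmfree, integral_venv]
  · simp only [log_sum_vmbw_join]
  · exact (Finset.measurable_sum _ fun st _ =>
      (continuous_vmbw P π Φ c st).measurable).log.aestronglyMeasurable
  · simpa only [log_sum_vmbw_join] using hi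

theorem tendsto_vmfree (P : VPot d) (π : VPrior N d R D) (Φ : VFac N d K)
    {c : ℕ → VCIdx N M d R D K → ℝ} {cl : VCIdx N M d R D K → ℝ}
    (hc : Tendsto c atTop (𝓝 cl)) {nn : ℕ → ℕ} (hn : Tendsto nn atTop atTop) :
    Tendsto (fun k => vmfree (nn k) P π Φ (c k)) atTop (𝓝 (vcasc P π Φ cl)) := by
  obtain ⟨B, hB⟩ := hc.norm.bddAbove_range
  obtain ⟨A, hA⟩ := vleafY_conv P π Φ (fun k i =>
    ((Real.norm_eq_abs _).symm.trans_le (norm_le_pi_norm (c k) i)).trans (hB ⟨k, rfl⟩)) hc
  refine (casc_limit (grid_mlev K) hA hn).congr' ?_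
  filter_upwards [hn.eventually (eventually_gt_atTop 0)] with k hk
  exact (vmfree_logS P π Φ hk (c k)).symm

/-- The limit free energy is continuous in the variances. -/
theorem tendsto_vcasc (P : VPot d) (π : VPrior N d R D) (Φ : VFac N d K)
    {c : ℕ → VCIdx N M d R D K → ℝ} {cl : VCIdx N M d R D K → ℝ}
    (hc : Tendsto c atTop (𝓝 cl)) :
    Tendsto (fun k => vcasc P π Φ (c k)) atTop (𝓝 (vcasc P π Φ cl)) := by
  rw [Metric.tendsto_atTop]
  intro ε hε
  by_contra! h
  choose φ hφ1 hφ2 using h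
  have hφ : Tendsto φ atTop atTop := tendsto_atTop_mono hφ1 tendsto_id
  have hex : ∀ k, ∃ n, k ≤ n ∧
      dist (vmfree n P π Φ (c (φ k))) (vcasc P π Φ (c (φ k))) < ε / 2 := fun k =>
    (((eventually_ge_atTop k).and ((Metric.tendsto_nhds.1 (tendsto_vmfree P π Φ
      (tendsto_const_nhds (x := c (φ k))) tendsto_id)) _ (half_pos hε))).exists)
  choose nn hn1 hn2 using hex
  obtain ⟨k, hk⟩ := ((Metric.tendsto_nhds.1 (tendsto_vmfree P π Φ (hc.comp hφ)
    (tendsto_atTop_mono hn1 tendsto_id))) _ (half_pos hε)).exists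
  have := hn2 k
  have := hφ2 k
  have := dist_triangle_left (vcasc P π Φ (c (φ k))) (vcasc P π Φ cl)
    (vmfree (nn k) P π Φ (c (φ k)))
  simp only [Function.comp_apply] at hk
  linarith

end Vale.Agent.P166.Casc
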