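import Vale.Agent.P166.Casc.VPertCost
import Vale.Agent.P166.Casc.VMLimit
import Vale.Agent.P166.Casc.Prior

/-!
Two Gaussian systems on the same states whose fields of the rows have the same covariances: the free
energies differ by at most half the difference of the covariances of the linear fields. Priors whose
sums of leaf factors are comparable have comparable free energies.
-/

open MeasureTheory ProbabilityTheory Filter Topology Set

namespace Vale.Agent.P166.Casc

open Vale.Agent.P157.Casc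

section Abstract

variable {T I J : Type*} [Fintype T] [Nonempty T] [Fintype I] [Fintype J] {M d : ℕ} (P : VPot d)
  (b1 : Fin M → Fin d → T → I → ℝ) (b2 : Fin M → Fin d → T → J → ℝ) (z1 q1 : T → I → ℝ)
  (z2 q2 : T → J → ℝ)

omit [Fintype T] [Nonempty T] in
theorem lin_sum_left (v1 : T → I → ℝ) (v2 : T → J → ℝ) (l : I → ℝ) (G : I ⊕ J → ℝ) (x : T) :
    lin (fun x => Sum.elim (v1 x) (v2 x)) (Sum.elim l 0) G x
      = lin v1 l (fun i => G (Sum.inl i)) x := by
  simp [lin, Fintype.sum_sum_type]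

omit [Fintype T] [Nonempty T] in
theorem lin_sum_right (v1 : T → I → ℝ) (v2 : T → J → ℝ) (l : J → ℝ) (G : I ⊕ J → ℝ) (x : T) :
    lin (fun x => Sum.elim (v1 x) (v2 x)) (Sum.elim 0 l) G x
      = lin v2 l (fun i => G (Sum.inr i)) x := by
  simp [lin, Fintype.sum_sum_type]

theorem vfree_sum_left {w : T → ℝ} (hw : ∀ x, 0 < w x) (l : I → ℝ) :
    vfree P w (fun a k x => Sum.elim (b1 a k x) (b2 a k x)) (fun x => Sum.elim (z1 x) (z2 x))
        (fun x => Sum.elim (q1 x) (q2 x)) (Sum.elim l 0)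
      = vfree P w b1 z1 q1 l := by
  have hmp : MeasurePreserving (fun (G : I ⊕ J → ℝ) i => G (Sum.inl i)) (gaus (I ⊕ J)) (gaus I) :=
    P157.mp_comp (gaussianReal 0 1) Sum.inl_injective
  have hh : ∀ G x, vbw P w (fun a k x => Sum.elim (b1 a k x) (b2 a k x))
        (fun x => Sum.elim (z1 x) (z2 x)) (fun x => Sum.elim (q1 x) (q2 x)) (Sum.elim l 0) G x
      = vbw P w b1 z1 q1 l (fun i => G (Sum.inl i)) x := fun G x => by
    have hf : ∀ a, vfld (fun a k x => Sum.elim (b1 a k x) (b2 a k x)) (Sum.elim l 0) G x a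
        = vfld b1 l (fun i => G (Sum.inl i)) x a :=
      fun a => funext fun k => lin_sum_left (b1 a k) (b2 a k) l G x
    simp only [vbw, vham, hf, lin_sum_left, Fintype.sum_sum_type, Sum.elim_inl, Sum.elim_inr,
      Pi.zero_apply, zero_mul, Finset.sum_const_zero, add_zero]
  simp only [vfree, hh]
  rw [← hmp.map_eq, integral_map hmp.measurable.aemeasurable]
  exact (by rw [hmp.map_eq]; exact (VItp.integrable_vlog P b1 z1 q1 hw l).aestronglyMeasurable)

theorem vfree_sum_right {w : T → ℝ} (hw : ∀ x, 0 < w x) (l : J → ℝ) :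
    vfree P w (fun a k x => Sum.elim (b1 a k x) (b2 a k x)) (fun x => Sum.elim (z1 x) (z2 x))
        (fun x => Sum.elim (q1 x) (q2 x)) (Sum.elim 0 l)
      = vfree P w b2 z2 q2 l := by
  have hmp : MeasurePreserving (fun (G : I ⊕ J → ℝ) i => G (Sum.inr i)) (gaus (I ⊕ J)) (gaus J) :=
    P157.mp_comp (gaussianReal 0 1) Sum.inr_injective
  have hh : ∀ G x, vbw P w (fun a k x => Sum.elim (b1 a k x) (b2 a k x))
        (fun x => Sum.elim (z1 x) (z2 x)) (fun x => Sum.elim (q1 x) (q2 x)) (Sum.elim 0 l) G x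
      = vbw P w b2 z2 q2 l (fun i => G (Sum.inr i)) x := fun G x => by
    have hf : ∀ a, vfld (fun a k x => Sum.elim (b1 a k x) (b2 a k x)) (Sum.elim 0 l) G x a
        = vfld b2 l (fun i => G (Sum.inr i)) x a :=
      fun a => funext fun k => lin_sum_right (b1 a k) (b2 a k) l G x
    simp only [vbw, vham, hf, lin_sum_right, Fintype.sum_sum_type, Sum.elim_inl, Sum.elim_inr,
      Pi.zero_apply, zero_mul, Finset.sum_const_zero, zero_add]
  simp only [vfree, hh]
  rw [← hmp.map_eq, integral_map hmp.measurable.aemeasurable]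
  exact (by rw [hmp.map_eq]; exact (VItp.integrable_vlog P b2 z2 q2 hw l).aestronglyMeasurable)

/-- Equal covariances of the rows and close covariances of the linear fields give close free
energies. -/
theorem vfree_compare (hD1 : VDisj b1 z1) (hD2 : VDisj b2 z2) {w : T → ℝ} (hw : ∀ x, 0 < w x)
    {l1 : I → ℝ} {l2 : J → ℝ} (h1 : ∀ i, 0 ≤ l1 i) (h2 : ∀ i, 0 ≤ l2 i)
    (hb : ∀ a k l x y, bcov b1 l1 a k l x y = bcov b2 l2 a k l x y) {η : ℝ}
    (hz : ∀ x y, |(∑ i, l1 i * (z1 x i * z1 y i)) - ∑ i, l2 i * (z2 x i * z2 y i)| ≤ η)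
    (hq : ∀ x, ∑ i, l1 i * q1 x i = ∑ i, l2 i * q2 x i) :
    |vfree P w b1 z1 q1 l1 - vfree P w b2 z2 q2 l2| ≤ η / 2 := by
  set b := fun a k x => Sum.elim (b1 a k x) (b2 a k x) with hbdef
  set z := fun x => Sum.elim (z1 x) (z2 x) with hzdef
  set q := fun x => Sum.elim (q1 x) (q2 x) with hqdef
  have hD : VDisj b z := by
    refine ⟨fun a a' h k l x y i => ?_, fun a k x y i => ?_⟩ <;> rcases i with i | i
    · exact hD1.orth a a' h k l x y i
    · exact hD2.orth a a' h k l x y i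
    · exact hD1.orthz a k x y i
    · exact hD2.orthz a k x y i
  set l0 : I ⊕ J → ℝ := Sum.elim l1 0 with hl0
  set δ : I ⊕ J → ℝ := Sum.elim (fun i => -l1 i) l2 with hδ
  have hpos : ∀ _ : Unit, ∀ t ∈ Icc (0 : ℝ) 1, ∀ i, 0 ≤ l0 i + t * δ i := fun _ t ht i => by
    rcases i with i | i
    · simp only [hl0, hδ, Sum.elim_inl]
      have := mul_nonneg (sub_nonneg.2 ht.2) (h1 i)
      linarith
    · simp only [hl0, hδ, Sum.elim_inr, Pi.zero_apply, zero_add]
      exact mul_nonneg ht.1 (h2 i)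
  obtain ⟨t, -, he⟩ := vfree_avg_mvt P b z q hD (Measure.dirac ()) (w := fun _ => w)
    (fun x => measurable_const) (fun _ => hw) (integrable_const _) (l0 := fun _ => l0)
    (fun i => measurable_const) (R := ∑ i, |l0 i|)
    (fun _ i => Finset.single_le_sum (f := fun i => |l0 i|) (fun _ _ => abs_nonneg _)
      (Finset.mem_univ i)) hpos
  simp only [integral_dirac] at he
  have e1 : (fun i => l0 i + δ i) = Sum.elim (0 : I → ℝ) l2 := funext fun i => by
    rcases i with i | i <;> simp [hl0, hδ]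
  rw [e1, hl0, hbdef, hzdef, hqdef, vfree_sum_left P b1 b2 z1 q1 z2 q2 hw,
    vfree_sum_right P b1 b2 z1 q1 z2 q2 hw] at he
  have hcov : ∀ a k l x y, bcov b δ a k l x y = 0 := fun a k l x y => by
    have := hb a k l x y
    simp only [bcov] at this
    simp only [bcov, hδ, hbdef, Fintype.sum_sum_type, Sum.elim_inl, Sum.elim_inr, neg_mul,
      Finset.sum_neg_distrib]
    linarith
  have hk : ∀ lam G x y, |vkern P b z q lam δ G x y| ≤ η := fun lam G x y => by
    have e2 : ∑ i, δ i * q x i = 0 := by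
      have := hq x
      simp only [hδ, hqdef, Fintype.sum_sum_type, Sum.elim_inl, Sum.elim_inr, neg_mul,
        Finset.sum_neg_distrib]
      linarith
    have e3 : ∑ i, δ i * (z x i * z y i)
        = (∑ i, l2 i * (z2 x i * z2 y i)) - ∑ i, l1 i * (z1 x i * z1 y i) := by
      simp only [hδ, hzdef, Fintype.sum_sum_type, Sum.elim_inl, Sum.elim_inr, neg_mul,
        Finset.sum_neg_distrib]
      ring
    simp only [vkern, vgrad, vdiag, hcov, zero_mul, Finset.sum_const_zero, zero_add, sub_zero, e2,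
      e3, mul_zero]
    rw [abs_sub_comm]
    exact hz x y
  rw [abs_sub_comm, he, abs_mul, show |(-(1 / 2) : ℝ)| = 1 / 2 by norm_num]
  have hle : ∀ lam, |vpair P w b z q lam (vkern P b z q lam δ)| ≤ η := fun lam => by
    rw [vpair, ← Real.norm_eq_abs]
    refine (norm_integral_le_of_norm_le_const (C := η) (ae_of_all _ fun G => ?_)).trans_eq (by simp)
    rw [Real.norm_eq_abs]
    exact Itp.abs_avg2_le (VItp.vbw_pos P b z q hw _ G) (hk _ G)
  linarith [hle fun i => l0 i + t * δ i]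

end Abstract

section Model

variable {N M d R D D' K n : ℕ}

/-- The same configurations and weights with other kernels. -/
def withKer (π : VPrior N d R D) (k : Fin R → Fin π.c → Fin D' → ℝ)
    (hk : ∀ κ σ, ∑ j, k κ σ j ^ 2 = 1) : VPrior N d R D' where
  c := π.c
  c_pos := π.c_pos
  w := π.w
  cfg := π.cfg
  ker := k
  w_pos := π.w_pos
  ker_unit := hk

/-- The covariance of all perturbation fields, from the overlaps of the kernels and the level. -/
noncomputable def pertCov (K D J : ℕ) (x : Fin R → ℕ → ℝ) (r : Fin R → ℝ) (u : ℕ) : ℝ :=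
  ∑ κ, ∑ j ∈ Finset.univ.filter (fun j : Fin D => j.val < J),
    (amp J j * x κ j) ^ 2 * ((r κ + 3 * (u : ℝ)) / ((3 * K + 1 : ℕ) : ℝ)) ^ (j.val + 1)

theorem bcov_pert (π : VPrior N d R D) (Φ : VFac N d K) (J : ℕ) (x : Fin R → ℕ → ℝ) (a : Fin M)
    (k l : Fin d) (st st' : VState π K n) :
    bcov (vbpat π Φ) (vpull fun i => rowc 1 i + vpert J x i) a k l st st'
      = (∑ j, π.cfg st.1 j k * π.cfg st'.1 j l) / N := by
  rw [bcov, cov_vbpat]
  simp [rowc, vfldc, vpert]

theorem bz_pert (π : VPrior N d R D) (Φ : VFac N d K) (J : ℕ) (x : Fin R → ℕ → ℝ)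
    (st st' : VState π K n) :
    ∑ i, vpull (fun i => (rowc 1 : VCIdx N M d R D K → ℝ) i + vpert J x i) i
        * (vbspin π Φ st i * vbspin π Φ st' i)
      = pertCov K D J x (fun κ => vkerov π κ st st') (com st.2 st'.2) := by
  rw [cov_vbspin]
  simp only [rowc, vfldc, zero_add, pertCov]
  rw [show ∑ l ∈ Finset.Iic (com st.2 st'.2), ∑ s, ∑ j : Fin N, ∑ r,
      (vpert J x : VCIdx N M d R D K → ℝ) (Sum.inr (l, Sum.inr (Sum.inl (s, j, r)))) *
        ((∑ k, π.cfg st.1 j k * Φ.2.1 s j l k r) * ∑ k, π.cfg st'.1 j k * Φ.2.1 s j l k r) = 0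
    by simp [vpert], zero_add]
  exact Finset.sum_congr rfl fun κ _ => cov_vpert π J x κ st st'

theorem qd_pert (π : VPrior N d R D) (Φ : VFac N d K) (J : ℕ) (x : Fin R → ℕ → ℝ)
    (st : VState π K n) :
    ∑ i, vpull (fun i => (rowc 1 : VCIdx N M d R D K → ℝ) i + vpert J x i) i * vqd π Φ st i = 0 := by
  rw [sum_vqd]
  simp [rowc, vfldc, vpert]

theorem rowc_pert_nonneg (J : ℕ) (x : Fin R → ℕ → ℝ) (i : VCIdx N M d R D K) :
    0 ≤ rowc (M := M) 1 i + vpert J x i := by
  refine add_nonneg ?_ (vpert_nonneg J x i)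
  rcases i with (p | p) | ⟨o, u | u | u⟩ <;> simp [rowc, vfldc]

/-- With rows and perturbations only, the free energy moves with the covariance of the
perturbations. -/
theorem vmfree_withKer (P : VPot d) (π : VPrior N d R D) (k : Fin R → Fin π.c → Fin D' → ℝ)
    (hk : ∀ κ σ, ∑ j, k κ σ j ^ 2 = 1) (Φ Φ' : VFac N d K) (hn : 0 < n) (J J' : ℕ)
    (x x' : Fin R → ℕ → ℝ) {η : ℝ}
    (h : ∀ (σ σ' : Fin π.c) (u : Fin (K + 1)),
      |pertCov K D J x (fun κ => ∑ j, π.ker κ σ j * π.ker κ σ' j) u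
        - pertCov K D' J' x' (fun κ => ∑ j, k κ σ j * k κ σ' j) u| ≤ η) :
    |vmfree (M := M) n P π Φ (fun i => rowc 1 i + vpert J x i)
      - vmfree (M := M) n P (withKer π k hk) Φ' (fun i => rowc 1 i + vpert J' x' i)| ≤ η / 2 := by
  have := vstate_nonempty (K := K) π hn
  set c1 : VCIdx N M d R D K → ℝ := fun i => rowc 1 i + vpert J x i with hc1
  set c2 : VCIdx N M d R D' K → ℝ := fun i => rowc 1 i + vpert J' x' i with hc2
  set π' := withKer π k hk
  obtain ⟨i1, e1⟩ := vmfree_eq (n := n) (M := M) P π Φ hn c1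
  obtain ⟨i2, e2⟩ := vmfree_eq (n := n) (M := M) P π' Φ' hn c2
  rw [e1, e2, sub_sub_sub_cancel_right, ← integral_sub i1 i2, ← Real.norm_eq_abs]
  refine (norm_integral_le_of_norm_le_const (C := η / 2) (ae_of_all _ fun W => ?_)).trans_eq
    (by simp)
  rw [Real.norm_eq_abs]
  have hnn : ∀ i : VGIdx N M d R D K n, 0 ≤ vpull c1 i := fun i => by
    rcases i with p | ⟨o, p⟩ <;> exact rowc_pert_nonneg J x _
  have hnn' : ∀ i : VGIdx N M d R D' K n, 0 ≤ vpull c2 i := fun i => by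
    rcases i with p | ⟨o, p⟩ <;> exact rowc_pert_nonneg J' x' _
  refine vfree_compare (T := VState π K n) P (vbpat π Φ) (vbpat π' Φ') (vbspin π Φ) (vqd π Φ)
    (vbspin π' Φ') (vqd π' Φ') (vdisj π Φ) (vdisj π' Φ') (vpwt_pos π W) hnn hnn'
    (fun a k l st st' => ?_) (fun st st' => ?_) (fun st => ?_)
  · exact (bcov_pert π Φ J x a k l st st').trans (bcov_pert π' Φ' J' x' a k l st st').symm
  · simp only [hc1, hc2]
    rw [bz_pert π Φ J x st st', bz_pert π' Φ' J' x' st st']
    exact h st.1 st'.1 (com st.2 st'.2)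
  · simp only [hc1, hc2]
    rw [qd_pert π Φ J x st, qd_pert π' Φ' J' x' st]

theorem vcasc_withKer (P : VPot d) (π : VPrior N d R D) (k : Fin R → Fin π.c → Fin D' → ℝ)
    (hk : ∀ κ σ, ∑ j, k κ σ j ^ 2 = 1) (Φ Φ' : VFac N d K) (J J' : ℕ)
    (x x' : Fin R → ℕ → ℝ) {η : ℝ}
    (h : ∀ (σ σ' : Fin π.c) (u : Fin (K + 1)),
      |pertCov K D J x (fun κ => ∑ j, π.ker κ σ j * π.ker κ σ' j) u
        - pertCov K D' J' x' (fun κ => ∑ j, k κ σ j * k κ σ' j) u| ≤ η) :
    |vcasc (M := M) P π Φ (fun i => rowc 1 i + vpert J x i)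
      - vcasc (M := M) P (withKer π k hk) Φ' (fun i => rowc 1 i + vpert J' x' i)| ≤ η / 2 := by
  have hn : Tendsto (fun m : ℕ => m + 1) atTop atTop := tendsto_add_atTop_nat 1
  exact le_of_tendsto
    ((tendsto_vmfree P π Φ tendsto_const_nhds hn).sub
      (tendsto_vmfree P (withKer π k hk) Φ' tendsto_const_nhds hn)).abs
    (Eventually.of_forall fun m => vmfree_withKer P π k hk Φ Φ' m.succ_pos J J' x x' h)

/-- The energy of a state only involves its configuration and its kernels. -/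
theorem vham_congr_cfg (P : VPot d) (π π' : VPrior N d R D) (Φ : VFac N d K)
    (c : VCIdx N M d R D K → ℝ) (G : VGIdx N M d R D K n → ℝ) {σ : Fin π.c} {σ' : Fin π'.c}
    (hcfg : π.cfg σ = π'.cfg σ') (hker : ∀ κ, π.ker κ σ = π'.ker κ σ') (α : Leaf K n) :
    vham P (vbpat π Φ) (vbspin π Φ) (vqd π Φ) (vpull c) G (σ, α)
      = vham P (vbpat π' Φ) (vbspin π' Φ) (vqd π' Φ) (vpull c) G (σ', α) := by
  have h1 : ∀ a k, (vbpat π Φ a k (σ, α) : VGIdx N M d R D K n → ℝ) = vbpat π' Φ a k (σ', α) :=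
    fun a k => by
      funext i
      rcases i with (⟨a', j⟩ | j) | ⟨o, p⟩ <;> simp [vbpat, treeDir, rowZ, hcfg, rowL]
  have h2 : (vbspin π Φ (σ, α) : VGIdx N M d R D K n → ℝ) = vbspin π' Φ (σ', α) := by
    funext i
    rcases i with p | ⟨o, u | u | u⟩ <;> simp [vbspin, treeDir, spinL, hcfg, hker]
  have h3 : (vqd π Φ (σ, α) : VGIdx N M d R D K n → ℝ) = vqd π' Φ (σ', α) := by
    funext i
    rcases i with (p | p) | ⟨o, p⟩ <;> simp [vqd, treeDir, tiltQ, hcfg]
  have h4 : ∀ a, vfld (vbpat π Φ) (vpull c) G (σ, α) a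
      = vfld (vbpat π' Φ) (vpull c) G (σ', α) a := fun a => by
    funext k
    simp only [vfld, lin, h1 a k]
  simp only [vham, lin, h4, h2, h3]

/-- Comparable sums over the configurations give comparable free energies. -/
theorem vmfree_le_of_sums (P : VPot d) (π π' : VPrior N d R D) (Φ : VFac N d K) (hn : 0 < n)
    (c : VCIdx N M d R D K → ℝ) {C : ℝ}
    (h : ∀ (G : VGIdx N M d R D K n → ℝ) (α : Leaf K n),
      ∑ σ, π.w σ * Real.exp (vham P (vbpat π Φ) (vbspin π Φ) (vqd π Φ) (vpull c) G (σ, α))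
        ≤ Real.exp C * ∑ σ, π'.w σ *
            Real.exp (vham P (vbpat π' Φ) (vbspin π' Φ) (vqd π' Φ) (vpull c) G (σ, α))) :
    vmfree n P π Φ c ≤ C + vmfree n P π' Φ c := by
  have := vstate_nonempty (K := K) π hn
  have := vstate_nonempty (K := K) π' hn
  obtain ⟨i1, e1⟩ := vmfree_eq (n := n) P π Φ hn c
  obtain ⟨i2, e2⟩ := vmfree_eq (n := n) P π' Φ hn c
  rw [e1, e2, ← add_sub_assoc]
  refine sub_le_sub_right ((integral_mono i1 ((integrable_const C).add i2) fun W => ?_).trans_eq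
    ((integral_add (integrable_const _) i2).trans (by simp))) _
  have j1 := VItp.integrable_vlog P (vbpat π Φ) (vbspin π Φ) (vqd π Φ) (vpwt_pos π W) (vpull c)
  have j2 := VItp.integrable_vlog P (vbpat π' Φ) (vbspin π' Φ) (vqd π' Φ) (vpwt_pos π' W)
    (vpull c)
  simp only [vfree, Pi.add_apply]
  refine (integral_mono j1 ((integrable_const C).add j2) fun G => ?_).trans_eq
    ((integral_add (integrable_const _) j2).trans (by simp))
  have e : ∀ π0 : VPrior N d R D,
      ∑ st, vbw P (vpwt π0 W) (vbpat π0 Φ) (vbspin π0 Φ) (vqd π0 Φ) (vpull c) G st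
        = ∑ α, P157.Casc.wgt (mlev K) (posV W) α * ∑ σ, π0.w σ *
            Real.exp (vham P (vbpat π0 Φ) (vbspin π0 Φ) (vqd π0 Φ) (vpull c) G (σ, α)) :=
    fun π0 => by
      rw [Fintype.sum_prod_type, Finset.sum_comm]
      simp only [vbw, vpwt, vstw, Finset.mul_sum]
      exact Finset.sum_congr rfl fun α _ => Finset.sum_congr rfl fun σ _ => by ring
  have hp1 : 0 < ∑ st, vbw P (vpwt π W) (vbpat π Φ) (vbspin π Φ) (vqd π Φ) (vpull c) G st :=
    Finset.sum_pos (fun st _ => VItp.vbw_pos P _ _ _ (vpwt_pos π W) _ G st) Finset.univ_nonempty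
  have hp2 : 0 < ∑ st, vbw P (vpwt π' W) (vbpat π' Φ) (vbspin π' Φ) (vqd π' Φ) (vpull c) G st :=
    Finset.sum_pos (fun st _ => VItp.vbw_pos P _ _ _ (vpwt_pos π' W) _ G st) Finset.univ_nonempty
  simp only [Pi.add_apply]
  rw [← Real.log_exp C, ← Real.log_mul (Real.exp_pos C).ne' hp2.ne']
  refine Real.log_le_log hp1 ?_
  rw [e π, e π', Finset.mul_sum]
  exact Finset.sum_le_sum fun α _ => (mul_le_mul_of_nonneg_left (h G α)
    (P157.Casc.wgt_pos _ (posV_pos W) α).le).trans_eq (by ring)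

theorem vcasc_le_of_sums (P : VPot d) (π π' : VPrior N d R D) (Φ : VFac N d K)
    (c : VCIdx N M d R D K → ℝ) {C : ℝ}
    (h : ∀ (n : ℕ) (G : VGIdx N M d R D K n → ℝ) (α : Leaf K n),
      ∑ σ, π.w σ * Real.exp (vham P (vbpat π Φ) (vbspin π Φ) (vqd π Φ) (vpull c) G (σ, α))
        ≤ Real.exp C * ∑ σ, π'.w σ *
            Real.exp (vham P (vbpat π' Φ) (vbspin π' Φ) (vqd π' Φ) (vpull c) G (σ, α))) :
    vcasc P π Φ c ≤ C + vcasc P π' Φ c :=
  le_of_tendsto_of_tendsto' (tendsto_vmfree P π Φ tendsto_const_nhds (tendsto_add_atTop_nat 1))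
    ((tendsto_vmfree P π' Φ tendsto_const_nhds (tendsto_add_atTop_nat 1)).const_add C)
    fun m => vmfree_le_of_sums P π π' Φ m.succ_pos c (h (m + 1))

end Model

end Vale.Agent.P166.Casc
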