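import Vale.Agent.P166.Casc.VStep
import Vale.Agent.P166.Casc.VGlueCmp
import Vale.Agent.P166.Casc.PenMass

/-!
Telescoping the cavity steps: a lower bound for the free energy of the penalised spins with rows
from the statement that every block of sites raises it by a given amount per site.
-/

open MeasureTheory ProbabilityTheory Filter Topology Set

namespace Vale.Agent.P166.Casc

open Vale.Agent.P157.Casc Vale.Agent.P166.Pen

variable {d N M R K : ℕ} {τ B lam : ℝ} {γ : Fin d → ℝ} {dd : OIdx d → ℝ}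

theorem ae_vxlaw_mem (R J : ℕ) : ∀ᵐ y ∂vxlaw R J, ∀ p, y p ∈ Icc (1 : ℝ) 2 :=
  eventually_all.2 fun _ => Measure.tendsto_eval_ae_ae.eventually (ae_restrict_mem measurableSet_Icc)

/-- Energy of the rows. -/
noncomputable def rowsEne (τ : ℝ) (f : (Fin d → ℝ) → ℝ) (γ : Fin d → ℝ) (G : Fin M × Fin N → ℝ)
    (ω : Fin d → Fin N → ℝ) : ℝ :=
  ∑ a, f fun k => ∑ j, cfgOf τ γ ω j k / √(N : ℝ) * G (a, j)

theorem abs_rowsEne_le (P : VPot d) (G : Fin M × Fin N → ℝ) (ω : Fin d → Fin N → ℝ) :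
    |rowsEne τ P.f γ G ω| ≤ M * |P.bF| :=
  ((Finset.abs_sum_le_sum_abs _ _).trans (Finset.sum_le_sum fun a _ =>
    (P.hF _).trans (le_abs_self _))).trans_eq (by simp)

theorem continuous_rowsEne (P : VPot d) :
    Continuous fun p : (Fin M × Fin N → ℝ) × (Fin d → Fin N → ℝ) => rowsEne τ P.f γ p.1 p.2 := by
  refine continuous_finsetSum _ fun a _ => P.cf.comp' (continuous_pi fun k =>
    continuous_finsetSum _ fun j _ => ?_)
  refine ((Continuous.div_const ?_ _)).mul (((continuous_apply (a, j)).comp continuous_fst))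
  unfold cfgOf
  split_ifs <;> fun_prop

theorem rowsFree_eq (P : VPot d) (M N : ℕ) :
    rowsFree τ P.f γ B lam dd M N = ∫ G : Fin M × Fin N → ℝ,
      Real.log (∫ ω, Real.exp (rowsEne τ P.f γ G ω) ∂spinMeas τ γ B lam dd N)
        ∂gaus (Fin M × Fin N) := rfl

section Mass

variable (hlam : 0 ≤ lam) (hpos : 0 < (spinMeas τ γ B lam dd N).real Set.univ) (P : VPot d)
include hlam hpos

theorem log_rowsInt_mem (G : Fin M × Fin N → ℝ) :
    Integrable (fun ω => Real.exp (rowsEne τ P.f γ G ω)) (spinMeas τ γ B lam dd N) ∧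
    0 < ∫ ω, Real.exp (rowsEne τ P.f γ G ω) ∂spinMeas τ γ B lam dd N ∧
    |Real.log (∫ ω, Real.exp (rowsEne τ P.f γ G ω) ∂spinMeas τ γ B lam dd N)|
      ≤ |Real.log ((spinMeas τ γ B lam dd N).real Set.univ)| + M * |P.bF| := by
  have := spinMeas_finite (τ := τ) (γ := γ) (B := B) (N := N) hlam dd
  set ν := spinMeas τ γ B lam dd N
  have hc : Continuous fun ω : Fin d → Fin N → ℝ => Real.exp (rowsEne τ P.f γ G ω) :=
    Real.continuous_exp.comp ((continuous_rowsEne P).comp (f := fun ω => (G, ω))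
      (continuous_const.prodMk continuous_id))
  have hi : Integrable (fun ω => Real.exp (rowsEne τ P.f γ G ω)) ν :=
    (integrable_const (Real.exp (M * |P.bF|))).mono' hc.aestronglyMeasurable (ae_of_all _ fun ω => by
      rw [Real.norm_eq_abs, abs_of_pos (Real.exp_pos _)]
      exact Real.exp_le_exp.2 (le_of_abs_le (abs_rowsEne_le P G ω)))
  have h1 : Real.exp (-(M * |P.bF|)) * ν.real Set.univ
      ≤ ∫ ω, Real.exp (rowsEne τ P.f γ G ω) ∂ν :=
    le_of_eq_of_le (by simp [mul_comm]) (integral_mono (integrable_const _) hi fun ω =>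
      Real.exp_le_exp.2 (neg_le_of_abs_le (abs_rowsEne_le P G ω)))
  have h2 : ∫ ω, Real.exp (rowsEne τ P.f γ G ω) ∂ν ≤ Real.exp (M * |P.bF|) * ν.real Set.univ :=
    le_of_le_of_eq (integral_mono hi (integrable_const _) fun ω =>
      Real.exp_le_exp.2 (le_of_abs_le (abs_rowsEne_le P G ω))) (by simp [mul_comm])
  have hp := (mul_pos (Real.exp_pos _) hpos).trans_le h1
  refine ⟨hi, hp, ?_⟩
  have l1 := Real.log_le_log (mul_pos (Real.exp_pos _) hpos) h1
  have l2 := Real.log_le_log hp h2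
  rw [Real.log_mul (Real.exp_pos _).ne' hpos.ne', Real.log_exp] at l1 l2
  exact abs_le.2 ⟨by linarith [neg_abs_le (Real.log (ν.real Set.univ))],
    by linarith [le_abs_self (Real.log (ν.real Set.univ))]⟩

theorem integrable_rowsInt :
    Integrable (fun G : Fin M × Fin N → ℝ =>
      Real.log (∫ ω, Real.exp (rowsEne τ P.f γ G ω) ∂spinMeas τ γ B lam dd N))
      (gaus (Fin M × Fin N)) := by
  have := spinMeas_finite (τ := τ) (γ := γ) (B := B) (N := N) hlam dd
  have hm : Measurable fun G : Fin M × Fin N → ℝ =>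
      Real.log (∫ ω, Real.exp (rowsEne τ P.f γ G ω) ∂spinMeas τ γ B lam dd N) :=
    ((Real.continuous_exp.comp (continuous_rowsEne P)).measurable.stronglyMeasurable.integral_prod_right'
      (ν := spinMeas τ γ B lam dd N)).measurable.log
  exact (integrable_const _).mono' hm.aestronglyMeasurable
    (ae_of_all _ fun G => (Real.norm_eq_abs _).trans_le (log_rowsInt_mem hlam hpos P G).2.2)

/-- Changing the number of rows. -/
theorem abs_rowsFree_add (k : ℕ) :
    |rowsFree τ P.f γ B lam dd (M + k) N - rowsFree τ P.f γ B lam dd M N| ≤ k * |P.bF| := by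
  have := spinMeas_finite (τ := τ) (γ := γ) (B := B) (N := N) hlam dd
  set ν := spinMeas τ γ B lam dd N
  have hmp : MeasurePreserving
      (fun (G : Fin (M + k) × Fin N → ℝ) (p : Fin M × Fin N) => G (Fin.castAdd k p.1, p.2))
      (gaus (Fin (M + k) × Fin N)) (gaus (Fin M × Fin N)) :=
    P157.mp_comp (gaussianReal 0 1) fun p q h => by
      obtain ⟨h1, h2⟩ := Prod.ext_iff.1 h
      exact Prod.ext (Fin.castAdd_injective _ _ h1) h2
  have hi := integrable_rowsInt (M := M) hlam hpos P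
  have e : rowsFree τ P.f γ B lam dd M N = ∫ G : Fin (M + k) × Fin N → ℝ,
      Real.log (∫ ω, Real.exp (rowsEne τ P.f γ (fun p : Fin M × Fin N =>
        G (Fin.castAdd k p.1, p.2)) ω) ∂ν) ∂gaus (Fin (M + k) × Fin N) := by
    rw [rowsFree_eq, ← hmp.map_eq, integral_map hmp.measurable.aemeasurable
      (by rw [hmp.map_eq]; exact hi.aestronglyMeasurable)]
  have hi' : Integrable (fun G : Fin (M + k) × Fin N → ℝ =>
      Real.log (∫ ω, Real.exp (rowsEne τ P.f γ (fun p : Fin M × Fin N =>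
        G (Fin.castAdd k p.1, p.2)) ω) ∂ν)) (gaus (Fin (M + k) × Fin N)) :=
    hmp.integrable_comp_of_integrable hi
  rw [e, rowsFree_eq, ← integral_sub (integrable_rowsInt hlam hpos P) hi', ← Real.norm_eq_abs]
  refine (norm_integral_le_of_norm_le_const (C := k * |P.bF|) (ae_of_all _ fun G => ?_)).trans_eq
    (by simp)
  rw [Real.norm_eq_abs]
  set G' : Fin M × Fin N → ℝ := fun p => G (Fin.castAdd k p.1, p.2)
  obtain ⟨i2, p2, -⟩ := log_rowsInt_mem hlam hpos P G
  obtain ⟨i1, p1, -⟩ := log_rowsInt_mem hlam hpos P G'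
  have hd : ∀ ω, |rowsEne τ P.f γ G ω - rowsEne τ P.f γ G' ω| ≤ k * |P.bF| := fun ω => by
    simp only [rowsEne, Fin.sum_univ_add, G', add_sub_cancel_left]
    exact ((Finset.abs_sum_le_sum_abs _ _).trans (Finset.sum_le_sum fun a _ =>
      (P.hF _).trans (le_abs_self _))).trans_eq (by simp)
  have h1 : Real.exp (-(k * |P.bF|)) * ∫ ω, Real.exp (rowsEne τ P.f γ G' ω) ∂ν
      ≤ ∫ ω, Real.exp (rowsEne τ P.f γ G ω) ∂ν := by
    rw [← integral_const_mul]
    refine integral_mono (i1.const_mul _) i2 fun ω => ?_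
    rw [← Real.exp_add, Real.exp_le_exp]
    linarith [(abs_le.1 (hd ω)).1]
  have h2 : ∫ ω, Real.exp (rowsEne τ P.f γ G ω) ∂ν
      ≤ Real.exp (k * |P.bF|) * ∫ ω, Real.exp (rowsEne τ P.f γ G' ω) ∂ν := by
    rw [← integral_const_mul]
    refine integral_mono i2 (i1.const_mul _) fun ω => ?_
    rw [← Real.exp_add, Real.exp_le_exp]
    linarith [(abs_le.1 (hd ω)).2]
  have l1 := Real.log_le_log (mul_pos (Real.exp_pos _) p1) h1
  have l2 := Real.log_le_log p2 h2
  rw [Real.log_mul (Real.exp_pos _).ne' p1.ne', Real.log_exp] at l1 l2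
  exact abs_le.2 ⟨by linarith, by linarith⟩

theorem abs_rowsFree_sub (M M' : ℕ) :
    |rowsFree τ P.f γ B lam dd M N - rowsFree τ P.f γ B lam dd M' N|
      ≤ |(M : ℝ) - M'| * |P.bF| := by
  rcases Nat.le_total M M' with h | h <;> obtain ⟨k, rfl⟩ := Nat.exists_eq_add_of_le h
  · rw [abs_sub_comm, abs_sub_comm (M : ℝ), Nat.cast_add, add_sub_cancel_left, Nat.abs_cast]
    exact abs_rowsFree_add hlam hpos P k
  · rw [Nat.cast_add, add_sub_cancel_left, Nat.abs_cast]
    exact abs_rowsFree_add hlam hpos P k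

end Mass

section Atoms

variable {ε : ℝ} {L : ℕ} (hτ : 0 ≤ τ) (P : VPot d)

/-- With rows only, the model is the average over the atoms. -/
theorem vmfree_rowc_pen {ν : Measure (Fin d → Fin N → ℝ)} (a : Atoms ν (cutSet B d N) ε)
    (hL : 0 < L) (J : ℕ) {nA n : ℕ} (A : Coeffs d nA) (hn : 0 < n) (Φ : VFac N d K) :
    vmfree (M := M) n P (penPrior (γ := γ) hτ A a hL J) Φ (rowc 1)
      = ∫ G : Fin M × Fin N → ℝ, Real.log (∑ σ, a.w σ * Real.exp (rowsEne τ P.f γ G (a.x σ)))
          ∂gaus (Fin M × Fin N) := by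
  rw [vmfree_rows P _ Φ hn 1]
  refine integral_congr_ae (ae_of_all _ fun G => congrArg Real.log ?_)
  have h := sum_penPrior (γ := γ) hτ A a hL (J := J) fun x _ => Real.exp (∑ i, P.f fun k =>
    ∑ j, √(1 : ℝ) * (x j k / √(N : ℝ)) * G (i, j))
  refine h.trans ?_
  rw [Finset.sum_const, Finset.card_univ, Fintype.card_fin, nsmul_eq_mul, ← mul_assoc,
    mul_one_div_cancel (Nat.cast_pos.2 hL).ne', one_mul]
  refine Finset.sum_congr rfl fun σ _ => ?_
  simp only [rowsEne, Real.sqrt_one, one_mul]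

/-- The perturbations cost little at every value of the parameters, hence in the mean. -/
theorem wAvg_close (a : Atoms (spinMeas τ γ B lam dd N) (cutSet B d N) ε) (hL : 0 < L) (J : ℕ) :
    |wAvg hτ P γ K M a hL J - ∫ G : Fin M × Fin N → ℝ,
        Real.log (∑ σ, a.w σ * Real.exp (rowsEne τ P.f γ G (a.x σ))) ∂gaus (Fin M × Fin N)|
      ≤ vpertBd (nker d (d * d)) N 2 := by
  set Z := ∫ G : Fin M × Fin N → ℝ, Real.log (∑ σ, a.w σ * Real.exp (rowsEne τ P.f γ G (a.x σ)))
    ∂gaus (Fin M × Fin N)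
  set π := penPrior (γ := γ) hτ (basicCoeffs d) a hL J
  set F := fun y : Fin (nker d (d * d)) × Fin N → ℝ =>
    vcasc P π (noFac N d K) (vsys (rowc (M := M) 1) y) with hF
  have hb0 : 0 ≤ vpertBd (nker d (d * d)) N 2 := by unfold vpertBd; positivity
  have hb : ∀ᵐ y ∂vxlaw (nker d (d * d)) N, |F y - Z| ≤ vpertBd (nker d (d * d)) N 2 := by
    filter_upwards [ae_vxlaw_mem (nker d (d * d)) N] with y hy
    refine le_of_tendsto ((tendsto_vmfree P π (noFac N d K) tendsto_const_nhds
      (tendsto_add_atTop_nat 1)).sub_const Z).abs (Eventually.of_forall fun k => ?_)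
    have hc : ∀ i, 0 ≤ (rowc (M := M) 1 : VCIdx N M d (nker d (d * d)) (N + L + J) K → ℝ) i :=
      fun i => by rcases i with (p | p) | ⟨o, u | u | u⟩ <;> simp [rowc, vfldc]
    have h := vmfree_pert (n := k + 1) P π (noFac N d K) k.succ_pos hc N (x := vext y) (X := 2)
      fun κ j => by
        unfold vext
        split_ifs with hj
        · exact abs_le.2 ⟨by linarith [(hy (κ, ⟨j, hj⟩)).1], (hy (κ, ⟨j, hj⟩)).2⟩
        · simp
    rw [vmfree_rowc_pen hτ P a hL J (basicCoeffs d) k.succ_pos (noFac N d K)] at h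
    exact h.trans (by linarith)
  have hc : Continuous F := by
    refine SeqContinuous.continuous fun u y hu => tendsto_vcasc P π (noFac N d K) ?_
    exact ((continuous_vsys.comp (f := fun y => ((rowc (M := M) 1), y))
      (continuous_const.prodMk continuous_id)).tendsto y).comp hu
  have hi : Integrable F (vxlaw (nker d (d * d)) N) :=
    (integrable_const (|Z| + vpertBd (nker d (d * d)) N 2)).mono' hc.aestronglyMeasurable
      (hb.mono fun y hy => by
        rw [Real.norm_eq_abs]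
        linarith [abs_sub_abs_le_abs_sub (F y) Z])
  have e : wAvg hτ P γ K M a hL J - Z = ∫ y, (F y - Z) ∂vxlaw (nker d (d * d)) N := by
    rw [integral_sub hi (integrable_const _), integral_const, probReal_univ, one_smul]
    rfl
  rw [e, ← Real.norm_eq_abs]
  refine (norm_integral_le_of_norm_le_const (C := vpertBd (nker d (d * d)) N 2)
    (hb.mono fun y hy => ?_)).trans_eq (by simp)
  rwa [Real.norm_eq_abs]

/-- The padding of the features is invisible. -/
theorem wAvg_pad (a : Atoms (spinMeas τ γ B lam dd N) (cutSet B d N) ε) (hL : 0 < L) (J J' : ℕ) :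
    wAvg hτ P γ K M a hL J = wAvg hτ P γ K M a hL J' := by
  refine integral_congr_ae (ae_of_all _ fun y => ?_)
  set k : Fin (nker d (d * d)) → Fin (a.c * L) → Fin (N + L + J') → ℝ := fun κ σ =>
    kerFeat τ B γ J' (basicCoeffs d) (a.x (finProdFinEquiv.symm σ).1) (finProdFinEquiv.symm σ).2 κ
  have hk : ∀ κ σ, ∑ j, k κ σ j ^ 2 = 1 := fun κ σ =>
    kfeat_unit hτ (a.mem _) _ _ ((basicCoeffs d).l1 _)
  have hfilt : ∀ (J : ℕ) (r : ℕ → ℝ),
      ∑ j ∈ Finset.univ.filter (fun j : Fin (N + L + J) => j.val < N), r j.val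
        = ∑ j ∈ Finset.range N, r j := fun J r => by
    refine Finset.sum_bij (fun j _ => j.val) (fun j hj => ?_) (fun i _ j _ h => Fin.ext h)
      (fun j hj => ⟨⟨j, by rw [Finset.mem_range] at hj; omega⟩, ?_, rfl⟩) fun j _ => rfl
    · simpa using hj
    · simpa using hj
  have h := vcasc_withKer (M := M) P (penPrior (γ := γ) hτ (basicCoeffs d) a hL J) k hk
    (noFac N d K) (noFac N d K) N N (vext y) (vext y) (η := 0) fun σ σ' u => by
      refine le_of_eq ?_
      rw [abs_eq_zero, sub_eq_zero]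
      refine Finset.sum_congr rfl fun κ _ => ?_
      have ek : (∑ j, (penPrior (γ := γ) hτ (basicCoeffs d) a hL J).ker κ σ j
          * (penPrior (γ := γ) hτ (basicCoeffs d) a hL J).ker κ σ' j)
          = ∑ j, k κ σ j * k κ σ' j :=
        (sum_kfeat_mul _ _ _ _ _ _).trans (sum_kfeat_mul _ _ _ _ _ _).symm
      simp only [ek]
      exact (hfilt J fun j => (amp N j * vext y κ j) ^ 2 *
        ((∑ i, k κ σ i * k κ σ' i + 3 * ((u : ℕ) : ℝ)) / ((3 * K + 1 : ℕ) : ℝ)) ^ (j + 1)).trans
        (hfilt J' _).symm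
  rw [zero_div, abs_nonpos_iff, sub_eq_zero] at h
  exact h

end Atoms

/-- The atoms with a larger fineness. -/
def Atoms.coarsen {E : Type*} [PseudoMetricSpace E] [MeasurableSpace E] [BorelSpace E]
    {ν : Measure E} {S : Set E} {ε ε' : ℝ} (a : Atoms ν S ε) (h : ε ≤ ε') : Atoms ν S ε' :=
  { a with close := fun y hy => (a.close y hy).trans h }

/-- Every chain of steps gives fine atoms of the larger system with the summed gain. -/
theorem exists_chain (hτ : 0 ≤ τ) (hlam : 0 ≤ lam) (P : VPot d) {α G : ℝ} {m L N : ℕ}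
    (hL : 0 < L) (hpos : 0 < (spinMeas τ γ B lam dd N).real Set.univ) (hB : 0 ≤ B) {Z : ℝ}
    (hZ : ∀ (ε : ℝ) (a : Atoms (spinMeas τ γ B lam dd N) (cutSet B d N) ε),
      Z ≤ wAvg hτ P γ K (rowsN α N) a hL 0) :
    ∀ j, (∀ i < j, StepUp hτ P γ B lam dd α K m (N + i * m) L G) → ∀ δ : ℝ, 0 < δ →
      ∃ (ε : ℝ) (a : Atoms (spinMeas τ γ B lam dd (N + j * m)) (cutSet B d (N + j * m)) ε),
        ε ≤ δ ∧ Z + j * m * G ≤ wAvg hτ P γ K (rowsN α (N + j * m)) a hL 0
  | 0, _, δ, hδ => by
    rw [Nat.zero_mul, Nat.add_zero]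
    have := spinMeas_finite (τ := τ) (γ := γ) (B := B) (N := N) hlam dd
    have hne : spinMeas τ γ B lam dd N ≠ 0 := fun h => by simp [h] at hpos
    obtain ⟨a⟩ := exists_atoms _ hne (isCompact_cut B d N) ⟨0, zero_mem_cut hB⟩ hδ
    exact ⟨δ, a, le_rfl, by simpa using hZ δ a⟩
  | j + 1, hs, δ, hδ => by
    obtain ⟨J', δ0, hδ0, h⟩ := hs j j.lt_succ_self hL 0 δ hδ
    obtain ⟨ε, a, hε, ha⟩ := exists_chain hτ hlam P hL hpos hB hZ j
      (fun i hi => hs i (hi.trans j.lt_succ_self)) δ0 hδ0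
    obtain ⟨ε', a', hε', ha'⟩ := h ε a hε
    rw [show N + (j + 1) * m = N + j * m + m by ring]
    refine ⟨ε', a', hε', ?_⟩
    rw [wAvg_pad hτ P a' hL 0 J']
    push_cast
    linarith

/-- **Telescoping.** Steps of gain `G` per site give a free energy of at least `G` per site. -/
theorem lower_of_steps {α G : ℝ} (hτ : 0 ≤ τ) (hB : 0 ≤ B) (hlam : 0 ≤ lam) (hα : 0 ≤ α)
    (P : VPot d) {K m N0 : ℕ} (hm : 0 < m)
    (hmass : ∃ C : ℝ, ∀ᶠ N : ℕ in atTop,
      Real.exp (-(C * N)) ≤ (spinMeas τ γ B lam dd N).real Set.univ)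
    (h : ∀ N ≥ N0, ∃ L0 : ℕ, ∀ L ≥ L0, StepUp hτ P γ B lam dd α K m N L G) :
    ∀ η : ℝ, 0 < η → ∃ κ : ℝ, 0 < κ ∧ ∀ᶠ N : ℕ in atTop, ∀ M : ℕ, |(M : ℝ) - α * N| ≤ κ * N →
      (G - η) * N ≤ rowsFree τ P.f γ B lam dd M N := by
  intro η hη
  obtain ⟨C, hC⟩ := hmass
  obtain ⟨Nc, hNc⟩ := eventually_atTop.1 hC
  have hpos : ∀ N ≥ Nc, 0 < (spinMeas τ γ B lam dd N).real Set.univ := fun N hN =>
    (Real.exp_pos _).trans_le (hNc N hN)
  set R := nker d (d * d)
  set b := |P.bF|
  set N1 := max N0 Nc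
  set c0 : ℝ := (N1 + m : ℕ) * (|C| + α * b + |G|) + vpertBd R (N1 + m) 2 + b with hc0
  refine ⟨η / (4 * (b + 1)), by positivity, ?_⟩
  have hlim : Tendsto (fun N : ℕ => (c0 + vpertBd R N 2) / (N : ℝ)) atTop (𝓝 0) := by
    have h1 : Tendsto (fun N : ℕ => c0 / (N : ℝ)) atTop (𝓝 0) :=
      tendsto_const_nhds.div_atTop tendsto_natCast_atTop_atTop
    have h2 : Tendsto (fun N : ℕ => (R : ℝ) * (4 / 3) * (N : ℝ) ^ (-(1 / 4 : ℝ))) atTop (𝓝 0) := by
      simpa using ((tendsto_rpow_neg_atTop (by norm_num : (0 : ℝ) < 1 / 4)).comp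
        tendsto_natCast_atTop_atTop).const_mul ((R : ℝ) * (4 / 3))
    have h3 := h1.add h2
    rw [add_zero] at h3
    refine h3.congr' ?_
    filter_upwards [eventually_gt_atTop 0] with N hN
    have hN' : (0 : ℝ) < N := Nat.cast_pos.2 hN
    have e : (N : ℝ) ^ (-(1 / 4 : ℝ)) = (N : ℝ) ^ ((3 : ℝ) / 4) / N := by
      rw [show (-(1 / 4 : ℝ)) = 3 / 4 - 1 by norm_num, Real.rpow_sub_one hN'.ne']
    simp only [e, hc0, vpertBd]
    ring
  filter_upwards [eventually_ge_atTop (N1 + m),
    hlim.eventually (eventually_le_nhds (half_pos hη))] with N hN hsmall M hM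
  have hNpos : (0 : ℝ) < N := Nat.cast_pos.2 (by omega)
  set j := (N - N1) / m
  set Ns := N1 + (N - N1) % m
  have hNs : Ns + j * m = N := by
    have := Nat.mod_add_div (N - N1) m
    simp only [Ns, j, Nat.mul_comm ((N - N1) / m) m]
    omega
  have hNs1 : Nc ≤ Ns := le_trans (le_max_right _ _) (Nat.le_add_right _ _)
  have hNsB : Ns ≤ N1 + m := Nat.add_le_add_left (Nat.mod_lt _ hm).le _
  have hNs0 : N0 ≤ Ns := le_trans (le_max_left _ _) (Nat.le_add_right _ _)
  choose L0 hL0 using fun i : Fin j => h (Ns + i.val * m) (hNs0.trans (Nat.le_add_right _ _))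
  set L := (Finset.univ.sup L0) + 1
  have hL : 0 < L := Nat.succ_pos _
  have hsteps : ∀ i < j, StepUp hτ P γ B lam dd α K m (Ns + i * m) L G := fun i hi =>
    hL0 ⟨i, hi⟩ L ((Finset.le_sup (Finset.mem_univ _)).trans (Nat.le_succ _))
  -- the crude start
  set Z := -(((N1 + m : ℕ) : ℝ) * (|C| + α * b)) - vpertBd R (N1 + m) 2
  have hZ : ∀ (ε : ℝ) (a : Atoms (spinMeas τ γ B lam dd Ns) (cutSet B d Ns) ε),
      Z ≤ wAvg hτ P γ K (rowsN α Ns) a hL 0 := fun ε a => by
    have hp := hpos Ns hNs1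
    set Mr := rowsN α Ns
    have hMr : (Mr : ℝ) ≤ α * Ns := Nat.floor_le (by positivity)
    have hsum : ∑ σ, a.w σ = (spinMeas τ γ B lam dd Ns).real Set.univ := by
      simpa using a.repr fun _ => 1
    have hl : ∀ G' : Fin Mr × Fin Ns → ℝ, -(C * Ns) - Mr * b
        ≤ Real.log (∑ σ, a.w σ * Real.exp (rowsEne τ P.f γ G' (a.x σ))) := fun G' => by
      have h1 : Real.exp (-(C * Ns) - Mr * b)
          ≤ ∑ σ, a.w σ * Real.exp (rowsEne τ P.f γ G' (a.x σ)) := by
        rw [sub_eq_add_neg, Real.exp_add]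
        refine (mul_le_mul_of_nonneg_right ((hNc Ns hNs1).trans_eq hsum.symm)
          (Real.exp_pos _).le).trans ?_
        rw [Finset.sum_mul]
        exact Finset.sum_le_sum fun σ _ => mul_le_mul_of_nonneg_left
          (Real.exp_le_exp.2 (neg_le_of_abs_le (abs_rowsEne_le P G' _))) (a.w_pos σ).le
      simpa using Real.log_le_log (Real.exp_pos _) h1
    have hint : -(C * Ns) - Mr * b ≤ ∫ G' : Fin Mr × Fin Ns → ℝ,
        Real.log (∑ σ, a.w σ * Real.exp (rowsEne τ P.f γ G' (a.x σ))) ∂gaus (Fin Mr × Fin Ns) := by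
      refine le_of_eq_of_le (by simp) (integral_mono (integrable_const (-(C * Ns) - Mr * b)) ?_ hl)
      have hm' : Measurable fun G' : Fin Mr × Fin Ns → ℝ =>
          Real.log (∑ σ, a.w σ * Real.exp (rowsEne τ P.f γ G' (a.x σ))) :=
        (Finset.measurable_sum _ fun σ _ => ((Real.continuous_exp.comp ((continuous_rowsEne P).comp
          (f := fun G' => (G', a.x σ)) (continuous_id.prodMk continuous_const))).measurable.const_mul
            _)).log
      refine (integrable_const (|C * Ns| + |Real.log (∑ σ, a.w σ)| + Mr * b)).mono'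
        hm'.aestronglyMeasurable (ae_of_all _ fun G' => ?_)
      have hne : Nonempty (Fin a.c) := ⟨⟨0, a.c_pos⟩⟩
      have hw : 0 < ∑ σ, a.w σ := Finset.sum_pos (fun σ _ => a.w_pos σ) Finset.univ_nonempty
      have h2 : ∑ σ, a.w σ * Real.exp (rowsEne τ P.f γ G' (a.x σ))
          ≤ (∑ σ, a.w σ) * Real.exp (Mr * b) := by
        rw [Finset.sum_mul]
        exact Finset.sum_le_sum fun σ _ => mul_le_mul_of_nonneg_left
          (Real.exp_le_exp.2 (le_of_abs_le (abs_rowsEne_le P G' _))) (a.w_pos σ).le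
      have l2 := Real.log_le_log (Finset.sum_pos
        (fun σ _ => mul_pos (a.w_pos σ) (Real.exp_pos _)) Finset.univ_nonempty) h2
      rw [Real.log_mul hw.ne' (Real.exp_pos _).ne', Real.log_exp] at l2
      rw [Real.norm_eq_abs, abs_le]
      constructor <;> linarith [hl G', le_abs_self (C * (Ns : ℝ)), abs_nonneg (C * (Ns : ℝ)),
        le_abs_self (Real.log (∑ σ, a.w σ)), abs_nonneg (Real.log (∑ σ, a.w σ))]
    have hw := (abs_le.1 (wAvg_close (M := Mr) (K := K) hτ P a hL 0)).1
    have hcast : (Ns : ℝ) ≤ ((N1 + m : ℕ) : ℝ) := by exact_mod_cast hNsB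
    have hvp : vpertBd R Ns 2 ≤ vpertBd R (N1 + m) 2 := by
      unfold vpertBd
      gcongr
    have hCN : C * Ns ≤ |C| * ((N1 + m : ℕ) : ℝ) :=
      mul_le_mul (le_abs_self C) hcast (Nat.cast_nonneg _) (abs_nonneg _)
    have hMb : (Mr : ℝ) * b ≤ α * ((N1 + m : ℕ) : ℝ) * b :=
      mul_le_mul_of_nonneg_right (hMr.trans (mul_le_mul_of_nonneg_left hcast hα)) (abs_nonneg _)
    simp only [Z]
    linarith
  have hch := exists_chain (m := m) (G := G) hτ hlam P hL (hpos Ns hNs1) hB hZ j hsteps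
  rw [hNs] at hch
  choose εf af hεf haf using fun W : ℕ => hch (1 / ((W : ℝ) + 1)) (by positivity)
  -- the end
  have hp := hpos N (le_trans (le_max_right _ _) (le_trans (Nat.le_add_right _ _) hN))
  have := spinMeas_finite (τ := τ) (γ := γ) (B := B) (N := N) hlam dd
  set Mr := rowsN α N
  have hend : Z + j * m * G - vpertBd R N 2 ≤ rowsFree τ P.f γ B lam dd Mr N := by
    have hlim2 : Tendsto (fun W => ∫ G' : Fin Mr × Fin N → ℝ,
        Real.log (∑ σ, (af W).w σ * Real.exp (rowsEne τ P.f γ G' ((af W).x σ)))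
          ∂gaus (Fin Mr × Fin N)) atTop (𝓝 (rowsFree τ P.f γ B lam dd Mr N)) := by
      rw [rowsFree_eq]
      refine tendsto_integral_of_dominated_convergence
        (fun _ => |Real.log ((spinMeas τ γ B lam dd N).real Set.univ)| + Mr * b) (fun W => ?_) (integrable_const _)
        (fun W => ae_of_all _ fun G' => ?_) (ae_of_all _ fun G' => ?_)
      · exact ((Finset.measurable_sum _ fun σ _ => ((Real.continuous_exp.comp
          ((continuous_rowsEne P).comp (f := fun G' => (G', (af W).x σ))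
            (continuous_id.prodMk continuous_const))).measurable.const_mul _)).log).aestronglyMeasurable
      · have hsum : ∑ σ, (af W).w σ = (spinMeas τ γ B lam dd N).real Set.univ := by
          simpa using (af W).repr fun _ => 1
        have h1 : (spinMeas τ γ B lam dd N).real Set.univ * Real.exp (-(Mr * b))
            ≤ ∑ σ, (af W).w σ * Real.exp (rowsEne τ P.f γ G' ((af W).x σ)) := by
          rw [← hsum, Finset.sum_mul]
          exact Finset.sum_le_sum fun σ _ => mul_le_mul_of_nonneg_left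
            (Real.exp_le_exp.2 (neg_le_of_abs_le (abs_rowsEne_le P G' _))) ((af W).w_pos σ).le
        have h2 : ∑ σ, (af W).w σ * Real.exp (rowsEne τ P.f γ G' ((af W).x σ))
            ≤ (spinMeas τ γ B lam dd N).real Set.univ * Real.exp (Mr * b) := by
          rw [← hsum, Finset.sum_mul]
          exact Finset.sum_le_sum fun σ _ => mul_le_mul_of_nonneg_left
            (Real.exp_le_exp.2 (le_of_abs_le (abs_rowsEne_le P G' _))) ((af W).w_pos σ).le
        have l1 := Real.log_le_log (mul_pos hp (Real.exp_pos _)) h1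
        have l2 := Real.log_le_log ((mul_pos hp (Real.exp_pos _)).trans_le h1) h2
        rw [Real.log_mul hp.ne' (Real.exp_pos _).ne', Real.log_exp] at l1 l2
        rw [Real.norm_eq_abs, abs_le]
        constructor <;> linarith [neg_abs_le (Real.log ((spinMeas τ γ B lam dd N).real Set.univ)),
          le_abs_self (Real.log ((spinMeas τ γ B lam dd N).real Set.univ))]
      · refine (tendsto_atoms (spinMeas τ γ B lam dd N) (isCompact_cut B d N) (ae_mem_cut dd)
          tendsto_one_div_add_atTop_nhds_zero_nat (fun W => (af W).coarsen (hεf W))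
          (h := fun ω => Real.exp (rowsEne τ P.f γ G' ω)) (Real.continuous_exp.comp
            ((continuous_rowsEne P).comp (f := fun ω => (G', ω))
              (continuous_const.prodMk continuous_id)))).log ?_
        exact (log_rowsInt_mem hlam hp P G').2.1.ne'
    refine ge_of_tendsto hlim2 (Eventually.of_forall fun W => ?_)
    have := (abs_le.1 (wAvg_close (M := Mr) (K := K) hτ P (af W) hL 0)).2
    linarith [haf W]
  have hfl : |(Mr : ℝ) - α * N| ≤ 1 := by
    have h1 := Nat.floor_le (a := α * (N : ℝ)) (by positivity)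
    have h2 := Nat.lt_floor_add_one (α * (N : ℝ))
    simp only [Mr, rowsN]
    rw [abs_le]
    constructor <;> linarith
  have hMM := (abs_le.1 (abs_rowsFree_sub (γ := γ) (B := B) (dd := dd) hlam hp P M Mr)).1
  have hdist : |(M : ℝ) - Mr| * b ≤ η / 4 * N + b := by
    have h1 : |(M : ℝ) - Mr| ≤ η / (4 * (b + 1)) * N + 1 :=
      (abs_sub_le _ (α * N) _).trans (add_le_add hM (by rwa [abs_sub_comm]))
    have h2 : η / (4 * (b + 1)) * b ≤ η / 4 := by
      rw [div_mul_eq_mul_div, div_le_div_iff₀ (by positivity) (by norm_num)]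
      nlinarith
    have := mul_le_mul_of_nonneg_right h1 (abs_nonneg P.bF)
    have := mul_le_mul_of_nonneg_right h2 hNpos.le
    linarith
  rw [div_le_iff₀ hNpos] at hsmall
  have hj : (j : ℝ) * m = N - Ns := by
    have : ((Ns : ℕ) : ℝ) + ((j * m : ℕ) : ℝ) = N := by exact_mod_cast hNs
    push_cast at this
    linarith
  have hG : (Ns : ℝ) * G ≤ ((N1 + m : ℕ) : ℝ) * |G| :=
    (mul_le_mul_of_nonneg_left (le_abs_self G) (Nat.cast_nonneg _)).trans
      (mul_le_mul_of_nonneg_right (by exact_mod_cast hNsB) (abs_nonneg _))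
  simp only [Z, hc0] at hend hsmall
  rw [hj] at hend
  linarith [mul_pos hη hNpos]

/-- The case of as many rows as sites. -/
theorem lower_freePen {G : ℝ} (hτ : 0 ≤ τ) (hB : 0 ≤ B) (hlam : 0 ≤ lam) (P : VPot d) {K m N0 : ℕ}
    (hm : 0 < m)
    (hmass : ∃ C : ℝ, ∀ᶠ N : ℕ in atTop,
      Real.exp (-(C * N)) ≤ (spinMeas τ γ B lam dd N).real Set.univ)
    (h : ∀ N ≥ N0, ∃ L0 : ℕ, ∀ L ≥ L0, StepUp hτ P γ B lam dd 1 K m N L G) :
    ∀ η : ℝ, 0 < η → ∀ᶠ N : ℕ in atTop, G - η ≤ freePen τ P.f γ B lam dd N := by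
  intro η hη
  obtain ⟨κ, hκ, hev⟩ := lower_of_steps hτ hB hlam zero_le_one P hm hmass h η hη
  filter_upwards [hev, eventually_gt_atTop 0] with N hN hN0
  have hN' : (0 : ℝ) < N := Nat.cast_pos.2 hN0
  have h1 := hN N (by rw [one_mul, sub_self, abs_zero]; positivity)
  have := spinMeas_finite (τ := τ) (γ := γ) (B := B) (N := N) hlam dd
  have e : rowsFree τ P.f γ B lam dd N N = N * freePen τ P.f γ B lam dd N := by
    rw [mul_freePen dd P.f hN0, rowsFree_eq, ← (mp_rows N).map_eq,
      integral_map (mp_rows N).measurable.aemeasurable]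
    · refine integral_congr_ae (ae_of_all _ fun G' => ?_)
      simp only [rowsEne, ene]
      congr 1
      refine integral_congr_ae (ae_of_all _ fun ω => ?_)
      dsimp only
      congr 1
      refine Finset.sum_congr rfl fun i _ => congrArg P.f (funext fun k =>
        Finset.sum_congr rfl fun j _ => ?_)
      unfold cfgOf
      split_ifs <;> ring
    · exact (Measurable.log (StronglyMeasurable.integral_prod_right'
        (f := fun p : (Fin N × Fin N → ℝ) × (Fin d → Fin N → ℝ) =>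
          Real.exp (rowsEne τ P.f γ p.1 p.2))
        (Real.continuous_exp.comp (continuous_rowsEne P)).measurable.stronglyMeasurable
        (ν := spinMeas τ γ B lam dd N)).measurable).aestronglyMeasurable
  rw [e, mul_comm] at h1
  exact le_of_mul_le_mul_left h1 hN'

end Vale.Agent.P166.Casc
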