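import Vale.Agent.P166.Casc.VStepUp
import Vale.Agent.P166.Casc.VTelescope

/-!
The lower bound of the penalised free energy with rows at a definite centre by the values of the
families of paths.
-/

open MeasureTheory ProbabilityTheory Filter Topology

namespace Vale.Agent.P166.Casc

open Vale.Agent.P157.Casc Vale.Agent.P166.Pen
open Vale.Agent.P166.Formula (pathVal gVal dTot qTot)

variable {d : ℕ}

/-- **The lower bound at a centre**: for a large penalty and many levels, the free energy with rows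
per site is at least every number below the values of all families of paths. -/
theorem pen_lower {τ : ℝ} (hτ : 0 < τ) {γ : Fin d → ℝ} (hγ : ∀ k, 0 < γ k ∧ γ k ≤ 1) (hd : 0 < d)
    (P : VPot d) (hh : ∀ k k' y, P.h k k' y = P.h k' k y) {κ L : ℝ} (hκ : 0 < κ)
    {dd : OIdx d → ℝ} (hdd : GoodCentre γ κ L dd) {α : ℝ} (hα : 0 ≤ α) {B : ℝ} (hB0 : 0 < B)
    (hB : ((∑ t, ∑ k, dd (t, k, k)) + d) / τ + 2 * d ≤ B) :
    ∀ η > 0, ∃ lam0 : ℝ, 0 ≤ lam0 ∧ ∀ lam ≥ lam0, ∃ K0 : ℕ, ∀ K ≥ K0, ∀ G : ℝ,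
      (∀ q, Formula.Adm γ dd K q → G ≤ pathVal τ P.f γ α dd K q) →
      ∃ κ' > (0 : ℝ), ∀ᶠ N : ℕ in atTop, ∀ M : ℕ, |(M : ℝ) - α * N| ≤ κ' * N →
        (G - η) * N ≤ rowsFree τ P.f γ B lam dd M N := by
  intro η hη
  set b := |P.bF|
  -- a positive ratio near the given one
  set ε := η / (8 * (b + 1))
  have hε : 0 < ε := by positivity
  set α' := α + ε
  have hα' : 0 < α' := by positivity
  obtain ⟨lam0, hlam0, h⟩ := exists_stepUp hτ hγ hd P hh hκ hdd hα' hB0 hB (η / 4) (by positivity)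
  refine ⟨lam0, by linarith, fun lam hlam => ?_⟩
  obtain ⟨K0, hK⟩ := h lam hlam
  refine ⟨K0, fun K hKK G hG => ?_⟩
  have hlam' : 0 ≤ lam := by linarith
  have hεb : ε * b ≤ η / 8 := by
    rw [div_mul_eq_mul_div, div_le_div_iff₀ (by positivity) (by norm_num)]
    linarith
  obtain ⟨m, hm, N0, hstep⟩ := hK K hKK (G - ε * b) fun q hq => by
    have h1 := abs_le.1 (Formula.abs_rowVal_le P.cf.measurable
      (fun v => (P.hF v).trans (le_abs_self _)) K (dTot dd) (qTot γ q))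
    have h2 := mul_le_mul_of_nonneg_left h1.1 hε.le
    have h3 := hG q hq
    simp only [pathVal, α'] at h3 ⊢
    linarith
  obtain ⟨C, hmass⟩ := pen_mass (B := B) (L := L) hτ hγ hκ
  have hm' := hmass dd hdd hB lam hlam'
  obtain ⟨κ', hκ', hev⟩ := lower_of_steps hτ.le hB0.le hlam' hα'.le P hm ⟨C, hm'⟩ hstep (η / 4)
    (by positivity)
  refine ⟨min κ' ε, lt_min hκ' hε, ?_⟩
  filter_upwards [hev, hm', eventually_ge_atTop ⌈1 / κ'⌉₊, eventually_gt_atTop 0,
    tendsto_natCast_atTop_atTop.eventually (eventually_ge_atTop (8 * b / η))]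
    with N hN hmN hge hN0 hbN M hM
  have hN' : (0 : ℝ) < N := Nat.cast_pos.2 hN0
  set M' := ⌊α' * N⌋₊
  have e1 := Nat.floor_le (mul_nonneg hα'.le hN'.le)
  have e2 := Nat.lt_floor_add_one (α' * (N : ℝ))
  have e3 : 1 ≤ κ' * N := by
    have := (Nat.le_ceil (1 / κ')).trans (Nat.cast_le.2 hge)
    rwa [div_le_iff₀ hκ', mul_comm] at this
  have h1 := hN M' (abs_le.2 ⟨by linarith, by linarith⟩)
  have h2 := (abs_le.1 (abs_rowsFree_sub (γ := γ) (B := B) (dd := dd) (τ := τ) hlam'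
    ((Real.exp_pos _).trans_le hmN) P M M')).1
  have h3 : |(M : ℝ) - M'| ≤ ε * N * 2 + 1 := by
    have hM1 := abs_le.1 (hM.trans (mul_le_mul_of_nonneg_right (min_le_right _ _) hN'.le))
    have hα'' : α' * (N : ℝ) = α * N + ε * N := add_mul α ε _
    have : 0 ≤ ε * (N : ℝ) := by positivity
    exact abs_le.2 ⟨by linarith, by linarith⟩
  have h4 := mul_le_mul_of_nonneg_right h3 (abs_nonneg P.bF)
  have h5 : 8 * b ≤ η * N := by rw [div_le_iff₀ hη] at hbN; linarith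
  have h6 := mul_le_mul_of_nonneg_right hεb hN'.le
  have h7 : 0 ≤ η * (N : ℝ) := by positivity
  linarith

/-- The lower bound by the variational value, with as many rows as sites. -/
theorem pen_lower_gVal {τ : ℝ} (hτ : 0 < τ) {γ : Fin d → ℝ} (hγ : ∀ k, 0 < γ k ∧ γ k ≤ 1)
    (hd : 0 < d) (P : VPot d) (hh : ∀ k k' y, P.h k k' y = P.h k' k y) {κ L : ℝ} (hκ : 0 < κ)
    {dd : OIdx d → ℝ} (hdd : GoodCentre γ κ L dd) {B : ℝ} (hB0 : 0 < B)
    (hB : ((∑ t, ∑ k, dd (t, k, k)) + d) / τ + 2 * d ≤ B) :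
    ∀ η > 0, ∃ lam0 : ℝ, 0 ≤ lam0 ∧ ∀ lam ≥ lam0, ∀ᶠ N : ℕ in atTop,
      gVal τ P.f γ 1 dd - η ≤ freePen τ P.f γ B lam dd N := by
  intro η hη
  obtain ⟨lam0, hlam0, h⟩ := exists_stepUp hτ hγ hd P hh hκ hdd one_pos hB0 hB (η / 2) (by positivity)
  refine ⟨lam0, by linarith, fun lam hlam => ?_⟩
  obtain ⟨K0, hK⟩ := h lam hlam
  obtain ⟨m, hm, N0, hstep⟩ := hK K0 le_rfl (gVal τ P.f γ 1 dd) fun q hq =>
    csInf_le (Formula.bddBelow_valSet hγ hκ hdd zero_le_one P.cf.measurable P.hF) ⟨K0, q, hq, rfl⟩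
  obtain ⟨C, hmass⟩ := pen_mass (B := B) (L := L) hτ hγ hκ
  have hev := lower_freePen hτ.le hB0.le (show 0 ≤ lam by linarith) P hm
    ⟨C, hmass dd hdd hB lam (by linarith)⟩ hstep (η / 2) (by positivity)
  filter_upwards [hev] with N hN
  linarith

end Vale.Agent.P166.Casc
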