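import Vale.Agent.P166.Casc.VUpper
import Vale.Agent.P166.Casc.VTelescope

/-!
The upper bound at a definite centre for rows in any ratio to the sites.
-/

open MeasureTheory ProbabilityTheory Filter Topology Set
open scoped MatrixOrder

namespace Vale.Agent.P166.Casc

open Vale.Agent.P157.Casc Vale.Agent.P166.Pen
open Vale.Agent.P166.Formula (TPath tfrac typD dTot qTot IsPath pairing gridM ent rowVal)

variable {d : ℕ} {τ B κ Lc : ℝ} {γ : Fin d → ℝ} {dd : OIdx d → ℝ}

/-- A rounded number of rows. -/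
theorem floor_mul_le (R x : ℝ) {b : ℝ} (hx : 0 ≤ x) (hR : |R| ≤ b) :
    (⌊x⌋₊ : ℝ) * R ≤ x * R + b := by
  have h1 := Nat.floor_le hx
  have h2 := Nat.lt_floor_add_one x
  have h3 : (x - ⌊x⌋₊) * -R ≤ b := (mul_le_mul_of_nonneg_left ((neg_le_abs R).trans hR)
    (sub_nonneg.2 h1)).trans (mul_le_of_le_one_left ((abs_nonneg R).trans hR) (by linarith))
  linarith

/-- The arithmetic of the bound. -/
theorem rows_arith {N MR R S E C e g s0 V α : ℝ} (hN : 0 ≤ N) (he : 0 ≤ e)
    (hmid : s0 * (C - S - e) ≤ e) (hval : α * R + E ≤ g + e) (hV : V ≤ e * N)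
    (hR : MR ≤ α * N * R + e * N) :
    MR + N * (E - S / 2 + e) + 1 / 2 * ((1 - s0) * (N * (S + e))) + 1 / 2 * (s0 * (N * C)) + V
      ≤ N * (g + 6 * e) := by
  have h1 := mul_le_mul_of_nonneg_left hmid hN
  have h2 := mul_le_mul_of_nonneg_left hval hN
  have h3 : 0 ≤ N * e := mul_nonneg hN he
  linarith

/-- With rows only the degree of the tree does not matter. -/
theorem rows_deg {N M nA L J K : ℕ} {ν : Measure (Fin d → Fin N → ℝ)} {εa : ℝ} (hτ : 0 ≤ τ)
    (A : Coeffs d nA) (a : Atoms ν (cutSet B d N) εa) (hL : 0 < L) (P : VPot d)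
    (Φ : VFac N d K) {n : ℕ} (hn : 0 < n) :
    vmfree (M := M) 1 P (penPrior (γ := γ) hτ A a hL J) Φ (rowc 1)
      = vmfree (M := M) n P (penPrior (γ := γ) hτ A a hL J) Φ (lineC 1) := by
  rw [show (lineC 1 : VCIdx N M d (nker d nA) (N + L + J) K → ℝ) = rowc 1 from lineC_one,
    vmfree_rows P _ Φ one_pos, vmfree_rows P _ Φ hn]

/-- With rows only, in any number, the model tends to the free energy of the penalised spins. -/
theorem tendsto_vmfree_rowsFree {N M nA L K : ℕ} {lam : ℝ} (hτ : 0 ≤ τ) (hlam : 0 ≤ lam)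
    (P : VPot d) (hS : 0 < (spinLaw d N).real (cutSet B d N)) {ε : ℕ → ℝ}
    (hε : Tendsto ε atTop (𝓝 0)) (A : Coeffs d nA)
    (a : ∀ W, Atoms (spinMeas τ γ B lam dd N) (cutSet B d N) (ε W)) (hL : 0 < L) (J : ℕ)
    (Φ : VFac N d K) :
    Tendsto (fun W => vmfree (M := M) 1 P (penPrior (γ := γ) hτ A (a W) hL J) Φ (rowc 1))
      atTop (𝓝 (rowsFree τ P.f γ B lam dd M N)) := by
  have := spinMeas_finite (τ := τ) (γ := γ) (B := B) (N := N) hlam dd
  have hp : 0 < (spinMeas τ γ B lam dd N).real Set.univ :=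
    ENNReal.toReal_pos (Measure.measure_univ_ne_zero.2 (spinMeas_ne hlam dd hS)) (measure_ne_top _ _)
  have e : ∀ W, vmfree (M := M) 1 P (penPrior (γ := γ) hτ A (a W) hL J) Φ (rowc 1)
      = ∫ G : Fin M × Fin N → ℝ, Real.log (∑ σ, (a W).w σ *
          Real.exp (rowsEne τ P.f γ G ((a W).x σ))) ∂gaus (Fin M × Fin N) := fun W => by
    rw [vmfree_rows P _ Φ one_pos]
    refine integral_congr_ae (ae_of_all _ fun G => congrArg Real.log ?_)
    show ∑ σ : Fin ((a W).c * L), _ = _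
    rw [← finProdFinEquiv.sum_comp, Fintype.sum_prod_type]
    refine Finset.sum_congr rfl fun s _ => ?_
    simp only [penPrior, penAtom, Equiv.symm_apply_apply, Finset.sum_const, Finset.card_univ,
      Fintype.card_fin, nsmul_eq_mul, rowsEne, Real.sqrt_one, one_mul]
    have : (L : ℝ) ≠ 0 := (Nat.cast_pos.2 hL).ne'
    field_simp
  simp only [e]
  rw [rowsFree_eq]
  refine tendsto_integral_of_dominated_convergence
    (fun _ => |Real.log ((spinMeas τ γ B lam dd N).real Set.univ)| + M * |P.bF|) (fun W => ?_)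
    (integrable_const _) (fun W => ae_of_all _ fun G => ?_) (ae_of_all _ fun G => ?_)
  · exact ((Finset.measurable_sum _ fun σ _ => ((Real.continuous_exp.comp
      ((continuous_rowsEne P).comp (f := fun G => (G, (a W).x σ))
        (continuous_id.prodMk continuous_const))).measurable.const_mul _)).log).aestronglyMeasurable
  · have hsum : ∑ σ, (a W).w σ = (spinMeas τ γ B lam dd N).real Set.univ := by
      simpa using (a W).repr fun _ => 1
    have h1 : (spinMeas τ γ B lam dd N).real Set.univ * Real.exp (-(M * |P.bF|))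
        ≤ ∑ σ, (a W).w σ * Real.exp (rowsEne τ P.f γ G ((a W).x σ)) := by
      rw [← hsum, Finset.sum_mul]
      exact Finset.sum_le_sum fun σ _ => mul_le_mul_of_nonneg_left
        (Real.exp_le_exp.2 (neg_le_of_abs_le (abs_rowsEne_le P G _))) ((a W).w_pos σ).le
    have h2 : ∑ σ, (a W).w σ * Real.exp (rowsEne τ P.f γ G ((a W).x σ))
        ≤ (spinMeas τ γ B lam dd N).real Set.univ * Real.exp (M * |P.bF|) := by
      rw [← hsum, Finset.sum_mul]
      exact Finset.sum_le_sum fun σ _ => mul_le_mul_of_nonneg_left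
        (Real.exp_le_exp.2 (le_of_abs_le (abs_rowsEne_le P G _))) ((a W).w_pos σ).le
    have l1 := Real.log_le_log (mul_pos hp (Real.exp_pos _)) h1
    have l2 := Real.log_le_log ((mul_pos hp (Real.exp_pos _)).trans_le h1) h2
    rw [Real.log_mul hp.ne' (Real.exp_pos _).ne', Real.log_exp] at l1 l2
    rw [Real.norm_eq_abs, abs_le]
    constructor <;> linarith [neg_abs_le (Real.log ((spinMeas τ γ B lam dd N).real Set.univ)),
      le_abs_self (Real.log ((spinMeas τ γ B lam dd N).real Set.univ))]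
  · refine (tendsto_atoms (spinMeas τ γ B lam dd N) (isCompact_cut B d N) (ae_mem_cut dd) hε a
      (h := fun ω => Real.exp (rowsEne τ P.f γ G ω)) (Real.continuous_exp.comp
        ((continuous_rowsEne P).comp (f := fun ω => (G, ω))
          (continuous_const.prodMk continuous_id)))).log ?_
    exact (log_rowsInt_mem hlam hp P G).2.1.ne'

/-- The free energy with rows in a ratio `α` at a definite centre is at most the variational value. -/
theorem line_upper_rows {α η : ℝ} (hτ : 0 < τ) (hB : 0 < B) (hd0 : 0 < d) (P : VPot d)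
    (hh : ∀ k k' y, P.h k k' y = P.h k' k y) (hγ : ∀ k, 0 < γ k ∧ γ k ≤ 1) (hκ : 0 < κ)
    (hd : GoodCentre γ κ Lc dd) (hBd : ((∑ t, ∑ k, dd (t, k, k)) + d) / τ + 2 * d ≤ B)
    (hS : ∀ᶠ N : ℕ in atTop, 0 < (spinLaw d N).real (cutSet B d N)) (hα : 0 ≤ α) (hη : 0 < η) :
    ∃ lam0 : ℝ, ∀ lam ≥ lam0, ∀ᶠ N : ℕ in atTop,
      rowsFree τ P.f γ B lam dd ⌊α * (N : ℝ)⌋₊ N ≤ (Formula.gVal τ P.f γ α dd + η) * N := by
  classical
  have hγ' : ∀ k, 0 < γ k ∧ γ k ≤ 1 := hγ
  set e := η / 6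
  have he : 0 < e := by positivity
  obtain ⟨BT, hBT, hinf⟩ := Formula.exists_near_inf (τ := τ) (α := α) (f := P.f) hγ' hκ hd he
  set cd := (Fintype.card (Finset (Fin d)) : ℝ)
  set P0 := cd * BT ^ 2
  set C := cd * (((d : ℝ) ^ 2 * (τ * B) + BT) * ((d : ℝ) ^ 2 * (|α| * P.b1 ^ 2) + BT) + BT ^ 2)
      + (cd * ((d : ℝ) ^ 2 * BT) + tblSum dd) * ((d : ℝ) ^ 2 * (|α| * P.b1 ^ 2))
      + (cd * ((d : ℝ) ^ 2 * (τ * B)) + tblSum dd)
        * ((d : ℝ) ^ 2 * (|α| * (|P.b2| + P.b1 ^ 2)))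
  have hts := tblSum_nonneg dd
  have hC : 0 ≤ C := by positivity
  set s0 := min (1 / 2) (e / (C + P0 + 1))
  have hs0 : 0 < s0 := lt_min (by norm_num) (by positivity)
  have hs1 : s0 ≤ 1 := (min_le_left _ _).trans (by norm_num)
  have hsmall : s0 * (C + P0) ≤ e := by
    have h := mul_le_mul_of_nonneg_right (min_le_right (1 / 2) (e / (C + P0 + 1)))
      (show 0 ≤ C + P0 + 1 by positivity)
    rw [div_mul_cancel₀ _ (by positivity)] at h
    simp only [s0] at hs0 ⊢
    linarith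
  obtain ⟨lam1, hlam1, hder⟩ := line_der_ge (Lc := Lc) (a0 := α) hτ hB hd0 P hh hγ hκ hd hBd hBT he hs0
  obtain ⟨lam2, hstart⟩ := line_start (B := B) (Bt := BT) hτ hγ' P hd.1 he
  refine ⟨max lam1 lam2, fun lam hlam => ?_⟩
  have hlam0 : 0 ≤ lam := zero_le_one.trans (hlam1.trans ((le_max_left _ _).trans hlam))
  obtain ⟨K0, hK0⟩ := hder lam ((le_max_left _ _).trans hlam)
  obtain ⟨K, hK, Q, hQ, hval, hbds⟩ := hinf (K0 + 1)
  have hKpos : 0 < K := by omega
  have hQb : ∀ t, Occupied γ t → TypeBd γ dd t K (Q t) BT := fun t ht =>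
    ⟨hQ.path t ht, hQ.top t ht, (hbds t ht).1, (hbds t ht).2.1, (hbds t ht).2.2.1,
      (hbds t ht).2.2.2.1, (hbds t ht).2.2.2.2.1⟩
  obtain ⟨N1, hN1⟩ := hK0 K (by omega) Q hQ hQb
  obtain ⟨N2, hN2⟩ := hstart lam ((le_max_right _ _).trans hlam) K hKpos Q hQ
    fun t ht => (hbds t ht).2.2.2.2.2
  filter_upwards [eventually_ge_atTop (N1 + N2 + 1), hS,
    eventually_vpertBd_le (nker d (d * d)) he,
    tendsto_natCast_atTop_atTop.eventually_ge_atTop (|P.bF| / e)] with N hN hSN hpert hbig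
  have hN0 : 0 < N := by omega
  have hN' : (0 : ℝ) < N := Nat.cast_pos.2 hN0
  set M := ⌊α * (N : ℝ)⌋₊
  have hM : (M : ℝ) ≤ α * N := Nat.floor_le (by positivity)
  obtain ⟨L0, hL0⟩ := hN1 N (by omega) M hM
  have hL : 0 < max L0 1 := lt_of_lt_of_le one_pos (le_max_right _ _)
  obtain ⟨δa, hδa, hderA⟩ := hL0 (max L0 1) (le_max_left _ _) hL 0
  set εs : ℕ → ℝ := fun W => 1 / ((W : ℝ) + 1)
  have hεs : Tendsto εs atTop (𝓝 0) := tendsto_one_div_add_atTop_nhds_zero_nat
  have hfin := spinMeas_finite (τ := τ) (γ := γ) (B := B) (N := N) hlam0 dd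
  have hne : (cutSet B d N).Nonempty := ⟨0, by
    show ∑ k : Fin d, ∑ j : Fin N, (0 : Fin d → Fin N → ℝ) k j ^ 2 ≤ B * N
    simp only [Pi.zero_apply, ne_eq, OfNat.ofNat_ne_zero, not_false_eq_true, zero_pow,
      Finset.sum_const_zero]
    positivity⟩
  set at0 : ∀ W, Atoms (spinMeas τ γ B lam dd N) (cutSet B d N) (εs W) := fun W =>
    Classical.choice (exists_atoms _ (spinMeas_ne hlam0 dd hSN) (isCompact_cut B d N) hne
      (by positivity))
  have hlim := tendsto_vmfree_rowsFree (γ := γ) (M := M) (K := K) hτ.le hlam0 P hSN hεs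
    (basicCoeffs d) at0 hL 0 (lineFac (K := K) γ (topAt K (dTot dd) (qTot γ Q)) (respL γ dd K Q))
  have hev : ∀ᶠ W in atTop, vmfree (M := M) 1 P
      (penPrior (γ := γ) hτ.le (basicCoeffs d) (at0 W) hL 0)
      (lineFac (K := K) γ (topAt K (dTot dd) (qTot γ Q)) (respL γ dd K Q)) (rowc 1)
      ≤ (Formula.gVal τ P.f γ α dd + η) * N := by
    filter_upwards [hN2 N (by omega) M (d * d) (basicCoeffs d) (max L0 1) hL 0 εs hεs at0,
      hεs.eventually_le_const hδa] with W hW hWδ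
    obtain ⟨n0, hn0, hn0d⟩ := hderA (at0 W) hWδ
    obtain ⟨n, hnY, hnn⟩ := (hW.and (eventually_ge_atTop n0)).exists
    have hn : 0 < n := hn0.trans_le hnn
    rw [rows_deg hτ.le (basicCoeffs d) (at0 W) hL P _ hn]
    refine (line_total_le P _ _ hn hs0.le hs1 (fun c G x z => abs_der_le (a0 := α) P hτ.le hB.le hγ'
      hd.1 (basicCoeffs d) (at0 W) hL hN0 hBT hM hKpos hQ hQb c G x z)
      (fun s hs => hn0d n hnn s hs) hnY).trans ?_
    have hp := abs_le.1 (abs_pairing_le hγ' (zero_le_one.trans hBT) hQ hQb)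
    have hpart : ∑ t, tfrac γ t * (ent (gridM K) K τ (typD γ dd t) (Q t)
          - pairing (gridM K) K (endPath γ dd K Q t) (Q t) / 2)
        = (∑ t, tfrac γ t * ent (gridM K) K τ (typD γ dd t) (Q t))
          - (∑ t, tfrac γ t * pairing (gridM K) K (respL γ dd K Q t) (Q t)) / 2 := by
      rw [Finset.sum_div, ← Finset.sum_sub_distrib]
      exact Finset.sum_congr rfl fun t _ => by simp only [endPath, respL]; ring
    rw [hpart]
    simp only [Formula.pathVal] at hval
    set S := ∑ t, tfrac γ t * pairing (gridM K) K (respL γ dd K Q t) (Q t)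
    set E := ∑ t, tfrac γ t * ent (gridM K) K τ (typD γ dd t) (Q t)
    have hmid : s0 * (C - S - e) ≤ e := le_trans (mul_le_mul_of_nonneg_left
      (show C - S - e ≤ C + P0 by simp only [P0]; linarith) hs0.le) hsmall
    rw [show η = 6 * e by simp only [e]; ring]
    have hrow := floor_mul_le (rowVal P.f K (dTot dd) (qTot γ Q)) (α * N) (b := |P.bF|)
      (show 0 ≤ α * N by positivity)
      (Formula.abs_rowVal_le P.cf.measurable (fun v => (P.hF v).trans (le_abs_self _)) K _ _)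
    rw [div_le_iff₀ he] at hbig
    refine le_trans ?_ (le_of_eq_of_le (mul_comm _ _) le_rfl)
    refine rows_arith hN'.le he.le hmid hval hpert (hrow.trans ?_)
    linarith
  exact le_of_tendsto hlim hev

end Vale.Agent.P166.Casc
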