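import Vale.Agent.P166.Casc.VSyncPen
import Vale.Agent.P166.Casc.VMLimit

/-!
One step of the cavity bound from below: the averaged free energies of systems with rows, and the
statement that adding a block of sites raises them by a given amount per site.
-/

open MeasureTheory ProbabilityTheory Filter Topology

namespace Vale.Agent.P166.Casc

open Vale.Agent.P157.Casc Vale.Agent.P166.Pen

variable {d : ℕ}

/-- The free energy with `M` rows and a perturbation, averaged over the parameters of the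
perturbation. -/
noncomputable def wAvg {τ B : ℝ} (hτ : 0 ≤ τ) (P : VPot d) (γ : Fin d → ℝ) (K M : ℕ) {N L : ℕ}
    {ν : Measure (Fin d → Fin N → ℝ)} {ε : ℝ} (a : Atoms ν (cutSet B d N) ε) (hL : 0 < L)
    (J : ℕ) : ℝ :=
  ∫ y : Fin (nker d (d * d)) × Fin N → ℝ,
    vcasc P (penPrior (γ := γ) hτ (basicCoeffs d) a hL J) (noFac N d K)
      (vsys (rowc (M := M) 1) y) ∂vxlaw (nker d (d * d)) N

/-- The number of rows at ratio `α`. -/
noncomputable def rowsN (α : ℝ) (N : ℕ) : ℕ := ⌊α * N⌋₊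

/-- A block of `m` sites raises the averaged free energy by at least `G` per site: for all fine
atoms of the smaller system there are fine atoms of the larger one. -/
def StepUp {τ : ℝ} (hτ : 0 ≤ τ) (P : VPot d) (γ : Fin d → ℝ) (B lam : ℝ) (dd : OIdx d → ℝ)
    (α : ℝ) (K m N L : ℕ) (G : ℝ) : Prop :=
  ∀ (hL : 0 < L) (J : ℕ), ∀ δ' : ℝ, 0 < δ' → ∃ J' : ℕ, ∃ δ : ℝ, 0 < δ ∧
    ∀ (ε : ℝ) (a : Atoms (spinMeas τ γ B lam dd N) (cutSet B d N) ε), ε ≤ δ →
      ∃ (ε' : ℝ) (a' : Atoms (spinMeas τ γ B lam dd (N + m)) (cutSet B d (N + m)) ε'), ε' ≤ δ' ∧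
        wAvg hτ P γ K (rowsN α N) a hL J + m * G
          ≤ wAvg hτ P γ K (rowsN α (N + m)) a' hL J'

/-- Mean free energy of the penalised spins with `M` rows. -/
noncomputable def rowsFree (τ : ℝ) (f : (Fin d → ℝ) → ℝ) (γ : Fin d → ℝ) (B lam : ℝ)
    (dd : OIdx d → ℝ) (M N : ℕ) : ℝ :=
  ∫ G : Fin M × Fin N → ℝ, Real.log (∫ ω, Real.exp (∑ a, f fun k =>
      ∑ j, cfgOf τ γ ω j k / √(N : ℝ) * G (a, j)) ∂spinMeas τ γ B lam dd N) ∂gaus (Fin M × Fin N)

end Vale.Agent.P166.Casc
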