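import Mathlib.MeasureTheory.Function.SimpleFuncDense
import Mathlib.Data.List.GetD
import Mathlib.MeasureTheory.Integral.Bochner.Basic
import Mathlib.MeasureTheory.Integral.DominatedConvergence

/-!
Finite atoms approximating a finite measure on a compact set.
-/

open MeasureTheory Filter Topology

namespace Vale.Agent.P166.Casc

variable {E : Type*} [PseudoMetricSpace E] [MeasurableSpace E] [BorelSpace E]

/-- Atoms with positive weights in a set, equal in law to a small displacement `φ` of `ν`. -/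
structure Atoms (ν : Measure E) (S : Set E) (ε : ℝ) where
  c : ℕ
  c_pos : 0 < c
  w : Fin c → ℝ
  x : Fin c → E
  φ : E → E
  w_pos : ∀ σ, 0 < w σ
  mem : ∀ σ, x σ ∈ S
  φ_meas : Measurable φ
  φ_mem : ∀ y, φ y ∈ S
  φ_finite : (Set.range φ).Finite
  close : ∀ y ∈ S, dist (φ y) y ≤ ε
  repr : ∀ h : E → ℝ, ∑ σ, w σ * h (x σ) = ∫ y, h (φ y) ∂ν

theorem exists_atoms (ν : Measure E) [IsFiniteMeasure ν] (hν : ν ≠ 0) {S : Set E}
    (hS : IsCompact S) (hne : S.Nonempty) {ε : ℝ} (hε : 0 < ε) : Nonempty (Atoms ν S ε) := by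
  classical
  obtain ⟨t, htS, htf, htc⟩ := hS.finite_cover_balls hε
  obtain ⟨y0, hy0⟩ := hne
  set l : List E := y0 :: htf.toFinset.toList with hl
  set e : ℕ → E := fun k => l.getD k y0 with he
  have heS : ∀ k, e k ∈ S := fun k => by
    rcases lt_or_ge k l.length with hk | hk
    · have hm : e k ∈ l := by
        simp only [he, List.getD_eq_getElem l y0 hk]
        exact List.getElem_mem hk
      rcases List.mem_cons.1 (hl ▸ hm) with h | h
      · rw [h]; exact hy0
      · exact htS (by simpa using h)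
    · simp only [he, List.getD_eq_default l y0 hk]
      exact hy0
  set N := l.length
  set i := SimpleFunc.nearestPtInd e N
  set ι := {j : Fin (N + 1) // 0 < ν.real (i ⁻¹' {j.val})}
  set q := Fintype.equivFin ι
  have hcover : ∀ y ∈ S, ∃ k ≤ N, edist (e k) y ≤ ENNReal.ofReal ε := fun y hy => by
    obtain ⟨z, hz, hzy⟩ := Set.mem_iUnion₂.1 (htc hy)
    have hzl : z ∈ l := List.mem_cons_of_mem _ (Finset.mem_toList.2 (htf.mem_toFinset.2 hz))
    obtain ⟨k, hk, hkz⟩ := List.mem_iff_getElem.1 hzl
    refine ⟨k, hk.le, ?_⟩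
    rw [edist_dist]
    refine ENNReal.ofReal_le_ofReal ?_
    simp only [he, List.getD_eq_getElem l y0 hk, hkz]
    rw [dist_comm]
    exact (Metric.mem_ball.1 hzy).le
  have hrepr : ∀ h : E → ℝ, ∑ j : Fin (N + 1), ν.real (i ⁻¹' {j.val}) * h (e j.val)
      = ∫ y, h (e (i y)) ∂ν := fun h => by
    set i' : E → Fin (N + 1) := fun y => ⟨i y, Nat.lt_succ_of_le (SimpleFunc.nearestPtInd_le e N y)⟩
    have hi' : Measurable i' := by
      refine measurable_to_countable' fun j => ?_
      have : i' ⁻¹' {j} = i ⁻¹' {j.val} := by ext y; simp [i', Fin.ext_iff]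
      rw [this]; exact i.measurableSet_preimage _
    have : IsFiniteMeasure (ν.map i') := Measure.isFiniteMeasure_map ν i'
    rw [show (fun y => h (e (i y))) = fun y => (fun j : Fin (N + 1) => h (e j.val)) (i' y) from rfl,
      ← integral_map (φ := i') (f := fun j : Fin (N + 1) => h (e j.val)) hi'.aemeasurable
        (measurable_of_finite _).aestronglyMeasurable, integral_fintype Integrable.of_finite]
    refine Finset.sum_congr rfl fun j _ => ?_
    rw [smul_eq_mul, map_measureReal_apply hi' (measurableSet_singleton _)]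
    congr 2
    ext y; simp [i', Fin.ext_iff]
  have hsub : ∀ h : E → ℝ, ∑ σ : Fin (Fintype.card ι),
      ν.real (i ⁻¹' {((q.symm σ).val : ℕ)}) * h (e (q.symm σ).val)
      = ∫ y, h (e (i y)) ∂ν := fun h => by
    rw [← hrepr h, Equiv.sum_comp q.symm (fun j : ι => ν.real (i ⁻¹' {(j.val : ℕ)}) * h (e j.val)),
      ← Finset.sum_subtype (Finset.univ.filter fun j : Fin (N + 1) => 0 < ν.real (i ⁻¹' {j.val}))
        (by simp) fun j => ν.real (i ⁻¹' {j.val}) * h (e j.val)]
    refine Finset.sum_subset (Finset.subset_univ _) fun j _ hj => ?_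
    simp only [Finset.mem_filter, Finset.mem_univ, true_and, not_lt] at hj
    rw [le_antisymm hj measureReal_nonneg, zero_mul]
  have hpos : 0 < Fintype.card ι := by
    rw [Fintype.card_pos_iff]
    by_contra hno
    have h1 := hsub fun _ => 1
    rw [not_nonempty_iff] at hno
    have : IsEmpty (Fin (Fintype.card ι)) := q.symm.isEmpty
    simp at h1
    exact hν (Measure.measure_univ_eq_zero.1 ((measureReal_eq_zero_iff).1 (by simpa using h1.symm)))
  refine ⟨⟨Fintype.card ι, hpos, fun σ => ν.real (i ⁻¹' {((q.symm σ).val : ℕ)}),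
    fun σ => e (q.symm σ).val, fun y => e (i y), fun σ => (q.symm σ).2, fun σ => heS _, ?_,
    fun y => heS _, ?_, fun y hy => ?_, hsub⟩⟩
  · exact (SimpleFunc.nearestPt e N).measurable
  · exact (SimpleFunc.nearestPt e N).finite_range
  · obtain ⟨k, hk, hky⟩ := hcover y hy
    have h := (SimpleFunc.edist_nearestPt_le e y hk).trans hky
    rw [edist_dist] at h
    exact (ENNReal.ofReal_le_ofReal_iff hε.le).1 h

omit [BorelSpace E] in
/-- A function of small oscillation at the scale of the atoms has nearly the same sum. -/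
theorem Atoms.defect {ν : Measure E} [IsFiniteMeasure ν] {S : Set E} {ε η : ℝ} (a : Atoms ν S ε)
    (hmem : ∀ᵐ y ∂ν, y ∈ S) {h : E → ℝ} (hm : Measurable h) (hh : Integrable h ν)
    (hη : ∀ x ∈ S, ∀ y ∈ S, dist x y ≤ ε → |h x - h y| ≤ η) :
    |∑ σ, a.w σ * h (a.x σ) - ∫ y, h y ∂ν| ≤ η * ν.real Set.univ := by
  have hsimple : Integrable (fun y => h (a.φ y)) ν := by
    obtain ⟨C, hC⟩ := (a.φ_finite.image fun y => |h y|).bddAbove
    exact (integrable_const C).mono' (hm.comp a.φ_meas).aestronglyMeasurable (ae_of_all _ fun y =>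
      hC ⟨a.φ y, Set.mem_range_self y, rfl⟩)
  rw [a.repr, ← integral_sub hsimple hh, ← Real.norm_eq_abs]
  refine norm_integral_le_of_norm_le_const ?_
  filter_upwards [hmem] with y hy
  exact hη _ (a.φ_mem y) _ hy (a.close y hy)

/-- Sums over finer and finer atoms converge to the integral of a function continuous on the set. -/
theorem tendsto_atoms (ν : Measure E) [IsFiniteMeasure ν] {S : Set E} (hS : IsCompact S)
    (hmem : ∀ᵐ y ∂ν, y ∈ S) {ε : ℕ → ℝ} (hε : Tendsto ε atTop (𝓝 0))
    (a : ∀ W, Atoms ν S (ε W)) {h : E → ℝ} (hh : Continuous h) :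
    Tendsto (fun W => ∑ σ, (a W).w σ * h ((a W).x σ)) atTop (𝓝 (∫ y, h y ∂ν)) := by
  simp only [Atoms.repr]
  obtain ⟨C, hC⟩ := hS.exists_bound_of_continuousOn hh.continuousOn
  refine tendsto_integral_of_dominated_convergence (fun _ => C)
    (fun W => (hh.measurable.comp (a W).φ_meas).aestronglyMeasurable) (integrable_const C)
    (fun W => ae_of_all _ fun y => hC _ ((a W).φ_mem y)) ?_
  filter_upwards [hmem] with y hy
  refine (hh.tendsto y).comp (tendsto_iff_dist_tendsto_zero.2 ?_)
  exact squeeze_zero (fun _ => dist_nonneg) (fun W => (a W).close y hy) hε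

end Vale.Agent.P166.Casc
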