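import Vale.Agent.P166.Casc.VBlock
import Vale.Agent.P166.Formula.Block

/-!
A finite family of configurations of a block of spins in compensated cascade fields: the exponent,
the factor of a leaf, and the value of the block.
-/

open MeasureTheory ProbabilityTheory Filter Topology Matrix

namespace Vale.Agent.P166.Casc

open Vale.Agent.P157.Casc Vale.Agent.P166.Formula
open Vale.Agent.P150.Fast.Dom (arrMap arrMap_apply)

variable {m d K : ℕ}

/-- The field of one spin of a block: a root and one increment per level. -/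
noncomputable def atomFld (S : Fin m → Fin (K + 1) → Fin d → Fin d → ℝ)
    (z : Fin m × Fin d → ℝ) (y : Fin K → Fin m × Fin d → ℝ) (i : Fin m) : Fin d → ℝ :=
  rowFld (fun l => S i l.succ) (arrMap (S i 0) fun r => z (i, r)) fun l r => y l (i, r)

/-- The covariance of the field of one spin of a block. -/
def atomCum (S : Fin m → Fin (K + 1) → Fin d → Fin d → ℝ) (i : Fin m) :
    Matrix (Fin d) (Fin d) ℝ :=
  Matrix.of fun k k' => ∑ l, ∑ r, S i l k r * S i l k' r

/-- The exponent of a configuration of a block. -/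
noncomputable def atomH (β : Block m d) (S : Fin m → Fin (K + 1) → Fin d → Fin d → ℝ)
    (τ : Fin β.c) (z : Fin m × Fin d → ℝ) (y : Fin K → Fin m × Fin d → ℝ) : ℝ :=
  ∑ i, (atomFld S z y i ⬝ᵥ β.cfg τ i - β.cfg τ i ⬝ᵥ atomCum S i *ᵥ β.cfg τ i / 2)

/-- The factor of a leaf of a block. -/
noncomputable def atomY (β : Block m d) (S : Fin m → Fin (K + 1) → Fin d → Fin d → ℝ)
    (z : Fin m × Fin d → ℝ) (y : Fin K → Fin m × Fin d → ℝ) : ℝ :=
  ∑ τ, β.w τ * Real.exp (atomH β S τ z y)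

/-- The value of a block of atoms. -/
noncomputable def atomVal (β : Block m d) (S : Fin m → Fin (K + 1) → Fin d → Fin d → ℝ) : ℝ :=
  ∫ z, casc (gaus (Fin m × Fin d)) K (mlev K) (fun y => Real.log (atomY β S z y))
    ∂gaus (Fin m × Fin d)

variable (β : Block m d) (S : Fin m → Fin (K + 1) → Fin d → Fin d → ℝ)

theorem atomY_pos (z : Fin m × Fin d → ℝ) (y : Fin K → Fin m × Fin d → ℝ) :
    0 < atomY β S z y := by
  have : Nonempty (Fin β.c) := ⟨⟨0, β.c_pos⟩⟩
  exact Finset.sum_pos (fun τ _ => mul_pos (β.w_pos τ) (Real.exp_pos _)) Finset.univ_nonempty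

theorem continuous_atomFld (i : Fin m) :
    Continuous fun p : (Fin m × Fin d → ℝ) × (Fin K → Fin m × Fin d → ℝ) =>
      atomFld S p.1 p.2 i :=
  (continuous_rowFld fun l : Fin K => S i l.succ).comp
    (f := fun p : (Fin m × Fin d → ℝ) × (Fin K → Fin m × Fin d → ℝ) =>
      (arrMap (S i 0) fun r => p.1 (i, r), fun l r => p.2 l (i, r)))
    (((arrMap (S i 0)).continuous.comp (continuous_pi fun r => by fun_prop)).prodMk
      (continuous_pi fun l => continuous_pi fun r => by fun_prop))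

theorem measurable_atomY :
    Measurable fun p : (Fin m × Fin d → ℝ) × (Fin K → Fin m × Fin d → ℝ) =>
      Real.log (atomY β S p.1 p.2) := by
  refine (Continuous.measurable ?_).log
  have hH : ∀ τ i, Continuous fun p : (Fin m × Fin d → ℝ) × (Fin K → Fin m × Fin d → ℝ) =>
      atomFld S p.1 p.2 i ⬝ᵥ β.cfg τ i := fun τ i =>
    (continuous_atomFld S i).dotProduct continuous_const
  unfold atomY atomH
  exact continuous_finsetSum _ fun τ _ => (Real.continuous_exp.comp
    (continuous_finsetSum _ fun i _ => (hH τ i).sub continuous_const)).const_mul _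

theorem measurable_log_atomY (z : Fin m × Fin d → ℝ) :
    Measurable fun y : Fin K → Fin m × Fin d → ℝ => Real.log (atomY β S z y) :=
  Measurable.comp
    (g := fun p : (Fin m × Fin d → ℝ) × (Fin K → Fin m × Fin d → ℝ) =>
      Real.log (atomY β S p.1 p.2))
    (f := fun y : Fin K → Fin m × Fin d → ℝ => (z, y)) (measurable_atomY β S)
    (measurable_const.prodMk measurable_id)

theorem abs_arrMap_le (A : Fin d → Fin d → ℝ) (x : Fin d → ℝ) (k : Fin d) :
    |arrMap A x k| ≤ (∑ k, ∑ r, |A k r|) * ∑ r, |x r| := by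
  rw [arrMap_apply]
  calc |∑ r, A k r * x r| ≤ ∑ r, |A k r| * ∑ r, |x r| := by
        refine (Finset.abs_sum_le_sum_abs _ _).trans (Finset.sum_le_sum fun r _ => ?_)
        rw [abs_mul]
        exact mul_le_mul_of_nonneg_left
          (Finset.single_le_sum (f := fun r => |x r|) (fun r _ => abs_nonneg _) (Finset.mem_univ r))
          (abs_nonneg _)
    _ ≤ (∑ k, ∑ r, |A k r|) * ∑ r, |x r| := by
        rw [← Finset.sum_mul]
        exact mul_le_mul_of_nonneg_right (Finset.single_le_sum (f := fun k => ∑ r, |A k r|)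
          (fun k _ => Finset.sum_nonneg fun r _ => abs_nonneg _) (Finset.mem_univ k))
          (Finset.sum_nonneg fun r _ => abs_nonneg _)

theorem atomH_bound : ∃ A : ℝ, 0 ≤ A ∧ ∀ τ (z : Fin m × Fin d → ℝ)
    (y : Fin K → Fin m × Fin d → ℝ),
    |atomH β S τ z y| ≤ A * ((1 + ∑ p, |z p|) * (1 + ∑ l, ∑ p, |y l p|)) := by
  set E : Fin m → Fin (K + 1) → ℝ := fun i l => ∑ k, ∑ r, |S i l k r|
  set G : Fin β.c → Fin m → ℝ := fun τ i => ∑ k, |β.cfg τ i k|
  set Q : Fin β.c → Fin m → ℝ := fun τ i => |β.cfg τ i ⬝ᵥ atomCum S i *ᵥ β.cfg τ i / 2|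
  have hE : ∀ i l, 0 ≤ E i l := fun i l =>
    Finset.sum_nonneg fun k _ => Finset.sum_nonneg fun r _ => abs_nonneg _
  have hG : ∀ τ i, 0 ≤ G τ i := fun τ i => Finset.sum_nonneg fun k _ => abs_nonneg _
  have hQ : ∀ τ i, 0 ≤ Q τ i := fun τ i => abs_nonneg _
  have hterm : ∀ τ, 0 ≤ ∑ i, (G τ i * (E i 0 + ∑ l : Fin K, E i l.succ) + Q τ i) := fun τ =>
    Finset.sum_nonneg fun i _ => add_nonneg (mul_nonneg (hG τ i)
      (add_nonneg (hE i 0) (Finset.sum_nonneg fun l _ => hE i _))) (hQ τ i)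
  refine ⟨∑ τ, ∑ i, (G τ i * (E i 0 + ∑ l : Fin K, E i l.succ) + Q τ i),
    Finset.sum_nonneg fun τ _ => hterm τ, fun τ z y => ?_⟩
  set Z := ∑ p, |z p|
  set Y := ∑ l, ∑ p, |y l p|
  have hZ : 0 ≤ Z := Finset.sum_nonneg fun p _ => abs_nonneg _
  have hY : 0 ≤ Y := Finset.sum_nonneg fun l _ => Finset.sum_nonneg fun p _ => abs_nonneg _
  have hone : 1 ≤ (1 + Z) * (1 + Y) := by nlinarith
  have hrow : ∀ (f : Fin m × Fin d → ℝ) i, ∑ r, |f (i, r)| ≤ ∑ p, |f p| := fun f i => by
    rw [Fintype.sum_prod_type]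
    exact Finset.single_le_sum (f := fun i => ∑ r, |f (i, r)|)
      (fun i _ => Finset.sum_nonneg fun r _ => abs_nonneg _) (Finset.mem_univ i)
  have hfld : ∀ i k, |atomFld S z y i k|
      ≤ (E i 0 + ∑ l : Fin K, E i l.succ) * ((1 + Z) * (1 + Y)) := fun i k => by
    simp only [atomFld, rowFld, Pi.add_apply, Finset.sum_apply, add_mul, Finset.sum_mul]
    refine (abs_add_le _ _).trans (add_le_add ?_ ?_)
    · exact (abs_arrMap_le _ _ k).trans (mul_le_mul_of_nonneg_left
        ((hrow z i).trans (by nlinarith)) (hE i 0))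
    · exact (Finset.abs_sum_le_sum_abs _ _).trans (Finset.sum_le_sum fun l _ =>
        (abs_arrMap_le _ _ k).trans (mul_le_mul_of_nonneg_left ((hrow (y l) i).trans
          ((Finset.single_le_sum (f := fun l => ∑ p, |y l p|)
            (fun l _ => Finset.sum_nonneg fun p _ => abs_nonneg _) (Finset.mem_univ l)).trans
            (by nlinarith))) (hE i _)))
  refine le_trans ?_ (mul_le_mul_of_nonneg_right (Finset.single_le_sum
    (f := fun τ => ∑ i, (G τ i * (E i 0 + ∑ l : Fin K, E i l.succ) + Q τ i))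
    (fun τ _ => hterm τ) (Finset.mem_univ τ)) (by linarith))
  rw [Finset.sum_mul]
  refine (Finset.abs_sum_le_sum_abs _ _).trans (Finset.sum_le_sum fun i _ => ?_)
  refine (abs_sub _ _).trans ?_
  rw [add_mul]
  refine add_le_add ?_ (le_mul_of_one_le_right (hQ τ i) hone)
  simp only [dotProduct, G, Finset.sum_mul]
  refine (Finset.abs_sum_le_sum_abs _ _).trans (Finset.sum_le_sum fun k _ => ?_)
  rw [abs_mul, mul_comm, mul_assoc]
  exact mul_le_mul_of_nonneg_left (hfld i k) (abs_nonneg _)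

theorem grow_log_atomY (z : Fin m × Fin d → ℝ) :
    Grow fun y : Fin K → Fin m × Fin d → ℝ => Real.log (atomY β S z y) := by
  obtain ⟨A, hA, hb⟩ := atomH_bound β S
  have : Nonempty (Fin β.c) := ⟨⟨0, β.c_pos⟩⟩
  have hW : 0 < ∑ τ, β.w τ := Finset.sum_pos (fun τ _ => β.w_pos τ) Finset.univ_nonempty
  have hZ : 0 ≤ ∑ p, |z p| := Finset.sum_nonneg fun p _ => abs_nonneg _
  refine ⟨|Real.log (∑ τ, β.w τ)| + A * (1 + ∑ p, |z p|), by positivity, fun y => ?_⟩
  set s := A * ((1 + ∑ p, |z p|) * (1 + ∑ l, ∑ p, |y l p|))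
  have hY : 0 ≤ ∑ l, ∑ p, |y l p| :=
    Finset.sum_nonneg fun l _ => Finset.sum_nonneg fun p _ => abs_nonneg _
  have hbs : ∀ τ, |atomH β S τ z y| ≤ s := fun τ => hb τ z y
  have h1 : (∑ τ, β.w τ) * Real.exp (-s) ≤ atomY β S z y := by
    rw [Finset.sum_mul]
    exact Finset.sum_le_sum fun τ _ =>
      mul_le_mul_of_nonneg_left (Real.exp_le_exp.2 (abs_le.1 (hbs τ)).1) (β.w_pos τ).le
  have h2 : atomY β S z y ≤ (∑ τ, β.w τ) * Real.exp s := by
    rw [Finset.sum_mul]
    exact Finset.sum_le_sum fun τ _ =>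
      mul_le_mul_of_nonneg_left (Real.exp_le_exp.2 (abs_le.1 (hbs τ)).2) (β.w_pos τ).le
  have l1 := Real.log_le_log (mul_pos hW (Real.exp_pos _)) h1
  have l2 := Real.log_le_log (atomY_pos β S z y) h2
  rw [Real.log_mul hW.ne' (Real.exp_pos _).ne', Real.log_exp] at l1 l2
  have h3 : |Real.log (∑ τ, β.w τ)| ≤ |Real.log (∑ τ, β.w τ)| * (1 + ∑ l, ∑ p, |y l p|) :=
    le_mul_of_one_le_right (abs_nonneg _) (by linarith)
  have h4 := abs_le.1 (le_refl |Real.log (∑ τ, β.w τ)|)
  simp only [s] at l1 l2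
  rw [abs_le]
  constructor <;> nlinarith

end Vale.Agent.P166.Casc
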