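import Vale.Agent.P166.Casc.BlockShell
import Vale.Agent.P166.Casc.VAtom
import Vale.Agent.P166.Formula.CascLim

/-!
The value of fine atoms of confined Gaussian configurations of a block is at least the sum over its
sites of the values of the tilted spins of their types.
-/

open MeasureTheory ProbabilityTheory Filter Topology Matrix

namespace Vale.Agent.P166.Casc

open Vale.Agent.P157.Casc Vale.Agent.P166.Formula Vale.Agent.P166.Pen
open Vale.Agent.P150.Fast.Dom (arrMap arrMap_apply)

variable {m d K : ℕ} (T : Fin m → Finset (Fin d))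

/-- The exponent of one configuration of a block. -/
noncomputable def spinH (S : Fin m → Fin (K + 1) → Fin d → Fin d → ℝ) (x : Fin m → Fin d → ℝ)
    (z : Fin m × Fin d → ℝ) (y : Fin K → Fin m × Fin d → ℝ) : ℝ :=
  ∑ i, (atomFld S z y i ⬝ᵥ x i - x i ⬝ᵥ atomCum S i *ᵥ x i / 2)

/-- Atoms of configurations as a block. -/
noncomputable def atomBlock {ν : Measure (Fin d → Fin m → ℝ)} {A : Set (Fin d → Fin m → ℝ)}
    {ε : ℝ} (τ : ℝ) (a : Atoms ν A ε) : Block m d :=
  ⟨a.c, a.c_pos, a.w, fun σ => maskCfg T τ (a.x σ), a.w_pos⟩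

/-- Factors of the fields of the sites of a type. -/
def subS (S : Fin m → Fin (K + 1) → Fin d → Fin d → ℝ) (t : Finset (Fin d)) (l : Fin K)
    (x : Fin (typSize T t) × Fin t.card) (j : Fin m × Fin d) : ℝ :=
  if j.1 = site T t x.1 then S j.1 l.succ (comp t x.2) j.2 else 0

/-- The field of a site of a type. -/
noncomputable def subFld (S : Fin m → Fin (K + 1) → Fin d → Fin d → ℝ) (t : Finset (Fin d))
    (y : Fin K → Fin m × Fin d → ℝ) (a : Fin (typSize T t)) (b : Fin t.card) : ℝ :=
  ∑ l, ∑ j, subS T S t l (a, b) j * y l j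

/-- The exponent of the sites of a type. -/
noncomputable def typH (τ : ℝ) {t : Finset (Fin d)} (P : Matrix (Fin t.card) (Fin t.card) ℝ)
    (S : Fin m → Fin (K + 1) → Fin d → Fin d → ℝ) (y : Fin K → Fin m × Fin d → ℝ)
    (g : Fin (typSize T t) → Fin t.card → ℝ) : ℝ :=
  ∑ a, leafW τ P (subFld T S t y a) (g a)

variable (S : Fin m → Fin (K + 1) → Fin d → Fin d → ℝ)

theorem subFld_eq (t : Finset (Fin d)) (y : Fin K → Fin m × Fin d → ℝ) (a : Fin (typSize T t))
    (b : Fin t.card) :
    subFld T S t y a b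
      = ∑ l : Fin K, ∑ r, S (site T t a) l.succ (comp t b) r * y l (site T t a, r) := by
  refine Finset.sum_congr rfl fun l _ => ?_
  simp [subS, Fintype.sum_prod_type, ite_mul, Finset.sum_ite_eq']

theorem quad_atomCum (i : Fin m) (u : Fin d → ℝ) :
    u ⬝ᵥ atomCum S i *ᵥ u = ∑ l, cq (S i l) u := by
  simp only [cq, pow_two, dotProduct, Matrix.mulVec, atomCum, Matrix.of_apply, Finset.sum_mul,
    Finset.mul_sum]
  conv_rhs =>
    arg 2
    ext l
    rw [Finset.sum_comm]
  conv_rhs => rw [Finset.sum_comm]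
  refine Finset.sum_congr rfl fun k _ => ?_
  conv_rhs =>
    arg 2
    ext l
    rw [Finset.sum_comm]
  conv_rhs => rw [Finset.sum_comm]
  exact Finset.sum_congr rfl fun k' _ => Finset.sum_congr rfl fun l _ =>
    Finset.sum_congr rfl fun r _ => by ring

theorem sum_mask {M : ℝ} (τ : ℝ) (ω : Fin d → Fin m → ℝ) (t : Finset (Fin d))
    (a : Fin (typSize T t)) (f : Fin d → ℝ)
    (h : ∑ b, f (comp t b) * (√τ * subG T t ω a b) = M) :
    ∑ k, f k * maskCfg T τ ω (site T t a) k = M := by
  rw [← h]
  simp only [maskCfg, T_site, mul_ite, mul_zero, Finset.sum_ite_mem, Finset.univ_inter]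
  rw [sum_comp_eq]
  rfl

/-- The exponent of a masked configuration, by types. -/
theorem spinH_mask (τ : ℝ) {p : (t : Finset (Fin d)) → ℕ → Matrix (Fin t.card) (Fin t.card) ℝ}
    (hp0 : ∀ t ∈ Finset.univ.image T, p t 0 = 0)
    (hS0 : ∀ i t, T i = t → ∀ b r, S i 0 (comp t b) r = 0)
    (hS : ∀ i t, T i = t → ∀ (l : Fin K) u, cq (fun b => S i l.succ (comp t b)) u
      = u ⬝ᵥ (p t (l.val + 1) - p t l.val) *ᵥ u)
    (ω : Fin d → Fin m → ℝ) (z : Fin m × Fin d → ℝ) (y : Fin K → Fin m × Fin d → ℝ) :
    spinH S (maskCfg T τ ω) z y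
      = ∑ t ∈ Finset.univ.image T, typH T τ (p t K) S y (subG T t ω) := by
  rw [spinH, sum_by_type T]
  refine Finset.sum_congr rfl fun t ht => Finset.sum_congr rfl fun a _ => ?_
  set u := √τ • subG T t ω a
  have hT := T_site T t a
  have hfld : atomFld S z y (site T t a) ⬝ᵥ maskCfg T τ ω (site T t a)
      = subFld T S t y a ⬝ᵥ u := by
    refine sum_mask T τ ω t a _ (Finset.sum_congr rfl fun b _ => ?_)
    simp only [atomFld, rowFld, Pi.add_apply, Finset.sum_apply, arrMap_apply, hS0 _ _ hT,
      zero_mul, Finset.sum_const_zero, zero_add, subFld_eq, u, Pi.smul_apply, smul_eq_mul]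
  have hq : ∀ l, cq (S (site T t a) l) (maskCfg T τ ω (site T t a))
      = cq (fun b => S (site T t a) l (comp t b)) u := fun l => by
    refine Finset.sum_congr rfl fun r _ => ?_
    congr 1
    simp only [mul_comm (maskCfg T τ ω (site T t a) _)]
    refine sum_mask T τ ω t a _ (Finset.sum_congr rfl fun b _ => ?_)
    simp only [u, Pi.smul_apply, smul_eq_mul, mul_comm]
  have hquad : maskCfg T τ ω (site T t a) ⬝ᵥ atomCum S (site T t a) *ᵥ maskCfg T τ ω (site T t a)
      = u ⬝ᵥ p t K *ᵥ u := by
    rw [quad_atomCum, Fin.sum_univ_succ, hq, show cq (fun b => S (site T t a) 0 (comp t b)) u = 0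
      by simp [cq, hS0 _ _ hT], zero_add]
    simp only [hq, hS _ _ hT, Matrix.sub_mulVec, dotProduct_sub]
    rw [Fin.sum_univ_eq_sum_range (fun l => u ⬝ᵥ p t (l + 1) *ᵥ u - u ⬝ᵥ p t l *ᵥ u) K,
      Finset.sum_range_sub (fun l => u ⬝ᵥ p t l *ᵥ u), hp0 t ht, Matrix.zero_mulVec,
      dotProduct_zero, sub_zero]
  rw [hfld, hquad]
  rfl

theorem continuous_typH (τ : ℝ) {t : Finset (Fin d)} (P : Matrix (Fin t.card) (Fin t.card) ℝ) :
    Continuous fun q : (Fin K → Fin m × Fin d → ℝ) × (Fin (typSize T t) → Fin t.card → ℝ) =>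
      typH T τ P S q.1 q.2 := by
  refine continuous_finsetSum _ fun a _ => (continuous_leafW τ P).comp
    (f := fun q : (Fin K → Fin m × Fin d → ℝ) × (Fin (typSize T t) → Fin t.card → ℝ) =>
      (subFld T S t q.1 a, q.2 a)) (Continuous.prodMk (continuous_pi fun b => ?_) ?_)
  · unfold subFld
    fun_prop
  · fun_prop

theorem continuous_typH_right (τ : ℝ) {t : Finset (Fin d)}
    (P : Matrix (Fin t.card) (Fin t.card) ℝ) (y : Fin K → Fin m × Fin d → ℝ) :
    Continuous fun g : Fin (typSize T t) → Fin t.card → ℝ => typH T τ P S y g :=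
  Continuous.comp (g := fun q : (Fin K → Fin m × Fin d → ℝ) ×
      (Fin (typSize T t) → Fin t.card → ℝ) => typH T τ P S q.1 q.2)
    (f := fun g => (y, g)) (continuous_typH T S τ P) (continuous_const.prodMk continuous_id)

theorem typH_bound (τ r : ℝ) (hr : 0 ≤ r) {t : Finset (Fin d)}
    (P : Matrix (Fin t.card) (Fin t.card) ℝ) :
    ∃ A : ℝ, 0 ≤ A ∧ ∀ (y : Fin K → Fin m × Fin d → ℝ) (g : Fin (typSize T t) → Fin t.card → ℝ),
      (∀ a b, |g a b| ≤ r) → |typH T τ P S y g| ≤ A * (1 + ∑ l, ∑ j, |y l j|) := by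
  set E := ∑ l, ∑ x, ∑ j, |subS T S t l x j|
  set Q := τ.toNNReal * r ^ 2 * (∑ i, ∑ j, |P i j|) / 2
  have hE : 0 ≤ E := Finset.sum_nonneg fun l _ => Finset.sum_nonneg fun x _ =>
    Finset.sum_nonneg fun j _ => abs_nonneg _
  have hQ : 0 ≤ Q := by positivity
  refine ⟨(typSize T t : ℝ) * (√τ * r * (t.card * E) + Q), by positivity, fun y g hg => ?_⟩
  set Y := ∑ l, ∑ j, |y l j|
  have hY : 0 ≤ Y := Finset.sum_nonneg fun l _ => Finset.sum_nonneg fun j _ => abs_nonneg _
  have hfld : ∀ a b, |subFld T S t y a b| ≤ E * Y := fun a b => by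
    refine (Finset.abs_sum_le_sum_abs _ _).trans ?_
    rw [Finset.sum_mul]
    refine Finset.sum_le_sum fun l _ => (Finset.abs_sum_le_sum_abs _ _).trans ?_
    calc ∑ j, |subS T S t l (a, b) j * y l j| ≤ ∑ j, |subS T S t l (a, b) j| * Y :=
          Finset.sum_le_sum fun j _ => by
            rw [abs_mul]
            exact mul_le_mul_of_nonneg_left ((Finset.single_le_sum (f := fun j => |y l j|)
              (fun j _ => abs_nonneg _) (Finset.mem_univ j)).trans (Finset.single_le_sum
              (f := fun l => ∑ j, |y l j|) (fun l _ => Finset.sum_nonneg fun j _ => abs_nonneg _)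
              (Finset.mem_univ l))) (abs_nonneg _)
      _ ≤ (∑ x, ∑ j, |subS T S t l x j|) * Y := by
          rw [← Finset.sum_mul]
          exact mul_le_mul_of_nonneg_right (Finset.single_le_sum
            (f := fun x => ∑ j, |subS T S t l x j|)
            (fun x _ => Finset.sum_nonneg fun j _ => abs_nonneg _) (Finset.mem_univ (a, b))) hY
  refine (Finset.abs_sum_le_sum_abs _ _).trans ?_
  have hj : ∀ a ∈ (Finset.univ : Finset (Fin (typSize T t))),
      |leafW τ P (subFld T S t y a) (g a)| ≤ (√τ * r * (t.card * E) + Q) * (1 + Y) := fun a _ => by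
    refine (abs_leafW_le τ P _ (hg a)).trans ?_
    have h1 : ∑ b, |subFld T S t y a b| ≤ t.card * E * Y := by
      refine (Finset.sum_le_sum fun b _ => hfld a b).trans_eq ?_
      simp only [Finset.sum_const, Finset.card_univ, Fintype.card_fin, nsmul_eq_mul]
      ring
    rw [add_mul]
    refine add_le_add ?_ (le_mul_of_one_le_right hQ (by linarith))
    refine (mul_le_mul_of_nonneg_left h1 (by positivity)).trans ?_
    have h2 : 0 ≤ √τ * r * (t.card * E) := by positivity
    nlinarith
  refine (Finset.sum_le_sum hj).trans_eq ?_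
  simp only [Finset.sum_const, Finset.card_univ, Fintype.card_fin, nsmul_eq_mul]
  ring

theorem abs_coord_le_of_cut {B : ℝ} {ω : Fin d → Fin m → ℝ} (hω : ω ∈ cutSet B d m) (k : Fin d)
    (i : Fin m) : |ω k i| ≤ √(B * m) := by
  refine Real.abs_le_sqrt ((?_ : _ ≤ _).trans hω)
  exact (Finset.single_le_sum (f := fun i => ω k i ^ 2) (fun i _ => sq_nonneg _)
    (Finset.mem_univ i)).trans (Finset.single_le_sum (f := fun k => ∑ i, ω k i ^ 2)
      (fun k _ => Finset.sum_nonneg fun i _ => sq_nonneg _) (Finset.mem_univ k))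

/-- The log partition function of a type in its shell. -/
noncomputable def typLog (τ es : ℝ) (D : Matrix (Fin d) (Fin d) ℝ) {t : Finset (Fin d)}
    (P : Matrix (Fin t.card) (Fin t.card) ℝ) (y : Fin K → Fin m × Fin d → ℝ) : ℝ :=
  Real.log (∫ g, Real.exp (typH T τ P S y g) ∂(blockGauss t.card (typSize T t)).restrict
    (blockShell τ es (D.submatrix (comp t) (comp t)) (typSize T t)))

theorem measurable_typLog (τ es : ℝ) (D : Matrix (Fin d) (Fin d) ℝ) {t : Finset (Fin d)}
    (P : Matrix (Fin t.card) (Fin t.card) ℝ) :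
    Measurable fun y : Fin K → Fin m × Fin d → ℝ => typLog T S τ es D P y :=
  (StronglyMeasurable.integral_prod_right'
    (ν := (blockGauss t.card (typSize T t)).restrict
      (blockShell τ es (D.submatrix (comp t) (comp t)) (typSize T t)))
    (Real.continuous_exp.comp (continuous_typH T S τ P)).measurable.stronglyMeasurable
    ).measurable.log

theorem grow_typLog {τ es : ℝ} (hτ : 0 < τ) (D : Matrix (Fin d) (Fin d) ℝ) {t : Finset (Fin d)}
    (P : Matrix (Fin t.card) (Fin t.card) ℝ)
    (hpos : 0 < ((blockGauss t.card (typSize T t)).restrict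
      (blockShell τ es (D.submatrix (comp t) (comp t)) (typSize T t))).real Set.univ) :
    (∀ y, Integrable (fun g => Real.exp (typH T τ P S y g))
        ((blockGauss t.card (typSize T t)).restrict
          (blockShell τ es (D.submatrix (comp t) (comp t)) (typSize T t))) ∧
      0 < ∫ g, Real.exp (typH T τ P S y g) ∂(blockGauss t.card (typSize T t)).restrict
          (blockShell τ es (D.submatrix (comp t) (comp t)) (typSize T t))) ∧
    Grow fun y : Fin K → Fin m × Fin d → ℝ => typLog T S τ es D P y := by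
  set E := D.submatrix (comp t) (comp t)
  set r := ∑ k : Fin t.card, √((typSize T t : ℝ) * (|E k k| + es) / τ)
  obtain ⟨A, hA, hb⟩ := typH_bound T S τ r (Finset.sum_nonneg fun _ _ => Real.sqrt_nonneg _) P
  have hae : ∀ y, ∀ᵐ g ∂(blockGauss t.card (typSize T t)).restrict
      (blockShell τ es E (typSize T t)),
      |typH T τ P S y g| ≤ A * (1 + ∑ l, ∑ j, |y l j|) := fun y => by
    filter_upwards [ae_restrict_mem (measurableSet_blockShell τ es E (typSize T t))] with g hg
    exact hb y g fun a b => (abs_coord_le_of_shell hτ hg a b).trans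
      (Finset.single_le_sum (f := fun k : Fin t.card => √((typSize T t : ℝ) * (|E k k| + es) / τ))
        (fun _ _ => Real.sqrt_nonneg _) (Finset.mem_univ b))
  have key := fun y => log_integral_exp_bound hpos
    (continuous_typH_right T S τ P y).measurable (hae y)
  refine ⟨fun y => ⟨(key y).1, (key y).2.1⟩, ?_⟩
  refine ⟨A + |Real.log (((blockGauss t.card (typSize T t)).restrict
    (blockShell τ es E (typSize T t))).real Set.univ)|, by positivity, fun y => ?_⟩
  refine ((key y).2.2).trans ?_
  set Y := ∑ l, ∑ j, |y l j|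
  have hY : 0 ≤ Y := Finset.sum_nonneg fun l _ => Finset.sum_nonneg fun j _ => abs_nonneg _
  have := mul_nonneg (abs_nonneg (Real.log (((blockGauss t.card (typSize T t)).restrict
    (blockShell τ es E (typSize T t))).real Set.univ))) hY
  nlinarith

/-- The sites of one type are a block in the fields of their path. -/
theorem casc_typLog (τ es : ℝ) (D : Matrix (Fin d) (Fin d) ℝ) {t : Finset (Fin d)}
    {p : ℕ → Matrix (Fin t.card) (Fin t.card) ℝ} (hp : IsPath K p)
    (hS : ∀ a (l : Fin K) u, cq (fun b => S (site T t a) l.succ (comp t b)) u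
      = u ⬝ᵥ (p (l.val + 1) - p l.val) *ᵥ u) :
    casc (gaus (Fin m × Fin d)) K (mlev K) (fun y => typLog T S τ es D (p K) y)
      = blockVal τ es K (D.submatrix (comp t) (comp t)) p (typSize T t) := by
  set n := typSize T t
  set E := D.submatrix (comp t) (comp t)
  set f : (Fin n × Fin t.card → ℝ) → ℝ := fun v =>
    Real.log (∫ g, Real.exp (∑ a, leafW τ (p K) (fun b => v (a, b)) (g a))
      ∂(blockGauss t.card n).restrict (blockShell τ es E n))
  have hf : Measurable f := by
    have hc : Continuous fun q : (Fin n × Fin t.card → ℝ) × (Fin n → Fin t.card → ℝ) =>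
        Real.exp (∑ a, leafW τ (p K) (fun b => q.1 (a, b)) (q.2 a)) :=
      Real.continuous_exp.comp (continuous_finsetSum _ fun a _ => (continuous_leafW τ (p K)).comp
        (f := fun q : (Fin n × Fin t.card → ℝ) × (Fin n → Fin t.card → ℝ) =>
          ((fun b => q.1 (a, b)), q.2 a)) (by fun_prop))
    exact (StronglyMeasurable.integral_prod_right'
      (ν := (blockGauss t.card n).restrict (blockShell τ es E n))
      hc.measurable.stronglyMeasurable).measurable.log
  set A' : Fin K → Fin n × Fin t.card → Fin n × Fin t.card → ℝ := fun l x j =>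
    if j.1 = x.1 then blockFac p l x.2 j.2 else 0
  have hcq : ∀ l (u : Fin n × Fin t.card → ℝ),
      ∑ j, (∑ x, u x * subS T S t l x j) ^ 2 = ∑ j, (∑ x, u x * A' l x j) ^ 2 := fun l u => by
    have hr : ∑ j, (∑ x, u x * A' l x j) ^ 2
        = ∑ a, cq (facOf (p (l.val + 1) - p l.val)) fun b => u (a, b) := by
      simp [cq, A', blockFac, Fintype.sum_prod_type, mul_ite, Finset.sum_ite_eq,
        Finset.sum_ite_irrel]
    have hl : ∑ j, (∑ x, u x * subS T S t l x j) ^ 2
        = ∑ a, cq (fun b => S (site T t a) l.succ (comp t b)) fun b => u (a, b) := by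
      have h0 : ∀ i, i ∉ Finset.univ.map (site T t).toEmbedding → ∀ r,
          ∑ x, u x * subS T S t l x (i, r) = 0 := fun i hi r =>
        Finset.sum_eq_zero fun x _ => by
          rw [subS, if_neg fun h => hi (Finset.mem_map.2 ⟨x.1, Finset.mem_univ _, h.symm⟩),
            mul_zero]
      rw [Fintype.sum_prod_type,
        ← Finset.sum_subset (Finset.subset_univ (Finset.univ.map (site T t).toEmbedding))
          fun i _ hi => Finset.sum_eq_zero fun r _ => by rw [h0 i hi r, zero_pow two_ne_zero],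
        Finset.sum_map]
      refine Finset.sum_congr rfl fun a _ => Finset.sum_congr rfl fun r _ => ?_
      simp [subS, Fintype.sum_prod_type, (site T t).injective.eq_iff, mul_ite, Finset.sum_ite_eq,
        Finset.sum_ite_irrel]
    rw [hl, hr]
    exact Finset.sum_congr rfl fun a _ => by rw [hS, cq_facOf (hp.step l.val l.isLt)]
  have hv : ∀ (y : Fin K → Fin n × Fin t.card → ℝ) (a : Fin n),
      (fun b => ∑ l, ∑ j, A' l (a, b) j * y l j) = blockField (blockFac p) y a := fun y a => by
    funext b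
    simp [A', blockField, Finset.sum_apply, Matrix.mulVec, dotProduct, Fintype.sum_prod_type,
      ite_mul, Finset.sum_ite_irrel, Finset.sum_ite_eq']
  calc casc (gaus (Fin m × Fin d)) K (mlev K) (fun y => typLog T S τ es D (p K) y)
      = casc (gaus (Fin n × Fin t.card)) K (mlev K)
          fun y => f fun x => ∑ l, ∑ j, A' l x j * y l j :=
        casc_fields_congr (mlev K) (subS T S t) A' hcq hf
    _ = _ := by simp only [f, hv, blockVal, blockH, n, E]

/-- Factors for the sites along given paths of their types. -/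
noncomputable def siteFac (K : ℕ) (p : (t : Finset (Fin d)) → ℕ → Matrix (Fin t.card) (Fin t.card) ℝ)
    (i : Fin m) : Fin (K + 1) → Fin d → Fin d → ℝ :=
  Fin.cases (fun _ _ => 0) fun l k r => ∑ b, ∑ b', if comp (T i) b = k ∧ comp (T i) b' = r then
    facOf (p (T i) (l.val + 1) - p (T i) l.val) b b' else 0

theorem siteFac_spec {p : (t : Finset (Fin d)) → ℕ → Matrix (Fin t.card) (Fin t.card) ℝ}
    (hp : ∀ i, IsPath K (p (T i))) :
    (∀ i t, T i = t → ∀ b r, siteFac T K p i 0 (comp t b) r = 0) ∧
    ∀ i t, T i = t → ∀ (l : Fin K) u, cq (fun b => siteFac T K p i l.succ (comp t b)) u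
      = u ⬝ᵥ (p t (l.val + 1) - p t l.val) *ᵥ u := by
  refine ⟨fun i t _ b r => rfl, fun i t hi l u => ?_⟩
  subst hi
  rw [← cq_facOf ((hp i).step l.val l.isLt), cq, cq]
  set f := facOf (p (T i) (l.val + 1) - p (T i) l.val)
  have e : ∀ b r, siteFac T K p i l.succ (comp (T i) b) r
      = ∑ b', if comp (T i) b' = r then f b b' else 0 := fun b r => by
    simp [siteFac, f, (comp (T i)).injective.eq_iff, ite_and, Finset.sum_ite_irrel]
  rw [← Finset.sum_subset (Finset.subset_univ (Finset.univ.map (comp (T i)).toEmbedding))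
    fun r _ hr => by
      rw [Finset.sum_eq_zero fun b _ => ?_, zero_pow two_ne_zero]
      rw [e, Finset.sum_eq_zero fun b' _ => if_neg fun (h : comp (T i) b' = r) => hr
        (Finset.mem_map.2 ⟨b', Finset.mem_univ _, h⟩), mul_zero],
    Finset.sum_map]
  exact Finset.sum_congr rfl fun b' _ => by
    simp [e, (comp (T i)).injective.eq_iff]

/-- Fine atoms of a confined block are worth at least the tilted spins of the types of the sites,
uniformly in the levels; in particular the confined configurations have positive mass. -/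
theorem block_atoms_lower (d : ℕ) {τ es μ c Bp η : ℝ} (hτ : 0 < τ) (hes : 0 < es) (hμ : 0 < μ)
    (hμ1 : μ ≤ 1) (hc : 0 < c) (hη : 0 < η) :
    ∃ n0, ∀ (m : ℕ) (T : Fin m → Finset (Fin d)) (B : ℝ)
      (D : Finset (Fin d) → Matrix (Fin d) (Fin d) ℝ), 0 < m →
      (∀ i, n0 ≤ typSize T (T i)) → (∑ i, actB τ es D (T i)) + 2 * (d * m) ≤ B * m →
      ∀ (K : ℕ) (L : (t : Finset (Fin d)) → Matrix (Fin t.card) (Fin t.card) ℝ)
        (p q : (t : Finset (Fin d)) → ℕ → Matrix (Fin t.card) (Fin t.card) ℝ)
        (S : Fin m → Fin (K + 1) → Fin d → Fin d → ℝ),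
      (∀ t ∈ Finset.univ.image T, IsPath K (p t) ∧
        ((D t).submatrix (comp t) (comp t)).transpose = (D t).submatrix (comp t) (comp t) ∧
        (∀ l, l ≤ K → tLam (gridM K) K (L t) (p t) l
          * tT (gridM K) K ((D t).submatrix (comp t) (comp t)) (q t) l = 1) ∧
        q t 0 = tT (gridM K) K ((D t).submatrix (comp t) (comp t)) (q t) 0 * p t 0
          * tT (gridM K) K ((D t).submatrix (comp t) (comp t)) (q t) 0 ∧
        (∀ l, l ≤ K → (tLam (gridM K) K (L t) (p t) l
          - c • (1 : Matrix (Fin t.card) (Fin t.card) ℝ)).PosSemidef) ∧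
        Casc.mabs (p t K) ≤ Bp ∧ Casc.mabs (L t) ≤ Bp ∧
        (∀ l, l ≤ K → gridM K l < μ → p t l = 0)) →
      (∀ i t, T i = t → ∀ b r, S i 0 (comp t b) r = 0) →
      (∀ i t, T i = t → ∀ (l : Fin K) u, cq (fun b => S i l.succ (comp t b)) u
        = u ⬝ᵥ (p t (l.val + 1) - p t l.val) *ᵥ u) →
      0 < ((spinLaw d m).restrict (shellSet T τ es B D)).real Set.univ ∧
      ∀ {ε : ℕ → ℝ}, Tendsto ε atTop (𝓝 0) →
        ∀ a : ∀ W, Atoms ((spinLaw d m).restrict (shellSet T τ es B D)) (shellSet T τ es B D)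
          (ε W),
        ∀ᶠ W in atTop,
          ∑ i, (spinVal (gridM K) K τ ((D (T i)).submatrix (comp (T i)) (comp (T i))) (L (T i))
              (p (T i)) - (Bp + d / τ) * es / 2 - η)
            ≤ atomVal (atomBlock T τ (a W)) S := by
  choose N0 hN0 using fun s : Fin (d + 1) =>
    block_lower s.val (B := Bp) hτ hes hμ hμ1 hc (half_pos hη)
  refine ⟨max (Finset.univ.sup N0) (⌈2 * Real.log 2 / η⌉₊ + 1),
    fun m T B D hm hn0 hB K L p q S hyp hS0 hS => ?_⟩
  set TT := Finset.univ.image T
  set sh : (t : Finset (Fin d)) → Set (Fin (typSize T t) → Fin t.card → ℝ) := fun t =>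
    blockShell τ es ((D t).submatrix (comp t) (comp t)) (typSize T t)
  have hp0 : ∀ t ∈ TT, p t 0 = 0 := fun t ht =>
    (hyp t ht).2.2.2.2.2.2.2 0 (Nat.zero_le K) (by simpa [gridM] using hμ)
  have hlow : ∀ t ∈ TT,
      0 < ((blockGauss t.card (typSize T t)).restrict (sh t)).real Set.univ ∧
      (typSize T t : ℝ) * (spinVal (gridM K) K τ ((D t).submatrix (comp t) (comp t)) (L t) (p t)
          - (Bp + d / τ) * es / 2 - η / 2)
        ≤ casc (gaus (Fin m × Fin d)) K (mlev K) (fun y => typLog T S τ es (D t) (p t K) y) := by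
    intro t ht
    obtain ⟨i, -, rfl⟩ := Finset.mem_image.1 ht
    obtain ⟨hpa, hD, h1, h2, h3, h4, h5, h6⟩ := hyp _ ht
    have hcard : (T i).card < d + 1 := Nat.lt_succ_of_le
      ((Finset.card_le_univ _).trans_eq (Fintype.card_fin d))
    obtain ⟨ha, hb⟩ := hN0 ⟨(T i).card, hcard⟩ (typSize T (T i))
      (((Finset.le_sup (f := N0) (Finset.mem_univ _)).trans (le_max_left _ _)).trans (hn0 i))
      K (L (T i)) _ (p (T i)) (q (T i)) hpa hD h1 h2 h3 h4 h5 h6
    refine ⟨ha, le_trans ?_ (hb.trans_eq (casc_typLog T S τ es (D (T i)) hpa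
      fun a l u => hS _ _ (T_site T (T i) a) l u).symm)⟩
    refine mul_le_mul_of_nonneg_left ?_ (Nat.cast_nonneg _)
    have : ((T i).card : ℝ) / τ ≤ (d : ℝ) / τ :=
      div_le_div_of_nonneg_right (Nat.cast_le.2 (Nat.lt_succ_iff.1 hcard)) hτ.le
    simp only [Fin.val_mk]
    nlinarith
  set X := shellSet T τ es B D
  set ν := (spinLaw d m).restrict X
  set h : (Fin K → Fin m × Fin d → ℝ) → (Fin d → Fin m → ℝ) → ℝ := fun y ω =>
    spinH S (maskCfg T τ ω) 0 y
  have hh : ∀ y ω, h y ω = ∑ t ∈ TT, typH T τ (p t K) S y (subG T t ω) := fun y ω =>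
    spinH_mask T S τ hp0 hS0 hS ω 0 y
  have hcont : Continuous fun q : (Fin K → Fin m × Fin d → ℝ) × (Fin d → Fin m → ℝ) =>
      h q.1 q.2 := by
    simp only [hh]
    exact continuous_finsetSum _ fun t _ => (continuous_typH T S τ (p t K)).comp
      (f := fun q : (Fin K → Fin m × Fin d → ℝ) × (Fin d → Fin m → ℝ) => (q.1, subG T t q.2))
      (continuous_fst.prodMk ((continuous_subG T t).comp continuous_snd))
  have hcy : ∀ y, Continuous fun ω => Real.exp (h y ω) := fun y =>
    Real.continuous_exp.comp (Continuous.comp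
      (g := fun q : (Fin K → Fin m × Fin d → ℝ) × (Fin d → Fin m → ℝ) => h q.1 q.2)
      (f := fun ω => (y, ω)) hcont (continuous_const.prodMk continuous_id))
  choose At hAt hbt using fun t =>
    typH_bound T S τ √(B * m) (Real.sqrt_nonneg _) (t := t) (p t K)
  set A := ∑ t ∈ TT, At t
  have hA : 0 ≤ A := Finset.sum_nonneg fun t _ => hAt t
  have hbd : ∀ y, ∀ ω ∈ X, |h y ω| ≤ A * (1 + ∑ l, ∑ j, |y l j|) := fun y ω hω => by
    rw [hh, Finset.sum_mul]
    exact (Finset.abs_sum_le_sum_abs _ _).trans (Finset.sum_le_sum fun t _ =>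
      hbt t y _ fun a b => abs_coord_le_of_cut hω.1 _ _)
  have hXm : MeasurableSet X := (isClosed_shellSet T τ es B D).measurableSet
  have hIoI : ∀ y, Integrable (fun ω => Real.exp (h y ω)) ν := fun y =>
    (integrable_const (Real.exp (A * (1 + ∑ l, ∑ j, |y l j|)))).mono'
      (hcy y).measurable.aestronglyMeasurable (by
        filter_upwards [ae_restrict_mem hXm] with ω hω
        rw [Real.norm_eq_abs, abs_of_pos (Real.exp_pos _), Real.exp_le_exp]
        exact (abs_le.1 (hbd y ω hω)).2)
  -- the shells of the types inside the shell of the block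
  have hprod : ∀ y, (1 : ℝ) / 2 * ∏ t ∈ TT, ∫ g, Real.exp (typH T τ (p t K) S y g)
      ∂(blockGauss t.card (typSize T t)).restrict (sh t) ≤ ∫ ω, Real.exp (h y ω) ∂ν := fun y => by
    set G : Set (Fin d → Fin m → ℝ) := {ω | inact T ω ≤ 2 * ((d : ℝ) * m)}
    have hGm : MeasurableSet G := measurableSet_le (continuous_inact T).measurable measurable_const
    have hshm : ∀ t, MeasurableSet (sh t) := fun t => measurableSet_blockShell τ es _ _
    have key := integral_prod_types T
      (fun t => (sh t).indicator fun g => Real.exp (typH T τ (p t K) S y g))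
      (G.indicator fun _ => (1 : ℝ))
      (fun ω ω' hω => by
        have e : inact T ω = inact T ω' := Finset.sum_congr rfl fun i _ =>
          Finset.sum_congr rfl fun k hk => by rw [hω k i (Finset.mem_sdiff.1 hk).2]
        simp only [Set.indicator_apply, G, Set.mem_ofPred_eq, e])
      (fun t => (Real.continuous_exp.comp (continuous_typH_right T S τ (p t K) y)).measurable
        |>.indicator (hshm t))
      (measurable_const.indicator hGm) TT
    simp only [integral_indicator (hshm _), integral_indicator hGm, integral_const,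
      smul_eq_mul, mul_one, measureReal_restrict_apply_univ] at key
    have hnn : 0 ≤ ∏ t ∈ TT, ∫ g, Real.exp (typH T τ (p t K) S y g)
        ∂(blockGauss t.card (typSize T t)).restrict (sh t) :=
      Finset.prod_nonneg fun t _ => integral_nonneg fun g => (Real.exp_pos _).le
    refine (mul_le_mul_of_nonneg_right (half_le_inact T) hnn).trans (key.symm.trans_le ?_)
    rw [← integral_indicator hXm]
    refine integral_mono_of_nonneg (ae_of_all _ fun ω => ?_)
      ((integrable_indicator_iff hXm).2 (hIoI y)) (ae_of_all _ fun ω => ?_)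
    · exact mul_nonneg (Set.indicator_nonneg (fun _ _ => zero_le_one) _)
        (Finset.prod_nonneg fun t _ => Set.indicator_nonneg (fun _ _ => (Real.exp_pos _).le) _)
    · by_cases hin : ω ∈ G ∧ ∀ t ∈ TT, subG T t ω ∈ sh t
      · have hX : ω ∈ X := mem_shellSet T hτ hB hin.2 hin.1
        simp only [Set.indicator_of_mem hin.1, Set.indicator_of_mem hX, one_mul]
        rw [Finset.prod_congr rfl fun t ht => Set.indicator_of_mem (hin.2 t ht) _, hh,
          Real.exp_sum]
      · have h0 : G.indicator (fun _ => (1 : ℝ)) ω * ∏ t ∈ TT,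
            (sh t).indicator (fun g => Real.exp (typH T τ (p t K) S y g)) (subG T t ω) = 0 := by
          rcases not_and_or.1 hin with hno | hno
          · rw [Set.indicator_of_notMem hno, zero_mul]
          · push Not at hno
            obtain ⟨t, ht, hno⟩ := hno
            rw [Finset.prod_eq_zero ht (Set.indicator_of_notMem hno _), mul_zero]
        simp only [h0]
        exact Set.indicator_nonneg (fun _ _ => (Real.exp_pos _).le) _
  have hgt := fun t ht => grow_typLog T S hτ (D t) (p t K) (hlow t ht).1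
  have hpI : ∀ y, 0 < ∏ t ∈ TT, ∫ g, Real.exp (typH T τ (p t K) S y g)
      ∂(blockGauss t.card (typSize T t)).restrict (sh t) :=
    fun y => Finset.prod_pos fun t ht => ((hgt t ht).1 y).2
  have hmass : 0 < ν.real Set.univ := by
    refine measureReal_nonneg.lt_of_ne' fun h0 => ?_
    have hz : ν = 0 := Measure.measure_univ_eq_zero.1 ((measureReal_eq_zero_iff).1 h0)
    have := hprod 0
    rw [hz, integral_zero_measure] at this
    linarith [hpI 0]
  refine ⟨hmass, fun {ε} hε a => ?_⟩
  have hmem : ∀ᵐ ω ∂ν, ω ∈ X := ae_restrict_mem hXm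
  set F : ℕ → (Fin K → Fin m × Fin d → ℝ) → ℝ := fun W y =>
    Real.log (∑ σ, (a W).w σ * Real.exp (h y ((a W).x σ)))
  set Fl : (Fin K → Fin m × Fin d → ℝ) → ℝ := fun y => Real.log (∫ ω, Real.exp (h y ω) ∂ν)
  have hval : ∀ W, atomVal (atomBlock T τ (a W)) S
      = casc (gaus (Fin m × Fin d)) K (mlev K) (F W) := fun W => by
    have e : ∀ z y, atomY (atomBlock T τ (a W)) S z y
        = ∑ σ, (a W).w σ * Real.exp (h y ((a W).x σ)) := fun z y => by
      refine Finset.sum_congr rfl fun σ _ => ?_
      show (a W).w σ * Real.exp (spinH S (maskCfg T τ ((a W).x σ)) z y) = _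
      rw [spinH_mask T S τ hp0 hS0 hS, hh]
    simp only [atomVal, e, integral_const, probReal_univ, one_smul]
    rfl
  have hFm : ∀ W, Measurable (F W) := fun W =>
    (Finset.measurable_sum _ fun σ _ => ((Real.continuous_exp.comp (Continuous.comp
      (g := fun q : (Fin K → Fin m × Fin d → ℝ) × (Fin d → Fin m → ℝ) => h q.1 q.2)
      (f := fun y => (y, (a W).x σ)) hcont
      (continuous_id.prodMk continuous_const))).measurable.const_mul _)).log
  have hFlm : Measurable Fl := (StronglyMeasurable.integral_prod_right' (ν := ν)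
    (Real.continuous_exp.comp hcont).measurable.stronglyMeasurable).measurable.log
  have hsum : ∀ W, ∑ σ, (a W).w σ = ν.real Set.univ := fun W => by
    simpa using (a W).repr fun _ => 1
  set A' := A + |Real.log (ν.real Set.univ)|
  have hA' : 0 ≤ A' := add_nonneg hA (abs_nonneg _)
  have hFb : ∀ W y, |F W y| ≤ A' * (1 + ∑ l, ∑ j, |y l j|) := fun W y => by
    set s := A * (1 + ∑ l, ∑ j, |y l j|)
    have hs : ∀ σ, |h y ((a W).x σ)| ≤ s := fun σ => hbd y _ ((a W).mem σ)
    have : Nonempty (Fin (a W).c) := ⟨⟨0, (a W).c_pos⟩⟩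
    have hp : 0 < ∑ σ, (a W).w σ * Real.exp (h y ((a W).x σ)) :=
      Finset.sum_pos (fun σ _ => mul_pos ((a W).w_pos σ) (Real.exp_pos _)) Finset.univ_nonempty
    have h1 : ν.real Set.univ * Real.exp (-s) ≤ ∑ σ, (a W).w σ * Real.exp (h y ((a W).x σ)) := by
      rw [← hsum W, Finset.sum_mul]
      exact Finset.sum_le_sum fun σ _ =>
        mul_le_mul_of_nonneg_left (Real.exp_le_exp.2 (abs_le.1 (hs σ)).1) ((a W).w_pos σ).le
    have h2 : ∑ σ, (a W).w σ * Real.exp (h y ((a W).x σ)) ≤ ν.real Set.univ * Real.exp s := by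
      rw [← hsum W, Finset.sum_mul]
      exact Finset.sum_le_sum fun σ _ =>
        mul_le_mul_of_nonneg_left (Real.exp_le_exp.2 (abs_le.1 (hs σ)).2) ((a W).w_pos σ).le
    have l1 := Real.log_le_log (mul_pos hmass (Real.exp_pos _)) h1
    have l2 := Real.log_le_log hp h2
    rw [Real.log_mul hmass.ne' (Real.exp_pos _).ne', Real.log_exp] at l1 l2
    have hY : 0 ≤ ∑ l, ∑ j, |y l j| :=
      Finset.sum_nonneg fun l _ => Finset.sum_nonneg fun j _ => abs_nonneg _
    have := mul_nonneg (abs_nonneg (Real.log (ν.real Set.univ))) hY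
    have := abs_le.1 (le_refl |Real.log (ν.real Set.univ)|)
    simp only [s] at l1 l2
    simp only [F, A']
    rw [abs_le]
    constructor <;> nlinarith
  have hIpos : ∀ y, 0 < ∫ ω, Real.exp (h y ω) ∂ν := fun y =>
    (mul_pos one_half_pos (hpI y)).trans_le (hprod y)
  have hlim : ∀ y, Tendsto (fun W => F W y) atTop (𝓝 (Fl y)) := fun y =>
    (tendsto_atoms ν (isCompact_shellSet T τ es B D) hmem hε a (hcy y)).log (hIpos y).ne'
  have hT := tendsto_casc_grow K (grid_mlev K) hA' hFm hFlm hFb hlim
  have hFlg : Grow Fl := ⟨A', hA', fun y => le_of_tendsto' (hlim y).abs fun W => hFb W y⟩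
  -- the types separate
  set H : Finset (Fin d) → (Fin K → Fin m × Fin d → ℝ) → ℝ := fun t =>
    if t ∈ TT then fun y => typLog T S τ es (D t) (p t K) y else fun _ => 0
  have hHt : ∀ t ∈ TT, H t = fun y => typLog T S τ es (D t) (p t K) y := fun t ht => by
    simp [H, ht]
  have hHm : ∀ t, Measurable (H t) := fun t => by
    by_cases ht : t ∈ TT
    · rw [hHt t ht]; exact measurable_typLog T S τ es (D t) (p t K)
    · simp [H, ht]
  have hHg : ∀ t, Grow (H t) := fun t => by
    by_cases ht : t ∈ TT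
    · rw [hHt t ht]; exact (hgt t ht).2
    · simpa [H, ht] using grow_const (K := K) (I := Fin m × Fin d) 0
  have hsep := casc_sum_owner (grid_mlev K) (fun j : Fin m × Fin d => T j.1) hHm hHg
    (fun t y y' hy => by
      by_cases ht : t ∈ TT
      · simp only [hHt t ht, typLog, typH]
        refine congrArg Real.log (integral_congr_ae (ae_of_all _ fun g => ?_))
        dsimp only
        refine congrArg Real.exp (Finset.sum_congr rfl fun a _ => ?_)
        congr 1
        funext b
        simp only [subFld_eq]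
        exact Finset.sum_congr rfl fun l _ => Finset.sum_congr rfl fun r _ => by
          rw [hy l _ (T_site T t a)]
      · simp [H, ht]) TT
  have hle : casc (gaus (Fin m × Fin d)) K (mlev K) (fun y => ∑ t ∈ TT, H t y)
      ≤ casc (gaus (Fin m × Fin d)) K (mlev K) Fl + Real.log 2 := by
    have hmz := Finset.measurable_sum TT fun t _ => hHm t
    refine casc_le_add _ K (grid_mlev K) hmz hFlm
      ((Grow.sum TT fun t _ => hHg t).integrable_exp hmz) (hFlg.integrable_exp hFlm) fun y => ?_
    rw [Finset.sum_congr rfl fun t ht => congrFun (hHt t ht) y]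
    have h1 := Real.log_le_log (mul_pos one_half_pos (hpI y)) (hprod y)
    rw [Real.log_mul (by norm_num) (hpI y).ne', one_div, Real.log_inv,
      Real.log_prod fun t ht => ((hgt t ht).1 y).2.ne'] at h1
    simp only [typLog, Fl]
    linarith
  rw [hsep, Finset.sum_congr rfl fun t ht => congrArg (casc (gaus (Fin m × Fin d)) K (mlev K))
    (hHt t ht)] at hle
  have hsumle := (Finset.sum_le_sum fun t ht => (hlow t ht).2).trans hle
  have hmaps : ∀ i ∈ (Finset.univ : Finset (Fin m)), T i ∈ TT :=
    fun i hi => Finset.mem_image_of_mem T hi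
  set V := fun t : Finset (Fin d) =>
    spinVal (gridM K) K τ ((D t).submatrix (comp t) (comp t)) (L t) (p t)
      - (Bp + d / τ) * es / 2
  have hby : ∀ s : ℝ, ∑ i, (V (T i) - s) = ∑ t ∈ TT, (typSize T t : ℝ) * (V t - s) := fun s => by
    rw [← Finset.sum_fiberwise_of_maps_to hmaps]
    refine Finset.sum_congr rfl fun t _ => ?_
    rw [Finset.sum_congr rfl fun i hi => by rw [(Finset.mem_filter.1 hi).2], Finset.sum_const,
      nsmul_eq_mul]
    rfl
  have hgap : ∑ i, (V (T i) - η) < casc (gaus (Fin m × Fin d)) K (mlev K) Fl := by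
    have hmn : (⌈2 * Real.log 2 / η⌉₊ : ℝ) + 1 ≤ m := by
      have i0 : Fin m := ⟨0, hm⟩
      have h1 := ((le_max_right _ _).trans (hn0 i0)).trans
        ((Finset.card_le_univ _).trans_eq (Fintype.card_fin m))
      exact_mod_cast h1
    have hlog : Real.log 2 < (m : ℝ) * (η / 2) := by
      have h1 : 2 * Real.log 2 / η < m := by linarith [Nat.le_ceil (2 * Real.log 2 / η)]
      rw [div_lt_iff₀ hη] at h1
      linarith
    have e1 := hby (η / 2)
    have e2 : ∑ i, (V (T i) - η) = ∑ i, (V (T i) - η / 2) - (m : ℝ) * (η / 2) := by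
      simp only [Finset.sum_sub_distrib, Finset.sum_const, Finset.card_univ, Fintype.card_fin,
        nsmul_eq_mul]
      ring
    rw [e2, e1]
    simp only [V] at hsumle ⊢
    linarith
  filter_upwards [hT.eventually (eventually_gt_nhds hgap)] with W hW
  rw [hval W]
  exact hW.le

end Vale.Agent.P166.Casc
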