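import Vale.Agent.P166.Casc.VMLimit
import Vale.Agent.P166.Formula.RowVal

/-!
Rows of the vector model without couplings to the spins: the factor of a leaf splits, and the
limit free energy gains the cascade value of each free row.
-/

open MeasureTheory ProbabilityTheory Filter Topology

namespace Vale.Agent.P166.Casc

open Vale.Agent.P157.Casc Vale.Agent.P166.Formula
open Vale.Agent.P150.Fast.Dom (arrMap arrMap_apply)

variable {N M d R D K : ℕ}

/-- Coordinates of the labels of one row. -/
abbrev RowIdx (d : ℕ) : Type := Fin 2 × Fin d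

/-- The place of a row coordinate among those of the labels. -/
def rowEmb (a : Fin M) (i : RowIdx d) : VLIdx N M d R D := Sum.inl (i.1, a, i.2)

theorem rowEmb_inj (a : Fin M) :
    Function.Injective (rowEmb (N := N) (R := R) (D := D) (d := d) a) := fun i j h => by
  simpa [rowEmb, Prod.ext_iff] using h

/-- Factors of the levels of the field of one row. -/
noncomputable def rowA (Φ : VFac N d K) (c : VCIdx N M d R D K → ℝ) (a : Fin M) (l : Fin (K + 1))
    (k : Fin d) (i : RowIdx d) : ℝ :=
  √(c (Sum.inr (l, rowEmb a i))) * Φ.1 i.1 l k i.2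

/-- The label part of the field of one row. -/
noncomputable def rowH (Φ : VFac N d K) (c : VCIdx N M d R D K → ℝ) (a : Fin M)
    (z : VRIdx N M d R D → ℝ) (y : Fin K → VLIdx N M d R D → ℝ) : Fin d → ℝ :=
  rowFld (fun l => rowA Φ c a l.succ) (arrMap (rowA Φ c a 0) fun i => z (Sum.inr (rowEmb a i)))
    fun l i => y l (rowEmb a i)

theorem continuous_rowH (Φ : VFac N d K) (c : VCIdx N M d R D K → ℝ) (a : Fin M) :
    Continuous fun p : (VRIdx N M d R D → ℝ) × (Fin K → VLIdx N M d R D → ℝ) =>
      rowH Φ c a p.1 p.2 :=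
  (continuous_rowFld _).comp
    (f := fun p : (VRIdx N M d R D → ℝ) × (Fin K → VLIdx N M d R D → ℝ) =>
      (arrMap (rowA Φ c a 0) fun i => p.1 (Sum.inr (rowEmb a i)),
        fun l i => p.2 l (rowEmb a i)))
    (((arrMap _).continuous.comp (continuous_pi fun i => by fun_prop)).prodMk
      (continuous_pi fun l => continuous_pi fun i => by fun_prop))

/-- The field of a row: matrix part and label part. -/
theorem vfld_branch (π : VPrior N d R D) (Φ : VFac N d K) (c : VCIdx N M d R D K → ℝ)
    (z : VRIdx N M d R D → ℝ) (y : Fin K → VLIdx N M d R D → ℝ) (σ : Fin π.c) (a : Fin M) :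
    vfld (vbpat π Φ) (vpull c) (vbranch z y) ((σ, fun _ => 0) : VState π K 1) a
      = (fun k => ∑ j, √(c (Sum.inl (Sum.inl (a, j)))) * (π.cfg σ j k / √(N : ℝ))
          * z (Sum.inl (Sum.inl (a, j)))) + rowH Φ c a z y := by
  funext k
  simp only [vfld, lin, vbranch_eq_joinT, vbpat]
  rw [lin_treeDir _ (fun l i => c (Sum.inr (l, i))) _ _ z (fun u : Node K 1 => y u.1)
    (fun _ => 0) (treeDir_eq _ _ _) (vpull_eq c)]
  have hrow : ∀ (l : Fin (K + 1)) (w : VLIdx N M d R D → ℝ),
      ∑ i, √(c (Sum.inr (l, i))) * rowL Φ a k l i * w i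
        = ∑ i : RowIdx d, rowA Φ c a l k i * w (rowEmb a i) := fun l w => by
    simp only [Fintype.sum_sum_type, rowL, mul_zero, zero_mul, Finset.sum_const_zero, add_zero,
      Fintype.sum_prod_type, mul_ite, ite_mul, rowA, rowEmb]
    refine Finset.sum_congr rfl fun s _ => ?_
    rw [Finset.sum_comm]
    exact Finset.sum_congr rfl fun r _ => by simp [Finset.sum_ite_eq']
  have hmat : ∑ p, √(c (Sum.inl p)) * rowZ π a k σ p * z (Sum.inl p)
      = ∑ j, √(c (Sum.inl (Sum.inl (a, j)))) * (π.cfg σ j k / √(N : ℝ))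
          * z (Sum.inl (Sum.inl (a, j))) := by
    simp [Fintype.sum_sum_type, Fintype.sum_prod_type, rowZ, Finset.sum_ite_eq']
  simp only [Pi.add_apply, rowH, rowFld, Finset.sum_apply, arrMap_apply, hmat, hrow]
  rfl

/-- Rows without couplings to the spins. -/
def FreeRows (c : VCIdx N M d R D K → ℝ) (S : Finset (Fin M)) : Prop :=
  ∀ a ∈ S, ∀ j, c (Sum.inl (Sum.inl (a, j))) = 0

/-- The energy of a branch without the rows of `S`. -/
noncomputable def vrestH (P : VPot d) (π : VPrior N d R D) (Φ : VFac N d K)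
    (c : VCIdx N M d R D K → ℝ) (S : Finset (Fin M)) (σ : Fin π.c)
    (g : VGIdx N M d R D K 1 → ℝ) : ℝ :=
  vbham P π Φ c σ g
    - ∑ a ∈ S, P.f (vfld (vbpat π Φ) (vpull c) g ((σ, fun _ => 0) : VState π K 1) a)

/-- The factor of a leaf without the rows of `S`. -/
noncomputable def vrestY (P : VPot d) (π : VPrior N d R D) (Φ : VFac N d K)
    (c : VCIdx N M d R D K → ℝ) (S : Finset (Fin M)) (z : VRIdx N M d R D → ℝ)
    (y : Fin K → VLIdx N M d R D → ℝ) : ℝ :=
  ∑ σ, π.w σ * Real.exp (vrestH P π Φ c S σ (vbranch z y))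

theorem vrestY_pos (P : VPot d) (π : VPrior N d R D) (Φ : VFac N d K)
    (c : VCIdx N M d R D K → ℝ) (S : Finset (Fin M)) (z : VRIdx N M d R D → ℝ)
    (y : Fin K → VLIdx N M d R D → ℝ) : 0 < vrestY P π Φ c S z y := by
  have : Nonempty (Fin π.c) := ⟨⟨0, π.c_pos⟩⟩
  exact Finset.sum_pos (fun σ _ => mul_pos (π.w_pos σ) (Real.exp_pos _)) Finset.univ_nonempty

theorem vfld_free (π : VPrior N d R D) (Φ : VFac N d K) {c : VCIdx N M d R D K → ℝ}
    {S : Finset (Fin M)} (hS : FreeRows c S) {a : Fin M} (ha : a ∈ S)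
    (z : VRIdx N M d R D → ℝ) (y : Fin K → VLIdx N M d R D → ℝ) (σ : Fin π.c) :
    vfld (vbpat π Φ) (vpull c) (vbranch z y) ((σ, fun _ => 0) : VState π K 1) a
      = rowH Φ c a z y := by
  rw [vfld_branch]
  funext k
  simp [hS a ha]

/-- Averages of functions of the free rows and of the configuration split. -/
theorem sum_vleaf_split (P : VPot d) (π : VPrior N d R D) (Φ : VFac N d K)
    {c : VCIdx N M d R D K → ℝ} {S : Finset (Fin M)} (hS : FreeRows c S)
    (z : VRIdx N M d R D → ℝ) (y : Fin K → VLIdx N M d R D → ℝ) (φ : Fin π.c → ℝ) :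
    ∑ σ, π.w σ * Real.exp (vbham P π Φ c σ (vbranch z y)) * φ σ
      = Real.exp (∑ a ∈ S, P.f (rowH Φ c a z y))
        * ∑ σ, π.w σ * Real.exp (vrestH P π Φ c S σ (vbranch z y)) * φ σ := by
  rw [Finset.mul_sum]
  refine Finset.sum_congr rfl fun σ _ => ?_
  have e : vbham P π Φ c σ (vbranch z y)
      = (∑ a ∈ S, P.f (rowH Φ c a z y)) + vrestH P π Φ c S σ (vbranch z y) := by
    rw [vrestH, Finset.sum_congr rfl fun a ha => congrArg P.f (vfld_free π Φ hS ha z y σ)]
    ring
  rw [e, Real.exp_add]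
  ring

theorem log_vleafY_split (P : VPot d) (π : VPrior N d R D) (Φ : VFac N d K)
    {c : VCIdx N M d R D K → ℝ} {S : Finset (Fin M)} (hS : FreeRows c S)
    (z : VRIdx N M d R D → ℝ) (y : Fin K → VLIdx N M d R D → ℝ) :
    Real.log (vleafY P π Φ c z y)
      = Real.log (vrestY P π Φ c S z y) + ∑ a ∈ S, P.f (rowH Φ c a z y) := by
  have h := sum_vleaf_split P π Φ hS z y fun _ => 1
  simp only [mul_one] at h
  rw [vleafY, h]
  show Real.log (Real.exp _ * vrestY P π Φ c S z y) = _
  rw [Real.log_mul (Real.exp_pos _).ne' (vrestY_pos P π Φ c S z y).ne', Real.log_exp,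
    add_comm]

/-- The remaining energy does not see the coordinates of the free rows. -/
theorem vrestH_congr (P : VPot d) (π : VPrior N d R D) (Φ : VFac N d K)
    {c : VCIdx N M d R D K → ℝ} {S : Finset (Fin M)} (σ : Fin π.c)
    {z z' : VRIdx N M d R D → ℝ} {y y' : Fin K → VLIdx N M d R D → ℝ}
    (hz : ∀ i, (∀ a ∈ S, ∀ r : RowIdx d, i ≠ Sum.inr (rowEmb a r)) → z i = z' i)
    (hy : ∀ l i, (∀ a ∈ S, ∀ r : RowIdx d, i ≠ rowEmb a r) → y l i = y' l i) :
    vrestH P π Φ c S σ (vbranch z y) = vrestH P π Φ c S σ (vbranch z' y') := by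
  classical
  have hl : lin (vbspin π Φ) (vpull c) (vbranch z y) ((σ, fun _ => 0) : VState π K 1)
      = lin (vbspin π Φ) (vpull c) (vbranch z' y') ((σ, fun _ => 0) : VState π K 1) := by
    refine Finset.sum_congr rfl fun i _ => ?_
    rcases i with p | ⟨_ | u, v | w⟩ <;>
      simp only [vbspin, treeDir, spinL, mul_zero, zero_mul] <;> simp only [vbranch]
    · rw [hz (Sum.inr (Sum.inr w)) fun a _ r => by simp [rowEmb]]
    · rw [hy u.1 (Sum.inr w) fun a _ r => by simp [rowEmb]]
  have hf : ∀ a, a ∉ S →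
      vfld (vbpat π Φ) (vpull c) (vbranch z y) ((σ, fun _ => 0) : VState π K 1) a
        = vfld (vbpat π Φ) (vpull c) (vbranch z' y') ((σ, fun _ => 0) : VState π K 1) a :=
    fun a ha => by
    simp only [vfld_branch, rowH]
    congr 1
    · funext k
      refine Finset.sum_congr rfl fun j _ => ?_
      rw [hz (Sum.inl (Sum.inl (a, j))) fun a' _ r => by simp [rowEmb]]
    · congr 1
      · congr 1
        funext i
        refine hz _ fun a' ha' r h => ha ?_
        simp only [rowEmb, Sum.inr.injEq, Sum.inl.injEq, Prod.mk.injEq] at h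
        rwa [h.2.1]
      · funext l i
        refine hy l _ fun a' ha' r h => ha ?_
        simp only [rowEmb, Sum.inl.injEq, Prod.mk.injEq] at h
        rwa [h.2.1]
  have hsum : ∀ F : Fin M → ℝ, (∑ a, F a) - ∑ a ∈ S, F a = ∑ a ∈ Sᶜ, F a := fun F => by
    rw [← Finset.sum_add_sum_compl S F]; ring
  have e := Finset.sum_congr (s₁ := Sᶜ) rfl fun a ha =>
    congrArg P.f (hf a (Finset.mem_compl.1 ha))
  rw [← hsum, ← hsum] at e
  simp only [vrestH, vbham, vham, hl]
  linarith

theorem vrestY_congr (P : VPot d) (π : VPrior N d R D) (Φ : VFac N d K)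
    {c : VCIdx N M d R D K → ℝ} {S : Finset (Fin M)} {z : VRIdx N M d R D → ℝ}
    {y y' : Fin K → VLIdx N M d R D → ℝ}
    (hy : ∀ l i, (∀ a ∈ S, ∀ r : RowIdx d, i ≠ rowEmb a r) → y l i = y' l i) :
    vrestY P π Φ c S z y = vrestY P π Φ c S z y' :=
  Finset.sum_congr rfl fun σ _ => by
    rw [vrestH_congr P π Φ σ (fun _ _ => rfl) hy]

theorem measurable_log_vrestY (P : VPot d) (π : VPrior N d R D) (Φ : VFac N d K)
    {c : VCIdx N M d R D K → ℝ} {S : Finset (Fin M)} (hS : FreeRows c S) :
    Measurable fun p : (VRIdx N M d R D → ℝ) × (Fin K → VLIdx N M d R D → ℝ) =>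
      Real.log (vrestY P π Φ c S p.1 p.2) := by
  have h1 : Measurable fun p : (VRIdx N M d R D → ℝ) × (Fin K → VLIdx N M d R D → ℝ) =>
      Real.log (vleafY P π Φ c p.1 p.2) := by
    obtain ⟨A, hA⟩ := vleafY_conv_const P π Φ c
    exact Measurable.log hA.measl
  have h2 : Measurable fun p : (VRIdx N M d R D → ℝ) × (Fin K → VLIdx N M d R D → ℝ) =>
      ∑ a ∈ S, P.f (rowH Φ c a p.1 p.2) :=
    (continuous_finsetSum _ fun a _ => P.cf.comp (continuous_rowH Φ c a)).measurable
  convert h1.sub h2 using 1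
  funext p
  simp [log_vleafY_split P π Φ hS p.1 p.2]

theorem grow_log_vleafY (P : VPot d) (π : VPrior N d R D) (Φ : VFac N d K)
    (c : VCIdx N M d R D K → ℝ) (z : VRIdx N M d R D → ℝ) :
    Grow fun y : Fin K → VLIdx N M d R D → ℝ => Real.log (vleafY P π Φ c z y) := by
  obtain ⟨A, hA, hb⟩ := vleafY_bound (M := M) P π Φ (∑ i, |c i|)
  have hR : ∀ i, |c i| ≤ ∑ i, |c i| := fun i =>
    Finset.single_le_sum (f := fun i => |c i|) (fun i _ => abs_nonneg _) (Finset.mem_univ i)
  refine ⟨A * (1 + ∑ i, |z i|), mul_nonneg hA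
    (add_nonneg zero_le_one (Finset.sum_nonneg fun i _ => abs_nonneg _)), fun y => ?_⟩
  obtain ⟨h1, h2⟩ := hb c hR z y
  have l1 := Real.log_le_log (Real.exp_pos _) h1
  have l2 := Real.log_le_log (vleafY_pos P π Φ c z y) h2
  rw [Real.log_exp] at l1 l2
  refine (abs_le.2 ⟨l1, l2⟩).trans ?_
  rw [mul_assoc]
  refine mul_le_mul_of_nonneg_left ?_ hA
  simp only [vabsSum]
  nlinarith [Finset.sum_nonneg (s := Finset.univ) fun (i : VRIdx N M d R D) _ => abs_nonneg (z i),
    Finset.sum_nonneg (s := Finset.univ) fun (l : Fin K) _ =>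
      Finset.sum_nonneg (s := Finset.univ) fun (i : VLIdx N M d R D) _ => abs_nonneg (y l i)]

theorem grow_pot_rowH (P : VPot d) (Φ : VFac N d K) (c : VCIdx N M d R D K → ℝ)
    (S : Finset (Fin M)) (z : VRIdx N M d R D → ℝ) :
    Grow fun y : Fin K → VLIdx N M d R D → ℝ => ∑ a ∈ S, P.f (rowH Φ c a z y) :=
  Grow.sum S fun _ _ => ⟨|P.bF|, abs_nonneg _, fun _ => ((P.hF _).trans (le_abs_self _)).trans
    (le_mul_of_one_le_right (abs_nonneg _) (le_add_of_nonneg_right
      (Finset.sum_nonneg fun _ _ => Finset.sum_nonneg fun _ _ => abs_nonneg _)))⟩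

theorem grow_log_vrestY (P : VPot d) (π : VPrior N d R D) (Φ : VFac N d K)
    {c : VCIdx N M d R D K → ℝ} {S : Finset (Fin M)} (hS : FreeRows c S)
    (z : VRIdx N M d R D → ℝ) :
    Grow fun y : Fin K → VLIdx N M d R D → ℝ => Real.log (vrestY P π Φ c S z y) := by
  obtain ⟨A, hA, hb⟩ := grow_log_vleafY P π Φ c z
  obtain ⟨B, hB, hb'⟩ := grow_pot_rowH P Φ c S z
  refine ⟨A + B, add_nonneg hA hB, fun y => ?_⟩
  simp only at hb hb' ⊢
  rw [show Real.log (vrestY P π Φ c S z y) = Real.log (vleafY P π Φ c z y)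
    - ∑ a ∈ S, P.f (rowH Φ c a z y) by rw [log_vleafY_split P π Φ hS z y]; ring, add_mul]
  exact (abs_sub _ _).trans (add_le_add (hb y) (hb' y))

/-- The recursion of a free row alone. -/
theorem casc_rowH (P : VPot d) (Φ : VFac N d K) (c : VCIdx N M d R D K → ℝ) (a : Fin M)
    (z : VRIdx N M d R D → ℝ) :
    casc (gaus (VLIdx N M d R D)) K (mlev K) (fun y => P.f (rowH Φ c a z y))
      = casc (gaus (RowIdx d)) K (mlev K) (fun u => P.f (rowFld (fun l => rowA Φ c a l.succ)
          (arrMap (rowA Φ c a 0) fun i => z (Sum.inr (rowEmb a i))) u)) := by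
  have hg : MeasurePreserving
      (fun (g : VLIdx N M d R D → ℝ) (i : RowIdx d) => g (rowEmb a i))
      (gaus (VLIdx N M d R D)) (gaus (RowIdx d)) :=
    P157.mp_comp (gaussianReal 0 1) (rowEmb_inj a)
  set H : (Fin K → RowIdx d → ℝ) → ℝ := fun u => P.f (rowFld (fun l => rowA Φ c a l.succ)
    (arrMap (rowA Φ c a 0) fun i => z (Sum.inr (rowEmb a i))) u)
  have hH : Measurable H := P.cf.measurable.comp
    ((continuous_rowFld (fun l : Fin K => rowA Φ c a l.succ)).measurable.comp measurable_prodMk_left)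
  obtain ⟨h, -, -⟩ := casc_map hg K (mlev K) (H := H) (a := fun _ => (1 : ℝ)) hH measurable_const
  exact h

/-- Free rows separate in the recursion. -/
theorem casc_free_rows (P : VPot d) (π : VPrior N d R D) (Φ : VFac N d K)
    {c : VCIdx N M d R D K → ℝ} {S : Finset (Fin M)} (hS : FreeRows c S)
    (z : VRIdx N M d R D → ℝ) :
    casc (gaus (VLIdx N M d R D)) K (mlev K) (fun y => Real.log (vleafY P π Φ c z y))
      = casc (gaus (VLIdx N M d R D)) K (mlev K) (fun y => Real.log (vrestY P π Φ c S z y))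
        + ∑ a ∈ S, casc (gaus (RowIdx d)) K (mlev K) (fun u => P.f (rowFld
            (fun l => rowA Φ c a l.succ)
            (arrMap (rowA Φ c a 0) fun i => z (Sum.inr (rowEmb a i))) u)) := by
  classical
  simp only [log_vleafY_split P π Φ hS z, ← casc_rowH]
  have hr : Measurable fun y : Fin K → VLIdx N M d R D → ℝ => Real.log (vrestY P π Φ c S z y) :=
    Measurable.comp (g := fun p : (VRIdx N M d R D → ℝ) × (Fin K → VLIdx N M d R D → ℝ) =>
      Real.log (vrestY P π Φ c S p.1 p.2)) (measurable_log_vrestY P π Φ hS)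
      (f := fun y : Fin K → VLIdx N M d R D → ℝ => (z, y))
      (measurable_const.prodMk measurable_id)
  have hf : ∀ a, Measurable fun y : Fin K → VLIdx N M d R D → ℝ => P.f (rowH Φ c a z y) :=
    fun a => (P.cf.comp ((continuous_rowH Φ c a).comp
      (continuous_const.prodMk continuous_id))).measurable
  suffices key : ∀ A : Finset (Fin M), A ⊆ S →
      casc (gaus (VLIdx N M d R D)) K (mlev K)
          (fun y => Real.log (vrestY P π Φ c S z y) + ∑ a ∈ A, P.f (rowH Φ c a z y))
        = casc (gaus (VLIdx N M d R D)) K (mlev K) (fun y => Real.log (vrestY P π Φ c S z y))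
          + ∑ a ∈ A, casc (gaus (VLIdx N M d R D)) K (mlev K)
              (fun y => P.f (rowH Φ c a z y)) from key S subset_rfl
  intro A
  induction A using Finset.induction with
  | empty => intro _; simp
  | insert a A ha ih =>
    intro hA
    have haS : a ∈ S := hA (Finset.mem_insert_self a A)
    obtain ⟨hs, -⟩ := casc_sep (fun i => i ∈ Set.range (rowEmb (N := N) (R := R) (D := D) a))
      (grid_mlev K) (H := fun y => P.f (rowH Φ c a z y))
      (H' := fun y => Real.log (vrestY P π Φ c S z y) + ∑ b ∈ A, P.f (rowH Φ c b z y))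
      (a := fun _ => (1 : ℝ)) (a' := fun _ => (1 : ℝ)) (hf a)
      (hr.add (Finset.measurable_sum _ fun b _ => hf b)) measurable_const measurable_const
      (fun y y' hy => ⟨by
        simp only [rowH]
        congr 2
        funext l i
        exact hy l _ ⟨i, rfl⟩, rfl⟩)
      (fun y y' hy => ⟨by
        congr 1
        · congr 1
          exact vrestY_congr P π Φ fun l i hi => hy l i fun ⟨r, hr⟩ => hi a haS r hr.symm
        · refine Finset.sum_congr rfl fun b hb => ?_
          simp only [rowH]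
          congr 2
          funext l i
          refine hy l _ ?_
          rintro ⟨r, hr⟩
          refine ha ?_
          simp only [rowEmb, Sum.inl.injEq, Prod.mk.injEq] at hr
          rwa [hr.2.1], rfl⟩)
      ((grow_pot_rowH P Φ c {a} z).integrable_exp (Finset.measurable_sum _ fun b _ => hf b)
        |>.congr (ae_of_all _ fun y => by simp))
      (((grow_log_vrestY P π Φ hS z).add (grow_pot_rowH P Φ c A z)).integrable_exp
        (hr.add (Finset.measurable_sum _ fun b _ => hf b)))
    have e : (fun y => Real.log (vrestY P π Φ c S z y) + ∑ b ∈ insert a A, P.f (rowH Φ c b z y))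
        = fun y => P.f (rowH Φ c a z y)
          + (Real.log (vrestY P π Φ c S z y) + ∑ b ∈ A, P.f (rowH Φ c b z y)) :=
      funext fun y => by rw [Finset.sum_insert ha]; ring
    rw [e, hs, ih ((Finset.subset_insert a A).trans hA), Finset.sum_insert ha]
    ring

/-- The limit free energy with free rows. -/
theorem vcasc_free_rows (P : VPot d) (π : VPrior N d R D) (Φ : VFac N d K)
    {c : VCIdx N M d R D K → ℝ} {S : Finset (Fin M)} (hS : FreeRows c S) :
    Integrable (fun z => casc (gaus (VLIdx N M d R D)) K (mlev K)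
        fun y => Real.log (vrestY P π Φ c S z y)) (gaus (VRIdx N M d R D)) ∧
    vcasc P π Φ c
      = (∫ z, casc (gaus (VLIdx N M d R D)) K (mlev K)
          (fun y => Real.log (vrestY P π Φ c S z y)) ∂gaus (VRIdx N M d R D))
        + ∑ a ∈ S, rowCasc P.f (rowA Φ c a 0) (fun l => rowA Φ c a l.succ) := by
  set F : Fin M → (RowIdx d → ℝ) → ℝ := fun a w => casc (gaus (RowIdx d)) K (mlev K)
    fun u => P.f (rowFld (fun l => rowA Φ c a l.succ) (arrMap (rowA Φ c a 0) w) u)
  have hF : ∀ a, Integrable (F a) (gaus (RowIdx d)) := fun a =>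
    Vale.Agent.P157.Casc.integrable_of_bdd
      ((measurable_casc_fld _ _ P.cf.measurable).comp
        (arrMap (rowA Φ c a 0)).continuous.measurable).aestronglyMeasurable (C := P.bF)
      fun w => casc_bdd _ _ (grid_mlev K).pos
        (P.cf.comp ((continuous_rowFld _).comp
          (continuous_const.prodMk continuous_id))).measurable fun u => P.hF _
  have hmp : ∀ a, MeasurePreserving
      (fun (z : VRIdx N M d R D → ℝ) (i : RowIdx d) => z (Sum.inr (rowEmb a i)))
      (gaus (VRIdx N M d R D)) (gaus (RowIdx d)) := fun a =>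
    P157.mp_comp (gaussianReal 0 1) (Sum.inr_injective.comp (rowEmb_inj a))
  have hI : ∀ a, Integrable
      (fun z : VRIdx N M d R D → ℝ => F a fun i => z (Sum.inr (rowEmb a i)))
      (gaus (VRIdx N M d R D)) := fun a => (hmp a).integrable_comp_of_integrable (hF a)
  have hv : ∀ a, ∫ z : VRIdx N M d R D → ℝ, F a (fun i => z (Sum.inr (rowEmb a i)))
      ∂gaus (VRIdx N M d R D) = ∫ w, F a w ∂gaus (RowIdx d) := fun a => by
    have := integral_map (μ := gaus (VRIdx N M d R D)) (hmp a).measurable.aemeasurable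
      (f := F a) (by rw [(hmp a).map_eq]; exact (hF a).aestronglyMeasurable)
    rw [(hmp a).map_eq] at this
    exact this.symm
  have e := fun z => casc_free_rows P π Φ hS z
  have hi := integrable_finsetSum S fun a _ => hI a
  have hrest : Integrable (fun z => casc (gaus (VLIdx N M d R D)) K (mlev K)
      fun y => Real.log (vrestY P π Φ c S z y)) (gaus (VRIdx N M d R D)) := by
    refine ((integrable_casc_vleafY P π Φ c).sub hi).congr (ae_of_all _ fun z => ?_)
    simp only [Pi.sub_apply, F]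
    rw [e z]
    ring
  refine ⟨hrest, ?_⟩
  simp only [vcasc, e]
  rw [integral_add hrest hi,
    integral_finsetSum S fun a _ => hI a]
  exact congrArg₂ (· + ·) rfl (Finset.sum_congr rfl fun a _ => hv a)

end Vale.Agent.P166.Casc
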