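import Vale.Agent.P166.Casc.VBil
import Vale.Agent.P166.Casc.VFree

/-!
Level averages of functions of the field of one row: their limit, and for a free row the
factorisation into the value of the row and the average of the configurations.
-/

open MeasureTheory ProbabilityTheory Filter Topology Set

namespace Vale.Agent.P166.Casc

open Vale.Agent.P157.Casc Vale.Agent.P166.Formula
open Vale.Agent.P150.Fast.Dom (arrMap arrMap_apply)

variable {N M d R D K n : ℕ}

/-- Functions of disjoint sets of independent coordinates average separately. -/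
theorem integral_mul_disjoint {I : Type} [Fintype I] (p : I → Prop) [DecidablePred p]
    {A B : (I → ℝ) → ℝ} (hA : ∀ z z', (∀ i, p i → z i = z' i) → A z = A z')
    (hB : ∀ z z', (∀ i, ¬p i → z i = z' i) → B z = B z') :
    ∫ z, A z * B z ∂gaus I = (∫ z, A z ∂gaus I) * ∫ z, B z ∂gaus I := by
  set e := MeasurableEquiv.piEquivPiSubtypeProd (fun _ : I => ℝ) p
  have he : MeasurePreserving e (gaus I) ((gaus (Subtype p)).prod (gaus {i // ¬p i})) :=
    measurePreserving_piEquivPiSubtypeProd (fun _ : I => gaussianReal 0 1) p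
  set A' := fun u : Subtype p → ℝ => A (extCoord p u)
  set B' := fun u : {i // ¬p i} → ℝ => B (extCoord (fun i => ¬p i) u)
  have eA : ∀ z, A z = A' (e z).1 := fun z => hA _ _ fun i hi => by
    simp [e, extCoord, hi, MeasurableEquiv.piEquivPiSubtypeProd, Equiv.piEquivPiSubtypeProd]
  have eB : ∀ z, B z = B' (e z).2 := fun z => hB _ _ fun i hi => by
    simp [e, extCoord, hi, MeasurableEquiv.piEquivPiSubtypeProd, Equiv.piEquivPiSubtypeProd]
  simp only [eA, eB]
  rw [he.integral_comp' fun q : (Subtype p → ℝ) × ({i // ¬p i} → ℝ) => A' q.1 * B' q.2,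
    he.integral_comp' fun q : (Subtype p → ℝ) × ({i // ¬p i} → ℝ) => A' q.1,
    he.integral_comp' fun q : (Subtype p → ℝ) × ({i // ¬p i} → ℝ) => B' q.2,
    integral_prod_mul A' B', integral_fun_fst A', integral_fun_snd B']
  simp

/-- Observable of one state through the field of the row `a`. -/
noncomputable def fldObs (π : VPrior N d R D) (Φ : VFac N d K) (c : VCIdx N M d R D K → ℝ)
    (a : Fin M) (F : Fin π.c → (Fin d → ℝ) → ℝ) (G : VGIdx N M d R D K n → ℝ)
    (st : VState π K n) : ℝ :=
  F st.1 (vfld (vbpat π Φ) (vpull c) G st a)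

/-- Level average of a product of two observables of one row. -/
noncomputable def fldLev (n : ℕ) (P : VPot d) (π : VPrior N d R D) (Φ : VFac N d K)
    (c : VCIdx N M d R D K → ℝ) (a : Fin M) (F G : Fin π.c → (Fin d → ℝ) → ℝ)
    (l : Fin (K + 1)) : ℝ :=
  vmpair n P π Φ c fun Z st st' =>
    onLev l (vlev π st st') (fldObs π Φ c a F Z st * fldObs π Φ c a G Z st')

/-- Leaf average of an observable of one row. -/
noncomputable def fldAvg (P : VPot d) (π : VPrior N d R D) (Φ : VFac N d K)
    (c : VCIdx N M d R D K → ℝ) (a : Fin M) (F : Fin π.c → (Fin d → ℝ) → ℝ)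
    (z : VRIdx N M d R D → ℝ) (y : Fin K → VLIdx N M d R D → ℝ) : ℝ :=
  vleafAvg P π Φ c (fun σ g => fldObs (n := 1) π Φ c a F g (σ, fun _ => 0)) z y

theorem continuous_vfld {X T I : Type*} [TopologicalSpace X] [Fintype I]
    (b : Fin M → Fin d → T → I → ℝ) {u v : X → I → ℝ} (hu : Continuous u) (hv : Continuous v)
    (x : T) (a : Fin M) : Continuous fun q => vfld b (u q) (v q) x a :=
  continuous_pi fun k => by
    simp only [vfld, lin]
    exact continuous_finsetSum _ fun i _ =>
      (((continuous_apply i).comp' hu).sqrt.mul continuous_const).mul ((continuous_apply i).comp' hv)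

theorem fldAvg_bdd (P : VPot d) (π : VPrior N d R D) (Φ : VFac N d K)
    (c : VCIdx N M d R D K → ℝ) (a : Fin M) {F : Fin π.c → (Fin d → ℝ) → ℝ} {B : ℝ}
    (hB : ∀ σ h, |F σ h| ≤ B) (z : VRIdx N M d R D → ℝ) (y : Fin K → VLIdx N M d R D → ℝ) :
    |fldAvg P π Φ c a F z y| ≤ B := by
  rw [fldAvg, vleafAvg, abs_div, abs_of_pos (vleafY_pos P π Φ c z y),
    div_le_iff₀ (vleafY_pos P π Φ c z y), vleafY, Finset.mul_sum]
  refine (Finset.abs_sum_le_sum_abs _ _).trans (Finset.sum_le_sum fun σ _ => ?_)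
  rw [abs_mul, abs_of_pos (mul_pos (π.w_pos σ) (Real.exp_pos _)), mul_comm B]
  exact mul_le_mul_of_nonneg_left (hB _ _) (mul_pos (π.w_pos σ) (Real.exp_pos _)).le

theorem continuous_fldAvg (P : VPot d) (π : VPrior N d R D) (Φ : VFac N d K) (a : Fin M)
    {F : Fin π.c → (Fin d → ℝ) → ℝ} (hF : ∀ σ, Continuous (F σ)) :
    Continuous fun p : (VCIdx N M d R D K → ℝ) × (VRIdx N M d R D → ℝ) ×
        (Fin K → VLIdx N M d R D → ℝ) => fldAvg P π Φ p.1 a F p.2.1 p.2.2 := by
  unfold fldAvg vleafAvg fldObs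
  refine Continuous.div ?_ (continuous_vleafY P π Φ) fun p =>
    (vleafY_pos P π Φ p.1 p.2.1 p.2.2).ne'
  exact continuous_finsetSum _ fun σ _ => ((Real.continuous_exp.comp
    (continuous_vbham P π Φ σ)).const_mul _).mul ((hF σ).comp
      (continuous_vfld _ (continuous_vpull.comp' continuous_fst)
        (continuous_vbranch.comp' continuous_snd) _ a))

theorem vfld_join (π : VPrior N d R D) (Φ : VFac N d K) (c : VCIdx N M d R D K → ℝ)
    (z : VRIdx N M d R D → ℝ) (ξ : Node K n → VLIdx N M d R D → ℝ) (st : VState π K n)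
    (a : Fin M) :
    vfld (vbpat π Φ) (vpull c) (joinT z ξ) st a
      = vfld (vbpat π Φ) (vpull c) (vbranch z (path ξ st.2))
          ((st.1, fun _ => 0) : VState π K 1) a :=
  funext fun k => lin_branch_eq (fun σ => rowZ π a k σ) (fun _ => rowL Φ a k) c z ξ st.1 st.2

/-- The level averages of squares converge. -/
theorem tendsto_fldLev_sq (P : VPot d) (π : VPrior N d R D) (Φ : VFac N d K) (a : Fin M)
    {F : Fin π.c → (Fin d → ℝ) → ℝ} (hF : ∀ σ, Continuous (F σ)) {B : ℝ}
    (hB : ∀ σ h, |F σ h| ≤ B) {c : ℕ → VCIdx N M d R D K → ℝ} {cl : VCIdx N M d R D K → ℝ}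
    (hc : Tendsto c atTop (𝓝 cl)) {nn : ℕ → ℕ} (hn : Tendsto nn atTop atTop) (l : Fin (K + 1)) :
    Tendsto (fun k => fldLev (nn k) P π Φ (c k) a F F l) atTop (𝓝 (pi0 K *
      ∫ z, csq (gaus (VLIdx N M d R D)) K (mlev K) (fun y => Real.log (vleafY P π Φ cl z y))
        (fun y => fldAvg P π Φ cl a F z y) l ∂gaus (VRIdx N M d R D))) := by
  obtain ⟨Bc, hBc⟩ := hc.norm.bddAbove_range
  obtain ⟨A, hA⟩ := vleafY_conv P π Φ (fun k i =>
    ((Real.norm_eq_abs _).symm.trans_le (norm_le_pi_norm (c k) i)).trans (hBc ⟨k, rfl⟩)) hc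
  have hcont := continuous_fldAvg (M := M) P π Φ a hF
  have hmeas : ∀ c' : VCIdx N M d R D K → ℝ, Measurable (Function.uncurry
      fun (z : VRIdx N M d R D → ℝ) (y : Fin K → VLIdx N M d R D → ℝ) (_ : Fin 1) =>
        fldAvg P π Φ c' a F z y) := fun c' => measurable_pi_lambda _ fun _ =>
    (hcont.comp (f := fun p : (VRIdx N M d R D → ℝ) × (Fin K → VLIdx N M d R D → ℝ) =>
      (c', p.1, p.2)) (continuous_const.prodMk continuous_id)).measurable
  have hm := casc_mono (grid_mlev K) hA hn (d := 1)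
    (a := fun k z y _ => fldAvg P π Φ (c k) a F z y) (al := fun z y _ => fldAvg P π Φ cl a F z y)
    (B := B) (fun k => hmeas _) (hmeas _) (fun k z y _ => fldAvg_bdd P π Φ _ a hB z y)
    (fun z y => tendsto_pi_nhds.2 fun _ => ((hcont.comp (f := fun c' => (c', z, y))
      (continuous_id.prodMk continuous_const)).tendsto cl).comp hc) l
  rw [gap_mlev, Fin.sum_univ_one] at hm
  refine hm.congr fun k => ?_
  rw [fldLev, vmpair_level P π Φ (c k)
    (φ := fun (_ : Fin 1) σ g => fldObs (n := 1) π Φ (c k) a F g (σ, fun _ => 0)) (B := B) l]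
  · rfl
  · intro z ξ st st'
    simp only [Fin.sum_univ_one, fldObs, vfld_join]
  · intro x y
    have hcst : ∀ x, Continuous fun Z : VGIdx N M d R D K (nn k) → ℝ =>
        fldObs π Φ (c k) a F Z x := fun x =>
      (hF x.1).comp (continuous_vfld _ continuous_const continuous_id x a)
    unfold onLev
    split_ifs
    · exact (hcst x).mul (hcst y)
    · exact continuous_const
  · intro G x y
    unfold onLev
    split_ifs
    · rw [Nat.cast_one, one_mul, abs_mul, sq]
      exact mul_le_mul (hB _ _) (hB _ _) (abs_nonneg _) ((abs_nonneg _).trans (hB x.1 fun _ => 0))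
    · rw [abs_zero]; positivity

/-- Polarisation of the level averages. -/
theorem fldLev_polar (P : VPot d) (π : VPrior N d R D) (Φ : VFac N d K)
    (c : VCIdx N M d R D K → ℝ) (a : Fin M) {F G : Fin π.c → (Fin d → ℝ) → ℝ}
    (hF : ∀ σ, Continuous (F σ)) (hG : ∀ σ, Continuous (G σ)) {B : ℝ}
    (hFB : ∀ σ h, |F σ h| ≤ B) (hGB : ∀ σ h, |G σ h| ≤ B) (l : Fin (K + 1)) :
    fldLev n P π Φ c a F G l = (fldLev n P π Φ c a (fun σ h => F σ h + G σ h)
        (fun σ h => F σ h + G σ h) l
      - fldLev n P π Φ c a F F l - fldLev n P π Φ c a G G l) / 2 := by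
  set O : (Fin π.c → (Fin d → ℝ) → ℝ) → (Fin π.c → (Fin d → ℝ) → ℝ) →
      (VGIdx N M d R D K n → ℝ) → VState π K n → VState π K n → ℝ := fun F G Z st st' =>
    onLev l (vlev π st st') (fldObs π Φ c a F Z st * fldObs π Φ c a G Z st')
  set A : (Fin π.c → (Fin d → ℝ) → ℝ) → (Fin π.c → (Fin d → ℝ) → ℝ) →
      (Node K n → ℝ) × (VGIdx N M d R D K n → ℝ) → ℝ := fun F G p =>
    avg2 (vmbw P π Φ c p) (O F G p.2)
  have hint : ∀ {F : Fin π.c → (Fin d → ℝ) → ℝ}, (∀ σ, Continuous (F σ)) → ∀ {B : ℝ},
      (∀ σ h, |F σ h| ≤ B) → Integrable (A F F) (venv N M d R D K n) := fun {F} hF {B} hB => by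
    have hc : ∀ x, Continuous fun Z : VGIdx N M d R D K n → ℝ => fldObs π Φ c a F Z x := fun x =>
      (hF x.1).comp (continuous_vfld _ continuous_const continuous_id x a)
    refine (integrable_const (B * B)).mono' (measurable_vavg2 P π Φ c fun x y => ?_).aestronglyMeasurable
      ?_
    · simp only [O, onLev]
      split_ifs
      · exact (hc x).mul (hc y)
      · exact continuous_const
    · filter_upwards [ae_vmbw_pos P π Φ c] with q hq
      rw [Real.norm_eq_abs]
      refine abs_avg2_le _ (fun x => (hq x).le) (mul_self_nonneg B) fun x y => ?_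
      simp only [O, onLev]
      split_ifs
      · rw [abs_mul]
        exact mul_le_mul (hB _ _) (hB _ _) (abs_nonneg _) ((abs_nonneg _).trans (hB x.1 fun _ => 0))
      · rw [abs_zero]; exact mul_self_nonneg B
  have e : ∀ p, A F G p = (A (fun σ h => F σ h + G σ h) (fun σ h => F σ h + G σ h) p
      - A F F p - A G G p) / 2 := fun p => by
    have hswap : A G F p = A F G p := by
      simp only [A, avg2]
      rw [Finset.sum_comm]
      refine Finset.sum_congr rfl fun x _ => Finset.sum_congr rfl fun y _ => ?_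
      simp only [O, vlev, onLev, com_comm y.2 x.2]
      by_cases h : com x.2 y.2 = l <;> simp only [h, if_true, if_false] <;> ring
    have hexp : A (fun σ h => F σ h + G σ h) (fun σ h => F σ h + G σ h) p
        = A F F p + A G G p + (A F G p + A G F p) := by
      simp only [A, avg2, ← Finset.sum_add_distrib]
      refine Finset.sum_congr rfl fun x _ => Finset.sum_congr rfl fun y _ => ?_
      simp only [O, onLev, fldObs]
      split_ifs <;> ring
    rw [hexp, hswap]
    ring
  have h1 := hint (F := fun σ h => F σ h + G σ h) (fun σ => (hF σ).add (hG σ)) (B := B + B)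
    fun σ h => (abs_add_le _ _).trans (add_le_add (hFB σ h) (hGB σ h))
  have h2 := hint hF hFB
  have h3 := hint hG hGB
  show ∫ p, A F G p ∂venv N M d R D K n = _
  rw [funext e, integral_div, integral_sub _ h3, integral_sub h1 h2]
  · rfl
  · exact h1.sub h2

theorem measurable_log_vleafY_y (P : VPot d) (π : VPrior N d R D) (Φ : VFac N d K)
    (c : VCIdx N M d R D K → ℝ) (z : VRIdx N M d R D → ℝ) :
    Measurable fun y : Fin K → VLIdx N M d R D → ℝ => Real.log (vleafY P π Φ c z y) :=
  (((continuous_vleafY P π Φ).comp (f := fun y : Fin K → VLIdx N M d R D → ℝ => (c, z, y))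
    (continuous_const.prodMk (continuous_const.prodMk continuous_id)))).measurable.log

theorem measurable_fldAvg_y (P : VPot d) (π : VPrior N d R D) (Φ : VFac N d K)
    (c : VCIdx N M d R D K → ℝ) (a : Fin M) {F : Fin π.c → (Fin d → ℝ) → ℝ}
    (hF : ∀ σ, Continuous (F σ)) (z : VRIdx N M d R D → ℝ) :
    Measurable fun y : Fin K → VLIdx N M d R D → ℝ => fldAvg P π Φ c a F z y :=
  ((continuous_fldAvg P π Φ a hF).comp (f := fun y : Fin K → VLIdx N M d R D → ℝ => (c, z, y))
    (continuous_const.prodMk (continuous_const.prodMk continuous_id))).measurable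

theorem integrable_exp_log_vleafY (P : VPot d) (π : VPrior N d R D) (Φ : VFac N d K)
    (c : VCIdx N M d R D K → ℝ) (z : VRIdx N M d R D → ℝ) :
    Integrable (fun y : Fin K → VLIdx N M d R D → ℝ => Real.exp (Real.log (vleafY P π Φ c z y)))
      (Measure.pi fun _ : Fin K => gaus (VLIdx N M d R D)) :=
  (grow_log_vleafY P π Φ c z).integrable_exp (measurable_log_vleafY_y P π Φ c z)

/-- The polarised conditional means of two observables of one row. -/
theorem cbil_fldAvg (P : VPot d) (π : VPrior N d R D) (Φ : VFac N d K)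
    (c : VCIdx N M d R D K → ℝ) (a : Fin M) {F G : Fin π.c → (Fin d → ℝ) → ℝ}
    (hF : ∀ σ, Continuous (F σ)) (hG : ∀ σ, Continuous (G σ)) {B : ℝ}
    (hFB : ∀ σ h, |F σ h| ≤ B) (hGB : ∀ σ h, |G σ h| ≤ B) (z : VRIdx N M d R D → ℝ)
    (l : Fin (K + 1)) :
    cbil (gaus (VLIdx N M d R D)) K (mlev K) (fun y => Real.log (vleafY P π Φ c z y))
        (fun y => fldAvg P π Φ c a F z y) (fun y => fldAvg P π Φ c a G z y) l
      = (csq (gaus (VLIdx N M d R D)) K (mlev K) (fun y => Real.log (vleafY P π Φ c z y))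
            (fun y => fldAvg P π Φ c a (fun σ h => F σ h + G σ h) z y) l
          - csq (gaus (VLIdx N M d R D)) K (mlev K) (fun y => Real.log (vleafY P π Φ c z y))
            (fun y => fldAvg P π Φ c a F z y) l
          - csq (gaus (VLIdx N M d R D)) K (mlev K) (fun y => Real.log (vleafY P π Φ c z y))
            (fun y => fldAvg P π Φ c a G z y) l) / 2 := by
  have h := csq_add K (grid_mlev K) (measurable_log_vleafY_y P π Φ c z)
    (measurable_fldAvg_y P π Φ c a hF z) (measurable_fldAvg_y P π Φ c a hG z)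
    (integrable_exp_log_vleafY P π Φ c z)
    (fun y => fldAvg_bdd P π Φ c a hFB z y) (fun y => fldAvg_bdd P π Φ c a hGB z y) l
  have e : (fun y => fldAvg P π Φ c a (fun σ h => F σ h + G σ h) z y)
      = fun y => fldAvg P π Φ c a F z y + fldAvg P π Φ c a G z y := funext fun y => by
    simp only [fldAvg, vleafAvg, fldObs, mul_add, Finset.sum_add_distrib, add_div]
  rw [e, h]
  ring

/-- The level averages of products converge. -/
theorem tendsto_fldLev (P : VPot d) (π : VPrior N d R D) (Φ : VFac N d K) (a : Fin M)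
    {F G : Fin π.c → (Fin d → ℝ) → ℝ} (hF : ∀ σ, Continuous (F σ)) (hG : ∀ σ, Continuous (G σ))
    {B : ℝ} (hFB : ∀ σ h, |F σ h| ≤ B) (hGB : ∀ σ h, |G σ h| ≤ B)
    {c : ℕ → VCIdx N M d R D K → ℝ} {cl : VCIdx N M d R D K → ℝ}
    (hc : Tendsto c atTop (𝓝 cl)) {nn : ℕ → ℕ} (hn : Tendsto nn atTop atTop) (l : Fin (K + 1)) :
    Tendsto (fun k => fldLev (nn k) P π Φ (c k) a F G l) atTop (𝓝 (pi0 K *
      ∫ z, cbil (gaus (VLIdx N M d R D)) K (mlev K) (fun y => Real.log (vleafY P π Φ cl z y))
        (fun y => fldAvg P π Φ cl a F z y) (fun y => fldAvg P π Φ cl a G z y) l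
          ∂gaus (VRIdx N M d R D))) := by
  set S : Fin π.c → (Fin d → ℝ) → ℝ := fun σ h => F σ h + G σ h
  have hS : ∀ σ, Continuous (S σ) := fun σ => (hF σ).add (hG σ)
  have hSB : ∀ σ h, |S σ h| ≤ B + B := fun σ h =>
    (abs_add_le _ _).trans (add_le_add (hFB σ h) (hGB σ h))
  have hlim := (((tendsto_fldLev_sq P π Φ a hS hSB hc hn l).sub
    (tendsto_fldLev_sq P π Φ a hF hFB hc hn l)).sub
      (tendsto_fldLev_sq P π Φ a hG hGB hc hn l)).div_const 2
  obtain ⟨A, hA⟩ := vleafY_conv_const P π Φ cl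
  have hmeas : ∀ {F : Fin π.c → (Fin d → ℝ) → ℝ}, (∀ σ, Continuous (F σ)) →
      Measurable (Function.uncurry fun (z : VRIdx N M d R D → ℝ)
        (y : Fin K → VLIdx N M d R D → ℝ) => fldAvg P π Φ cl a F z y) := fun hF =>
    ((continuous_fldAvg (M := M) P π Φ a hF).comp
      (f := fun p : (VRIdx N M d R D → ℝ) × (Fin K → VLIdx N M d R D → ℝ) => (cl, p.1, p.2))
      (continuous_const.prodMk continuous_id)).measurable
  have hi : ∀ {F : Fin π.c → (Fin d → ℝ) → ℝ}, (∀ σ, Continuous (F σ)) → ∀ {B : ℝ},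
      (∀ σ h, |F σ h| ≤ B) → Integrable (fun z => csq (gaus (VLIdx N M d R D)) K (mlev K)
        (fun y => Real.log (vleafY P π Φ cl z y)) (fun y => fldAvg P π Φ cl a F z y) l)
        (gaus (VRIdx N M d R D)) := fun {F} hF {B} hB =>
    (integrable_const (B ^ 2)).mono' (measurable_csq_param K (mlev K)
      (H := fun z y => Real.log (vleafY P π Φ cl z y)) hA.measl.log (hmeas hF) l).aestronglyMeasurable
      (ae_of_all _ fun z => (csq_bound_mono K (grid_mlev K)
        (measurable_log_vleafY_y P π Φ cl z) (measurable_fldAvg_y P π Φ cl a hF z)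
        (integrable_exp_log_vleafY P π Φ cl z)
        fun y => fldAvg_bdd P π Φ cl a hB z y).1 l)
  have e : ∫ z, cbil (gaus (VLIdx N M d R D)) K (mlev K)
      (fun y => Real.log (vleafY P π Φ cl z y)) (fun y => fldAvg P π Φ cl a F z y)
      (fun y => fldAvg P π Φ cl a G z y) l ∂gaus (VRIdx N M d R D)
      = ((∫ z, csq (gaus (VLIdx N M d R D)) K (mlev K)
            (fun y => Real.log (vleafY P π Φ cl z y)) (fun y => fldAvg P π Φ cl a S z y) l
            ∂gaus (VRIdx N M d R D))
          - (∫ z, csq (gaus (VLIdx N M d R D)) K (mlev K)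
            (fun y => Real.log (vleafY P π Φ cl z y)) (fun y => fldAvg P π Φ cl a F z y) l
            ∂gaus (VRIdx N M d R D))
          - ∫ z, csq (gaus (VLIdx N M d R D)) K (mlev K)
            (fun y => Real.log (vleafY P π Φ cl z y)) (fun y => fldAvg P π Φ cl a G z y) l
            ∂gaus (VRIdx N M d R D)) / 2 := by
    rw [← integral_sub (hi hS hSB) (hi hF hFB), ← integral_sub _ (hi hG hGB), ← integral_div]
    · exact integral_congr_ae (ae_of_all _ fun z => cbil_fldAvg P π Φ cl a hF hG hFB hGB z l)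
    · exact (hi hS hSB).sub (hi hF hFB)
  rw [e, ← mul_div_assoc, mul_sub, mul_sub]
  exact hlim.congr fun k => (fldLev_polar P π Φ (c k) a hF hG hFB hGB l).symm

/-- Value of the products of two functions of a free row at the levels. -/
noncomputable def rowLev {J : Type} [Fintype J] (f g g' : (Fin d → ℝ) → ℝ) (A0 : Fin d → J → ℝ)
    (S : Fin K → Fin d → J → ℝ) (l : Fin (K + 1)) : ℝ :=
  ∫ w, cbil (gaus J) K (mlev K) (fun u => f (rowFld S (arrMap A0 w) u))
    (fun u => g (rowFld S (arrMap A0 w) u)) (fun u => g' (rowFld S (arrMap A0 w) u)) l ∂gaus J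

/-- The average of two functions of the configurations without one row. -/
noncomputable def restLev (P : VPot d) (π : VPrior N d R D) (Φ : VFac N d K)
    (c : VCIdx N M d R D K → ℝ) (a : Fin M) (φ ψ : Fin π.c → ℝ) (l : Fin (K + 1)) : ℝ :=
  ∫ z, cbil (gaus (VLIdx N M d R D)) K (mlev K) (fun y => Real.log (vrestY P π Φ c {a} z y))
    (fun y => (∑ σ, π.w σ * Real.exp (vrestH P π Φ c {a} σ (vbranch z y)) * φ σ)
      / vrestY P π Φ c {a} z y)
    (fun y => (∑ σ, π.w σ * Real.exp (vrestH P π Φ c {a} σ (vbranch z y)) * ψ σ)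
      / vrestY P π Φ c {a} z y) l ∂gaus (VRIdx N M d R D)

/-- A free row factors out of the level averages. -/
theorem integral_cbil_free (P : VPot d) (π : VPrior N d R D) (Φ : VFac N d K)
    {c : VCIdx N M d R D K → ℝ} {a : Fin M} (hfree : FreeRows c {a})
    (φ ψ : Fin π.c → ℝ) {g g' : (Fin d → ℝ) → ℝ} (hg : Continuous g) (hg' : Continuous g')
    (l : Fin (K + 1)) :
    ∫ z, cbil (gaus (VLIdx N M d R D)) K (mlev K) (fun y => Real.log (vleafY P π Φ c z y))
        (fun y => fldAvg P π Φ c a (fun σ h => φ σ * g h) z y)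
        (fun y => fldAvg P π Φ c a (fun σ h => ψ σ * g' h) z y) l ∂gaus (VRIdx N M d R D)
      = rowLev P.f g g' (rowA Φ c a 0) (fun l => rowA Φ c a l.succ) l
        * restLev P π Φ c a φ ψ l := by
  classical
  set p : VLIdx N M d R D → Prop := fun i => i ∈ Set.range (rowEmb (N := N) (R := R) (D := D) a)
  set U := fun (φ : Fin π.c → ℝ) (z : VRIdx N M d R D → ℝ) (y : Fin K → VLIdx N M d R D → ℝ) =>
    (∑ σ, π.w σ * Real.exp (vrestH P π Φ c {a} σ (vbranch z y)) * φ σ)
      / vrestY P π Φ c {a} z y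
  set E := fun g : (Fin d → ℝ) → ℝ => fun (w : RowIdx d → ℝ) (u : Fin K → RowIdx d → ℝ) =>
    g (rowFld (fun l => rowA Φ c a l.succ) (arrMap (rowA Φ c a 0) w) u)
  set rz := fun (z : VRIdx N M d R D → ℝ) (i : RowIdx d) => z (Sum.inr (rowEmb a i))
  have hq : ∀ (φ : Fin π.c → ℝ) (g : (Fin d → ℝ) → ℝ) z y,
      fldAvg P π Φ c a (fun σ h => φ σ * g h) z y
        = g (rowH Φ c a z y) * U φ z y := fun φ g z y => by
    have h1 := sum_vleaf_split P π Φ hfree z y φ
    have h2 := sum_vleaf_split P π Φ hfree z y fun _ => 1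
    simp only [mul_one, Finset.sum_singleton] at h1 h2
    simp only [fldAvg, vleafAvg, fldObs,
      vfld_free π Φ hfree (Finset.mem_singleton_self a) z y, ← mul_assoc, ← Finset.sum_mul]
    rw [vleafY, h1, h2, mul_comm (g _), mul_assoc, mul_div_mul_left _ _ (Real.exp_pos _).ne']
    simp only [U, vrestY]
    ring
  have hcfg : ∀ {g : (Fin d → ℝ) → ℝ}, Continuous g → ∀ z,
      Measurable fun y : Fin K → VLIdx N M d R D → ℝ => g (rowH Φ c a z y) := fun hg z =>
    (hg.comp ((continuous_rowH Φ c a).comp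
      (f := fun y : Fin K → VLIdx N M d R D → ℝ => (z, y))
      (continuous_const.prodMk continuous_id))).measurable
  have hrest : ∀ z, Measurable fun y : Fin K → VLIdx N M d R D → ℝ =>
      Real.log (vrestY P π Φ c {a} z y) := fun z =>
    Measurable.comp (g := fun p : (VRIdx N M d R D → ℝ) × (Fin K → VLIdx N M d R D → ℝ) =>
      Real.log (vrestY P π Φ c {a} p.1 p.2)) (measurable_log_vrestY P π Φ hfree)
      (f := fun y : Fin K → VLIdx N M d R D → ℝ => (z, y))
      (measurable_const.prodMk measurable_id)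
  have hcH : ∀ σ, Continuous fun q : (VRIdx N M d R D → ℝ) × (Fin K → VLIdx N M d R D → ℝ) =>
      vrestH P π Φ c {a} σ (vbranch q.1 q.2) := fun σ => by
    unfold vrestH
    exact ((continuous_vbham P π Φ σ).comp
      (f := fun q : (VRIdx N M d R D → ℝ) × (Fin K → VLIdx N M d R D → ℝ) => (c, q.1, q.2))
      (continuous_const.prodMk continuous_id)).sub (continuous_finsetSum _ fun b _ =>
        P.cf.comp (continuous_vfld _ continuous_const continuous_vbranch _ b))
  have hU : ∀ φ z, Measurable fun y => U φ z y := fun φ z => by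
    have h : ∀ σ, Measurable fun y => Real.exp (vrestH P π Φ c {a} σ (vbranch z y)) := fun σ =>
      (Real.continuous_exp.comp ((hcH σ).comp
        (f := fun y : Fin K → VLIdx N M d R D → ℝ => (z, y))
        (continuous_const.prodMk continuous_id))).measurable
    exact (Finset.measurable_sum _ fun σ _ => ((h σ).const_mul _).mul_const _).div
      (Finset.measurable_sum _ fun σ _ => (h σ).const_mul _)
  have hmp : MeasurePreserving
      (fun (y : VLIdx N M d R D → ℝ) (i : RowIdx d) => y (rowEmb a i))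
      (gaus (VLIdx N M d R D)) (gaus (RowIdx d)) :=
    P157.mp_comp (gaussianReal 0 1) (rowEmb_inj a)
  have hE : ∀ {g : (Fin d → ℝ) → ℝ}, Continuous g → ∀ w, Measurable (E g w) := fun hg w =>
    hg.measurable.comp ((continuous_rowFld fun l : Fin K => rowA Φ c a l.succ).measurable.comp
      measurable_prodMk_left)
  have hz : ∀ z, cbil (gaus (VLIdx N M d R D)) K (mlev K)
        (fun y => Real.log (vleafY P π Φ c z y))
        (fun y => fldAvg P π Φ c a (fun σ h => φ σ * g h) z y)
        (fun y => fldAvg P π Φ c a (fun σ h => ψ σ * g' h) z y) l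
      = cbil (gaus (RowIdx d)) K (mlev K) (E P.f (rz z)) (E g (rz z)) (E g' (rz z)) l
        * cbil (gaus (VLIdx N M d R D)) K (mlev K) (fun y => Real.log (vrestY P π Φ c {a} z y))
            (fun y => U φ z y) (fun y => U ψ z y) l := fun z => by
    simp only [hq, log_vleafY_split P π Φ hfree z, Finset.sum_singleton, add_comm (Real.log _)]
    rw [cbil_sep p (grid_mlev K) (hcfg P.cf z) (hrest z) (hcfg hg z) (hU φ z) (hcfg hg' z) (hU ψ z)
      (fun y y' hy => by
        have e : rowH Φ c a z y = rowH Φ c a z y' := by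
          simp only [rowH]
          congr 1
          funext l i
          exact hy l _ ⟨i, rfl⟩
        exact ⟨congrArg P.f e, congrArg g e, congrArg g' e⟩)
      (fun y y' hy => by
        have e : ∀ σ, vrestH P π Φ c {a} σ (vbranch z y) = vrestH P π Φ c {a} σ (vbranch z y') :=
          fun σ => vrestH_congr P π Φ σ (fun _ _ => rfl) fun l i hi =>
            hy l i fun ⟨r, hr⟩ => hi a (Finset.mem_singleton_self a) r hr.symm
        exact ⟨by simp only [vrestY, e], by simp only [U, vrestY, e], by simp only [U, vrestY, e]⟩)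
      ((grow_pot_rowH P Φ c {a} z).integrable_exp (Finset.measurable_sum _ fun b _ =>
        (P.cf.comp ((continuous_rowH Φ c b).comp
          (continuous_const.prodMk continuous_id))).measurable) |>.congr
            (ae_of_all _ fun y => by simp))
      ((grow_log_vrestY P π Φ hfree z).integrable_exp (hrest z)) l]
    congr 1
    exact cbil_map hmp K (mlev K) (hE P.cf _) (hE hg _) (hE hg' _) l
  simp only [hz]
  set pz : VRIdx N M d R D → Prop := fun i => ∃ r : RowIdx d, i = Sum.inr (rowEmb a r)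
  rw [integral_mul_disjoint pz
    (A := fun z => cbil (gaus (RowIdx d)) K (mlev K) (E P.f (rz z)) (E g (rz z)) (E g' (rz z)) l)
    (B := fun z => cbil (gaus (VLIdx N M d R D)) K (mlev K)
      (fun y => Real.log (vrestY P π Φ c {a} z y)) (fun y => U φ z y) (fun y => U ψ z y) l)
    (fun z z' hzz => by
      have e : rz z = rz z' := funext fun r => hzz _ ⟨r, rfl⟩
      simp only [e])
    (fun z z' hzz => by
      have e : ∀ y σ, vrestH P π Φ c {a} σ (vbranch z y) = vrestH P π Φ c {a} σ (vbranch z' y) :=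
        fun y σ => vrestH_congr P π Φ σ (fun i hi => hzz i fun ⟨r, hr⟩ =>
          hi a (Finset.mem_singleton_self a) r hr) fun _ _ _ => rfl
      simp only [U, vrestY, e])]
  have hmz : MeasurePreserving rz (gaus (VRIdx N M d R D)) (gaus (RowIdx d)) :=
    P157.mp_comp (gaussianReal 0 1) (Sum.inr_injective.comp (rowEmb_inj a))
  have hF : Measurable fun w : RowIdx d → ℝ =>
      cbil (gaus (RowIdx d)) K (mlev K) (E P.f w) (E g w) (E g' w) l := by
    have hu : ∀ {g : (Fin d → ℝ) → ℝ}, Continuous g → Measurable (Function.uncurry (E g)) :=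
      fun hg => (hg.comp ((continuous_rowFld fun l : Fin K => rowA Φ c a l.succ).comp
        (f := fun q : (RowIdx d → ℝ) × (Fin K → RowIdx d → ℝ) =>
          (arrMap (rowA Φ c a 0) q.1, q.2))
        (((arrMap (rowA Φ c a 0)).continuous.comp continuous_fst).prodMk continuous_snd))).measurable
    exact measurable_cbil_param K (mlev K) (hu P.cf) (hu hg) (hu hg') l
  have hrow := integral_map (μ := gaus (VRIdx N M d R D)) hmz.measurable.aemeasurable
    (f := fun w => cbil (gaus (RowIdx d)) K (mlev K) (E P.f w) (E g w) (E g' w) l)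
    hF.aestronglyMeasurable
  rw [hmz.map_eq] at hrow
  rw [← hrow]
  rfl

/-- The row mean of two functions equals one for constants. -/
theorem rowLev_one {J : Type} [Fintype J] {f : (Fin d → ℝ) → ℝ} (hf : Measurable f) {b : ℝ}
    (hb : ∀ h, |f h| ≤ b) (A0 : Fin d → J → ℝ) (S : Fin K → Fin d → J → ℝ) (l : Fin (K + 1)) :
    rowLev f (fun _ => 1) (fun _ => 1) A0 S l = 1 := by
  have key : ∀ w, cbil (gaus J) K (mlev K) (fun u => f (rowFld S (arrMap A0 w) u))
      (fun _ => 1) (fun _ => 1) l = 1 := fun w => by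
    have hH : Measurable fun u => f (rowFld S (arrMap A0 w) u) :=
      hf.comp ((continuous_rowFld S).measurable.comp measurable_prodMk_left)
    have hi : Integrable (fun u => Real.exp (f (rowFld S (arrMap A0 w) u)))
        (Measure.pi fun _ : Fin K => gaus J) :=
      (integrable_const (Real.exp b)).mono' hH.exp.aestronglyMeasurable (ae_of_all _ fun u => by
        rw [Real.norm_eq_abs, abs_of_pos (Real.exp_pos _)]
        exact Real.exp_le_exp.2 (abs_le.1 (hb _)).2)
    have h := csq_add K (grid_mlev K) hH (a := fun _ => 1) (b := fun _ => 1) measurable_const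
      measurable_const hi (B := 1) (fun _ => by simp) (fun _ => by simp) l
    rw [(csq_const 1 K (grid_mlev K) hH hi).2 l, (csq_const (1 + 1) K (grid_mlev K) hH hi).2 l] at h
    linarith
  simp [rowLev, key]

/-- For a free row the level averages split in the limit. -/
theorem tendsto_fldLev_free (P : VPot d) (π : VPrior N d R D) (Φ : VFac N d K) {a : Fin M}
    (φ ψ : Fin π.c → ℝ) {g g' : (Fin d → ℝ) → ℝ} (hg : Continuous g) (hg' : Continuous g')
    {b : ℝ} (hgb : ∀ h, |g h| ≤ b) (hgb' : ∀ h, |g' h| ≤ b)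
    {c : ℕ → VCIdx N M d R D K → ℝ} {cl : VCIdx N M d R D K → ℝ}
    (hc : Tendsto c atTop (𝓝 cl)) (hfree : FreeRows cl {a}) {nn : ℕ → ℕ}
    (hn : Tendsto nn atTop atTop) (l : Fin (K + 1)) :
    Tendsto (fun k => fldLev (nn k) P π Φ (c k) a (fun σ h => φ σ * g h) (fun σ h => ψ σ * g' h) l
        - rowLev P.f g g' (rowA Φ cl a 0) (fun l => rowA Φ cl a l.succ) l
          * fldLev (nn k) P π Φ (c k) a (fun σ _ => φ σ) (fun σ _ => ψ σ) l)
      atTop (𝓝 0) := by
  set Bφ : ℝ := (∑ σ, |φ σ|) + ∑ σ, |ψ σ|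
  have h1 : ∀ σ, |φ σ| ≤ Bφ ∧ |ψ σ| ≤ Bφ := fun σ =>
    ⟨(Finset.single_le_sum (f := fun σ => |φ σ|) (fun σ _ => abs_nonneg _)
      (Finset.mem_univ σ)).trans (le_add_of_nonneg_right (Finset.sum_nonneg fun σ _ => abs_nonneg _)),
    (Finset.single_le_sum (f := fun σ => |ψ σ|) (fun σ _ => abs_nonneg _)
      (Finset.mem_univ σ)).trans (le_add_of_nonneg_left (Finset.sum_nonneg fun σ _ => abs_nonneg _))⟩
  have hmul : ∀ (u : ℝ) (v : ℝ), |u| ≤ Bφ → |v| ≤ b → |u * v| ≤ Bφ * b := fun u v hu hv => by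
    rw [abs_mul]
    exact mul_le_mul hu hv (abs_nonneg _) ((abs_nonneg _).trans hu)
  have l1 := tendsto_fldLev P π Φ a (F := fun σ h => φ σ * g h) (G := fun σ h => ψ σ * g' h)
    (fun σ => continuous_const.mul hg) (fun σ => continuous_const.mul hg') (B := Bφ * b)
    (fun σ h => hmul _ _ (h1 σ).1 (hgb h)) (fun σ h => hmul _ _ (h1 σ).2 (hgb' h)) hc hn l
  have l2 := tendsto_fldLev P π Φ a (F := fun σ _ => φ σ) (G := fun σ _ => ψ σ)
    (fun σ => continuous_const) (fun σ => continuous_const) (B := Bφ)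
    (fun σ h => (h1 σ).1) (fun σ h => (h1 σ).2) hc hn l
  have e : ∫ z, cbil (gaus (VLIdx N M d R D)) K (mlev K) (fun y => Real.log (vleafY P π Φ cl z y))
      (fun y => fldAvg P π Φ cl a (fun σ _ => φ σ) z y)
      (fun y => fldAvg P π Φ cl a (fun σ _ => ψ σ) z y) l ∂gaus (VRIdx N M d R D)
      = restLev P π Φ cl a φ ψ l := by
    have h := integral_cbil_free P π Φ hfree φ ψ (g := fun _ => 1) (g' := fun _ => 1)
      continuous_const continuous_const l
    rw [rowLev_one P.cf.measurable P.hF, one_mul] at h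
    simpa only [mul_one] using h
  have hlim := l1.sub (l2.const_mul (rowLev P.f g g' (rowA Φ cl a 0)
    (fun l => rowA Φ cl a l.succ) l))
  rw [e, integral_cbil_free P π Φ hfree φ ψ hg hg' l] at hlim
  convert hlim using 2
  ring

end Vale.Agent.P166.Casc
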