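import Vale.Agent.P157.Casc.Segment
import Vale.Agent.P166.Casc.VFreeLev
import Vale.Agent.P166.Formula.Block
import Vale.Agent.P166.Pen.PenLimit

/-!
Gaussian configurations of a block of sites of several types, confined to shells of their
self-overlaps and to a cut: the sub-configurations of the types are independent.
-/

open MeasureTheory ProbabilityTheory Filter Topology Matrix

namespace Vale.Agent.P166.Casc

open Vale.Agent.P157.Casc Vale.Agent.P166.Formula Vale.Agent.P166.Pen

variable {m d : ℕ} (T : Fin m → Finset (Fin d))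

/-- The sites of a type. -/
def typSet (t : Finset (Fin d)) : Finset (Fin m) := Finset.univ.filter fun i => T i = t

/-- The number of sites of a type. -/
def typSize (t : Finset (Fin d)) : ℕ := (typSet T t).card

/-- The sites of a type, in order. -/
def site (t : Finset (Fin d)) : Fin (typSize T t) ↪o Fin m := (typSet T t).orderEmbOfFin rfl

/-- The components present in a type, in order. -/
def comp (t : Finset (Fin d)) : Fin t.card ↪o Fin d := t.orderEmbOfFin rfl

/-- The present components of the sites of a type. -/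
def subG (t : Finset (Fin d)) (ω : Fin d → Fin m → ℝ) (a : Fin (typSize T t)) (b : Fin t.card) :
    ℝ :=
  ω (comp t b) (site T t a)

/-- Configurations of variance `τ`, absent components removed. -/
noncomputable def maskCfg (τ : ℝ) (ω : Fin d → Fin m → ℝ) (i : Fin m) (k : Fin d) : ℝ :=
  if k ∈ T i then √τ * ω k i else 0

/-- Self-overlaps of a type, divided by its size. -/
noncomputable def typeOv (τ : ℝ) (ω : Fin d → Fin m → ℝ) (t : Finset (Fin d)) (k l : Fin d) : ℝ :=
  (∑ i ∈ typSet T t, maskCfg T τ ω i k * maskCfg T τ ω i l) / typSize T t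

/-- Configurations inside the cut with the self-overlaps of all types near the targets. -/
def shellSet (τ es B : ℝ) (D : Finset (Fin d) → Matrix (Fin d) (Fin d) ℝ) :
    Set (Fin d → Fin m → ℝ) :=
  cutSet B d m ∩ {ω | ∀ i, ∀ k ∈ T i, ∀ l ∈ T i, |typeOv T τ ω (T i) k l - D (T i) k l| ≤ es}

theorem T_site (t : Finset (Fin d)) (a : Fin (typSize T t)) : T (site T t a) = t :=
  (Finset.mem_filter.1 ((typSet T t).orderEmbOfFin_mem rfl a)).2

theorem comp_mem (t : Finset (Fin d)) (b : Fin t.card) : comp t b ∈ t :=
  t.orderEmbOfFin_mem rfl b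

theorem sum_site {M : Type*} [AddCommMonoid M] (t : Finset (Fin d)) (F : Fin m → M) :
    ∑ i ∈ typSet T t, F i = ∑ a, F (site T t a) := by
  conv_lhs => rw [← Finset.map_orderEmbOfFin_univ (typSet T t) rfl, Finset.sum_map]
  rfl

theorem sum_comp_eq {M : Type*} [AddCommMonoid M] (t : Finset (Fin d)) (F : Fin d → M) :
    ∑ k ∈ t, F k = ∑ b, F (comp t b) := by
  conv_lhs => rw [← Finset.map_orderEmbOfFin_univ t rfl, Finset.sum_map]
  rfl

theorem exists_comp {t : Finset (Fin d)} {k : Fin d} (hk : k ∈ t) : ∃ b, comp t b = k := by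
  have h := Finset.range_orderEmbOfFin t rfl
  exact (Set.ext_iff.1 h k).2 hk

/-- A sum over the sites, by types. -/
theorem sum_by_type {M : Type*} [AddCommMonoid M] (F : Fin m → M) :
    ∑ i, F i = ∑ t ∈ Finset.univ.image T, ∑ a, F (site T t a) := by
  simp only [← sum_site]
  exact (Finset.sum_fiberwise_of_maps_to
    (fun i _ => Finset.mem_image_of_mem T (Finset.mem_univ i)) F).symm

theorem typeOv_site (τ : ℝ) (ω : Fin d → Fin m → ℝ) (t : Finset (Fin d)) (b b' : Fin t.card) :
    typeOv T τ ω t (comp t b) (comp t b') = blockOv τ (subG T t ω) b b' := by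
  simp only [typeOv, blockOv, sum_site, maskCfg, T_site, comp_mem, if_true, subG]

/-- The part of a configuration that the model does not see. -/
def inact (ω : Fin d → Fin m → ℝ) : ℝ :=
  ∑ i, ∑ k ∈ Finset.univ \ T i, ω k i ^ 2

theorem continuous_subG (t : Finset (Fin d)) :
    Continuous fun ω : Fin d → Fin m → ℝ => subG T t ω :=
  continuous_pi fun a => continuous_pi fun b => by unfold subG; fun_prop

theorem continuous_maskCfg (τ : ℝ) :
    Continuous fun ω : Fin d → Fin m → ℝ => maskCfg T τ ω := by
  refine continuous_pi fun i => continuous_pi fun k => ?_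
  unfold maskCfg
  split_ifs <;> fun_prop

theorem isClosed_shellSet (τ es B : ℝ) (D : Finset (Fin d) → Matrix (Fin d) (Fin d) ℝ) :
    IsClosed (shellSet T τ es B D) := by
  refine IsClosed.inter (isClosed_le (by fun_prop) continuous_const) ?_
  simp only [Set.ofPred_forall]
  refine isClosed_iInter fun i => isClosed_iInter fun k => isClosed_iInter fun _ =>
    isClosed_iInter fun l => isClosed_iInter fun _ => isClosed_le ?_ continuous_const
  have hc : ∀ a b, Continuous fun ω : Fin d → Fin m → ℝ => maskCfg T τ ω a b := fun a b =>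
    (continuous_apply b).comp ((continuous_apply a).comp (continuous_maskCfg T τ))
  exact (((continuous_finsetSum _ fun j _ => (hc j k).mul (hc j l)).div_const _).sub
    continuous_const).abs

theorem isCompact_shellSet (τ es B : ℝ) (D : Finset (Fin d) → Matrix (Fin d) (Fin d) ℝ) :
    IsCompact (shellSet T τ es B D) := by
  refine Metric.isCompact_of_isClosed_isBounded (isClosed_shellSet T τ es B D)
    ((Metric.isBounded_closedBall (x := (0 : Fin d → Fin m → ℝ)) (r := √(B * m))).subset
      fun ω hω => ?_)
  have hω' : ∑ k, ∑ i, ω k i ^ 2 ≤ B * m := hω.1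
  rw [mem_closedBall_zero_iff, pi_norm_le_iff_of_nonneg (Real.sqrt_nonneg _)]
  intro k
  rw [pi_norm_le_iff_of_nonneg (Real.sqrt_nonneg _)]
  intro i
  rw [Real.norm_eq_abs]
  refine Real.abs_le_sqrt (le_trans ?_ hω')
  exact (Finset.single_le_sum (f := fun i => ω k i ^ 2) (fun i _ => sq_nonneg _)
    (Finset.mem_univ i)).trans (Finset.single_le_sum (f := fun k => ∑ i, ω k i ^ 2)
      (fun k _ => Finset.sum_nonneg fun i _ => sq_nonneg _) (Finset.mem_univ k))

/-- The size allowed to one site of a type by its shell. -/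
noncomputable def actB (τ es : ℝ) (D : Finset (Fin d) → Matrix (Fin d) (Fin d) ℝ)
    (t : Finset (Fin d)) : ℝ :=
  (((D t).submatrix (comp t) (comp t)).trace + t.card * es) / τ

/-- A shell bounds the squares. -/
theorem sq_le_of_shell {n s : ℕ} {τ es : ℝ} (hτ : 0 < τ) {E : Matrix (Fin s) (Fin s) ℝ}
    {g : Fin n → Fin s → ℝ} (hg : g ∈ blockShell τ es E n) (b : Fin s) :
    ∑ a, g a b ^ 2 ≤ (n : ℝ) * (E b b + es) / τ := by
  rcases Nat.eq_zero_or_pos n with h0 | h0
  · subst h0
    simp
  have hn : (0 : ℝ) < n := Nat.cast_pos.2 h0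
  have h1 := (abs_le.1 (hg b b)).2
  simp only [blockOv] at h1
  rw [sub_le_iff_le_add, div_le_iff₀ hn] at h1
  rw [le_div_iff₀ hτ, Finset.sum_mul]
  calc ∑ a, g a b ^ 2 * τ = ∑ a, √τ * g a b * (√τ * g a b) := by
        refine Finset.sum_congr rfl fun a _ => ?_
        linear_combination -(g a b ^ 2) * Real.mul_self_sqrt hτ.le
    _ ≤ _ := h1.trans (le_of_eq (by ring))

theorem sum_sq_subG (t : Finset (Fin d)) (ω : Fin d → Fin m → ℝ) :
    ∑ i ∈ typSet T t, ∑ k ∈ T i, ω k i ^ 2 = ∑ b, ∑ a, subG T t ω a b ^ 2 := by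
  rw [Finset.sum_congr rfl fun i hi => by
    rw [(Finset.mem_filter.1 hi).2, sum_comp_eq], sum_site, Finset.sum_comm]
  rfl

/-- Shells of all types and a small unseen part give the shell of the whole block. -/
theorem mem_shellSet {τ es B : ℝ} (hτ : 0 < τ) {D : Finset (Fin d) → Matrix (Fin d) (Fin d) ℝ}
    (hB : (∑ i, actB τ es D (T i)) + 2 * (d * m) ≤ B * m)
    {ω : Fin d → Fin m → ℝ}
    (hs : ∀ t ∈ Finset.univ.image T, subG T t ω ∈
      blockShell τ es ((D t).submatrix (comp t) (comp t)) (typSize T t))
    (hi : inact T ω ≤ 2 * (d * m)) : ω ∈ shellSet T τ es B D := by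
  refine ⟨?_, fun i k hk l hl => ?_⟩
  · show ∑ k, ∑ i, ω k i ^ 2 ≤ B * m
    have hsplit : ∑ k, ∑ i, ω k i ^ 2 = (∑ i, ∑ k ∈ T i, ω k i ^ 2) + inact T ω := by
      rw [Finset.sum_comm, inact, ← Finset.sum_add_distrib]
      exact Finset.sum_congr rfl fun i _ => by
        rw [add_comm, Finset.sum_sdiff (Finset.subset_univ _)]
    have hmaps : ∀ i ∈ (Finset.univ : Finset (Fin m)), T i ∈ Finset.univ.image T :=
      fun i hi => Finset.mem_image_of_mem T hi
    have hact : ∑ i, ∑ k ∈ T i, ω k i ^ 2 ≤ ∑ i, actB τ es D (T i) := by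
      rw [← Finset.sum_fiberwise_of_maps_to hmaps, ← Finset.sum_fiberwise_of_maps_to hmaps]
      refine Finset.sum_le_sum fun t ht => ?_
      refine (sum_sq_subG T t ω).trans_le ?_
      refine (Finset.sum_le_sum fun b _ => sq_le_of_shell hτ (hs t ht) b).trans_eq ?_
      rw [Finset.sum_congr rfl fun i hi => congrArg (actB τ es D) (Finset.mem_filter.1 hi).2,
        Finset.sum_const, nsmul_eq_mul, ← Finset.sum_div, ← Finset.mul_sum, actB, Matrix.trace,
        Finset.sum_add_distrib, Finset.sum_const, Finset.card_univ, Fintype.card_fin,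
        nsmul_eq_mul, mul_div_assoc]
      rfl
    rw [hsplit]
    linarith
  · obtain ⟨b, hb⟩ := exists_comp hk
    obtain ⟨b', hb'⟩ := exists_comp hl
    have h := hs (T i) (Finset.mem_image_of_mem T (Finset.mem_univ i)) b b'
    rw [← hb, ← hb', typeOv_site]
    simpa using h

/-- The owner of a coordinate: its type if the component is present. -/
def owner (p : Fin d × Fin m) : Option (Finset (Fin d)) :=
  if p.1 ∈ T p.2 then some (T p.2) else none

theorem mp_curry_fin (a b : ℕ) :
    MeasurePreserving (fun (w : Fin a × Fin b → ℝ) (i : Fin a) (j : Fin b) => w (i, j))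
      (gaus (Fin a × Fin b)) (Measure.pi fun _ : Fin a => gaus (Fin b)) := by
  have hm : Measurable fun (w : Fin a × Fin b → ℝ) (i : Fin a) (j : Fin b) => w (i, j) :=
    measurable_pi_lambda _ fun i => measurable_pi_lambda _ fun j => measurable_pi_apply (i, j)
  refine ⟨hm, ?_⟩
  rw [← (mp_uncurry a b).map_eq, Measure.map_map hm (mp_uncurry a b).measurable]
  exact Measure.map_id

theorem mp_subG (t : Finset (Fin d)) :
    MeasurePreserving (subG T t) (spinLaw d m) (blockGauss t.card (typSize T t)) := by
  have h1 : MeasurePreserving (fun (ω : Fin d → Fin m → ℝ) (p : Fin d × Fin m) => ω p.1 p.2)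
      (spinLaw d m) (gaus (Fin d × Fin m)) := mp_uncurry d m
  have hinj : Function.Injective fun p : Fin (typSize T t) × Fin t.card =>
      (comp t p.2, site T t p.1) := fun p q h => by
    simp only [Prod.mk.injEq, (comp t).injective.eq_iff, (site T t).injective.eq_iff] at h
    exact Prod.ext h.2 h.1
  exact ((mp_curry_fin _ _).comp (P157.mp_comp (gaussianReal 0 1) hinj)).comp h1

theorem continuous_inact : Continuous (inact T) := by
  unfold inact
  fun_prop

/-- The unseen part is small with probability at least one half. -/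
theorem half_le_inact :
    (1 : ℝ) / 2 ≤ (spinLaw d m).real {ω | inact T ω ≤ 2 * (d * m)} := by
  have hG : MeasurableSet {ω | inact T ω ≤ 2 * ((d : ℝ) * m)} :=
    measurableSet_le (continuous_inact T).measurable measurable_const
  rcases Nat.eq_zero_or_pos (d * m) with h | h
  · have : {ω : Fin d → Fin m → ℝ | inact T ω ≤ 2 * ((d : ℝ) * m)} = Set.univ := by
      refine Set.eq_univ_of_forall fun ω => ?_
      show inact T ω ≤ 2 * ((d : ℝ) * m)
      have : inact T ω = 0 := by
        rcases Nat.mul_eq_zero.1 h with h | h <;> subst h <;> simp [inact]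
      rw [this]; positivity
    rw [this, probReal_univ]
    norm_num
  have hL : (0 : ℝ) < 2 * ((d : ℝ) * m) := by exact_mod_cast Nat.mul_pos two_pos h
  have hf0 : ∀ ω, 0 ≤ inact T ω := fun ω =>
    Finset.sum_nonneg fun i _ => Finset.sum_nonneg fun k _ => sq_nonneg _
  have hsq : ∀ k i, Integrable (fun ω : Fin d → Fin m → ℝ => ω k i ^ 2) (spinLaw d m) ∧
      ∫ ω, ω k i ^ 2 ∂spinLaw d m = 1 := fun k i => by
    have hp : MeasurePreserving (fun ω : Fin d → Fin m → ℝ => ω k i) (spinLaw d m)
        (gaussianReal 0 1) :=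
      (measurePreserving_eval (fun _ : Fin m => gaussianReal 0 1) i).comp
        (measurePreserving_eval (fun _ : Fin d => gaus (Fin m)) k)
    have hi : Integrable (fun x : ℝ => x ^ 2) (gaussianReal 0 1) :=
      (memLp_id_gaussianReal 2).integrable_sq
    refine ⟨hp.integrable_comp_of_integrable hi, ?_⟩
    have := integral_map (μ := spinLaw d m) hp.measurable.aemeasurable
      (f := fun x : ℝ => x ^ 2) (by rw [hp.map_eq]; exact hi.aestronglyMeasurable)
    rw [hp.map_eq] at this
    rw [← this]
    have hv := variance_id_gaussianReal (μ := 0) (v := 1)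
    rw [variance_eq_sub (memLp_id_gaussianReal 2)] at hv
    simpa using hv
  have hint : Integrable (inact T) (spinLaw d m) :=
    integrable_finsetSum _ fun i _ => integrable_finsetSum _ fun k _ => (hsq k i).1
  have hE : ∫ ω, inact T ω ∂spinLaw d m ≤ (d : ℝ) * m := by
    simp only [inact]
    rw [integral_finsetSum _ fun i _ => integrable_finsetSum _ fun k _ => (hsq k i).1]
    refine (Finset.sum_le_sum fun i _ => (?_ : _ ≤ (d : ℝ))).trans_eq (by simp [mul_comm])
    rw [integral_finsetSum _ fun k _ => (hsq k i).1]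
    simp only [(hsq _ i).2, Finset.sum_const, nsmul_eq_mul, mul_one, Nat.cast_le]
    exact (Finset.card_le_univ _).trans_eq (Fintype.card_fin d)
  have hmk := mul_meas_ge_le_integral_of_nonneg (ae_of_all _ hf0) hint (2 * ((d : ℝ) * m))
  have hcompl : (spinLaw d m).real {ω | inact T ω ≤ 2 * ((d : ℝ) * m)}ᶜ ≤ 1 / 2 := by
    have hsub : {ω | inact T ω ≤ 2 * ((d : ℝ) * m)}ᶜ ⊆ {ω | 2 * ((d : ℝ) * m) ≤ inact T ω} :=
      fun ω (hω : ¬inact T ω ≤ 2 * ((d : ℝ) * m)) => (not_le.1 hω).le
    have h1 := measureReal_mono (μ := spinLaw d m) hsub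
    have h2 : (spinLaw d m).real {ω | 2 * ((d : ℝ) * m) ≤ inact T ω} ≤ 1 / 2 := by
      by_contra hc
      have := mul_lt_mul_of_pos_left (not_le.1 hc) hL
      linarith
    linarith
  rw [probReal_compl_eq_one_sub hG] at hcompl
  linarith

/-- Functions of the sub-configurations of distinct types and of the unseen part are
independent. -/
theorem integral_prod_types (F : (t : Finset (Fin d)) → (Fin (typSize T t) → Fin t.card → ℝ) → ℝ)
    (G : (Fin d → Fin m → ℝ) → ℝ)
    (hG : ∀ ω ω', (∀ k i, k ∉ T i → ω k i = ω' k i) → G ω = G ω')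
    (hF : ∀ t, Measurable (F t)) (hGm : Measurable G) (s : Finset (Finset (Fin d))) :
    ∫ ω, G ω * ∏ t ∈ s, F t (subG T t ω) ∂spinLaw d m
      = (∫ ω, G ω ∂spinLaw d m) * ∏ t ∈ s, ∫ g, F t g ∂blockGauss t.card (typSize T t) := by
  classical
  induction s using Finset.induction with
  | empty => simp
  | insert a s ha ih =>
    set f := fun (w : Fin d × Fin m → ℝ) (k : Fin d) (i : Fin m) => w (k, i)
    have hf : MeasurePreserving f (gaus (Fin d × Fin m)) (spinLaw d m) := mp_curry_fin d m
    have hA : ∀ w w', (∀ p, owner T p = some a → w p = w' p) →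
        F a (subG T a (f w)) = F a (subG T a (f w')) := fun w w' h => congrArg (F a)
      (funext fun i => funext fun b => h _ (by simp [owner, T_site, comp_mem]))
    have hB : ∀ w w', (∀ p, ¬owner T p = some a → w p = w' p) →
        G (f w) * ∏ t ∈ s, F t (subG T t (f w)) = G (f w') * ∏ t ∈ s, F t (subG T t (f w')) :=
      fun w w' h => by
      rw [hG (f w) (f w') fun k i hk => h (k, i) (by simp [owner, hk])]
      congr 1
      refine Finset.prod_congr rfl fun t ht => congrArg (F t)
        (funext fun i => funext fun b => h _ ?_)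
      simp only [owner, T_site, comp_mem, if_true, Option.some.injEq]
      rintro rfl
      exact ha ht
    have hmA : Measurable fun ω => F a (subG T a ω) := (hF a).comp (mp_subG T a).measurable
    have hmB : Measurable fun ω => G ω * ∏ t ∈ s, F t (subG T t ω) :=
      hGm.mul (Finset.measurable_prod _ fun t _ => (hF t).comp (mp_subG T t).measurable)
    have hmap : ∀ u : (Fin d → Fin m → ℝ) → ℝ, Measurable u →
        ∫ w, u (f w) ∂gaus (Fin d × Fin m) = ∫ ω, u ω ∂spinLaw d m := fun u hu => by
      have := integral_map (μ := gaus (Fin d × Fin m)) hf.measurable.aemeasurable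
        (f := u) hu.aestronglyMeasurable
      rw [hf.map_eq] at this
      exact this.symm
    have hsub : ∫ ω, F a (subG T a ω) ∂spinLaw d m
        = ∫ g, F a g ∂blockGauss a.card (typSize T a) := by
      have := integral_map (μ := spinLaw d m) (mp_subG T a).measurable.aemeasurable
        (f := F a) (hF a).aestronglyMeasurable
      rw [(mp_subG T a).map_eq] at this
      exact this.symm
    simp only [Finset.prod_insert ha]
    have e : ∀ ω, G ω * (F a (subG T a ω) * ∏ t ∈ s, F t (subG T t ω))
        = F a (subG T a ω) * (G ω * ∏ t ∈ s, F t (subG T t ω)) := fun ω => by ring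
    simp only [e]
    rw [← hmap (fun ω => F a (subG T a ω) * (G ω * ∏ t ∈ s, F t (subG T t ω))) (hmA.mul hmB)]
    rw [integral_mul_disjoint (fun p => owner T p = some a) hA hB, hmap _ hmA, hmap _ hmB, ih,
      hsub]
    ring

end Vale.Agent.P166.Casc
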