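import Vale.Agent.P157.Casc.InterpBase

/-!
Finite Gaussian systems with vector fields and a bounded potential of several variables.
-/

open MeasureTheory ProbabilityTheory Filter Topology

namespace Vale.Agent.P166.Casc

open Vale.Agent.P157.Casc

/-- A bounded potential of `d` variables with three bounded partial derivatives. -/
structure VPot (d : ℕ) where
  f : (Fin d → ℝ) → ℝ
  g : Fin d → (Fin d → ℝ) → ℝ
  h : Fin d → Fin d → (Fin d → ℝ) → ℝ
  e : Fin d → Fin d → Fin d → (Fin d → ℝ) → ℝ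
  bF : ℝ
  b1 : ℝ
  b2 : ℝ
  b3 : ℝ
  d1 : ∀ k y, HasDerivAt (fun z => f (Function.update y k z)) (g k y) (y k)
  d2 : ∀ k l y, HasDerivAt (fun z => g k (Function.update y l z)) (h k l y) (y l)
  d3 : ∀ k l j y, HasDerivAt (fun z => h k l (Function.update y j z)) (e k l j y) (y j)
  cf : Continuous f
  cg : ∀ k, Continuous (g k)
  ch : ∀ k l, Continuous (h k l)
  ce : ∀ k l j, Continuous (e k l j)
  hF : ∀ y, |f y| ≤ bF
  h1 : ∀ k y, |g k y| ≤ b1
  h2 : ∀ k l y, |h k l y| ≤ b2
  h3 : ∀ k l j y, |e k l j y| ≤ b3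

section System

variable {T I : Type*} [Fintype T] [Fintype I] {M d : ℕ}

/-- The fields of a row. -/
noncomputable def vfld (b : Fin M → Fin d → T → I → ℝ) (lam : I → ℝ) (G : I → ℝ) (x : T)
    (a : Fin M) : Fin d → ℝ :=
  fun k => lin (b a k) lam G x

/-- Minus energy: potentials of the vector fields, a compensated linear field, and a deterministic
term linear in the variances. -/
noncomputable def vham (P : VPot d) (b : Fin M → Fin d → T → I → ℝ) (bz : T → I → ℝ) (qd : T → I → ℝ)
    (lam : I → ℝ) (G : I → ℝ) (x : T) : ℝ :=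
  (∑ a, P.f (vfld b lam G x a)) + lin bz lam G x - (1 / 2) * ∑ i, lam i * bz x i ^ 2
    + ∑ i, lam i * qd x i

/-- Unnormalised weights of the system. -/
noncomputable def vbw (P : VPot d) (w : T → ℝ) (b : Fin M → Fin d → T → I → ℝ) (bz : T → I → ℝ) (qd : T → I → ℝ)
    (lam : I → ℝ) (G : I → ℝ) (x : T) : ℝ :=
  w x * Real.exp (vham P b bz qd lam G x)

/-- Expected log partition function. -/
noncomputable def vfree (P : VPot d) (w : T → ℝ) (b : Fin M → Fin d → T → I → ℝ)
    (bz : T → I → ℝ) (qd : T → I → ℝ) (lam : I → ℝ) : ℝ :=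
  ∫ G, Real.log (∑ x, vbw P w b bz qd lam G x) ∂gaus I

/-- Expected two-replica average of a bounded observable. -/
noncomputable def vpair (P : VPot d) (w : T → ℝ) (b : Fin M → Fin d → T → I → ℝ)
    (bz : T → I → ℝ) (qd : T → I → ℝ) (lam : I → ℝ) (O : (I → ℝ) → T → T → ℝ) : ℝ :=
  ∫ G, avg2 (vbw P w b bz qd lam G) (O G) ∂gaus I

/-- Covariance increment of two rows of fields in the direction `δ`. -/
def bcov (b : Fin M → Fin d → T → I → ℝ) (δ : I → ℝ) (a : Fin M) (k l : Fin d) (x y : T) : ℝ :=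
  ∑ i, δ i * (b a k x i * b a l y i)

/-- Two-replica part of the derivative of the free energy in the direction `δ`. -/
noncomputable def vgrad (P : VPot d) (b : Fin M → Fin d → T → I → ℝ) (bz : T → I → ℝ)
    (lam δ : I → ℝ) (G : I → ℝ) (x y : T) : ℝ :=
  (∑ a, ∑ k, ∑ l, bcov b δ a k l x y * (P.g k (vfld b lam G x a) * P.g l (vfld b lam G y a)))
    + ∑ i, δ i * (bz x i * bz y i)

/-- One-replica part: the self-covariance against `D²f + ∇f ∇f'`. -/
noncomputable def vdiag (P : VPot d) (b : Fin M → Fin d → T → I → ℝ) (lam δ : I → ℝ)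
    (G : I → ℝ) (x : T) : ℝ :=
  ∑ a, ∑ k, ∑ l, bcov b δ a k l x x *
    (P.h k l (vfld b lam G x a) + P.g k (vfld b lam G x a) * P.g l (vfld b lam G x a))

/-- The integrand of the derivative of the free energy. -/
noncomputable def vkern (P : VPot d) (b : Fin M → Fin d → T → I → ℝ) (bz : T → I → ℝ) (qd : T → I → ℝ)
    (lam δ : I → ℝ) (G : I → ℝ) (x y : T) : ℝ :=
  vgrad P b bz lam δ G x y - vdiag P b lam δ G x - 2 * ∑ i, δ i * qd x i

/-- Replica observable of the row fields. -/
noncomputable def vobs (P : VPot d) {r : ℕ} (φ : (Fin M → Fin r → Fin d → ℝ) → (Fin r → T) → ℝ)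
    (w : T → ℝ) (b : Fin M → Fin d → T → I → ℝ) (bz : T → I → ℝ) (qd : T → I → ℝ) (lam : I → ℝ) : ℝ :=
  ∫ G, avg (vbw P w b bz qd lam G) r (fun xs => φ (fun a l => vfld b lam G (xs l) a) xs) ∂gaus I

end System

/-- The directions of different rows and of the linear field have disjoint supports. -/
structure VDisj {T I : Type*} {M d : ℕ} (b : Fin M → Fin d → T → I → ℝ) (bz : T → I → ℝ) :
    Prop where
  orth : ∀ a a', a ≠ a' → ∀ k l x y i, b a k x i * b a' l y i = 0
  orthz : ∀ a k x y i, b a k x i * bz y i = 0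

end Vale.Agent.P166.Casc
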