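import Vale.Agent.P157.Casc.Model
import Vale.Agent.P166.Casc.Defs

/-!
Gaussian vector spins coupled to rows of vector fields, cascade fields, a quadratic tilt and
hierarchical perturbations of several scalar kernels.
-/

open MeasureTheory ProbabilityTheory Filter Topology

namespace Vale.Agent.P166.Casc

open Vale.Agent.P157.Casc

/-- A finitely supported prior on `N` spins in `ℝ^d`, with `R` unit kernel vectors in `ℝ^D`. -/
structure VPrior (N d R D : ℕ) where
  c : ℕ
  c_pos : 0 < c
  w : Fin c → ℝ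
  cfg : Fin c → Fin N → Fin d → ℝ
  ker : Fin R → Fin c → Fin D → ℝ
  w_pos : ∀ σ, 0 < w σ
  ker_unit : ∀ κ σ, ∑ j, ker κ σ j ^ 2 = 1

/-- States: a configuration and a leaf. -/
abbrev VState {N d R D : ℕ} (π : VPrior N d R D) (K n : ℕ) : Type := Fin π.c × Leaf K n

/-- Coordinates outside the tree: the matrix, and one tilt per spin. -/
abbrev ZIdx (N M : ℕ) : Type := (Fin M × Fin N) ⊕ Fin N

/-- Coordinates of the label of a vertex: two slots of row fields, two slots of spin fields, and
the features of the perturbations. -/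
abbrev VLIdx (N M d R D : ℕ) : Type :=
  (Fin 2 × Fin M × Fin d) ⊕ (Fin 2 × Fin N × Fin d) ⊕ (Fin R × PIdx D)

/-- All Gaussian coordinates. -/
abbrev VGIdx (N M d R D K n : ℕ) : Type :=
  ZIdx N M ⊕ (Option (Node K n) × VLIdx N M d R D)

/-- Coordinates up to the position in a level: what the variances may depend on. -/
abbrev VCIdx (N M d R D K : ℕ) : Type := ZIdx N M ⊕ (Fin (K + 1) × VLIdx N M d R D)

instance zidx_countable (N M : ℕ) : Countable (ZIdx N M) := inferInstance

instance vlidx_countable (N M d R D : ℕ) : Countable (VLIdx N M d R D) := inferInstance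

instance vgidx_countable (N M d R D K n : ℕ) : Countable (VGIdx N M d R D K n) := inferInstance

instance vcidx_countable (N M d R D K : ℕ) : Countable (VCIdx N M d R D K) := inferInstance

/-- Variances of all coordinates from those of the levels. -/
def vpull {N M d R D K n : ℕ} (c : VCIdx N M d R D K → ℝ) : VGIdx N M d R D K n → ℝ
  | Sum.inl p => c (Sum.inl p)
  | Sum.inr (o, i) => c (Sum.inr (lev o, i))

/-- Directions with a root part and the same label part along the branch of a leaf. -/
def treeDir {Z L : Type*} {K n : ℕ} (v0 : Z → ℝ) (u : Fin (K + 1) → L → ℝ) (α : Leaf K n) :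
    Z ⊕ (Option (Node K n) × L) → ℝ
  | Sum.inl p => v0 p
  | Sum.inr (o, i) => below α o * u (lev o) i

/-- Factors of the increments of the row fields and of the spin fields, and the tilts. -/
abbrev VFac (N d K : ℕ) : Type :=
  (Fin 2 → Fin (K + 1) → Fin d → Fin d → ℝ) ×
    (Fin 2 → Fin N → Fin (K + 1) → Fin d → Fin d → ℝ) × (Fin N → Fin d → Fin d → ℝ)

variable {N M d R D K n : ℕ}

/-- Root part of a row field. -/
noncomputable def rowZ (π : VPrior N d R D) (a : Fin M) (k : Fin d) (σ : Fin π.c) :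
    ZIdx N M → ℝ
  | Sum.inl (a', j) => if a' = a then π.cfg σ j k / √(N : ℝ) else 0
  | Sum.inr _ => 0

/-- Label part of a row field. -/
def rowL (Φ : VFac N d K) (a : Fin M) (k : Fin d) (l : Fin (K + 1)) : VLIdx N M d R D → ℝ
  | Sum.inl (s, a', r) => if a' = a then Φ.1 s l k r else 0
  | Sum.inr _ => 0

/-- Directions of the row fields. -/
noncomputable def vbpat (π : VPrior N d R D) (Φ : VFac N d K) (a : Fin M) (k : Fin d)
    (st : VState π K n) : VGIdx N M d R D K n → ℝ :=
  treeDir (rowZ π a k st.1) (rowL Φ a k) st.2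

/-- Label part of the linear field. -/
def spinL (π : VPrior N d R D) (Φ : VFac N d K) (σ : Fin π.c) (l : Fin (K + 1)) :
    VLIdx N M d R D → ℝ
  | Sum.inl _ => 0
  | Sum.inr (Sum.inl (s, j, r)) => ∑ k, π.cfg σ j k * Φ.2.1 s j l k r
  | Sum.inr (Sum.inr (κ, t)) => ∏ q, π.ker κ σ (t.2.2 q)

/-- Directions of the linear field. -/
noncomputable def vbspin (π : VPrior N d R D) (Φ : VFac N d K) (st : VState π K n) :
    VGIdx N M d R D K n → ℝ :=
  treeDir (fun _ => 0) (spinL π Φ st.1) st.2

/-- Quadratic form of one spin. -/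
noncomputable def tiltQ (π : VPrior N d R D) (Φ : VFac N d K) (σ : Fin π.c) : ZIdx N M → ℝ
  | Sum.inl _ => 0
  | Sum.inr j => (∑ k, ∑ l, Φ.2.2 j k l * (π.cfg σ j k * π.cfg σ j l)) / 2

/-- Deterministic terms: a quadratic tilt of every spin. -/
noncomputable def vqd (π : VPrior N d R D) (Φ : VFac N d K) (st : VState π K n) :
    VGIdx N M d R D K n → ℝ :=
  treeDir (tiltQ π Φ st.1) (fun _ _ => 0) st.2

/-- Prior weight of a state. -/
noncomputable def vstw (π : VPrior N d R D) (W : Node K n → ℝ) (st : VState π K n) : ℝ :=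
  π.w st.1 * wgt (mlev K) W st.2

/-- Weights and Gaussian coordinates, as one random environment. -/
noncomputable def venv (N M d R D K n : ℕ) :
    Measure ((Node K n → ℝ) × (VGIdx N M d R D K n → ℝ)) :=
  (casW (mlev K) n).prod (gaus (VGIdx N M d R D K n))

instance venv_prob : IsProbabilityMeasure (venv N M d R D K n) := by
  unfold venv; infer_instance

/-- Unnormalised random weights of the states. -/
noncomputable def vmbw (P : VPot d) (π : VPrior N d R D) (Φ : VFac N d K)
    (c : VCIdx N M d R D K → ℝ) (p : (Node K n → ℝ) × (VGIdx N M d R D K n → ℝ)) :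
    VState π K n → ℝ :=
  vbw P (vstw π p.1) (vbpat π Φ) (vbspin π Φ) (vqd π Φ) (vpull c) p.2

/-- Free energy, normalised by that of the bare cascade. -/
noncomputable def vmfree (n : ℕ) (P : VPot d) (π : VPrior N d R D) (Φ : VFac N d K)
    (c : VCIdx N M d R D K → ℝ) : ℝ :=
  (∫ p, Real.log (∑ st, vmbw P π Φ c p st) ∂venv N M d R D K n) - cst (mlev K) n

/-- Expected two-replica average. -/
noncomputable def vmpair (n : ℕ) (P : VPot d) (π : VPrior N d R D) (Φ : VFac N d K)
    (c : VCIdx N M d R D K → ℝ)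
    (O : (VGIdx N M d R D K n → ℝ) → VState π K n → VState π K n → ℝ) : ℝ :=
  ∫ p, avg2 (vmbw P π Φ c p) (O p.2) ∂venv N M d R D K n

/-- Variances of the perturbations of all kernels, with parameters `x`. -/
noncomputable def vpert (J : ℕ) (x : Fin R → ℕ → ℝ) : VCIdx N M d R D K → ℝ
  | Sum.inr (l, Sum.inr (Sum.inr (κ, ⟨j, i, _⟩))) =>
      if j.val < J then
        (amp J j * x κ j) ^ 2 * ((j.val + 1).choose i.val * 3 ^ (j.val + 1 - i.val)
          * incr (powPath K (j.val + 1 - i.val)) l) / ((3 * K + 1 : ℕ) : ℝ) ^ (j.val + 1)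
      else 0
  | _ => 0

/-- Variances: strength of the matrix, of the tilts, and of the slots. -/
def vfldc (s : Fin M → Fin N → ℝ) (τ : Fin N → ℝ) (q : Fin 2 → Fin M → ℝ)
    (p : Fin 2 → Fin N → ℝ) : VCIdx N M d R D K → ℝ
  | Sum.inl (Sum.inl (a, j)) => s a j
  | Sum.inl (Sum.inr j) => τ j
  | Sum.inr (_, Sum.inl (z, a, _)) => q z a
  | Sum.inr (_, Sum.inr (Sum.inl (z, j, _))) => p z j
  | Sum.inr (_, Sum.inr (Sum.inr _)) => 0

/-- Overlap matrix of the spins in a set, divided by `N`. -/
noncomputable def vov (π : VPrior N d R D) (S : Finset (Fin N)) (k l : Fin d)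
    (st st' : VState π K n) : ℝ :=
  (∑ j ∈ S, π.cfg st.1 j k * π.cfg st'.1 j l) / N

/-- Common level of two states. -/
def vlev (π : VPrior N d R D) (st st' : VState π K n) : Fin (K + 1) := com st.2 st'.2

/-- Overlap of one scalar kernel. -/
noncomputable def vkerov (π : VPrior N d R D) (κ : Fin R) (st st' : VState π K n) : ℝ :=
  ∑ j, π.ker κ st.1 j * π.ker κ st'.1 j

/-- Kernel of one perturbation. -/
noncomputable def vS (π : VPrior N d R D) (κ : Fin R) (st st' : VState π K n) : ℝ :=
  (vkerov π κ st st' + 3 * ((vlev π st st' : ℕ) : ℝ)) / ((3 * K + 1 : ℕ) : ℝ)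

/-- Overlap matrix of the gradients of the rows, divided by `N`. -/
noncomputable def vovP (P : VPot d) (π : VPrior N d R D) (Φ : VFac N d K)
    (c : VCIdx N M d R D K → ℝ) (k l : Fin d) (G : VGIdx N M d R D K n → ℝ)
    (st st' : VState π K n) : ℝ :=
  (∑ a, P.g k (vfld (vbpat π Φ) (vpull c) G st a) *
    P.g l (vfld (vbpat π Φ) (vpull c) G st' a)) / N

/-- The one-replica matrix of the rows, divided by `N`. -/
noncomputable def vovH (P : VPot d) (π : VPrior N d R D) (Φ : VFac N d K)
    (c : VCIdx N M d R D K → ℝ) (k l : Fin d) (G : VGIdx N M d R D K n → ℝ)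
    (st : VState π K n) : ℝ :=
  (∑ a, (P.h k l (vfld (vbpat π Φ) (vpull c) G st a) +
    P.g k (vfld (vbpat π Φ) (vpull c) G st a) * P.g l (vfld (vbpat π Φ) (vpull c) G st a))) / N

/-- Coordinates of the root. -/
abbrev VRIdx (N M d R D : ℕ) : Type := ZIdx N M ⊕ VLIdx N M d R D

instance vridx_countable (N M d R D : ℕ) : Countable (VRIdx N M d R D) := inferInstance

/-- The coordinates of one branch, as those of a tree with one child per vertex. -/
def vbranch (z : VRIdx N M d R D → ℝ) (y : Fin K → VLIdx N M d R D → ℝ) :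
    VGIdx N M d R D K 1 → ℝ
  | Sum.inl p => z (Sum.inl p)
  | Sum.inr (none, l) => z (Sum.inr l)
  | Sum.inr (some u, l) => y u.1 l

/-- The energy of a configuration on one branch. -/
noncomputable def vbham (P : VPot d) (π : VPrior N d R D) (Φ : VFac N d K)
    (c : VCIdx N M d R D K → ℝ) (σ : Fin π.c) (g : VGIdx N M d R D K 1 → ℝ) : ℝ :=
  vham P (vbpat π Φ) (vbspin π Φ) (vqd π Φ) (vpull c) g (σ, fun _ => 0)

/-- The factor of a leaf given the root and the labels on its branch. -/
noncomputable def vleafY (P : VPot d) (π : VPrior N d R D) (Φ : VFac N d K)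
    (c : VCIdx N M d R D K → ℝ) (z : VRIdx N M d R D → ℝ)
    (y : Fin K → VLIdx N M d R D → ℝ) : ℝ :=
  ∑ σ, π.w σ * Real.exp (vbham P π Φ c σ (vbranch z y))

/-- Leaf average of `φ` over the configurations. -/
noncomputable def vleafAvg (P : VPot d) (π : VPrior N d R D) (Φ : VFac N d K)
    (c : VCIdx N M d R D K → ℝ) (φ : Fin π.c → (VGIdx N M d R D K 1 → ℝ) → ℝ)
    (z : VRIdx N M d R D → ℝ) (y : Fin K → VLIdx N M d R D → ℝ) : ℝ :=
  (∑ σ, π.w σ * Real.exp (vbham P π Φ c σ (vbranch z y)) * φ σ (vbranch z y))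
    / vleafY P π Φ c z y

end Vale.Agent.P166.Casc
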