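import Vale.Agent.P157.Casc.Limit
import Vale.Agent.P157.Casc.Basic
import Vale.Agent.P166.Casc.VEnv

/-!
Level averages of pair functions of the configurations in the limit of large trees: they are
averages of quadratic forms at conditional laws, hence nonnegative on forms that are nonnegative
on the simplex, monotone on squares, and equal to the probability of the level on constants.
-/

open MeasureTheory ProbabilityTheory Filter Topology Set

namespace Vale.Agent.P157.Casc

variable {X : Type} [MeasurableSpace X] {ν : Measure X} [IsProbabilityMeasure ν]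

/-- Conditional means are linear in the observable. -/
theorem cmean_sum {ι : Type} (s : Finset ι) (v : ι → ℝ) : ∀ (K : ℕ) {m : Fin K → ℝ}, Grid m →
    ∀ {H : (Fin K → X) → ℝ} {g : ι → (Fin K → X) → ℝ}, Measurable H → (∀ i, Measurable (g i)) →
      Integrable (fun y => Real.exp (H y)) (Measure.pi fun _ => ν) →
      ∀ {B : ℝ}, (∀ i y, |g i y| ≤ B) →
      cmean ν K m H (fun y => ∑ i ∈ s, v i * g i y) = ∑ i ∈ s, v i * cmean ν K m H (g i)
  | 0, _, _, _, _, _, _, _, _, _ => rfl
  | K + 1, m, hm, H, g, hH, hg, hi, B, hB => by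
    obtain ⟨hw, hpos⟩ := weight_integrable hm hH hi
    have hrec : ∀ᵐ c ∂ν, _ := (Rec.slice hi).1.mono fun c hc =>
      And.intro (cmean_sum s v K hm.tail (measurable_consFix hH c)
        (g := fun i y => g i (Fin.cons c y)) (fun i => measurable_consFix (hg i) c) hc (B := B)
        fun i _ => hB i _) hc
    have hint : ∀ i, Integrable (fun c => Real.exp (m 0 * casc ν K (fun l => m l.succ)
        (fun y => H (Fin.cons c y))) * cmean ν K (fun l => m l.succ) (fun y => H (Fin.cons c y))
          (fun y => g i (Fin.cons c y))) ν := fun i =>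
      (tilt_bound hw (fun c => (Real.exp_pos _).le) hpos
        (measurable_cmean_param (α := X) K (fun l => m l.succ) (H := fun c y => H (Fin.cons c y))
          (a := fun c y => g i (Fin.cons c y)) (hH.comp Rec.measurable_cons)
          ((hg i).comp Rec.measurable_cons))
        (hrec.mono fun c hc => cmean_bound K hm.tail (measurable_consFix hH c)
          (measurable_consFix (hg i) c) hc.2 fun _ => hB i _)).1
    simp only [cmean]
    simp only [mul_div_assoc', ← Finset.sum_div, ← integral_const_mul]
    rw [← integral_finsetSum _ fun i _ => (hint i).const_mul (v i)]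
    refine congrArg (· / _) (integral_congr_ae ?_)
    filter_upwards [hrec] with c hc
    rw [hc.1, Finset.mul_sum]
    exact Finset.sum_congr rfl fun i _ => by ring

section Quad

variable {S : Type} [Fintype S]

/-- A quadratic form through squares, as a functional of the family of observables. -/
noncomputable def qform (O : S → S → ℝ) (F : ((S → ℝ)) → ℝ) [DecidableEq S] : ℝ :=
  ∑ σ, ∑ τ, O σ τ / 2 * (F (fun i => (if i = σ then 1 else 0) + if i = τ then 1 else 0)
    - F (fun i => if i = σ then 1 else 0) - F (fun i => if i = τ then 1 else 0))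

theorem qform_sq [DecidableEq S] (O : S → S → ℝ) (a : S → ℝ) :
    qform O (fun v => (∑ i, v i * a i) ^ 2) = ∑ σ, ∑ τ, O σ τ * (a σ * a τ) := by
  refine Finset.sum_congr rfl fun σ _ => Finset.sum_congr rfl fun τ _ => ?_
  simp [add_mul, Finset.sum_add_distrib, ite_mul]
  ring

/-- The quadratic form of `O` at the conditional means of the family `g`, at a level. -/
noncomputable def cquad [DecidableEq S] (ν : Measure X) (K : ℕ) (m : Fin K → ℝ)
    (H : (Fin K → X) → ℝ) (g : S → (Fin K → X) → ℝ) (O : S → S → ℝ) (l : Fin (K + 1)) : ℝ :=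
  qform O fun v => csq ν K m H (fun y => ∑ i, v i * g i y) l

/-- Nonnegative forms on the simplex give nonnegative values at every level. -/
theorem cquad_nonneg [DecidableEq S] (O : S → S → ℝ)
    (hO : ∀ a : S → ℝ, (∀ σ, 0 ≤ a σ) → ∑ σ, a σ = 1 → 0 ≤ ∑ σ, ∑ τ, O σ τ * (a σ * a τ)) :
    ∀ (K : ℕ) {m : Fin K → ℝ}, Grid m → ∀ {H : (Fin K → X) → ℝ} {g : S → (Fin K → X) → ℝ},
      Measurable H → (∀ σ, Measurable (g σ)) →
      Integrable (fun y => Real.exp (H y)) (Measure.pi fun _ => ν) →
      (∀ σ y, 0 ≤ g σ y) → (∀ y, ∑ σ, g σ y = 1) → ∀ l, 0 ≤ cquad ν K m H g O l := by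
  intro K
  induction K with
  | zero =>
    intro m _ H g _ _ _ h0 h1 l
    simp only [cquad, csq]
    exact (qform_sq O fun σ => g σ Fin.elim0).symm ▸ hO _ (fun σ => h0 σ _) (h1 _)
  | succ K ih =>
    intro m hm H g hH hg hi h0 h1 l
    have hB : ∀ σ y, |g σ y| ≤ 1 := fun σ y => abs_le.2 ⟨by linarith [h0 σ y],
      (Finset.single_le_sum (f := fun σ => g σ y) (fun τ _ => h0 τ y)
        (Finset.mem_univ σ)).trans_eq (h1 y)⟩
    obtain ⟨hw, hpos⟩ := weight_integrable hm hH hi
    refine Fin.cases ?_ (fun j => ?_) l
    · have hlin : ∀ v : S → ℝ, cmean ν (K + 1) m H (fun y => ∑ i, v i * g i y)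
          = ∑ i, v i * cmean ν (K + 1) m H (g i) := fun v =>
        cmean_sum Finset.univ v (K + 1) hm hH hg hi hB
      simp only [cquad, csq_zero, hlin]
      rw [qform_sq]
      have hone := (csq_const 1 (K + 1) hm hH hi).1
      refine hO _ (fun σ => ?_) ?_
      · set w : Unit ⊕ Unit → ℝ := Sum.elim (fun _ => 1) fun _ => -2
        set f : Unit ⊕ Unit → (Fin (K + 1) → X) → ℝ := Sum.elim (fun _ _ => 1) fun _ => g σ
        have e := cmean_sum Finset.univ w (K + 1) hm hH (g := f)
          (fun i => by rcases i with _ | _ <;> simp only [f, Sum.elim_inl, Sum.elim_inr] <;>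
            [exact measurable_const; exact hg σ]) hi (B := 1)
          (fun i y => by rcases i with _ | _ <;> simp only [f, Sum.elim_inl, Sum.elim_inr] <;>
            [simp; exact hB σ y])
        have hb := cmean_bound (K + 1) hm hH (a := fun y => ∑ i, w i * f i y) (by
          simp only [w, f, Fintype.sum_sum_type, Fintype.sum_unique, Sum.elim_inl, Sum.elim_inr]
          exact measurable_const.add ((hg σ).const_mul _)) hi (B := 1) fun y => by
            simp only [w, f, Fintype.sum_sum_type, Fintype.sum_unique, Sum.elim_inl, Sum.elim_inr]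
            have := h0 σ y
            have := (abs_le.1 (hB σ y)).2
            exact abs_le.2 ⟨by linarith, by linarith⟩
        rw [e] at hb
        simp only [w, f, Fintype.sum_sum_type, Fintype.sum_unique, Sum.elim_inl, Sum.elim_inr,
          hone] at hb
        linarith [(abs_le.1 hb).2]
      · have := hlin fun _ => 1
        simp only [one_mul, h1, hone] at this
        exact this.symm
    · set w : X → ℝ := fun c =>
        Real.exp (m 0 * casc ν K (fun l => m l.succ) fun y => H (Fin.cons c y))
      set T : (S → ℝ) → X → ℝ := fun v c => csq ν K (fun l => m l.succ)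
        (fun y => H (Fin.cons c y)) (fun y => ∑ i, v i * g i (Fin.cons c y)) j
      have hint : ∀ v, Integrable (fun c => w c * T v c) ν := fun v => by
        refine (tilt_bound hw (fun c => (Real.exp_pos _).le) hpos
          (measurable_csq_param (α := X) K (fun l => m l.succ) (H := fun c y => H (Fin.cons c y))
            (a := fun c y => ∑ i, v i * g i (Fin.cons c y)) (hH.comp Rec.measurable_cons)
            (Finset.measurable_sum _ fun i _ =>
              (((hg i).comp Rec.measurable_cons).const_mul (v i))) j)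
          ((Rec.slice hi).1.mono fun c hc => (csq_bound_mono K hm.tail (measurable_consFix hH c)
            (Finset.measurable_sum _ fun i _ => (measurable_consFix (hg i) c).const_mul (v i)) hc
            (B := ∑ i, |v i|) fun y => ?_).1 j)).1
        refine (Finset.abs_sum_le_sum_abs _ _).trans (Finset.sum_le_sum fun i _ => ?_)
        rw [abs_mul]
        exact mul_le_of_le_one_right (abs_nonneg _) (hB i _)
      have e : cquad ν (K + 1) m H g O j.succ
          = (∫ c, w c * qform O (fun v => T v c) ∂ν) / ∫ c, w c ∂ν := by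
        have e1 : (fun c => w c * qform O (fun v => T v c)) = fun c => ∑ σ, ∑ τ, O σ τ / 2 *
            (w c * T (fun i => (if i = σ then 1 else 0) + if i = τ then 1 else 0) c
              - w c * T (fun i => if i = σ then 1 else 0) c
              - w c * T (fun i => if i = τ then 1 else 0) c) := by
          funext c
          simp only [qform, Finset.mul_sum]
          exact Finset.sum_congr rfl fun σ _ => Finset.sum_congr rfl fun τ _ => by ring
        have i1 : ∀ σ τ, Integrable (fun c => O σ τ / 2 *
            (w c * T (fun i => (if i = σ then 1 else 0) + if i = τ then 1 else 0) c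
              - w c * T (fun i => if i = σ then 1 else 0) c
              - w c * T (fun i => if i = τ then 1 else 0) c)) ν := fun σ τ =>
          (((hint _).sub (hint _)).sub (hint _)).const_mul _
        rw [e1, integral_finsetSum _ fun σ _ => integrable_finsetSum _ fun τ _ => i1 σ τ]
        rw [cquad, qform, Finset.sum_div]
        refine Finset.sum_congr rfl fun σ _ => ?_
        rw [integral_finsetSum _ fun τ _ => i1 σ τ, Finset.sum_div]
        refine Finset.sum_congr rfl fun τ _ => ?_
        set v1 : S → ℝ := fun i => (if i = σ then 1 else 0) + if i = τ then 1 else 0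
        set v2 : S → ℝ := fun i => if i = σ then 1 else 0
        have h12 : Integrable (fun c => w c * T v1 c - w c * T v2 c) ν := (hint v1).sub (hint v2)
        rw [integral_const_mul, integral_sub h12 (hint _),
          integral_sub (hint v1) (hint v2), mul_div_assoc, sub_div, sub_div]
        simp only [csq, Fin.cases_succ, w, T]
      rw [e]
      refine div_nonneg (integral_nonneg_of_ae ?_) hpos.le
      filter_upwards [(Rec.slice hi).1] with c hc
      exact mul_nonneg (Real.exp_pos _).le (ih hm.tail (measurable_consFix hH c)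
        (g := fun σ y => g σ (Fin.cons c y)) (fun σ => measurable_consFix (hg σ) c) hc
        (fun σ y => h0 σ _) (fun y => h1 _) j)

end Quad

end Vale.Agent.P157.Casc

namespace Vale.Agent.P166.Casc

open Vale.Agent.P157.Casc

variable {N M d R D K n : ℕ}

/-- The average of a pair function of the configurations on one level. -/
noncomputable def pairLev (n : ℕ) (P : VPot d) (π : VPrior N d R D) (Φ : VFac N d K)
    (c : VCIdx N M d R D K → ℝ) (O : Fin π.c → Fin π.c → ℝ) (l : Fin (K + 1)) : ℝ :=
  vmpair n P π Φ c fun _ st st' => onLev l (vlev π st st') (O st.1 st'.1)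

/-- The limit of the average of a square on one level. -/
noncomputable def sqLim (P : VPot d) (π : VPrior N d R D) (Φ : VFac N d K)
    (c : VCIdx N M d R D K → ℝ) (φ : Fin π.c → ℝ) (l : Fin (K + 1)) : ℝ :=
  ∫ z, csq (gaus (VLIdx N M d R D)) K (mlev K) (fun y => Real.log (vleafY P π Φ c z y))
    (fun y => vleafAvg P π Φ c (fun σ _ => φ σ) z y) l ∂gaus (VRIdx N M d R D)

theorem measurable_vleafAvg (P : VPot d) (π : VPrior N d R D) (Φ : VFac N d K)
    (c : VCIdx N M d R D K → ℝ) (φ : Fin π.c → ℝ) :
    Measurable (Function.uncurry fun (z : VRIdx N M d R D → ℝ)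
      (y : Fin K → VLIdx N M d R D → ℝ) => vleafAvg P π Φ c (fun σ _ => φ σ) z y) := by
  have h : ∀ σ, Measurable fun p : (VRIdx N M d R D → ℝ) × (Fin K → VLIdx N M d R D → ℝ) =>
      π.w σ * Real.exp (vbham P π Φ c σ (vbranch p.1 p.2)) * φ σ := fun σ =>
    (((Real.continuous_exp.comp ((continuous_vbham P π Φ σ).comp
      (f := fun p : (VRIdx N M d R D → ℝ) × (Fin K → VLIdx N M d R D → ℝ) => (c, p.1, p.2))
      (continuous_const.prodMk continuous_id))).const_mul _).mul_const _).measurable
  exact (Finset.measurable_sum _ fun σ _ => h σ).div ((continuous_vleafY P π Φ).comp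
    (f := fun p : (VRIdx N M d R D → ℝ) × (Fin K → VLIdx N M d R D → ℝ) => (c, p.1, p.2))
    (continuous_const.prodMk continuous_id)).measurable

theorem abs_vleafAvg_le (P : VPot d) (π : VPrior N d R D) (Φ : VFac N d K)
    (c : VCIdx N M d R D K → ℝ) {φ : Fin π.c → ℝ} {B : ℝ} (hB : ∀ σ, |φ σ| ≤ B)
    (z : VRIdx N M d R D → ℝ) (y : Fin K → VLIdx N M d R D → ℝ) :
    |vleafAvg P π Φ c (fun σ _ => φ σ) z y| ≤ B := by
  rw [vleafAvg, abs_div, abs_of_pos (vleafY_pos P π Φ c z y),
    div_le_iff₀ (vleafY_pos P π Φ c z y), vleafY, Finset.mul_sum]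
  refine (Finset.abs_sum_le_sum_abs _ _).trans (Finset.sum_le_sum fun σ _ => ?_)
  rw [abs_mul, abs_of_pos (mul_pos (π.w_pos σ) (Real.exp_pos _)), mul_comm B]
  exact mul_le_mul_of_nonneg_left (hB _) (mul_pos (π.w_pos σ) (Real.exp_pos _)).le

/-- The averages of squares converge, jointly in the variances and the function. -/
theorem tendsto_pairLev_sq (P : VPot d) (π : VPrior N d R D) (Φ : VFac N d K)
    {c : ℕ → VCIdx N M d R D K → ℝ} {cl : VCIdx N M d R D K → ℝ} (hc : Tendsto c atTop (𝓝 cl))
    {φ : ℕ → Fin π.c → ℝ} {φl : Fin π.c → ℝ} (hφ : Tendsto φ atTop (𝓝 φl)) {nn : ℕ → ℕ}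
    (hn : Tendsto nn atTop atTop) (l : Fin (K + 1)) :
    Tendsto (fun k => pairLev (nn k) P π Φ (c k) (fun σ τ => φ k σ * φ k τ) l) atTop
      (𝓝 (pi0 K * sqLim P π Φ cl φl l)) := by
  obtain ⟨Bc, hBc⟩ := Metric.isBounded_iff_subset_closedBall 0 |>.1
    (Metric.isBounded_range_of_tendsto c hc)
  obtain ⟨A, hA⟩ := vleafY_conv P π Φ (B := Bc) (fun k i => by
    have h := mem_closedBall_zero_iff.1 (hBc (mem_range_self k))
    exact ((Real.norm_eq_abs _).symm.trans_le (norm_le_pi_norm (c k) i)).trans h) hc
  obtain ⟨Bφ, hBφ⟩ := Metric.isBounded_iff_subset_closedBall 0 |>.1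
    (Metric.isBounded_range_of_tendsto φ hφ)
  have hB : ∀ k σ, |φ k σ| ≤ Bφ := fun k σ =>
    ((Real.norm_eq_abs _).symm.trans_le (norm_le_pi_norm (φ k) σ)).trans
      (mem_closedBall_zero_iff.1 (hBφ (mem_range_self k)))
  have hm := casc_mono (grid_mlev K) hA hn (d := 1)
    (a := fun k z y _ => vleafAvg P π Φ (c k) (fun σ _ => φ k σ) z y)
    (al := fun z y _ => vleafAvg P π Φ cl (fun σ _ => φl σ) z y) (B := Bφ)
    (fun k => measurable_pi_lambda _ fun _ => measurable_vleafAvg P π Φ _ _)
    (measurable_pi_lambda _ fun _ => measurable_vleafAvg P π Φ _ _)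
    (fun k z y _ => abs_vleafAvg_le P π Φ _ (hB k) z y)
    (fun z y => tendsto_pi_nhds.2 fun _ => by
      have hf : ∀ c' : VCIdx N M d R D K → ℝ, ∀ φ' : Fin π.c → ℝ,
          vleafAvg P π Φ c' (fun σ _ => φ' σ) z y
            = (∑ σ, π.w σ * Real.exp (vbham P π Φ c' σ (vbranch z y)) * φ' σ)
              / vleafY P π Φ c' z y := fun _ _ => rfl
      simp only [hf]
      have hy : ∀ σ, Tendsto (fun k => vbham P π Φ (c k) σ (vbranch z y)) atTop
          (𝓝 (vbham P π Φ cl σ (vbranch z y))) := fun σ =>
        ((((continuous_vbham (M := M) P π Φ σ).comp (f := fun c' => (c', z, y))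
          (continuous_id.prodMk continuous_const))).tendsto cl).comp hc
      exact (tendsto_finsetSum _ fun σ _ => (((hy σ).rexp).const_mul _).mul
        ((tendsto_pi_nhds.1 hφ) σ)).div (hA.conv z y) (vleafY_pos P π Φ cl z y).ne') l
  rw [gap_mlev, Fin.sum_univ_one] at hm
  refine (hm.congr fun k => ?_)
  rw [pairLev, vmpair_level P π Φ (c k) (φ := fun (_ : Fin 1) σ _ => φ k σ) (B := Bφ) l
    (fun _ st st' => onLev l (vlev π st st') (φ k st.1 * φ k st'.1))
    (fun z ξ st st' => by simp) (fun x y => continuous_const) (fun G x y => ?_)]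
  unfold onLev
  split_ifs
  · rw [Nat.cast_one, one_mul, abs_mul, sq]
    exact mul_le_mul (hB _ _) (hB _ _) (abs_nonneg _) ((abs_nonneg _).trans (hB k x.1))
  · rw [abs_zero]; positivity

end Vale.Agent.P166.Casc
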