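import Vale.Agent.P157.Casc.Coord
import Vale.Agent.P166.Casc.VLevel

/-!
Products of two conditional means along the recursion: polarisation of their squares, and their
factorisation over disjoint sets of coordinates.
-/

open MeasureTheory ProbabilityTheory Filter Topology

namespace Vale.Agent.P157.Casc

/-- Products of the conditional means of `a` and `b` at the levels. -/
noncomputable def cbil {X : Type*} [MeasurableSpace X] (ν : Measure X) :
    (K : ℕ) → (Fin K → ℝ) → ((Fin K → X) → ℝ) → ((Fin K → X) → ℝ) → ((Fin K → X) → ℝ) →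
      Fin (K + 1) → ℝ
  | 0, _, _, a, b, _ => a Fin.elim0 * b Fin.elim0
  | K + 1, m, H, a, b, l =>
      Fin.cases (cmean ν (K + 1) m H a * cmean ν (K + 1) m H b)
        (fun i => (∫ x, Real.exp (m 0 * casc ν K (fun l => m l.succ) (fun y => H (Fin.cons x y)))
            * cbil ν K (fun l => m l.succ) (fun y => H (Fin.cons x y))
                (fun y => a (Fin.cons x y)) (fun y => b (Fin.cons x y)) i ∂ν) /
          ∫ x, Real.exp (m 0 * casc ν K (fun l => m l.succ) (fun y => H (Fin.cons x y))) ∂ν) l

section
variable {X : Type} [MeasurableSpace X] {ν : Measure X} [IsProbabilityMeasure ν]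

theorem measurable_cbil_param : ∀ (K : ℕ) (m : Fin K → ℝ) {α : Type} [MeasurableSpace α]
    {H a b : α → (Fin K → X) → ℝ}, Measurable (Function.uncurry H) →
    Measurable (Function.uncurry a) → Measurable (Function.uncurry b) →
    ∀ l, Measurable fun z => cbil ν K m (H z) (a z) (b z) l
  | 0, _, _, _, _, _, _, _, ha, hb, _ =>
    (ha.comp (measurable_id.prodMk measurable_const)).mul
      (hb.comp (measurable_id.prodMk measurable_const))
  | K + 1, m, α, _, H, a, b, hH, ha, hb, l => by
    have hw := measurable_weight_param (ν := ν) K m hH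
    refine Fin.cases ?_ (fun i => ?_) l
    · exact (measurable_cmean_param (K + 1) m hH ha).mul (measurable_cmean_param (K + 1) m hH hb)
    · have ih := measurable_cbil_param K (fun l => m l.succ) (measurable_cons_param hH)
        (measurable_cons_param ha) (measurable_cons_param hb) i
      exact (StronglyMeasurable.integral_prod_right' (ν := ν)
        (hw.mul ih).stronglyMeasurable).measurable.div
          (StronglyMeasurable.integral_prod_right' (ν := ν) hw.stronglyMeasurable).measurable

theorem cmean_add (K : ℕ) {m : Fin K → ℝ} (hm : Grid m) {H a b : (Fin K → X) → ℝ}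
    (hH : Measurable H) (ha : Measurable a) (hb : Measurable b)
    (hi : Integrable (fun y => Real.exp (H y)) (Measure.pi fun _ => ν)) {B : ℝ}
    (hA : ∀ y, |a y| ≤ B) (hB : ∀ y, |b y| ≤ B) :
    cmean ν K m H (fun y => a y + b y) = cmean ν K m H a + cmean ν K m H b := by
  have h := cmean_sum (ν := ν) (Finset.univ : Finset (Fin 2)) (fun _ => (1 : ℝ)) K hm hH
    (g := ![a, b]) (fun i => by fin_cases i <;> assumption) hi (B := B)
    (fun i y => by fin_cases i <;> [exact hA y; exact hB y])
  simpa [Fin.sum_univ_two] using h

/-- Polarisation of the squared conditional means. -/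
theorem csq_add : ∀ (K : ℕ) {m : Fin K → ℝ}, Grid m → ∀ {H a b : (Fin K → X) → ℝ},
    Measurable H → Measurable a → Measurable b →
    Integrable (fun y => Real.exp (H y)) (Measure.pi fun _ => ν) →
    ∀ {B : ℝ}, (∀ y, |a y| ≤ B) → (∀ y, |b y| ≤ B) → ∀ l,
    csq ν K m H (fun y => a y + b y) l
      = csq ν K m H a l + csq ν K m H b l + 2 * cbil ν K m H a b l
  | 0, _, _, _, _, _, _, _, _, _, _, _, _, _ => by simp only [csq, cbil]; ring
  | K + 1, m, hm, H, a, b, hH, ha, hb, hi, B, hA, hB, l => by
    refine Fin.cases ?_ (fun i => ?_) l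
    · simp only [csq, cbil, Fin.cases_zero, cmean_add (K + 1) hm hH ha hb hi hA hB]
      ring
    · obtain ⟨hw, hpos⟩ := weight_integrable hm hH hi
      set w : X → ℝ := fun c =>
        Real.exp (m 0 * casc ν K (fun l => m l.succ) fun y => H (Fin.cons c y))
      have hint : ∀ g : (Fin (K + 1) → X) → ℝ, Measurable g → ∀ C : ℝ, (∀ y, |g y| ≤ C) →
          Integrable (fun c => w c * csq ν K (fun l => m l.succ) (fun y => H (Fin.cons c y))
            (fun y => g (Fin.cons c y)) i) ν := fun g hg C hC =>
        (tilt_bound hw (fun c => (Real.exp_pos _).le) hpos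
          (measurable_csq_param (α := X) K (fun l => m l.succ) (H := fun c y => H (Fin.cons c y))
            (a := fun c y => g (Fin.cons c y)) (hH.comp Rec.measurable_cons)
            (hg.comp Rec.measurable_cons) i)
          ((Rec.slice hi).1.mono fun c hc => (csq_bound_mono K hm.tail (measurable_consFix hH c)
            (measurable_consFix hg c) hc (B := C) fun _ => hC _).1 i)).1
      have i1 := hint (fun y => a y + b y) (ha.add hb) (B + B) fun y =>
        (abs_add_le _ _).trans (add_le_add (hA y) (hB y))
      have i2 := hint a ha B hA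
      have i3 := hint b hb B hB
      have e : ∀ᵐ c ∂ν, w c * cbil ν K (fun l => m l.succ) (fun y => H (Fin.cons c y))
            (fun y => a (Fin.cons c y)) (fun y => b (Fin.cons c y)) i
          = (w c * csq ν K (fun l => m l.succ) (fun y => H (Fin.cons c y))
              (fun y => a (Fin.cons c y) + b (Fin.cons c y)) i
            - w c * csq ν K (fun l => m l.succ) (fun y => H (Fin.cons c y))
              (fun y => a (Fin.cons c y)) i
            - w c * csq ν K (fun l => m l.succ) (fun y => H (Fin.cons c y))
              (fun y => b (Fin.cons c y)) i) / 2 := by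
        filter_upwards [(Rec.slice hi).1] with c hc
        rw [csq_add K hm.tail (measurable_consFix hH c) (measurable_consFix ha c)
          (measurable_consFix hb c) hc (B := B) (fun _ => hA _) (fun _ => hB _) i]
        ring
      have h12 : Integrable (fun c => w c * csq ν K (fun l => m l.succ)
            (fun y => H (Fin.cons c y)) (fun y => a (Fin.cons c y) + b (Fin.cons c y)) i
          - w c * csq ν K (fun l => m l.succ) (fun y => H (Fin.cons c y))
            (fun y => a (Fin.cons c y)) i) ν := i1.sub i2
      simp only [csq, cbil, Fin.cases_succ]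
      rw [integral_congr_ae e, integral_div, integral_sub h12 i3, integral_sub i1 i2]
      ring

end

/-- A change of variables in the labels. -/
theorem cbil_map {X X' : Type} [MeasurableSpace X] [MeasurableSpace X'] {ν : Measure X}
    {ν' : Measure X'} [IsProbabilityMeasure ν'] {g : X → X'}
    (hg : MeasurePreserving g ν ν') : ∀ (K : ℕ) (m : Fin K → ℝ) {H a b : (Fin K → X') → ℝ},
    Measurable H → Measurable a → Measurable b → ∀ l,
    cbil ν K m (fun y => H (fun l => g (y l))) (fun y => a (fun l => g (y l)))
        (fun y => b (fun l => g (y l))) l = cbil ν' K m H a b l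
  | 0, _, H, a, b, _, _, _, _ => by
    have e : (fun l : Fin 0 => g (Fin.elim0 l)) = Fin.elim0 := Subsingleton.elim _ _
    simp [cbil, e]
  | K + 1, m, H, a, b, hH, ha, hb, l => by
    refine Fin.cases ?_ (fun i => ?_) l
    · simp only [cbil, Fin.cases_zero, (casc_map hg (K + 1) m hH ha).2.1,
        (casc_map hg (K + 1) m hH hb).2.1]
    · have h1 : ∀ (x : X) (y : Fin K → X), (fun l => g (Fin.cons (α := fun _ => X) x y l))
          = (Fin.cons (g x) fun l => g (y l) : Fin (K + 1) → X') :=
        fun x y => funext fun l => Fin.cases rfl (fun i => rfl) l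
      have hc := fun x : X => (casc_map hg K (fun l => m l.succ) (measurable_consFix hH (g x))
        (measurable_consFix ha (g x))).1
      have hrec := fun x : X => cbil_map hg K (fun l => m l.succ) (measurable_consFix hH (g x))
        (measurable_consFix ha (g x)) (measurable_consFix hb (g x)) i
      have hch : ∀ f : X' → ℝ, Measurable f → ∫ x, f (g x) ∂ν = ∫ y, f y ∂ν' := fun f hf => by
        rw [← integral_map hg.measurable.aemeasurable hf.aestronglyMeasurable, hg.map_eq]
      have hh := hH.comp (Rec.measurable_cons (ζ := X') (K := K))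
      have hw : Measurable fun y : X' =>
          Real.exp (m 0 * casc ν' K (fun l => m l.succ) fun z => H (Fin.cons y z)) :=
        ((measurable_casc_param (α := X') K (fun l => m l.succ)
          (H := fun y z => H (Fin.cons y z)) hh).const_mul (m 0)).exp
      have hden := hch _ hw
      simp only [cbil, Fin.cases_succ, h1]
      rw [← hch (fun y => Real.exp (m 0 * casc ν' K (fun l => m l.succ)
          fun z => H (Fin.cons y z)) * cbil ν' K (fun l => m l.succ) (fun z => H (Fin.cons y z))
            (fun z => a (Fin.cons y z)) (fun z => b (Fin.cons y z)) i)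
        (hw.mul (measurable_cbil_param (ν := ν') (α := X') K (fun l => m l.succ)
          (H := fun y z => H (Fin.cons y z)) (a := fun y z => a (Fin.cons y z))
          (b := fun y z => b (Fin.cons y z)) hh (ha.comp Rec.measurable_cons)
          (hb.comp Rec.measurable_cons) i)), ← hden]
      congr 1 <;> simp only [hc, hrec]

/-- Independent components split. -/
theorem cbil_prod_mul {X X' : Type} [MeasurableSpace X] [MeasurableSpace X'] {ν : Measure X}
    [IsProbabilityMeasure ν] {ν' : Measure X'} [IsProbabilityMeasure ν'] : ∀ (K : ℕ)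
    {m : Fin K → ℝ}, Grid m → ∀ {H a b : (Fin K → X) → ℝ} {H' a' b' : (Fin K → X') → ℝ},
    Measurable H → Measurable H' →
    Integrable (fun y => Real.exp (H y)) (Measure.pi fun _ : Fin K => ν) →
    Integrable (fun y => Real.exp (H' y)) (Measure.pi fun _ : Fin K => ν') →
    ∀ l, cbil (ν.prod ν') K m (fun y => H (fun l => (y l).1) + H' (fun l => (y l).2))
        (fun y => a (fun l => (y l).1) * a' (fun l => (y l).2))
        (fun y => b (fun l => (y l).1) * b' (fun l => (y l).2)) l
      = cbil ν K m H a b l * cbil ν' K m H' a' b' l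
  | 0, _, _, H, a, b, H', a', b', _, _, _, _, _ => by
    have e : ∀ (Y : Type) (f : Fin 0 → Y), f = Fin.elim0 := fun Y f => Subsingleton.elim _ _
    simp only [cbil, e X, e X']
    ring
  | K + 1, m, hm, H, a, b, H', a', b', hH, hH', hi, hi', l => by
    refine Fin.cases ?_ (fun i => ?_) l
    · simp only [cbil, Fin.cases_zero,
        (casc_prod_mul (a := a) (a' := a') (K + 1) hm hH hH' hi hi').2.1,
        (casc_prod_mul (a := b) (a' := b') (K + 1) hm hH hH' hi hi').2.1]
      ring
    · have h1 : ∀ (x : X × X') (y : Fin K → X × X'),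
          (fun l => (Fin.cons (α := fun _ => X × X') x y l).1)
            = (Fin.cons x.1 fun l => (y l).1 : Fin (K + 1) → X) :=
        fun x y => funext fun l => Fin.cases rfl (fun i => rfl) l
      have h2 : ∀ (x : X × X') (y : Fin K → X × X'),
          (fun l => (Fin.cons (α := fun _ => X × X') x y l).2)
            = (Fin.cons x.2 fun l => (y l).2 : Fin (K + 1) → X') :=
        fun x y => funext fun l => Fin.cases rfl (fun i => rfl) l
      have hc := Measure.quasiMeasurePreserving_fst (μ := ν) (ν := ν') |>.ae (Rec.slice hi).1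
      have hc' := Measure.quasiMeasurePreserving_snd (μ := ν) (ν := ν') |>.ae (Rec.slice hi').1
      have hrec : ∀ᵐ x ∂ν.prod ν',
          casc (ν.prod ν') K (fun l => m l.succ) (fun y =>
              H (Fin.cons x.1 fun l => (y l).1) + H' (Fin.cons x.2 fun l => (y l).2))
            = casc ν K (fun l => m l.succ) (fun y => H (Fin.cons x.1 y))
              + casc ν' K (fun l => m l.succ) (fun y => H' (Fin.cons x.2 y)) ∧
          cbil (ν.prod ν') K (fun l => m l.succ) (fun y =>
              H (Fin.cons x.1 fun l => (y l).1) + H' (Fin.cons x.2 fun l => (y l).2))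
              (fun y => a (Fin.cons x.1 fun l => (y l).1) * a' (Fin.cons x.2 fun l => (y l).2))
              (fun y => b (Fin.cons x.1 fun l => (y l).1) * b' (Fin.cons x.2 fun l => (y l).2)) i
            = cbil ν K (fun l => m l.succ) (fun y => H (Fin.cons x.1 y))
                (fun y => a (Fin.cons x.1 y)) (fun y => b (Fin.cons x.1 y)) i
              * cbil ν' K (fun l => m l.succ) (fun y => H' (Fin.cons x.2 y))
                (fun y => a' (Fin.cons x.2 y)) (fun y => b' (Fin.cons x.2 y)) i := by
        filter_upwards [hc, hc'] with x hx hx'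
        exact ⟨(casc_prod_mul (a := fun y => a (Fin.cons x.1 y))
            (a' := fun y => a' (Fin.cons x.2 y)) K hm.tail (measurable_consFix hH x.1)
            (measurable_consFix hH' x.2) hx hx').1,
          cbil_prod_mul K hm.tail (a := fun y => a (Fin.cons x.1 y))
            (b := fun y => b (Fin.cons x.1 y)) (a' := fun y => a' (Fin.cons x.2 y))
            (b' := fun y => b' (Fin.cons x.2 y)) (measurable_consFix hH x.1)
            (measurable_consFix hH' x.2) hx hx' i⟩
      simp only [cbil, Fin.cases_succ, h1, h2]
      rw [div_mul_div_comm]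
      congr 1
      · rw [← integral_prod_mul]
        refine integral_congr_ae (hrec.mono fun x hx => ?_)
        simp only [hx.1, hx.2, mul_add, Real.exp_add]
        ring
      · rw [← integral_prod_mul]
        refine integral_congr_ae (hrec.mono fun x hx => ?_)
        simp only [hx.1, mul_add, Real.exp_add]

/-- Functions of disjoint sets of coordinates separate. -/
theorem cbil_sep {I : Type} [Fintype I] {K : ℕ} (p : I → Prop) [DecidablePred p] {m : Fin K → ℝ}
    (hm : Grid m) {H H' a a' b b' : (Fin K → I → ℝ) → ℝ} (hH : Measurable H) (hH' : Measurable H')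
    (ha : Measurable a) (ha' : Measurable a') (hb : Measurable b) (hb' : Measurable b')
    (hd : ∀ y y', (∀ l i, p i → y l i = y' l i) → H y = H y' ∧ a y = a y' ∧ b y = b y')
    (hd' : ∀ y y', (∀ l i, ¬p i → y l i = y' l i) → H' y = H' y' ∧ a' y = a' y' ∧ b' y = b' y')
    (hi : Integrable (fun y => Real.exp (H y)) (Measure.pi fun _ : Fin K => gaus I))
    (hi' : Integrable (fun y => Real.exp (H' y)) (Measure.pi fun _ : Fin K => gaus I)) :
    ∀ l, cbil (gaus I) K m (fun y => H y + H' y) (fun y => a y * a' y) (fun y => b y * b' y) l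
      = cbil (gaus I) K m H a b l * cbil (gaus I) K m H' a' b' l := by
  set e := MeasurableEquiv.piEquivPiSubtypeProd (fun _ : I => ℝ) p
  have he : MeasurePreserving e (gaus I) ((gaus (Subtype p)).prod (gaus {i // ¬p i})) :=
    measurePreserving_piEquivPiSubtypeProd (fun _ : I => gaussianReal 0 1) p
  have h1 := mp_restrict p
  have h2 := mp_restrict (fun i => ¬p i)
  set r1 := fun u : Fin K → Subtype p → ℝ => fun l => extCoord p (u l)
  set r2 := fun u : Fin K → {i // ¬p i} → ℝ => fun l => extCoord (fun i => ¬p i) (u l)
  have e1 : ∀ y : Fin K → I → ℝ, H y = H (r1 fun l i => y l i.1) ∧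
      a y = a (r1 fun l i => y l i.1) ∧ b y = b (r1 fun l i => y l i.1) :=
    fun y => hd _ _ fun l i hi => by simp [r1, extCoord, hi]
  have e2 : ∀ y : Fin K → I → ℝ, H' y = H' (r2 fun l i => y l i.1) ∧
      a' y = a' (r2 fun l i => y l i.1) ∧ b' y = b' (r2 fun l i => y l i.1) :=
    fun y => hd' _ _ fun l i hi => by simp [r2, extCoord, hi]
  have m1 := measurable_extCoord (K := K) p
  have m2 := measurable_extCoord (K := K) fun i => ¬p i
  have i1 : Integrable (fun u => Real.exp (H (r1 u)))
      (Measure.pi fun _ : Fin K => gaus (Subtype p)) :=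
    ((measurePreserving_pi (fun _ : Fin K => gaus I) (fun _ : Fin K => gaus (Subtype p))
      fun _ => h1).integrable_comp ((hH.comp m1).exp.aestronglyMeasurable)).1
      (hi.congr (ae_of_all _ fun y => congrArg Real.exp (e1 y).1))
  have i2 : Integrable (fun u => Real.exp (H' (r2 u)))
      (Measure.pi fun _ : Fin K => gaus {i // ¬p i}) :=
    ((measurePreserving_pi (fun _ : Fin K => gaus I) (fun _ : Fin K => gaus {i // ¬p i})
      fun _ => h2).integrable_comp ((hH'.comp m2).exp.aestronglyMeasurable)).1
      (hi'.congr (ae_of_all _ fun y => congrArg Real.exp (e2 y).1))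
  intro l
  have hs := cbil_prod_mul (ν := gaus (Subtype p)) (ν' := gaus {i // ¬p i}) K hm
    (H := fun u => H (r1 u)) (H' := fun u => H' (r2 u))
    (a := fun u => a (r1 u)) (b := fun u => b (r1 u)) (a' := fun u => a' (r2 u))
    (b' := fun u => b' (r2 u)) (hH.comp m1) (hH'.comp m2) i1 i2 l
  have mf : Measurable fun u : Fin K → (Subtype p → ℝ) × ({i // ¬p i} → ℝ) => fun l => (u l).1 :=
    measurable_pi_lambda _ fun l => measurable_fst.comp (measurable_pi_apply l)
  have ms : Measurable fun u : Fin K → (Subtype p → ℝ) × ({i // ¬p i} → ℝ) => fun l => (u l).2 :=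
    measurable_pi_lambda _ fun l => measurable_snd.comp (measurable_pi_apply l)
  have k := cbil_map he K m
    (H := fun u => H (r1 fun l => (u l).1) + H' (r2 fun l => (u l).2))
    (a := fun u => a (r1 fun l => (u l).1) * a' (r2 fun l => (u l).2))
    (b := fun u => b (r1 fun l => (u l).1) * b' (r2 fun l => (u l).2))
    (((hH.comp m1).comp mf).add ((hH'.comp m2).comp ms))
    (((ha.comp m1).comp mf).mul ((ha'.comp m2).comp ms))
    (((hb.comp m1).comp mf).mul ((hb'.comp m2).comp ms)) l
  have kp := cbil_map h1 K m (H := fun u => H (r1 u)) (a := fun u => a (r1 u))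
    (b := fun u => b (r1 u)) (hH.comp m1) (ha.comp m1) (hb.comp m1) l
  have kq := cbil_map h2 K m (H := fun u => H' (r2 u)) (a := fun u => a' (r2 u))
    (b := fun u => b' (r2 u)) (hH'.comp m2) (ha'.comp m2) (hb'.comp m2) l
  have f : ∀ y : Fin K → I → ℝ, H y = H (r1 fun l i => y l i.1) := fun y => (e1 y).1
  rw [show H = fun y => H (r1 fun l i => y l i.1) from funext f,
    show H' = fun y => H' (r2 fun l i => y l i.1) from funext fun y => (e2 y).1,
    show a = fun y => a (r1 fun l i => y l i.1) from funext fun y => (e1 y).2.1,
    show b = fun y => b (r1 fun l i => y l i.1) from funext fun y => (e1 y).2.2,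
    show a' = fun y => a' (r2 fun l i => y l i.1) from funext fun y => (e2 y).2.1,
    show b' = fun y => b' (r2 fun l i => y l i.1) from funext fun y => (e2 y).2.2,
    kp, kq, ← hs, ← k]
  rfl

end Vale.Agent.P157.Casc
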