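import Vale.Agent.P166.Casc.VSegment

/-!
Averages of nonnegative functions of two states along a segment of variances: the pair is one state
of a doubled system, and the logarithm of the exponential moment obeys a Gronwall inequality.
-/

open MeasureTheory ProbabilityTheory Filter Topology Set

namespace Vale.Agent.P166.Casc

open Vale.Agent.P157.Casc

namespace Dbl

variable {d M : ℕ} {T I : Type*}

/-- The components of the first replica. -/
def fstC (y : Fin (d + d) → ℝ) : Fin d → ℝ := fun k => y (Fin.castAdd d k)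

/-- The components of the second replica. -/
def sndC (y : Fin (d + d) → ℝ) : Fin d → ℝ := fun k => y (Fin.natAdd d k)

theorem fstC_update_fst (y : Fin (d + d) → ℝ) (k : Fin d) (z : ℝ) :
    fstC (Function.update y (Fin.castAdd d k) z) = Function.update (fstC y) k z := by
  funext j
  simp only [fstC, Function.update_apply, Fin.castAdd_inj]

theorem sndC_update_fst (y : Fin (d + d) → ℝ) (k : Fin d) (z : ℝ) :
    sndC (Function.update y (Fin.castAdd d k) z) = sndC y := by
  funext j
  refine Function.update_of_ne (fun h => ?_) _ _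
  have := congrArg Fin.val h
  simp only [Fin.val_natAdd, Fin.val_castAdd] at this
  omega

theorem fstC_update_snd (y : Fin (d + d) → ℝ) (k : Fin d) (z : ℝ) :
    fstC (Function.update y (Fin.natAdd d k) z) = fstC y := by
  funext j
  refine Function.update_of_ne (fun h => ?_) _ _
  have := congrArg Fin.val h
  simp only [Fin.val_natAdd, Fin.val_castAdd] at this
  omega

theorem sndC_update_snd (y : Fin (d + d) → ℝ) (k : Fin d) (z : ℝ) :
    sndC (Function.update y (Fin.natAdd d k) z) = Function.update (sndC y) k z := by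
  funext j
  simp only [sndC, Function.update_apply, Fin.natAdd_inj]

/-- First derivatives of the potential of two replicas. -/
noncomputable def g2 (P : VPot d) (k : Fin (d + d)) (y : Fin (d + d) → ℝ) : ℝ :=
  Fin.addCases (fun i => P.g i (fstC y)) (fun i => P.g i (sndC y)) k

/-- Second derivatives of the potential of two replicas. -/
noncomputable def h2 (P : VPot d) (k l : Fin (d + d)) (y : Fin (d + d) → ℝ) : ℝ :=
  Fin.addCases (fun i => Fin.addCases (fun j => P.h i j (fstC y)) (fun _ => 0) l)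
    (fun i => Fin.addCases (fun _ => 0) (fun j => P.h i j (sndC y)) l) k

/-- Third derivatives of the potential of two replicas. -/
noncomputable def e2 (P : VPot d) (k l j : Fin (d + d)) (y : Fin (d + d) → ℝ) : ℝ :=
  Fin.addCases
    (fun i => Fin.addCases (fun i' => Fin.addCases (fun i'' => P.e i i' i'' (fstC y)) (fun _ => 0) j)
      (fun _ => 0) l)
    (fun i => Fin.addCases (fun _ => 0)
      (fun i' => Fin.addCases (fun _ => 0) (fun i'' => P.e i i' i'' (sndC y)) j) l) k

theorem cont_fstC : Continuous (fstC (d := d)) := by unfold fstC; fun_prop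

theorem cont_sndC : Continuous (sndC (d := d)) := by unfold sndC; fun_prop

theorem cont_h2 (P : VPot d) (k l : Fin (d + d)) : Continuous (h2 P k l) := by
  unfold h2
  refine Fin.addCases (fun i => ?_) (fun i => ?_) k <;>
    refine Fin.addCases (fun i' => ?_) (fun i' => ?_) l <;>
    simp only [Fin.addCases_left, Fin.addCases_right] <;>
    first
      | exact continuous_const
      | exact (P.ch i i').comp' cont_fstC
      | exact (P.ch i i').comp' cont_sndC

theorem cont_e2 (P : VPot d) (k l j : Fin (d + d)) : Continuous (e2 P k l j) := by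
  unfold e2
  refine Fin.addCases (fun i => ?_) (fun i => ?_) k <;>
    refine Fin.addCases (fun i' => ?_) (fun i' => ?_) l <;>
    refine Fin.addCases (fun i'' => ?_) (fun i'' => ?_) j <;>
    simp only [Fin.addCases_left, Fin.addCases_right] <;>
    first
      | exact continuous_const
      | exact (P.ce i i' i'').comp' cont_fstC
      | exact (P.ce i i' i'').comp' cont_sndC

/-- The potential of two replicas. -/
noncomputable def pot2 (P : VPot d) : VPot (d + d) where
  f y := P.f (fstC y) + P.f (sndC y)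
  g := g2 P
  h := h2 P
  e := e2 P
  bF := 2 * P.bF
  b1 := max P.b1 0
  b2 := max P.b2 0
  b3 := max P.b3 0
  d1 k y := by
    refine Fin.addCases (fun i => ?_) (fun i => ?_) k
    · simp only [g2, Fin.addCases_left, fstC_update_fst, sndC_update_fst]
      exact (P.d1 i (fstC y)).add_const _
    · simp only [g2, Fin.addCases_right, fstC_update_snd, sndC_update_snd]
      exact (P.d1 i (sndC y)).const_add _
  d2 k l y := by
    refine Fin.addCases (fun i => ?_) (fun i => ?_) k <;>
      refine Fin.addCases (fun i' => ?_) (fun i' => ?_) l <;>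
      simp only [g2, h2, Fin.addCases_left, Fin.addCases_right, fstC_update_fst, sndC_update_fst,
        fstC_update_snd, sndC_update_snd]
    · exact P.d2 i i' (fstC y)
    · exact hasDerivAt_const _ _
    · exact hasDerivAt_const _ _
    · exact P.d2 i i' (sndC y)
  d3 k l j y := by
    refine Fin.addCases (fun i => ?_) (fun i => ?_) k <;>
      refine Fin.addCases (fun i' => ?_) (fun i' => ?_) l <;>
      refine Fin.addCases (fun i'' => ?_) (fun i'' => ?_) j <;>
      simp only [h2, e2, Fin.addCases_left, Fin.addCases_right, fstC_update_fst, sndC_update_fst,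
        fstC_update_snd, sndC_update_snd] <;>
      first
        | exact hasDerivAt_const _ _
        | exact P.d3 i i' i'' (fstC y)
        | exact P.d3 i i' i'' (sndC y)
  cf := (P.cf.comp' cont_fstC).add (P.cf.comp' cont_sndC)
  cg k := by
    refine Fin.addCases (fun i => ?_) (fun i => ?_) k <;> unfold g2 <;>
      simp only [Fin.addCases_left, Fin.addCases_right]
    · exact (P.cg i).comp' cont_fstC
    · exact (P.cg i).comp' cont_sndC
  ch := cont_h2 P
  ce := cont_e2 P
  hF y := by
    refine (abs_add_le _ _).trans ?_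
    linarith [P.hF (fstC y), P.hF (sndC y)]
  h1 k y := by
    refine Fin.addCases (fun i => ?_) (fun i => ?_) k <;>
      simp only [g2, Fin.addCases_left, Fin.addCases_right] <;>
      exact (P.h1 _ _).trans (le_max_left _ _)
  h2 k l y := by
    refine Fin.addCases (fun i => ?_) (fun i => ?_) k <;>
      refine Fin.addCases (fun i' => ?_) (fun i' => ?_) l <;>
      simp only [h2, Fin.addCases_left, Fin.addCases_right, abs_zero] <;>
      first
        | exact le_max_right _ _
        | exact (P.h2 _ _ _).trans (le_max_left _ _)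
  h3 k l j y := by
    refine Fin.addCases (fun i => ?_) (fun i => ?_) k <;>
      refine Fin.addCases (fun i' => ?_) (fun i' => ?_) l <;>
      refine Fin.addCases (fun i'' => ?_) (fun i'' => ?_) j <;>
      simp only [e2, Fin.addCases_left, Fin.addCases_right, abs_zero] <;>
      first
        | exact le_max_right _ _
        | exact (P.h3 _ _ _ _).trans (le_max_left _ _)

/-- Directions of the rows of two replicas. -/
def dirR (b : Fin M → Fin d → T → I → ℝ) (a : Fin M) (k : Fin (d + d)) (x : T × T) : I → ℝ :=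
  Fin.addCases (fun i => b a i x.1) (fun i => b a i x.2) k

/-- Directions of the linear field of two replicas. -/
def dirZ (bz : T → I → ℝ) (x : T × T) (i : I) : ℝ := bz x.1 i + bz x.2 i

/-- Deterministic terms of two replicas. -/
def dirQ (bz qd : T → I → ℝ) (x : T × T) (i : I) : ℝ := qd x.1 i + qd x.2 i + bz x.1 i * bz x.2 i

/-- Weights of two replicas tilted by `s F`. -/
noncomputable def wgt2 (w : T → ℝ) (s : ℝ) (F : T → T → ℝ) (x : T × T) : ℝ :=
  w x.1 * w x.2 * Real.exp (s * F x.1 x.2)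

theorem vdisj_dbl {b : Fin M → Fin d → T → I → ℝ} {bz : T → I → ℝ} (hD : VDisj b bz) :
    VDisj (dirR b) (dirZ bz) := by
  refine ⟨fun a a' h k l x y i => ?_, fun a k x y i => ?_⟩
  · refine Fin.addCases (fun k => ?_) (fun k => ?_) k <;>
      refine Fin.addCases (fun l => ?_) (fun l => ?_) l <;>
      simp only [dirR, Fin.addCases_left, Fin.addCases_right] <;>
      exact hD.orth a a' h _ _ _ _ i
  · refine Fin.addCases (fun k => ?_) (fun k => ?_) k <;>
      simp only [dirR, dirZ, Fin.addCases_left, Fin.addCases_right, mul_add, hD.orthz, add_zero]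

variable [Fintype T] [Fintype I] (P : VPot d) (b : Fin M → Fin d → T → I → ℝ)
  (bz qd : T → I → ℝ)

theorem vham_dbl (lam G : I → ℝ) (x : T × T) :
    vham (pot2 P) (dirR b) (dirZ bz) (dirQ bz qd) lam G x
      = vham P b bz qd lam G x.1 + vham P b bz qd lam G x.2 := by
  have h1 : ∀ a, fstC (vfld (dirR b) lam G x a) = vfld b lam G x.1 a := fun a => funext fun k => by
    simp only [fstC, vfld, lin, dirR, Fin.addCases_left]
  have h2 : ∀ a, sndC (vfld (dirR b) lam G x a) = vfld b lam G x.2 a := fun a => funext fun k => by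
    simp only [sndC, vfld, lin, dirR, Fin.addCases_right]
  have e1 : lin (dirZ bz) lam G x = lin bz lam G x.1 + lin bz lam G x.2 := by
    simp only [lin, dirZ, ← Finset.sum_add_distrib]
    exact Finset.sum_congr rfl fun i _ => by ring
  have e2 : ∑ i, lam i * dirZ bz x i ^ 2
      = (∑ i, lam i * bz x.1 i ^ 2) + (∑ i, lam i * bz x.2 i ^ 2)
        + 2 * ∑ i, lam i * (bz x.1 i * bz x.2 i) := by
    simp only [dirZ, Finset.mul_sum, ← Finset.sum_add_distrib]
    exact Finset.sum_congr rfl fun i _ => by ring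
  have e3 : ∑ i, lam i * dirQ bz qd x i
      = (∑ i, lam i * qd x.1 i) + (∑ i, lam i * qd x.2 i)
        + ∑ i, lam i * (bz x.1 i * bz x.2 i) := by
    simp only [dirQ, mul_add, Finset.sum_add_distrib]
  simp only [vham, pot2, h1, h2, e1, e2, e3, Finset.sum_add_distrib]
  ring

theorem vbw_dbl (w : T → ℝ) (s : ℝ) (F : T → T → ℝ) (lam G : I → ℝ) (x : T × T) :
    vbw (pot2 P) (wgt2 w s F) (dirR b) (dirZ bz) (dirQ bz qd) lam G x
      = vbw P w b bz qd lam G x.1 * vbw P w b bz qd lam G x.2 * Real.exp (s * F x.1 x.2) := by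
  simp only [vbw, wgt2, vham_dbl, Real.exp_add]
  ring

/-- The logarithm of the exponential moment of `F` under two replicas. -/
noncomputable def lmom (w : T → ℝ) (s : ℝ) (F : T → T → ℝ) (lam G : I → ℝ) : ℝ :=
  Real.log (avg2 (vbw P w b bz qd lam G) fun x y => Real.exp (s * F x y))

variable {w : T → ℝ} [Nonempty T] (hw : ∀ x, 0 < w x)
include hw

theorem lmom_eq (s : ℝ) (F : T → T → ℝ) (lam G : I → ℝ) :
    lmom P b bz qd w s F lam G
      = Real.log (∑ x, vbw (pot2 P) (wgt2 w s F) (dirR b) (dirZ bz) (dirQ bz qd) lam G x)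
        - Real.log (∑ x, vbw (pot2 P) (wgt2 w 0 F) (dirR b) (dirZ bz) (dirQ bz qd) lam G x) := by
  set u := vbw P w b bz qd lam G
  have hu : ∀ x, 0 < u x := fun x => VItp.vbw_pos P b bz qd hw lam G x
  have hS : 0 < ∑ x, u x := Finset.sum_pos (fun x _ => hu x) Finset.univ_nonempty
  have e0 : ∑ x, vbw (pot2 P) (wgt2 w 0 F) (dirR b) (dirZ bz) (dirQ bz qd) lam G x
      = (∑ x, u x) * ∑ x, u x := by
    simp only [vbw_dbl, zero_mul, Real.exp_zero, mul_one, Fintype.sum_prod_type, ← Finset.mul_sum,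
      ← Finset.sum_mul, u]
  have e1 : ∑ x, vbw (pot2 P) (wgt2 w s F) (dirR b) (dirZ bz) (dirQ bz qd) lam G x
      = avg2 u (fun x y => Real.exp (s * F x y)) * ((∑ x, u x) * ∑ x, u x) := by
    simp only [vbw_dbl, Fintype.sum_prod_type, avg2]
    rw [Finset.sum_mul]
    refine Finset.sum_congr rfl fun x _ => ?_
    rw [Finset.sum_mul]
    refine Finset.sum_congr rfl fun y _ => ?_
    simp only [gibbs]
    field_simp
    rfl
  have hp : 0 < avg2 u fun x y => Real.exp (s * F x y) :=
    Finset.sum_pos (fun x _ => Finset.sum_pos (fun y _ => mul_pos (mul_pos (div_pos (hu x) hS)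
      (div_pos (hu y) hS)) (Real.exp_pos _)) Finset.univ_nonempty) Finset.univ_nonempty
  rw [e0, e1, Real.log_mul hp.ne' (mul_pos hS hS).ne', lmom, add_sub_cancel_right]

omit [Fintype I] hw in
/-- Two replicas of two tilted laws against two replicas of the plain ones. -/
theorem abs_avg2_tilt {u : T → ℝ} (hu : ∀ x, 0 < u x) {e : T → ℝ} (he : ∀ x, 1 ≤ e x)
    {O : T → T → ℝ} {C : ℝ} (hC : ∀ x y, |O x y| ≤ C) :
    |avg2 (fun x => u x * e x) O - avg2 u O| ≤ 4 * C * (∑ x, gibbs u x * e x - 1) := by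
  set p := gibbs u
  set q := gibbs fun x => u x * e x
  have hp : ∀ x, 0 ≤ p x := Itp.gibbs_nonneg hu
  have hp1 : ∑ x, p x = 1 := Itp.sum_gibbs hu
  have hue : ∀ x, 0 < u x * e x := fun x => mul_pos (hu x) (zero_lt_one.trans_le (he x))
  have hq : ∀ x, 0 ≤ q x := Itp.gibbs_nonneg hue
  have hq1 : ∑ x, q x = 1 := Itp.sum_gibbs hue
  have hS : 0 < ∑ x, u x := Finset.sum_pos (fun x _ => hu x) Finset.univ_nonempty
  set Z := ∑ x, p x * e x
  have hZ : 1 ≤ Z := hp1.symm.le.trans
    (Finset.sum_le_sum fun x _ => le_mul_of_one_le_right (hp x) (he x))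
  have hqe : ∀ x, q x = p x * e x / Z := fun x => by
    have : Z = (∑ y, u y * e y) / ∑ y, u y := by
      simp only [Z, p, gibbs, Finset.sum_div, div_mul_eq_mul_div]
    have hS' : 0 < ∑ y, u y * e y := Finset.sum_pos (fun x _ => hue x) Finset.univ_nonempty
    rw [this]
    simp only [q, p, gibbs]
    field_simp
  have hdist : ∑ x, |q x - p x| ≤ 2 * (Z - 1) := by
    have hx : ∀ x, |q x - p x| ≤ p x * (e x - 1) + p x * (Z - 1) := fun x => by
      have e1 : q x - p x = (p x * (e x - 1) - p x * (Z - 1)) / Z := by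
        rw [hqe]; field_simp; ring
      rw [e1, abs_div, abs_of_pos (zero_lt_one.trans_le hZ)]
      refine (div_le_self (abs_nonneg _) hZ).trans ((abs_sub _ _).trans (le_of_eq ?_))
      rw [abs_of_nonneg (mul_nonneg (hp x) (sub_nonneg.2 (he x))),
        abs_of_nonneg (mul_nonneg (hp x) (sub_nonneg.2 hZ))]
    refine (Finset.sum_le_sum fun x _ => hx x).trans_eq ?_
    simp only [Finset.sum_add_distrib, mul_sub, mul_one, Finset.sum_sub_distrib, hp1,
      ← Finset.sum_mul, one_mul]
    ring
  have hC0 : 0 ≤ C := (abs_nonneg _).trans (hC (Classical.arbitrary T) (Classical.arbitrary T))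
  calc |avg2 (fun x => u x * e x) O - avg2 u O|
      = |∑ x, ∑ y, ((q x - p x) * q y + p x * (q y - p y)) * O x y| := by
        simp only [avg2, ← Finset.sum_sub_distrib, q, p]
        congr 1
        exact Finset.sum_congr rfl fun x _ => Finset.sum_congr rfl fun y _ => by ring
    _ ≤ ∑ x, ∑ y, (|q x - p x| * q y + p x * |q y - p y|) * C :=
        (Finset.abs_sum_le_sum_abs _ _).trans (Finset.sum_le_sum fun x _ =>
          (Finset.abs_sum_le_sum_abs _ _).trans (Finset.sum_le_sum fun y _ => by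
            rw [abs_mul]
            refine mul_le_mul ((abs_add_le _ _).trans_eq ?_) (hC x y) (abs_nonneg _)
              (add_nonneg (mul_nonneg (abs_nonneg _) (hq y)) (mul_nonneg (hp x) (abs_nonneg _)))
            rw [abs_mul, abs_mul, abs_of_nonneg (hq y), abs_of_nonneg (hp x)]))
    _ = (2 * ∑ x, |q x - p x|) * C := by
        simp only [Finset.sum_add_distrib, add_mul, ← Finset.sum_mul, ← Finset.mul_sum, hq1, hp1]
        ring
    _ ≤ _ := by nlinarith

/-- The moment between the average and a multiple of it. -/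
theorem lmom_bounds {s Mx : ℝ} (hs : 0 ≤ s) {F : T → T → ℝ}
    (h0 : ∀ x y, 0 ≤ F x y) (h1 : ∀ x y, F x y ≤ Mx) (lam G : I → ℝ) :
    s * avg2 (vbw P w b bz qd lam G) F ≤ lmom P b bz qd w s F lam G ∧
    lmom P b bz qd w s F lam G ≤ s * Real.exp (s * Mx) * avg2 (vbw P w b bz qd lam G) F ∧
    avg2 (vbw P w b bz qd lam G) (fun x y => Real.exp (s * F x y)) - 1
      ≤ s * Real.exp (s * Mx) * avg2 (vbw P w b bz qd lam G) F := by
  set u := vbw P w b bz qd lam G
  have hu : ∀ x, 0 < u x := fun x => VItp.vbw_pos P b bz qd hw lam G x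
  have hp : ∀ x, 0 ≤ gibbs u x := Itp.gibbs_nonneg hu
  have hone : ∑ x, ∑ y, gibbs u x * gibbs u y = 1 := by
    rw [← Finset.sum_mul_sum, Itp.sum_gibbs hu, one_mul]
  set A := avg2 u F
  set E := avg2 u fun x y => Real.exp (s * F x y)
  have hup : E - 1 ≤ s * Real.exp (s * Mx) * A := by
    simp only [E, A, avg2, Finset.mul_sum]
    conv_lhs => arg 2; rw [← hone]
    rw [← Finset.sum_sub_distrib]
    refine Finset.sum_le_sum fun x _ => ?_
    rw [← Finset.sum_sub_distrib]
    refine Finset.sum_le_sum fun y _ => ?_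
    have hz : 0 ≤ s * F x y := mul_nonneg hs (h0 x y)
    have hz2 : s * F x y ≤ s * Mx := mul_le_mul_of_nonneg_left (h1 x y) hs
    have h2 : Real.exp (s * F x y) - 1 ≤ s * F x y * Real.exp (s * Mx) := by
      have := Real.one_sub_le_exp_neg (s * F x y)
      have h3 := mul_le_mul_of_nonneg_right this (Real.exp_pos (s * F x y)).le
      rw [← Real.exp_add, neg_add_cancel, Real.exp_zero] at h3
      nlinarith [mul_le_mul_of_nonneg_left (Real.exp_le_exp.2 hz2) hz]
    have hxy : 0 ≤ gibbs u x * gibbs u y := mul_nonneg (hp x) (hp y)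
    nlinarith [mul_le_mul_of_nonneg_left h2 hxy]
  have hlow : Real.exp (s * A) ≤ E := by
    have h := convexOn_exp.map_sum_le (t := (Finset.univ : Finset (T × T)))
      (w := fun z => gibbs u z.1 * gibbs u z.2) (p := fun z => s * F z.1 z.2)
      (fun z _ => mul_nonneg (hp _) (hp _)) (by rw [Fintype.sum_prod_type]; exact hone)
      (fun z _ => Set.mem_univ _)
    simp only [smul_eq_mul, Fintype.sum_prod_type] at h
    refine le_trans (le_of_eq ?_) h
    simp only [A, avg2, Finset.mul_sum]
    congr 1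
    exact Finset.sum_congr rfl fun x _ => Finset.sum_congr rfl fun y _ => by ring
  have hE : 0 < E := (Real.exp_pos _).trans_le hlow
  refine ⟨?_, ?_, hup⟩
  · exact (Real.le_log_iff_exp_le hE).2 hlow
  · exact (Real.log_le_sub_one_of_pos hE).trans hup

omit [Nonempty T] hw in
theorem abs_bcov_dbl {δ : I → ℝ} {A : Fin M → ℝ}
    (hA : ∀ a k l x y, |bcov b δ a k l x y| ≤ A a) (a : Fin M) (k l : Fin (d + d)) (x y : T × T) :
    |bcov (dirR b) δ a k l x y| ≤ A a := by
  refine Fin.addCases (fun k => ?_) (fun k => ?_) k <;>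
    refine Fin.addCases (fun l => ?_) (fun l => ?_) l <;>
    simp only [bcov, dirR, Fin.addCases_left, Fin.addCases_right] <;>
    exact hA a _ _ _ _

/-- Bound on the integrand of the derivative of the doubled system. -/
noncomputable def kb (A : Fin M → ℝ) (Z Q : ℝ) : ℝ :=
  4 * (d : ℝ) ^ 2 * (∑ a, A a) * (2 * max P.b1 0 ^ 2 + max P.b2 0) + 6 * Z + 4 * Q

omit [Nonempty T] hw in
theorem abs_vkern_dbl {δ : I → ℝ} {A : Fin M → ℝ} {Z Q : ℝ}
    (hA : ∀ a k l x y, |bcov b δ a k l x y| ≤ A a)
    (hZ : ∀ x y, |∑ i, δ i * (bz x i * bz y i)| ≤ Z) (hQ : ∀ x, |∑ i, δ i * qd x i| ≤ Q)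
    (lam G : I → ℝ) (x y : T × T) :
    |vkern (pot2 P) (dirR b) (dirZ bz) (dirQ bz qd) lam δ G x y| ≤ kb P A Z Q := by
  set b1 := max P.b1 0
  set b2 := max P.b2 0
  have hb1 : 0 ≤ b1 := le_max_right _ _
  have hb2 : 0 ≤ b2 := le_max_right _ _
  have hg : ∀ (a : Fin M) (k : Fin (d + d)) (z : T × T),
      |(pot2 P).g k (vfld (dirR b) lam G z a)| ≤ b1 := fun a k z => (pot2 P).h1 k _
  have hh : ∀ (a : Fin M) (k l : Fin (d + d)) (z : T × T),
      |(pot2 P).h k l (vfld (dirR b) lam G z a)| ≤ b2 := fun a k l z => (pot2 P).h2 k l _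
  have hsum : ∀ {O : Fin M → Fin (d + d) → Fin (d + d) → ℝ} {c : ℝ},
      (∀ a k l, |O a k l| ≤ A a * c) →
      |∑ a, ∑ k, ∑ l, O a k l| ≤ 4 * (d : ℝ) ^ 2 * (∑ a, A a) * c := by
    intro O c hO
    refine ((Finset.abs_sum_le_sum_abs _ _).trans (Finset.sum_le_sum fun a _ =>
      (Finset.abs_sum_le_sum_abs _ _).trans (Finset.sum_le_sum fun k _ =>
        (Finset.abs_sum_le_sum_abs _ _).trans (Finset.sum_le_sum fun l _ => hO a k l)))).trans_eq ?_
    simp only [Finset.sum_const, Finset.card_univ, Fintype.card_fin, nsmul_eq_mul,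
      ← Finset.mul_sum, ← Finset.sum_mul]
    push_cast
    ring
  have hzz : |∑ i, δ i * (dirZ bz x i * dirZ bz y i)| ≤ 4 * Z := by
    have e : ∑ i, δ i * (dirZ bz x i * dirZ bz y i)
        = (∑ i, δ i * (bz x.1 i * bz y.1 i)) + (∑ i, δ i * (bz x.1 i * bz y.2 i))
          + ((∑ i, δ i * (bz x.2 i * bz y.1 i)) + ∑ i, δ i * (bz x.2 i * bz y.2 i)) := by
      simp only [dirZ, ← Finset.sum_add_distrib]
      exact Finset.sum_congr rfl fun i _ => by ring
    rw [e]
    refine (abs_add_le _ _).trans ((add_le_add (abs_add_le _ _) (abs_add_le _ _)).trans ?_)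
    linarith [hZ x.1 y.1, hZ x.1 y.2, hZ x.2 y.1, hZ x.2 y.2]
  have hqq : |∑ i, δ i * dirQ bz qd x i| ≤ 2 * Q + Z := by
    have e : ∑ i, δ i * dirQ bz qd x i
        = (∑ i, δ i * qd x.1 i) + (∑ i, δ i * qd x.2 i) + ∑ i, δ i * (bz x.1 i * bz x.2 i) := by
      simp only [dirQ, mul_add, Finset.sum_add_distrib]
    rw [e]
    refine (abs_add_le _ _).trans ((add_le_add (abs_add_le _ _) le_rfl).trans ?_)
    linarith [hQ x.1, hQ x.2, hZ x.1 x.2]
  have h1 : |vgrad (pot2 P) (dirR b) (dirZ bz) lam δ G x y|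
      ≤ 4 * (d : ℝ) ^ 2 * (∑ a, A a) * b1 ^ 2 + 4 * Z := by
    refine (abs_add_le _ _).trans (add_le_add (hsum fun a k l => ?_) hzz)
    rw [abs_mul, abs_mul, pow_two]
    have hA0 : 0 ≤ A a := (abs_nonneg _).trans (abs_bcov_dbl b hA a k l x y)
    exact mul_le_mul (abs_bcov_dbl b hA a k l x y)
      (mul_le_mul (hg a k x) (hg a l y) (abs_nonneg _) hb1) (by positivity) hA0
  have h2 : |vdiag (pot2 P) (dirR b) lam δ G x|
      ≤ 4 * (d : ℝ) ^ 2 * (∑ a, A a) * (b2 + b1 ^ 2) := by
    refine hsum fun a k l => ?_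
    rw [abs_mul]
    have hA0 : 0 ≤ A a := (abs_nonneg _).trans (abs_bcov_dbl b hA a k l x x)
    refine mul_le_mul (abs_bcov_dbl b hA a k l x x) ((abs_add_le _ _).trans ?_) (abs_nonneg _) hA0
    rw [abs_mul, pow_two]
    exact add_le_add (hh a k l x) (mul_le_mul (hg a k x) (hg a l x) (abs_nonneg _) hb1)
  rw [vkern, kb]
  refine (abs_sub _ _).trans ((add_le_add ((abs_sub _ _).trans (add_le_add h1 h2)) le_rfl).trans ?_)
  rw [abs_mul, abs_two]
  linarith

end Dbl

open Dbl in
/-- Along a segment of variances the average of a nonnegative function of two states grows at most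
exponentially in the size of the increment of the covariances. -/
theorem vpair_transfer {d M : ℕ} {T I : Type*} [Fintype T] [Fintype I] [Nonempty T] (P : VPot d)
    (b : Fin M → Fin d → T → I → ℝ) (bz qd : T → I → ℝ) (hD : VDisj b bz) {w : T → ℝ}
    (hw : ∀ x, 0 < w x) {l0 δ : I → ℝ} (hpos : ∀ t ∈ Icc (0 : ℝ) 1, ∀ i, 0 ≤ l0 i + t * δ i)
    {A : Fin M → ℝ} {Z Q : ℝ} (hA : ∀ a k l x y, |bcov b δ a k l x y| ≤ A a)
    (hZ : ∀ x y, |∑ i, δ i * (bz x i * bz y i)| ≤ Z) (hQ : ∀ x, |∑ i, δ i * qd x i| ≤ Q)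
    {F : T → T → ℝ} {Mx : ℝ} (h0 : ∀ x y, 0 ≤ F x y) (h1 : ∀ x y, F x y ≤ Mx)
    {t : ℝ} (ht : t ∈ Icc (0 : ℝ) 1) :
    vpair P w b bz qd (fun i => l0 i + t * δ i) (fun _ => F)
      ≤ 3 * Real.exp (6 * kb P A Z Q) * vpair P w b bz qd l0 fun _ => F := by
  have hw2 : ∀ (s : ℝ) (x : T × T), 0 < wgt2 w s F x := fun s x =>
    mul_pos (mul_pos (hw _) (hw _)) (Real.exp_pos _)
  have hMx : 0 ≤ Mx := (h0 (Classical.arbitrary T) (Classical.arbitrary T)).trans (h1 _ _)
  set s : ℝ := 1 / (Mx + 1) with hs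
  have hs0 : 0 < s := by positivity
  have hsM : Real.exp (s * Mx) ≤ 3 := by
    refine le_trans (Real.exp_le_exp.2 ?_) (le_of_lt Real.exp_one_lt_d9) |>.trans (by norm_num)
    rw [hs, div_mul_eq_mul_div, div_le_one (by positivity)]
    linarith
  set D := kb P A Z Q
  have hD0 : 0 ≤ D := (abs_nonneg _).trans
    (abs_vkern_dbl P b bz qd hA hZ hQ l0 (fun _ => 0) (Classical.arbitrary _) (Classical.arbitrary _))
  set ev : ℝ → ℝ := fun t => vpair P w b bz qd (fun i => l0 i + t * δ i) fun _ => F with hev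
  set vf : ℝ → ℝ → ℝ := fun s t => vfree (pot2 P) (wgt2 w s F) (dirR b) (dirZ bz) (dirQ bz qd)
    fun i => l0 i + t * δ i with hvf
  set u : ℝ → ℝ := fun t => vf s t - vf 0 t with hu
  have hli : ∀ t, vf s t - vf 0 t
      = ∫ G, lmom P b bz qd w s F (fun i => l0 i + t * δ i) G ∂gaus I := fun t => by
    simp only [hvf, vfree]
    rw [← integral_sub (VItp.integrable_vlog _ _ _ _ (hw2 s) _)
      (VItp.integrable_vlog _ _ _ _ (hw2 0) _)]
    exact integral_congr_ae (ae_of_all _ fun G => (lmom_eq P b bz qd hw s F _ G).symm)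
  have hFi : ∀ t, Integrable (fun G => avg2 (vbw P w b bz qd (fun i => l0 i + t * δ i) G) F)
      (gaus I) := fun t => by
    have hc : Continuous fun G => avg2 (vbw P w b bz qd (fun i => l0 i + t * δ i) G) F := by
      have := fun x => VItp.cont_vgibbs P b bz qd hw (fun i => l0 i + t * δ i) x
      unfold avg2; fun_prop
    refine Itp.integrable_bdd hc (C := Mx) fun G => ?_
    exact Itp.abs_avg2_le (VItp.vbw_pos P b bz qd hw _ G)
      fun x y => (abs_of_nonneg (h0 x y)).trans_le (h1 x y)
  have hlint : ∀ t, Integrable (lmom P b bz qd w s F fun i => l0 i + t * δ i) (gaus I) := fun t =>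
    ((VItp.integrable_vlog (pot2 P) (dirR b) (dirZ bz) (dirQ bz qd) (hw2 s) _).sub
      (VItp.integrable_vlog (pot2 P) (dirR b) (dirZ bz) (dirQ bz qd) (hw2 0) _)).congr
      (ae_of_all _ fun G => (lmom_eq P b bz qd hw s F _ G).symm)
  have hlow : ∀ t, s * ev t ≤ u t := fun t => by
    simp only [hu, hev]
    rw [hli]
    simp only [vpair, ← integral_const_mul]
    exact integral_mono ((hFi t).const_mul s) (hlint t)
      fun G => (lmom_bounds P b bz qd hw hs0.le h0 h1 _ G).1
  have hhigh : ∀ t, u t ≤ s * 3 * ev t := fun t => by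
    simp only [hu, hev]
    rw [hli]
    simp only [vpair, ← integral_const_mul]
    refine integral_mono (hlint t) ((hFi t).const_mul _) fun G => ?_
    refine (lmom_bounds P b bz qd hw hs0.le h0 h1 _ G).2.1.trans ?_
    have : 0 ≤ avg2 (vbw P w b bz qd (fun i => l0 i + t * δ i) G) F :=
      Finset.sum_nonneg fun x _ => Finset.sum_nonneg fun y _ => mul_nonneg
        (mul_nonneg (Itp.gibbs_nonneg (VItp.vbw_pos P b bz qd hw _ G) x)
          (Itp.gibbs_nonneg (VItp.vbw_pos P b bz qd hw _ G) y)) (h0 x y)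
    have := mul_le_mul_of_nonneg_left hsM hs0.le
    nlinarith
  have hcont : Continuous u := by
    have hl : Continuous fun t : ℝ => (fun i => l0 i + t * δ i) := by fun_prop
    exact ((continuous_vfree _ _ _ _ (hw2 s)).comp' hl).sub
      ((continuous_vfree _ _ _ _ (hw2 0)).comp' hl)
  have hder : ∀ r ∈ Ioo (0 : ℝ) 1, ∃ u', HasDerivAt u u' r ∧ u' ≤ 6 * D * u r := fun r hr => by
    set lr := fun i => l0 i + r * δ i
    have h := fun s' => hasDerivAt_vfree (pot2 P) (dirR b) (dirZ bz) (dirQ bz qd) (vdisj_dbl hD)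
      (hw2 s') hpos hr
    refine ⟨_, (h s).sub (h 0), ?_⟩
    set Kf := vkern (pot2 P) (dirR b) (dirZ bz) (dirQ bz qd) lr δ
    have hdiff : ∀ G, -(avg2 (vbw (pot2 P) (wgt2 w s F) (dirR b) (dirZ bz) (dirQ bz qd) lr G) (Kf G)
        - avg2 (vbw (pot2 P) (wgt2 w 0 F) (dirR b) (dirZ bz) (dirQ bz qd) lr G) (Kf G))
        ≤ 12 * D * s * avg2 (vbw P w b bz qd lr G) F := fun G => by
      set u0 := vbw (pot2 P) (wgt2 w 0 F) (dirR b) (dirZ bz) (dirQ bz qd) lr G
      have hu0 : ∀ x, 0 < u0 x := VItp.vbw_pos _ _ _ _ (hw2 0) lr G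
      have es : vbw (pot2 P) (wgt2 w s F) (dirR b) (dirZ bz) (dirQ bz qd) lr G
          = fun x => u0 x * Real.exp (s * F x.1 x.2) := funext fun x => by
        simp only [u0, vbw_dbl, zero_mul, Real.exp_zero, mul_one]
      have hz : ∑ x, gibbs u0 x * Real.exp (s * F x.1 x.2)
          = avg2 (vbw P w b bz qd lr G) fun x y => Real.exp (s * F x y) := by
        simp only [u0, gibbs, vbw_dbl, zero_mul, Real.exp_zero, mul_one, avg2,
          Fintype.sum_prod_type, ← Finset.sum_mul_sum]
        exact Finset.sum_congr rfl fun x _ => Finset.sum_congr rfl fun y _ => by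
          rw [div_mul_div_comm]
      have hk := abs_avg2_tilt (u := u0) hu0
        (e := fun x : T × T => Real.exp (s * F x.1 x.2))
        (fun x => Real.one_le_exp (mul_nonneg hs0.le (h0 _ _))) (O := Kf G)
        (fun x y => abs_vkern_dbl P b bz qd hA hZ hQ lr G x y)
      rw [hz] at hk
      rw [es]
      refine (neg_le_abs _).trans (hk.trans ?_)
      have h3 := (lmom_bounds P b bz qd hw hs0.le h0 h1 lr G).2.2
      have hA0 : 0 ≤ avg2 (vbw P w b bz qd lr G) F :=
        Finset.sum_nonneg fun x _ => Finset.sum_nonneg fun y _ => mul_nonneg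
          (mul_nonneg (Itp.gibbs_nonneg (VItp.vbw_pos P b bz qd hw _ G) x)
            (Itp.gibbs_nonneg (VItp.vbw_pos P b bz qd hw _ G) y)) (h0 x y)
      nlinarith [mul_le_mul_of_nonneg_left hsM (mul_nonneg hs0.le hA0)]
    have hint : ∀ s', Integrable (fun G =>
        avg2 (vbw (pot2 P) (wgt2 w s' F) (dirR b) (dirZ bz) (dirQ bz qd) lr G) (Kf G)) (gaus I) :=
      fun s' => by
      have hc : ∀ x y, Continuous fun G => Kf G x y := fun x y => by
        have := fun z a k => ((pot2 P).cg k).comp' (VItp.cont_vfld (dirR b) lr z a)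
        have := fun z a k l => ((pot2 P).ch k l).comp' (VItp.cont_vfld (dirR b) lr z a)
        simp only [Kf]; unfold vkern vgrad vdiag; fun_prop
      have hc2 : Continuous fun G =>
          avg2 (vbw (pot2 P) (wgt2 w s' F) (dirR b) (dirZ bz) (dirQ bz qd) lr G) (Kf G) := by
        have := fun x => VItp.cont_vgibbs (pot2 P) (dirR b) (dirZ bz) (dirQ bz qd) (hw2 s') lr x
        unfold avg2; fun_prop
      exact Itp.integrable_bdd hc2 fun G => Itp.abs_avg2_le
        (VItp.vbw_pos _ _ _ _ (hw2 s') lr G) fun x y => abs_vkern_dbl P b bz qd hA hZ hQ lr G x y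
    have hI : -(vpair (pot2 P) (wgt2 w s F) (dirR b) (dirZ bz) (dirQ bz qd) lr Kf
        - vpair (pot2 P) (wgt2 w 0 F) (dirR b) (dirZ bz) (dirQ bz qd) lr Kf)
        ≤ 12 * D * (s * ev r) := by
      simp only [hev, vpair, ← mul_assoc, ← integral_const_mul]
      rw [← integral_sub (hint s) (hint 0), ← integral_neg]
      exact integral_mono ((hint s).sub (hint 0)).neg ((hFi r).const_mul _) hdiff
    have := mul_le_mul_of_nonneg_left (hlow r) (by positivity : (0 : ℝ) ≤ 6 * D)
    linarith
  choose! u' hu' hle using hder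
  have hanti : AntitoneOn (fun r => Real.exp (-(6 * D * r)) * u r) (Icc 0 1) := by
    refine antitoneOn_of_hasDerivWithinAt_nonpos (convex_Icc 0 1)
      (f' := fun r => Real.exp (-(6 * D * r)) * (u' r - 6 * D * u r))
      ((by fun_prop : Continuous fun r : ℝ => Real.exp (-(6 * D * r)) * u r).continuousOn) ?_ ?_
    · intro r hr
      rw [interior_Icc] at hr
      have he : HasDerivAt (fun r => Real.exp (-(6 * D * r)))
          (Real.exp (-(6 * D * r)) * -(6 * D)) r := by
        simpa using ((hasDerivAt_id r).const_mul (6 * D)).neg.exp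
      exact ((he.mul (hu' r hr)).congr_deriv (by ring)).hasDerivWithinAt
    · intro r hr
      rw [interior_Icc] at hr
      exact mul_nonpos_of_nonneg_of_nonpos (Real.exp_pos _).le (sub_nonpos.2 (hle r hr))
  have hgr := hanti (left_mem_Icc.2 zero_le_one) ht ht.1
  simp only [mul_zero, neg_zero, Real.exp_zero, one_mul] at hgr
  have h4 : u t ≤ Real.exp (6 * D * t) * u 0 := by
    have := mul_le_mul_of_nonneg_left hgr (Real.exp_pos (6 * D * t)).le
    rwa [← mul_assoc, ← Real.exp_add, add_neg_cancel, Real.exp_zero, one_mul] at this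
  have hev0 : 0 ≤ ev 0 := integral_nonneg fun G =>
    Finset.sum_nonneg fun x _ => Finset.sum_nonneg fun y _ => mul_nonneg
      (mul_nonneg (Itp.gibbs_nonneg (VItp.vbw_pos P b bz qd hw _ G) x)
        (Itp.gibbs_nonneg (VItp.vbw_pos P b bz qd hw _ G) y)) (h0 x y)
  have h5 : s * ev t ≤ s * (3 * Real.exp (6 * D) * ev 0) := by
    refine (hlow t).trans (h4.trans ((mul_le_mul_of_nonneg_left (hhigh 0) (Real.exp_pos _).le).trans ?_))
    have : Real.exp (6 * D * t) ≤ Real.exp (6 * D) :=
      Real.exp_le_exp.2 (mul_le_of_le_one_right (by positivity) ht.2)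
    nlinarith [mul_le_mul_of_nonneg_right this (mul_nonneg hs0.le hev0)]
  have h6 := le_of_mul_le_mul_left h5 hs0
  simpa [hev] using h6

/-- The same along a segment of the model. -/
theorem vmpair_transfer {N M d R D K n : ℕ} (P : VPot d) (π : VPrior N d R D) (Φ : VFac N d K)
    (hn : 0 < n) {c e : VCIdx N M d R D K → ℝ}
    (hpos : ∀ t ∈ Icc (0 : ℝ) 1, ∀ i, 0 ≤ c i + t * e i) {A : Fin M → ℝ} {Z Q : ℝ}
    (hA : ∀ a k l (x y : VState π K n), |bcov (vbpat π Φ) (vpull e) a k l x y| ≤ A a)
    (hZ : ∀ x y : VState π K n,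
      |∑ i, vpull e i * (vbspin π Φ x i * vbspin π Φ y i)| ≤ Z)
    (hQ : ∀ x : VState π K n, |∑ i, vpull e i * vqd (M := M) π Φ x i| ≤ Q)
    {F : VState π K n → VState π K n → ℝ} {Mx : ℝ} (h0 : ∀ x y, 0 ≤ F x y)
    (h1 : ∀ x y, F x y ≤ Mx) {t : ℝ} (ht : t ∈ Icc (0 : ℝ) 1) :
    vmpair n P π Φ (fun i => c i + t * e i) (fun _ => F)
      ≤ 3 * Real.exp (6 * Dbl.kb P A Z Q) * vmpair n P π Φ c fun _ => F := by
  have := vstate_nonempty (K := K) π hn
  have hb : ∀ (G : VGIdx N M d R D K n → ℝ) x y, |F x y| ≤ Mx := fun G x y =>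
    (abs_of_nonneg (h0 x y)).trans_le (h1 x y)
  have hpw : ∀ W, vpair P (vpwt π W) (vbpat π Φ) (vbspin π Φ) (vqd π Φ)
        (vpull fun i => c i + t * e i) (fun _ => F)
      ≤ 3 * Real.exp (6 * Dbl.kb P A Z Q)
        * vpair P (vpwt π W) (vbpat π Φ) (vbspin π Φ) (vqd π Φ) (vpull c) fun _ => F := by
    intro W
    rw [show vpull (fun i => c i + t * e i) = fun i => vpull (n := n) c i + t * vpull e i from
      funext (vpull_add c e t)]
    refine vpair_transfer P _ _ _ (vdisj π Φ) (vpwt_pos π W) (fun s hs i => ?_) hA hZ hQ h0 h1 ht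
    rw [← vpull_add]
    rcases i with q | ⟨o, i⟩ <;> exact hpos s hs _
  have hint : ∀ c' : VCIdx N M d R D K → ℝ, Integrable (fun W => vpair P (vpwt π W) (vbpat π Φ)
      (vbspin π Φ) (vqd π Φ) (vpull c') fun _ => F) (casW (mlev K) n) := fun c' => by
    have hm : Measurable fun p : (Node K n → ℝ) × (VGIdx N M d R D K n → ℝ) =>
        avg2 (vbw P (vpwt π p.1) (vbpat π Φ) (vbspin π Φ) (vqd π Φ) (vpull c') p.2) F := by
      have := fun st => measurable_vmbw_env P π Φ (W := fun p : (Node K n → ℝ) ×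
        (VGIdx N M d R D K n → ℝ) => p.1) measurable_fst (c := fun _ => c')
        (fun _ => measurable_const) (G := fun p => p.2)
        (fun i => (measurable_pi_apply i).comp measurable_snd) st
      unfold avg2 gibbs; fun_prop
    refine integrable_of_bdd hm.stronglyMeasurable.integral_prod_right'.aestronglyMeasurable
      (C := Mx) fun W => ?_
    rw [← Real.norm_eq_abs]
    refine (norm_integral_le_of_norm_le_const (ae_of_all _ fun G => (Real.norm_eq_abs _).trans_le
      (Itp.abs_avg2_le (VItp.vbw_pos P (vbpat π Φ) (vbspin π Φ) (vqd π Φ) (vpwt_pos π W) _ G)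
        (hb G)))).trans_eq ?_
    simp
  rw [vmpair_eq P π Φ hn _ (O := fun _ => F) (fun _ _ => continuous_const) hb,
    vmpair_eq P π Φ hn _ (O := fun _ => F) (fun _ _ => continuous_const) hb, ← integral_const_mul]
  exact integral_mono (hint _) ((hint c).const_mul _) hpw

end Vale.Agent.P166.Casc
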