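import Vale.Agent.P166.Casc.Prior
import Vale.Agent.P166.Casc.VTransfer

/-!
The spins of a larger system as old coordinates and a block of new ones: the product prior, the
variances of the cavity segments, their covariances, and the base point, where pair averages of the
old part are those of the old system.
-/

open MeasureTheory ProbabilityTheory Filter Topology Set

namespace Vale.Agent.P166.Casc

open Vale.Agent.P157.Casc

/-- A finite prior on the spins of a block of new coordinates. -/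
structure Block (m d : ℕ) where
  c : ℕ
  c_pos : 0 < c
  w : Fin c → ℝ
  cfg : Fin c → Fin m → Fin d → ℝ
  w_pos : ∀ τ, 0 < w τ

variable {N N' m M mr d R D K n : ℕ}

/-- Old coordinates and a block glued along `e`; the kernels are those of the old part. -/
noncomputable def prodPrior (π : VPrior N d R D) (β : Block m d) (e : Fin N ⊕ Fin m ≃ Fin N') :
    VPrior N' d R D where
  c := π.c * β.c
  c_pos := Nat.mul_pos π.c_pos β.c_pos
  w := fun σ => π.w (finProdFinEquiv.symm σ).1 * β.w (finProdFinEquiv.symm σ).2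
  cfg := fun s j => Sum.elim (π.cfg (finProdFinEquiv.symm s).1) (β.cfg (finProdFinEquiv.symm s).2)
    (e.symm j)
  ker := fun κ s => π.ker κ (finProdFinEquiv.symm s).1
  w_pos := fun _ => mul_pos (π.w_pos _) (β.w_pos _)
  ker_unit := fun κ _ => π.ker_unit κ _

/-- The old part of a configuration. -/
noncomputable def oldCfg (π : VPrior N d R D) (β : Block m d) (e : Fin N ⊕ Fin m ≃ Fin N')
    (s : Fin (prodPrior π β e).c) : Fin π.c :=
  (finProdFinEquiv.symm s).1

/-- The block part of a configuration. -/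
noncomputable def newCfg (π : VPrior N d R D) (β : Block m d) (e : Fin N ⊕ Fin m ≃ Fin N')
    (s : Fin (prodPrior π β e).c) : Fin β.c :=
  (finProdFinEquiv.symm s).2

/-- The old part of a state. -/
noncomputable def oldSt (π : VPrior N d R D) (β : Block m d) (e : Fin N ⊕ Fin m ≃ Fin N')
    (st : VState (prodPrior π β e) K n) : VState π K n :=
  (oldCfg π β e st.1, st.2)

/-- Overlaps of the old coordinates, divided by their number. -/
noncomputable def oldOv (π : VPrior N d R D) (k l : Fin d) (σ σ' : Fin π.c) : ℝ :=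
  (∑ j, π.cfg σ j k * π.cfg σ' j l) / N

/-- Overlaps of the block, divided by its size. -/
noncomputable def newOv (β : Block m d) (k l : Fin d) (τ τ' : Fin β.c) : ℝ :=
  (∑ j, β.cfg τ j k * β.cfg τ' j l) / m

theorem prodPrior_cfg_inl (π : VPrior N d R D) (β : Block m d) (e : Fin N ⊕ Fin m ≃ Fin N')
    (s : Fin (prodPrior π β e).c) (i : Fin N) :
    (prodPrior π β e).cfg s (e (Sum.inl i)) = π.cfg (oldCfg π β e s) i := by
  simp [prodPrior, oldCfg]

theorem prodPrior_cfg_inr (π : VPrior N d R D) (β : Block m d) (e : Fin N ⊕ Fin m ≃ Fin N')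
    (s : Fin (prodPrior π β e).c) (i : Fin m) :
    (prodPrior π β e).cfg s (e (Sum.inr i)) = β.cfg (newCfg π β e s) i := by
  simp [prodPrior, newCfg]

theorem sum_glue (e : Fin N ⊕ Fin m ≃ Fin N') (F : Fin N' → ℝ) :
    ∑ j, F j = (∑ i, F (e (Sum.inl i))) + ∑ i, F (e (Sum.inr i)) := by
  rw [← e.sum_comp, Fintype.sum_sum_type]

/-- Variances with strengths `s` of the matrix, `ρ` of the slot of the rows and `ν` of the slot of
the spins. -/
def segc (s : Fin M → Fin N → ℝ) (ρ : Fin M → ℝ) (ν : Fin N → ℝ) : VCIdx N M d R D K → ℝ :=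
  vfldc s (fun _ => 0) (fun z a => if z = 0 then ρ a else 0) fun z j => if z = 0 then ν j else 0

/-- Covariance of the slot of the rows at a common level. -/
def rowCum (Φ : VFac N d K) (u : Fin (K + 1)) (k l : Fin d) : ℝ :=
  ∑ i ∈ Finset.Iic u, ∑ r, Φ.1 0 i k r * Φ.1 0 i l r

/-- Covariance of the slot of a spin at a common level. -/
def spinCum (Φ : VFac N d K) (j : Fin N) (u : Fin (K + 1)) (k l : Fin d) : ℝ :=
  ∑ i ∈ Finset.Iic u, ∑ r, Φ.2.1 0 j i k r * Φ.2.1 0 j i l r

theorem segc_add (s s' : Fin M → Fin N → ℝ) (ρ ρ' : Fin M → ℝ) (ν ν' : Fin N → ℝ) (t : ℝ) :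
    (fun i => segc (d := d) (R := R) (D := D) (K := K) s ρ ν i + t * segc s' ρ' ν' i)
      = segc (fun a j => s a j + t * s' a j) (fun a => ρ a + t * ρ' a) fun j => ν j + t * ν' j := by
  funext i
  rcases i with (⟨a, j⟩ | j) | ⟨l, ⟨z, a, r⟩ | ⟨z, j, r⟩ | u⟩ <;>
    simp only [segc, vfldc, mul_zero, add_zero] <;> split_ifs <;> simp

theorem segc_nonneg {s : Fin M → Fin N → ℝ} {ρ : Fin M → ℝ} {ν : Fin N → ℝ}
    (hs : ∀ a j, 0 ≤ s a j) (hρ : ∀ a, 0 ≤ ρ a) (hν : ∀ j, 0 ≤ ν j)
    (i : VCIdx N M d R D K) : 0 ≤ segc (d := d) (R := R) (D := D) (K := K) s ρ ν i := by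
  rcases i with (⟨a, j⟩ | j) | ⟨l, ⟨z, a, r⟩ | ⟨z, j, r⟩ | u⟩ <;>
    simp only [segc, vfldc, le_refl]
  · exact hs a j
  · split_ifs
    · exact hρ a
    · exact le_rfl
  · split_ifs
    · exact hν j
    · exact le_rfl

theorem bcov_segc (π : VPrior N d R D) (Φ : VFac N d K) (s : Fin M → Fin N → ℝ) (ρ : Fin M → ℝ)
    (ν : Fin N → ℝ) (a : Fin M) (k l : Fin d) (x y : VState π K n) :
    bcov (vbpat π Φ) (vpull (segc (R := R) (D := D) s ρ ν)) a k l x y
      = (∑ j, s a j * (π.cfg x.1 j k * π.cfg y.1 j l)) / N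
        + ρ a * rowCum Φ (com x.2 y.2) k l := by
  rw [bcov, cov_vbpat]
  congr 1
  rw [rowCum, Finset.mul_sum]
  refine Finset.sum_congr rfl fun i _ => ?_
  rw [Fin.sum_univ_two, Finset.mul_sum]
  simp [segc, vfldc]

theorem bz_segc (π : VPrior N d R D) (Φ : VFac N d K) (s : Fin M → Fin N → ℝ) (ρ : Fin M → ℝ)
    (ν : Fin N → ℝ) (x y : VState π K n) :
    ∑ i, vpull (segc (R := R) (D := D) s ρ ν) i * (vbspin π Φ x i * vbspin π Φ y i)
      = ∑ j, ν j * ∑ k, ∑ l, π.cfg x.1 j k * π.cfg y.1 j l * spinCum Φ j (com x.2 y.2) k l := by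
  rw [cov_vbspin]
  simp only [segc, vfldc, Finset.sum_const_zero, mul_zero, add_zero, Fin.sum_univ_two,
    if_pos, Fin.isValue, one_ne_zero, if_false, zero_mul]
  rw [Finset.sum_comm]
  refine Finset.sum_congr rfl fun j _ => ?_
  have key : ∀ (i : Fin (K + 1)) (r : Fin d),
      ν j * ((∑ k, π.cfg x.1 j k * Φ.2.1 0 j i k r) * ∑ k, π.cfg y.1 j k * Φ.2.1 0 j i k r)
        = ∑ k, ∑ l, ν j *
            (π.cfg x.1 j k * π.cfg y.1 j l * (Φ.2.1 0 j i k r * Φ.2.1 0 j i l r)) := fun i r => by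
    rw [Finset.sum_mul_sum, Finset.mul_sum]
    refine Finset.sum_congr rfl fun k _ => ?_
    rw [Finset.mul_sum]
    exact Finset.sum_congr rfl fun l _ => by ring
  rw [Finset.sum_congr rfl fun i _ => Finset.sum_congr rfl fun r _ => key i r,
    Finset.sum_congr rfl fun i _ => Finset.sum_comm, Finset.sum_comm]
  simp only [spinCum, Finset.mul_sum]
  refine Finset.sum_congr rfl fun k _ => ?_
  rw [Finset.sum_congr rfl fun i _ => Finset.sum_comm, Finset.sum_comm]

theorem qd_segc (π : VPrior N d R D) (Φ : VFac N d K) (s : Fin M → Fin N → ℝ) (ρ : Fin M → ℝ)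
    (ν : Fin N → ℝ) (x : VState π K n) :
    ∑ i, vpull (segc (R := R) (D := D) s ρ ν) i * vqd π Φ x i = 0 := by
  rw [sum_vqd]
  simp [segc, vfldc]

section Points

variable (M mr) (e : Fin N ⊕ Fin m ≃ Fin N')

/-- Strength of the matrix that restores the old scale on the old coordinates. -/
noncomputable def oldS (j : Fin N') : ℝ :=
  Sum.elim (fun _ => (N' : ℝ) / N) (fun _ => 0) (e.symm j)

/-- Indicator of the new coordinates. -/
def newI (j : Fin N') : ℝ := Sum.elim (fun _ => 0) (fun _ => 1) (e.symm j)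

/-- Indicator of the new rows. -/
def newR (a : Fin (M + mr)) : ℝ := if a.val < M then 0 else 1

/-- All rows see all coordinates. -/
noncomputable def ptFull : VCIdx N' (M + mr) d R D K → ℝ :=
  segc (fun _ _ => 1) (fun _ => 0) fun _ => 0

/-- All rows see the old coordinates only; the block sees its fields. -/
noncomputable def ptOld : VCIdx N' (M + mr) d R D K → ℝ :=
  segc (fun _ => oldS e) (fun _ => 0) (newI e)

/-- The new rows see their fields only. -/
noncomputable def ptSplit : VCIdx N' (M + mr) d R D K → ℝ :=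
  segc (fun a j => (1 - newR M mr a) * oldS e j) (newR M mr) (newI e)

/-- The old system, untouched new rows and block. -/
noncomputable def ptBase : VCIdx N' (M + mr) d R D K → ℝ :=
  segc (fun a j => (1 - newR M mr a) * oldS e j) (fun _ => 0) fun _ => 0

/-- Coordinates of the old system among those of the large one. -/
def oldCoord : VGIdx N M d R D K n → VGIdx N' (M + mr) d R D K n
  | Sum.inl (Sum.inl (a, j)) => Sum.inl (Sum.inl (Fin.castAdd mr a, e (Sum.inl j)))
  | Sum.inl (Sum.inr j) => Sum.inl (Sum.inr (e (Sum.inl j)))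
  | Sum.inr (o, Sum.inl (z, a, r)) => Sum.inr (o, Sum.inl (z, Fin.castAdd mr a, r))
  | Sum.inr (o, Sum.inr (Sum.inl (z, j, r))) => Sum.inr (o, Sum.inr (Sum.inl (z, e (Sum.inl j), r)))
  | Sum.inr (o, Sum.inr (Sum.inr u)) => Sum.inr (o, Sum.inr (Sum.inr u))

end Points

theorem oldCoord_inj (e : Fin N ⊕ Fin m ≃ Fin N') :
    Function.Injective (oldCoord (d := d) (R := R) (D := D) (K := K) (n := n) M mr e) := by
  intro i i' h
  rcases i with (⟨a, j⟩ | j) | ⟨o, ⟨z, a, r⟩ | ⟨z, j, r⟩ | u⟩ <;>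
    rcases i' with (⟨a', j'⟩ | j') | ⟨o', ⟨z', a', r'⟩ | ⟨z', j', r'⟩ | u'⟩ <;>
    simp [oldCoord, Prod.ext_iff] at h ⊢ <;> exact h

theorem oldS_nonneg (e : Fin N ⊕ Fin m ≃ Fin N') (j : Fin N') : 0 ≤ oldS e j := by
  unfold oldS; rcases e.symm j with i | i <;> simp; positivity

theorem newI_nonneg (e : Fin N ⊕ Fin m ≃ Fin N') (j : Fin N') : 0 ≤ newI e j := by
  unfold newI; rcases e.symm j with i | i <;> simp

theorem newR_mem (a : Fin (M + mr)) : newR M mr a = 0 ∨ newR M mr a = 1 := by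
  unfold newR; split_ifs <;> simp

/-- Pair averages under weights that factor through a map with constant fibres. -/
theorem avg2_fibre {T T' : Type*} [Fintype T] [Fintype T'] {u : T → ℝ} {v : T' → ℝ} {p : T' → T}
    {B : ℝ} (hB : B ≠ 0) (hv : ∀ G : T → ℝ, ∑ x, v x * G (p x) = B * ∑ y, G y) (F : T → T → ℝ) :
    avg2 (fun x => v x * u (p x)) (fun x y => F (p x) (p y)) = avg2 u F := by
  simp only [avg2, gibbs, hv u]
  have e1 : ∀ x, ∑ y, v x * u (p x) / (B * ∑ z, u z) * (v y * u (p y) / (B * ∑ z, u z)) *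
      F (p x) (p y) = v x * (u (p x) / (B * ∑ z, u z) *
        (B * ∑ y, u y / (B * ∑ z, u z) * F (p x) y)) := fun x => by
    rw [← hv fun y => u y / (B * ∑ z, u z) * F (p x) y]
    simp only [Finset.mul_sum]
    exact Finset.sum_congr rfl fun y _ => by ring
  simp only [e1]
  rw [hv fun z => u z / (B * ∑ w, u w) * (B * ∑ y, u y / (B * ∑ w, u w) * F z y),
    Finset.mul_sum]
  refine Finset.sum_congr rfl fun x _ => ?_
  simp only [Finset.mul_sum]
  refine Finset.sum_congr rfl fun y _ => ?_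
  simp only [← Finset.mul_sum]
  by_cases hS : ∑ z, u z = 0
  · simp [hS]
  · field_simp

section Base

variable (π : VPrior N d R D) (β : Block m d) (e : Fin N ⊕ Fin m ≃ Fin N')
  (Φ : VFac N' d K) (Φ0 : VFac N d K) (J : ℕ) (x : Fin R → ℕ → ℝ)

/-- Variances at the base point, with perturbations. -/
noncomputable def baseC (mr : ℕ) : VCIdx N' (M + mr) d R D K → ℝ :=
  fun i => ptBase M mr e i + vpert J x i

/-- Variances of the old system, with perturbations. -/
noncomputable def oldC : VCIdx N M d R D K → ℝ := fun i => rowc (M := M) 1 i + vpert J x i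

theorem baseC_lab (o : Option (Node K n)) (u : VLIdx N' (M + mr) d R D)
    (hu : ∀ v, u ≠ Sum.inr (Sum.inr v)) :
    vpull (baseC (M := M) e J x mr) (Sum.inr (o, u)) = 0 := by
  rcases u with ⟨z, a, r⟩ | ⟨z, j, r⟩ | v
  · simp [vpull, baseC, ptBase, segc, vfldc, vpert]
  · simp [vpull, baseC, ptBase, segc, vfldc, vpert]
  · exact absurd rfl (hu v)

theorem baseC_mat (a : Fin (M + mr)) (j : Fin N') :
    vpull (n := n) (baseC (M := M) (d := d) (D := D) (K := K) e J x mr) (Sum.inl (Sum.inl (a, j)))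
      = (1 - newR M mr a) * oldS e j := by
  simp [vpull, baseC, ptBase, segc, vfldc, vpert]

theorem baseC_tilt (j : Fin N') :
    vpull (n := n) (baseC (M := M) (d := d) (D := D) (K := K) e J x mr) (Sum.inl (Sum.inr j))
      = 0 := by
  simp [vpull, baseC, ptBase, segc, vfldc, vpert]

theorem oldC_mat (a : Fin M) (j : Fin N) :
    vpull (n := n) (oldC (d := d) (D := D) (K := K) J x) (Sum.inl (Sum.inl (a, j))) = 1 := by
  simp [vpull, oldC, rowc, vfldc, vpert]

theorem oldC_tilt (j : Fin N) :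
    vpull (n := n) (oldC (M := M) (d := d) (D := D) (K := K) J x) (Sum.inl (Sum.inr j)) = 0 := by
  simp [vpull, oldC, rowc, vfldc, vpert]

theorem oldC_slot (o : Option (Node K n)) (u : VLIdx N M d R D)
    (hu : ∀ v, u ≠ Sum.inr (Sum.inr v)) :
    vpull (oldC J x) (Sum.inr (o, u)) = 0 := by
  rcases u with ⟨z, a, r⟩ | ⟨z, j, r⟩ | v
  · simp [vpull, oldC, rowc, vfldc, vpert]
  · simp [vpull, oldC, rowc, vfldc, vpert]
  · exact absurd rfl (hu v)

theorem baseC_pert (o : Option (Node K n)) (v : Fin R × PIdx D) :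
    vpull (baseC (M := M) (d := d) e J x mr) (Sum.inr (o, Sum.inr (Sum.inr v)))
      = vpull (oldC (N := N) (M := M) (d := d) J x) (Sum.inr (o, Sum.inr (Sum.inr v))) := by
  obtain ⟨κ, j, i, t⟩ := v
  simp [vpull, baseC, oldC, ptBase, segc, vfldc, vpert, rowc]

theorem baseC_out (i : VGIdx N' (M + mr) d R D K n)
    (hi : i ∉ Set.range (oldCoord (d := d) (R := R) (D := D) (K := K) (n := n) M mr e)) :
    vpull (baseC e J x mr) i = 0 := by
  rcases i with (⟨a, j⟩ | j) | ⟨o, u⟩
  · rw [baseC_mat]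
    induction a using Fin.addCases with
    | right a => simp [newR]
    | left a =>
      obtain ⟨i | i, rfl⟩ := e.surjective j
      · exact absurd ⟨Sum.inl (Sum.inl (a, i)), rfl⟩ hi
      · simp [oldS]
  · exact baseC_tilt e J x j
  · refine baseC_lab e J x o u fun v hv => hi ⟨Sum.inr (o, Sum.inr (Sum.inr v)), ?_⟩
    rw [hv]
    rfl

theorem base_fld (hN : 0 < N) (hN' : 0 < N') (G : VGIdx N' (M + mr) d R D K n → ℝ)
    (st : VState (prodPrior π β e) K n) (a : Fin M) :
    vfld (vbpat (prodPrior π β e) Φ) (vpull (baseC e J x mr)) G st (Fin.castAdd mr a)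
      = vfld (vbpat π Φ0) (vpull (oldC J x)) (fun i => G (oldCoord M mr e i))
          (oldSt π β e st) a := by
  funext k
  simp only [vfld, lin]
  refine (Fintype.sum_of_injective (oldCoord M mr e) (oldCoord_inj e) _ _
    (fun j hj => by simp [baseC_out e J x j hj]) fun i => ?_).symm
  rcases i with (⟨a', j⟩ | j) | ⟨o, ⟨z, a', r⟩ | ⟨z, j, r⟩ | v⟩ <;> simp only [oldCoord]
  · rw [oldC_mat, baseC_mat]
    have h1 : newR M mr (Fin.castAdd mr a') = 0 := by simp [newR]
    have h2 : oldS e (e (Sum.inl j)) = (N' : ℝ) / N := by simp [oldS]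
    simp only [h1, h2, sub_zero, one_mul, Real.sqrt_one, vbpat, treeDir, rowZ, Fin.castAdd_inj,
      oldSt, prodPrior_cfg_inl]
    split_ifs
    · rw [Real.sqrt_div' _ (Nat.cast_nonneg N)]
      have h1 : 0 < √(N' : ℝ) := Real.sqrt_pos.2 (Nat.cast_pos.2 hN')
      have h2 : 0 < √(N : ℝ) := Real.sqrt_pos.2 (Nat.cast_pos.2 hN)
      field_simp
    · simp
  · simp [oldC_tilt, baseC_tilt]
  · simp [baseC_lab e J x o, oldC_slot J x o]
  · simp [baseC_lab e J x o, oldC_slot J x o]
  · simp [vbpat, treeDir, rowL]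

theorem base_fld_new (G : VGIdx N' (M + mr) d R D K n → ℝ)
    (st : VState (prodPrior π β e) K n) (a : Fin mr) :
    vfld (vbpat (prodPrior π β e) Φ) (vpull (baseC e J x mr)) G st (Fin.natAdd M a) = 0 := by
  funext k
  simp only [vfld, lin]
  refine Finset.sum_eq_zero fun i _ => ?_
  rcases i with (⟨a', j⟩ | j) | ⟨o, ⟨z, a', r⟩ | ⟨z, j, r⟩ | v⟩
  · by_cases h : a' = Fin.natAdd M a
    · subst h; simp [baseC_mat, newR]
    · simp [vbpat, treeDir, rowZ, h]
  · simp [baseC_tilt]
  · simp [baseC_lab e J x o]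
  · simp [baseC_lab e J x o]
  · simp [vbpat, treeDir, rowL]

theorem base_spin (G : VGIdx N' (M + mr) d R D K n → ℝ) (st : VState (prodPrior π β e) K n) :
    lin (vbspin (prodPrior π β e) Φ) (vpull (baseC e J x mr)) G st
        = lin (vbspin π Φ0) (vpull (oldC (M := M) J x)) (fun i => G (oldCoord M mr e i))
            (oldSt π β e st) ∧
    ∑ j, vpull (baseC (M := M) e J x mr) j * vbspin (prodPrior π β e) Φ st j ^ 2
      = ∑ i, vpull (oldC (M := M) J x) i * vbspin π Φ0 (oldSt π β e st) i ^ 2 := by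
  refine ⟨(Fintype.sum_of_injective (oldCoord M mr e) (oldCoord_inj e) _ _
    (fun j hj => by simp [baseC_out e J x j hj]) fun i => ?_).symm,
    (Fintype.sum_of_injective (oldCoord M mr e) (oldCoord_inj e) _ _
    (fun j hj => by simp [baseC_out e J x j hj]) fun i => ?_).symm⟩ <;>
  · rcases i with (⟨a', j⟩ | j) | ⟨o, ⟨z, a', r⟩ | ⟨z, j, r⟩ | v⟩ <;> simp only [oldCoord]
    · simp [vbspin, treeDir]
    · simp [oldC_tilt, baseC_tilt]
    · simp [vbspin, treeDir, spinL]
    · simp [baseC_lab e J x o, oldC_slot J x o]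
    · rw [baseC_pert]
      rfl

theorem base_ham (P : VPot d) (hN : 0 < N) (hN' : 0 < N')
    (G : VGIdx N' (M + mr) d R D K n → ℝ) (st : VState (prodPrior π β e) K n) :
    vham P (vbpat (prodPrior π β e) Φ) (vbspin (prodPrior π β e) Φ) (vqd (prodPrior π β e) Φ)
        (vpull (baseC e J x mr)) G st
      = vham P (vbpat π Φ0) (vbspin π Φ0) (vqd π Φ0) (vpull (oldC (M := M) J x))
          (fun i => G (oldCoord M mr e i)) (oldSt π β e st) + mr * P.f 0 := by
  have hq : ∀ i : VGIdx N' (M + mr) d R D K n,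
      vpull (baseC e J x mr) i * vqd (prodPrior π β e) Φ st i = 0 := fun i => by
    rcases i with (⟨a, j⟩ | j) | ⟨o, u⟩
    · simp [vqd, treeDir, tiltQ]
    · simp [baseC_tilt]
    · simp [vqd, treeDir]
  have hq0 : ∀ i : VGIdx N M d R D K n,
      vpull (oldC J x) i * vqd π Φ0 (oldSt π β e st) i = 0 := fun i => by
    rcases i with (⟨a, j⟩ | j) | ⟨o, u⟩
    · simp [vqd, treeDir, tiltQ]
    · simp [oldC_tilt]
    · simp [vqd, treeDir]
  simp only [vham, Fin.sum_univ_add, base_fld π β e Φ Φ0 J x hN hN', base_fld_new,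
    (base_spin π β e Φ Φ0 J x G st).1, (base_spin π β e Φ Φ0 J x G st).2, hq, hq0,
    Finset.sum_const_zero, Finset.sum_const, Finset.card_univ, Fintype.card_fin, nsmul_eq_mul]
  ring

theorem base_fibre (c : ℝ) (G0 : VState π K n → ℝ) :
    ∑ st : VState (prodPrior π β e) K n, β.w (newCfg π β e st.1) * c * G0 (oldSt π β e st)
      = ((∑ τ, β.w τ) * c) * ∑ y, G0 y := by
  rw [Fintype.sum_prod_type, Fintype.sum_prod_type]
  show ∑ s : Fin (π.c * β.c), _ = _
  rw [← finProdFinEquiv.sum_comp, Fintype.sum_prod_type, Finset.mul_sum]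
  refine Finset.sum_congr rfl fun σ _ => ?_
  simp only [oldSt, oldCfg, newCfg, Equiv.symm_apply_apply]
  rw [Finset.sum_mul, Finset.sum_mul]
  refine Finset.sum_congr rfl fun τ _ => ?_
  rw [Finset.mul_sum]

theorem vmpair_ptBase (P : VPot d) (hn : 0 < n) (hN : 0 < N)
    (F : VState π K n → VState π K n → ℝ) :
    vmpair n P (prodPrior π β e) Φ (baseC (M := M) e J x mr)
        (fun _ st st' => F (oldSt π β e st) (oldSt π β e st'))
      = vmpair n P π Φ0 (oldC (M := M) J x) fun _ => F := by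
  classical
  have := vstate_nonempty (K := K) π hn
  have := vstate_nonempty (K := K) (prodPrior π β e) hn
  have hN' : 0 < N' := by
    have h := Fintype.card_congr e
    simp only [Fintype.card_sum, Fintype.card_fin] at h
    omega
  have hb : (0 : ℝ) < ∑ τ, β.w τ := by
    have : Nonempty (Fin β.c) := ⟨⟨0, β.c_pos⟩⟩
    exact Finset.sum_pos (fun τ _ => β.w_pos τ) Finset.univ_nonempty
  have hO : ∀ (T : Type) [Fintype T] (O : T → T → ℝ) (x y : T), |O x y| ≤ ∑ x, ∑ y, |O x y| :=
    fun T _ O x y => (Finset.single_le_sum (f := fun y => |O x y|) (fun _ _ => abs_nonneg _)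
      (Finset.mem_univ y)).trans (Finset.single_le_sum (f := fun x => ∑ y, |O x y|)
      (fun _ _ => Finset.sum_nonneg fun _ _ => abs_nonneg _) (Finset.mem_univ x))
  rw [vmpair_eq P _ Φ hn _ (O := fun _ st st' => F (oldSt π β e st) (oldSt π β e st'))
      (fun _ _ => continuous_const) (fun _ => hO _ fun st st' =>
        F (oldSt π β e st) (oldSt π β e st')),
    vmpair_eq P π Φ0 hn _ (O := fun _ => F) (fun _ _ => continuous_const) fun _ => hO _ F]
  refine integral_congr_ae (ae_of_all _ fun W => ?_)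
  have hmp : MeasurePreserving
      (fun (G : VGIdx N' (M + mr) d R D K n → ℝ) i => G (oldCoord M mr e i))
      (gaus (VGIdx N' (M + mr) d R D K n)) (gaus (VGIdx N M d R D K n)) :=
    P157.mp_comp (gaussianReal 0 1) (oldCoord_inj e)
  have hc : Continuous fun G : VGIdx N M d R D K n → ℝ => avg2 (vbw P (vpwt π W) (vbpat π Φ0)
      (vbspin π Φ0) (vqd π Φ0) (vpull (oldC J x)) G) F := by
    have := VItp.cont_vgibbs P (vbpat (M := M) π Φ0) (vbspin π Φ0) (vqd π Φ0) (vpwt_pos π W)
      (vpull (oldC J x))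
    unfold avg2; fun_prop
  simp only [vpair]
  rw [← hmp.map_eq, integral_map hmp.measurable.aemeasurable hc.aestronglyMeasurable]
  refine integral_congr_ae (ae_of_all _ fun G => ?_)
  dsimp only
  have hw : ∀ st, vbw P (vpwt (prodPrior π β e) W) (vbpat (prodPrior π β e) Φ)
        (vbspin (prodPrior π β e) Φ) (vqd (prodPrior π β e) Φ) (vpull (baseC e J x mr)) G st
      = β.w (newCfg π β e st.1) * Real.exp (mr * P.f 0) *
        vbw P (vpwt π W) (vbpat π Φ0) (vbspin π Φ0) (vqd π Φ0) (vpull (oldC J x))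
          (fun i => G (oldCoord M mr e i)) (oldSt π β e st) := fun st => by
    simp only [vbw]
    rw [base_ham π β e Φ Φ0 J x P hN hN', Real.exp_add]
    simp only [vpwt, vstw, prodPrior, newCfg, oldSt, oldCfg]
    ring
  rw [funext hw]
  exact avg2_fibre (mul_pos hb (Real.exp_pos _)).ne' (base_fibre π β e _) F

end Base

end Vale.Agent.P166.Casc
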