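import Vale.Agent.P157.Casc.Conc
import Vale.Agent.P157.Casc.Basic
import Vale.Agent.P166.Casc.VEnv

/-!
Concentration of the logarithm of the partition function of the vector model, uniformly over
compact sets of variances of bounded size.
-/

open MeasureTheory ProbabilityTheory Filter Topology Set

namespace Vale.Agent.P166.Casc

open Vale.Agent.P157.Casc

variable {N M d R D K n : ℕ}

theorem b1_nonneg (P : VPot d) (k : Fin d) : 0 ≤ P.b1 := (abs_nonneg _).trans (P.h1 k fun _ => 0)

theorem abs_pot_sub_le (P : VPot d) (u v : Fin d → ℝ) :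
    |P.f u - P.f v| ≤ |P.b1| * ∑ k, |u k - v k| := by
  set w : ℕ → Fin d → ℝ := fun j k => if k.val < j then u k else v k
  have hstep : ∀ (j : Fin d),
      |P.f (w (j.val + 1)) - P.f (w j.val)| ≤ |P.b1| * |u j - v j| := fun j => by
    have e1 : w (j.val + 1) = Function.update (w j.val) j (u j) := by
      funext k
      by_cases hk : k = j
      · subst hk; simp [w]
      · rw [Function.update_of_ne hk]
        have : k.val ≠ j.val := fun h => hk (Fin.ext h)
        simp only [w]
        split_ifs <;> first | rfl | omega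
    have e2 : w j.val = Function.update (w j.val) j (v j) := by
      funext k
      by_cases hk : k = j
      · subst hk; simp [w]
      · simp [Function.update_of_ne hk]
    have hd : ∀ y : ℝ, HasDerivAt (fun z => P.f (Function.update (w j.val) j z))
        (P.g j (Function.update (w j.val) j y)) y := fun y => by
      simpa using P.d1 j (Function.update (w j.val) j y)
    have h := convex_univ.norm_image_sub_le_of_norm_hasDerivWithin_le
      (f := fun z => P.f (Function.update (w j.val) j z))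
      (f' := fun z => P.g j (Function.update (w j.val) j z)) (C := |P.b1|)
      (fun y _ => (hd y).hasDerivWithinAt)
      (fun y _ => (Real.norm_eq_abs _).trans_le ((P.h1 _ _).trans (le_abs_self _)))
      (mem_univ (v j)) (mem_univ (u j))
    rw [← e1, ← e2] at h
    simpa only [Real.norm_eq_abs] using h
  have htel : P.f u - P.f v
      = ∑ j ∈ Finset.range d, (P.f (w (j + 1)) - P.f (w j)) := by
    rw [Finset.sum_range_sub fun j => P.f (w j)]
    have hu : w d = u := funext fun k => if_pos k.isLt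
    have hv : w 0 = v := funext fun k => if_neg (Nat.not_lt_zero _)
    rw [hu, hv]
  rw [htel, ← Fin.sum_univ_eq_sum_range (fun j => P.f (w (j + 1)) - P.f (w j)), Finset.mul_sum]
  exact (Finset.abs_sum_le_sum_abs _ _).trans (Finset.sum_le_sum fun j _ => hstep j)

section Lipschitz

variable {T I : Type*} [Fintype T] [Fintype I] (P : VPot d)
  (b : Fin M → Fin d → T → I → ℝ) (bz qd : T → I → ℝ)

omit [Fintype T] in
/-- The energy of a state is Lipschitz in the Gaussian coordinates. -/
theorem vham_lip (hD : VDisj b bz) {lam : I → ℝ} (hl : ∀ i, 0 ≤ lam i) {A B : ℝ} (x : T)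
    (hA : ∑ a, ∑ k, ∑ i, lam i * b a k x i ^ 2 ≤ A) (hB : ∑ i, lam i * bz x i ^ 2 ≤ B)
    (G G' : I → ℝ) :
    vham P b bz qd lam G x ≤ vham P b bz qd lam G' x
      + (|P.b1| * √((d : ℝ) * A) + √B) * √(∑ i, (G i - G' i) ^ 2) := by
  set δ : I → ℝ := fun i => |G i - G' i|
  have hδ : ∀ i, δ i ^ 2 = (G i - G' i) ^ 2 := fun i => sq_abs _
  have hdiff : ∀ v : T → I → ℝ,
      |lin v lam G x - lin v lam G' x| ≤ ∑ i, |√(lam i) * v x i| * δ i := fun v => by
    simp only [lin, ← Finset.sum_sub_distrib, ← mul_sub]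
    refine (Finset.abs_sum_le_sum_abs _ _).trans_eq ?_
    simp only [abs_mul, δ]
  set u : I → ℝ := fun i => ∑ a, ∑ k, |√(lam i) * b a k x i|
  have hu : ∀ i, u i ^ 2 ≤ (d : ℝ) * ∑ a, ∑ k, lam i * b a k x i ^ 2 := fun i => by
    set r : Fin M → ℝ := fun a => ∑ k, |√(lam i) * b a k x i|
    have horth : ∀ a a', a' ≠ a → r a * r a' = 0 := fun a a' ha => by
      rw [Finset.sum_mul_sum]
      refine Finset.sum_eq_zero fun k _ => Finset.sum_eq_zero fun l _ => ?_
      rw [← abs_mul, show √(lam i) * b a k x i * (√(lam i) * b a' l x i)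
        = √(lam i) * √(lam i) * (b a k x i * b a' l x i) by ring,
        hD.orth a a' ha.symm, mul_zero, abs_zero]
    have e : u i ^ 2 = ∑ a, r a ^ 2 := by
      change (∑ a, r a) ^ 2 = _
      rw [sq, Finset.sum_mul_sum]
      refine Finset.sum_congr rfl fun a _ => ?_
      rw [Finset.sum_eq_single a (fun a' _ ha => horth a a' ha)
        (fun h => absurd (Finset.mem_univ _) h), sq]
    rw [e, Finset.mul_sum]
    refine Finset.sum_le_sum fun a _ => (sq_sum_le_card_mul_sum_sq).trans_eq ?_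
    rw [Finset.card_univ, Fintype.card_fin]
    refine congrArg _ (Finset.sum_congr rfl fun k _ => ?_)
    rw [sq_abs, mul_pow, Real.sq_sqrt (hl i)]
  have hpat : (∑ a, (P.f (vfld b lam G x a) - P.f (vfld b lam G' x a)))
      ≤ |P.b1| * (√((d : ℝ) * A) * √(∑ i, (G i - G' i) ^ 2)) := by
    calc (∑ a, (P.f (vfld b lam G x a) - P.f (vfld b lam G' x a)))
        ≤ ∑ a, |P.b1| * ∑ k, ∑ i, |√(lam i) * b a k x i| * δ i := Finset.sum_le_sum fun a _ =>
          ((le_abs_self _).trans (abs_pot_sub_le P _ _)).trans (mul_le_mul_of_nonneg_left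
            (Finset.sum_le_sum fun k _ => hdiff (b a k)) (abs_nonneg _))
      _ = |P.b1| * ∑ i, u i * δ i := by
          rw [← Finset.mul_sum]
          simp only [u, Finset.sum_mul]
          rw [Finset.sum_comm (s := (Finset.univ : Finset I))]
          exact congrArg _ (Finset.sum_congr rfl fun a _ => Finset.sum_comm)
      _ ≤ |P.b1| * (√(∑ i, u i ^ 2) * √(∑ i, δ i ^ 2)) :=
          mul_le_mul_of_nonneg_left (Real.sum_mul_le_sqrt_mul_sqrt _ _ _) (abs_nonneg _)
      _ ≤ _ := by
          simp only [hδ]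
          refine mul_le_mul_of_nonneg_left (mul_le_mul_of_nonneg_right (Real.sqrt_le_sqrt ?_)
            (Real.sqrt_nonneg _)) (abs_nonneg _)
          refine (Finset.sum_le_sum fun i _ => hu i).trans ?_
          rw [← Finset.mul_sum, Finset.sum_comm]
          refine mul_le_mul_of_nonneg_left (le_of_eq_of_le ?_ hA) (Nat.cast_nonneg d)
          exact Finset.sum_congr rfl fun a _ => Finset.sum_comm
  have hz : lin bz lam G x - lin bz lam G' x ≤ √B * √(∑ i, (G i - G' i) ^ 2) := by
    refine (le_abs_self _).trans ((hdiff bz).trans ((Real.sum_mul_le_sqrt_mul_sqrt _ _ _).trans ?_))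
    simp only [hδ, sq_abs, mul_pow]
    refine mul_le_mul_of_nonneg_right (Real.sqrt_le_sqrt ?_) (Real.sqrt_nonneg _)
    refine le_trans (le_of_eq (Finset.sum_congr rfl fun i _ => ?_)) hB
    rw [Real.sq_sqrt (hl i)]
  rw [Finset.sum_sub_distrib] at hpat
  simp only [vham]
  linarith

end Lipschitz

theorem sum_sq_vbranch (z z' : VRIdx N M d R D → ℝ) (y : Fin K → VLIdx N M d R D → ℝ) :
    ∑ i : VGIdx N M d R D K 1, (vbranch z y i - vbranch z' y i) ^ 2 = ∑ i, (z i - z' i) ^ 2 := by
  rw [Fintype.sum_sum_type, Fintype.sum_prod_type, Fintype.sum_option, Fintype.sum_sigma,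
    Fintype.sum_sum_type (α₁ := ZIdx N M)]
  simp [vbranch]

/-- Variances under which both quadratic sizes of a branch are at most `B N`. -/
def VSized (π : VPrior N d R D) (Φ : VFac N d K) (B : ℝ) (c : VCIdx N M d R D K → ℝ) : Prop :=
  (∀ i, 0 ≤ c i) ∧ ∀ σ : Fin π.c,
    (∑ a, ∑ k, ∑ i, vpull c i * vbpat (n := 1) π Φ a k (σ, fun _ => 0) i ^ 2) ≤ B * N ∧
      (∑ i, vpull c i * vbspin (n := 1) π Φ (σ, fun _ => 0) i ^ 2) ≤ B * N

/-- The logarithm of a leaf factor is Lipschitz in the root. -/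
theorem vleafY_lip (P : VPot d) (π : VPrior N d R D) (Φ : VFac N d K) {B : ℝ}
    {c : VCIdx N M d R D K → ℝ} (hc : VSized π Φ B c)
    (z z' : VRIdx N M d R D → ℝ) (y : Fin K → VLIdx N M d R D → ℝ) :
    Real.log (vleafY P π Φ c z y) ≤ Real.log (vleafY P π Φ c z' y)
      + (|P.b1| * √((d : ℝ) * (B * N)) + √(B * N)) * √(∑ i, (z i - z' i) ^ 2) := by
  set Dl := (|P.b1| * √((d : ℝ) * (B * N)) + √(B * N)) * √(∑ i, (z i - z' i) ^ 2)
  have hle : vleafY P π Φ c z y ≤ Real.exp Dl * vleafY P π Φ c z' y := by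
    rw [vleafY, vleafY, Finset.mul_sum]
    refine Finset.sum_le_sum fun σ _ => ?_
    rw [mul_left_comm, ← Real.exp_add]
    refine mul_le_mul_of_nonneg_left (Real.exp_le_exp.2 ?_) (π.w_pos σ).le
    obtain ⟨hA, hB⟩ := hc.2 σ
    have h := vham_lip P (vbpat (n := 1) π Φ) (vbspin π Φ) (vqd π Φ) (vdisj π Φ) (lam := vpull c)
      (fun i => by rcases i with q | ⟨o, i⟩ <;> exact hc.1 _) ((σ, fun _ => 0) : VState π K 1)
      hA hB (vbranch z y) (vbranch z' y)
    rw [sum_sq_vbranch] at h
    simp only [vbham]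
    linarith
  have h := Real.log_le_log (vleafY_pos P π Φ c z y) hle
  rw [Real.log_mul (Real.exp_pos _).ne' (vleafY_pos P π Φ c z' y).ne', Real.log_exp] at h
  linarith

/-- Concentration in the vector model, uniformly over a compact set of variances. -/
theorem vmodel_conc (P : VPot d) (B : ℝ) (K : ℕ) :
    ∃ C : ℝ, 0 ≤ C ∧ ∀ N M R D : ℕ, 0 < N → ∀ (π : VPrior N d R D) (Φ : VFac N d K)
      (s : Set (VCIdx N M d R D K → ℝ)), IsCompact s → (∀ c ∈ s, VSized π Φ B c) →
      ∃ n0, ∀ n ≥ n0, ∀ c ∈ s,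
        ∫ p, |Real.log (∑ st, vmbw P π Φ c p st)
            - ∫ q, Real.log (∑ st, vmbw P π Φ c q st) ∂venv N M d R D K n| ∂venv N M d R D K n
          ≤ C * √(N : ℝ) := by
  obtain ⟨C0, hC0, hconc⟩ := tree_conc (grid_mlev K)
  set cL := |P.b1| * √((d : ℝ) * |B|) + √|B| + 1
  have hcL : 0 < cL := by positivity
  refine ⟨C0 + C0 * cL + 1, by positivity, fun N M R D hN π Φ s hs hsz => ?_⟩
  have hN1 : (1 : ℝ) ≤ N := by exact_mod_cast hN
  set Lz := cL * √(N : ℝ)
  have hLz : 0 < Lz := mul_pos hcL (Real.sqrt_pos.2 (by linarith))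
  have hLle : |P.b1| * √((d : ℝ) * (B * N)) + √(B * N) ≤ Lz := by
    have h1 : √((d : ℝ) * (B * N)) ≤ √((d : ℝ) * |B|) * √(N : ℝ) := by
      rw [← mul_assoc, ← Real.sqrt_mul (by positivity)]
      exact Real.sqrt_le_sqrt (mul_le_mul_of_nonneg_right
        (mul_le_mul_of_nonneg_left (le_abs_self B) (Nat.cast_nonneg d)) (by linarith))
    have h2 : √(B * N) ≤ √|B| * √(N : ℝ) := by
      rw [← Real.sqrt_mul (abs_nonneg B)]
      exact Real.sqrt_le_sqrt (mul_le_mul_of_nonneg_right (le_abs_self B) (by linarith))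
    simp only [Lz, cL]
    nlinarith [mul_le_mul_of_nonneg_left h1 (abs_nonneg P.b1), Real.sqrt_nonneg (N : ℝ)]
  set B0 := C0 + C0 * Lz
  set Dv : ℕ → (VCIdx N M d R D K → ℝ) → ℝ := fun n c =>
    (∫ q, |Real.log (∑ st, vmbw P π Φ c q st)
      - ∫ r, Real.log (∑ st, vmbw P π Φ c r st) ∂venv N M d R D K n| ∂venv N M d R D K n) - B0
  obtain ⟨n0, hn0⟩ := uniform_of_seq hs (D := Dv) (fun c cl nn hcs hcl hlim hnn ε hε => by
    obtain ⟨Bd, hBd⟩ := hs.exists_bound_of_continuousOn continuousOn_id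
    obtain ⟨A, hA⟩ := vleafY_conv P π Φ (B := Bd) (fun k i =>
      ((Real.norm_eq_abs _).symm.trans_le (norm_le_pi_norm (c k) i)).trans (hBd _ (hcs k))) hlim
    have h := hconc (VRIdx N M d R D) (VLIdx N M d R D → ℝ) inferInstance inferInstance
      (gaus (VLIdx N M d R D)) inferInstance _ _ _ hA Lz hLz (fun z z' y =>
        (vleafY_lip P π Φ (hsz cl hcl) z z' y).trans
          (add_le_add le_rfl (mul_le_mul_of_nonneg_right hLle (Real.sqrt_nonneg _)))) nn hnn
    filter_upwards [h] with k hk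
    simp only [Dv]
    have hmeas : Measurable fun q : (Node K (nn k) → ℝ) × (VGIdx N M d R D K (nn k) → ℝ) =>
        Real.log (∑ st, vmbw P π Φ (c k) q st) :=
      (Finset.measurable_sum _ fun st _ => (continuous_vmbw P π Φ _ st).measurable).log
    have hmp := mp_venv (N := N) (M := M) (d := d) (R := R) (D := D) (K := K) (n := nn k)
    have hint : ∀ g : (Node K (nn k) → ℝ) × (VGIdx N M d R D K (nn k) → ℝ) → ℝ, Measurable g →
        ∫ q, g q ∂venv N M d R D K (nn k) = ∫ q, g (q.2.1, joinT q.1 q.2.2)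
          ∂(gaus (VRIdx N M d R D)).prod
            ((casW (mlev K) (nn k)).prod (casX K (nn k) (gaus (VLIdx N M d R D)))) := fun g hg => by
      rw [← hmp.map_eq]
      exact integral_map hmp.measurable.aemeasurable hg.aestronglyMeasurable
    rw [hint _ hmeas, hint _ (by fun_prop)]
    simp only [log_sum_vmbw_join]
    linarith) zero_lt_one
  refine ⟨n0, fun n hn c hc => ?_⟩
  have h := hn0 n hn c hc
  simp only [Dv, B0, Lz] at h
  have hs1 : 1 ≤ √(N : ℝ) := Real.one_le_sqrt.2 hN1
  nlinarith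

end Vale.Agent.P166.Casc
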