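import Vale.Agent.P166.Casc.VInterpBase
import Vale.Agent.P166.Casc.Model
import Vale.Agent.P166.Casc.Tree

/-!
A chosen Gaussian coordinate of a state is rarely large under the weights, whatever the number of
states, and sums over all coordinates of a tree as sums over one branch.
-/

open MeasureTheory ProbabilityTheory Filter Topology Set

namespace Vale.Agent.P166.Casc

open Vale.Agent.P157.Casc Vale.Agent.P157.Casc.Itp VItp

section Tail

/-- A linear function cut smoothly at the size `r`. -/
noncomputable def softCut (r s : ℝ) : ℝ := s / √(1 + (s / r) ^ 2)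

theorem one_le_sqrt_cut (r s : ℝ) : 1 ≤ √(1 + (s / r) ^ 2) :=
  Real.one_le_sqrt.2 (le_add_of_nonneg_right (sq_nonneg _))

theorem continuous_softCut (r : ℝ) : Continuous (softCut r) :=
  continuous_id.div (by fun_prop) fun s => (zero_lt_one.trans_le (one_le_sqrt_cut r s)).ne'

theorem hasDerivAt_softCut (r s : ℝ) :
    HasDerivAt (softCut r) (1 / ((1 + (s / r) ^ 2) * √(1 + (s / r) ^ 2))) s := by
  have hq : 0 < 1 + (s / r) ^ 2 := by positivity
  have hs := Real.sqrt_pos.2 hq
  have h1 : HasDerivAt (fun y : ℝ => √(1 + (y / r) ^ 2))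
      (2 * (s / r) * (1 / r) / (2 * √(1 + (s / r) ^ 2))) s := by
    have h0 : HasDerivAt (fun y : ℝ => 1 + (y / r) ^ 2) (2 * (s / r) * (1 / r)) s :=
      ((((hasDerivAt_id s).div_const r).fun_pow 2).const_add 1).congr_deriv (by simp)
    exact h0.sqrt hq.ne'
  refine ((hasDerivAt_id s).div h1 hs.ne').congr_deriv ?_
  simp only [id, one_mul]
  have ha := Real.sq_sqrt hq.le
  rw [show s * (2 * (s / r) * (1 / r) / (2 * √(1 + (s / r) ^ 2)))
      = (s / r) ^ 2 / √(1 + (s / r) ^ 2) by ring, ha]
  field_simp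
  simp only [div_pow] at ha
  rw [ha]
  ring

theorem abs_softCut_le {r : ℝ} (hr : 0 < r) (s : ℝ) : |softCut r s| ≤ r := by
  have hs := zero_lt_one.trans_le (one_le_sqrt_cut r s)
  rw [softCut, abs_div, abs_of_pos hs, div_le_iff₀ hs]
  have h : |s| / r ≤ √(1 + (s / r) ^ 2) := Real.le_sqrt_of_sq_le (by rw [div_pow, sq_abs, div_pow]; linarith)
  rw [div_le_iff₀ hr] at h
  linarith

theorem sq_softCut_le (r s : ℝ) : softCut r s ^ 2 ≤ s * softCut r s := by
  have h := one_le_sqrt_cut r s
  have hs := zero_lt_one.trans_le h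
  rw [softCut, div_pow, ← mul_div_assoc, ← sq, sq (√_), ← div_div]
  exact div_le_self (div_nonneg (sq_nonneg _) hs.le) h

theorem cut_le_softCut {r : ℝ} (hr : 0 < r) (s : ℝ) :
    (if r < |s| then |s| else 0) ≤ √2 / r * (s * softCut r s) := by
  have hs := zero_lt_one.trans_le (one_le_sqrt_cut r s)
  have hnn : 0 ≤ √2 / r * (s * softCut r s) :=
    mul_nonneg (by positivity) ((sq_nonneg _).trans (sq_softCut_le r s))
  split_ifs with h
  swap; · exact hnn
  have h2 : √(1 + (s / r) ^ 2) ≤ √2 * (|s| / r) := by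
    rw [Real.sqrt_le_iff]
    refine ⟨by positivity, ?_⟩
    rw [mul_pow, Real.sq_sqrt zero_le_two, div_pow, div_pow, sq_abs]
    have : 1 ≤ s ^ 2 / r ^ 2 := by
      rw [one_le_div (by positivity), ← sq_abs s]
      exact pow_le_pow_left₀ hr.le h.le 2
    linarith
  calc |s| = |s| * √(1 + (s / r) ^ 2) / √(1 + (s / r) ^ 2) := (mul_div_cancel_right₀ _ hs.ne').symm
    _ ≤ |s| * (√2 * (|s| / r)) / √(1 + (s / r) ^ 2) :=
        div_le_div_of_nonneg_right (mul_le_mul_of_nonneg_left h2 (abs_nonneg _)) hs.le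
    _ = _ := by rw [softCut, show |s| * (√2 * (|s| / r)) = √2 / r * (|s| * |s|) by ring,
        abs_mul_abs_self]; ring

variable {T I : Type*} [Fintype T] [Fintype I] {M d : ℕ} (P : VPot d) {w : T → ℝ}
  (b : Fin M → Fin d → T → I → ℝ) (bz qd : T → I → ℝ)

/-- Under the weights a chosen coordinate of a state is large with small mean size. -/
theorem tail_le [Nonempty T] (hw : ∀ x, 0 < w x) (lam : I → ℝ) (e : T → I) {Db : ℝ}
    (hb : ∀ G x j, |√(lam j) * vdir P b bz lam G x j| ≤ Db) {r : ℝ} (hr : 0 < r) :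
    ∫ G, ∑ x, gibbs (vbw P w b bz qd lam G) x * (if r < |G (e x)| then |G (e x)| else 0) ∂gaus I
      ≤ 2 * √2 * (1 + 2 * Db ^ 2) / r := by
  classical
  set γ := fun G => gibbs (vbw P w b bz qd lam G) with hγ
  have hpos := fun G => vbw_pos P b bz qd hw lam G
  set p := fun j G => ∑ x, γ G x * (if e x = j then (1 : ℝ) else 0) with hpd
  have hg : ∀ x, Continuous fun G => γ G x := fun x => cont_vgibbs P b bz qd hw lam x
  have hpc : ∀ j, Continuous (p j) := fun j => by rw [hpd]; fun_prop
  have hp0 : ∀ j G, 0 ≤ p j G := fun j G => Finset.sum_nonneg fun x _ =>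
    mul_nonneg (gibbs_nonneg (hpos G) x) (by split_ifs <;> norm_num)
  have hp1 : ∀ j G, |p j G| ≤ 1 := fun j G =>
    abs_mean_le (hpos G) fun x => by split_ifs <;> norm_num
  set dp := fun j G => ∑ x, γ G x * ((if e x = j then (1 : ℝ) else 0) *
    (√(lam j) * vdir P b bz lam G x j - ∑ z, γ G z * (√(lam j) * vdir P b bz lam G z j))) with hdp
  have hdpc : ∀ j, Continuous (dp j) := fun j => by
    have := fun x => cont_vdir P b bz lam x j
    rw [hdp]; fun_prop
  have hU : ∀ j G x, |√(lam j) * vdir P b bz lam G x j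
      - ∑ z, γ G z * (√(lam j) * vdir P b bz lam G z j)| ≤ 2 * Db := fun j G x =>
    (abs_sub _ _).trans ((add_le_add (hb G x j) (abs_mean_le (hpos G) fun z => hb G z j)).trans_eq
      (two_mul _).symm)
  have hdpb : ∀ j G, |dp j G| ≤ 2 * Db * p j G := fun j G => by
    rw [hpd, Finset.mul_sum]
    refine (Finset.abs_sum_le_sum_abs _ _).trans (Finset.sum_le_sum fun x _ => ?_)
    rw [abs_mul, abs_of_nonneg (gibbs_nonneg (hpos G) x)]
    split_ifs with hx
    · simp only [hγ, one_mul, mul_one]
      rw [mul_comm (2 * Db)]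
      exact mul_le_mul_of_nonneg_left (hU j G x) (gibbs_nonneg (hpos G) x)
    · simp
  have hD0 : ∀ j : I, 0 ≤ Db := fun j =>
    (abs_nonneg _).trans (hb (fun _ => 0) (Classical.arbitrary T) j)
  set F := fun j G => softCut r (G j) * p j G with hF
  set F' := fun j (G : I → ℝ) =>
    1 / ((1 + (G j / r) ^ 2) * √(1 + (G j / r) ^ 2)) * p j G + softCut r (G j) * dp j G with hF'
  have hFc : ∀ j, Continuous (F j) := fun j =>
    ((continuous_softCut r).comp (continuous_apply j)).mul (hpc j)
  have hφ' : ∀ s : ℝ, 0 ≤ 1 / ((1 + (s / r) ^ 2) * √(1 + (s / r) ^ 2)) ∧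
      1 / ((1 + (s / r) ^ 2) * √(1 + (s / r) ^ 2)) ≤ 1 := fun s => by
    refine ⟨by positivity, div_le_one_of_le₀ ?_ (by positivity)⟩
    exact one_le_mul_of_one_le_of_one_le (le_add_of_nonneg_right (sq_nonneg _)) (one_le_sqrt_cut r s)
  have hF'c : ∀ j, Continuous (F' j) := fun j => by
    refine ((Continuous.div continuous_const (by fun_prop) fun G => ?_).mul (hpc j)).add
      (((continuous_softCut r).comp (continuous_apply j)).mul (hdpc j))
    exact (mul_pos (add_pos_of_pos_of_nonneg one_pos (sq_nonneg _))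
      (zero_lt_one.trans_le (one_le_sqrt_cut r _))).ne'
  have hFb : ∀ j G, |F j G| ≤ r := fun j G => by
    rw [hF, abs_mul]
    exact (mul_le_of_le_one_right (abs_nonneg _) (hp1 j G)).trans (abs_softCut_le hr _)
  have hF'b : ∀ j G, |F' j G| ≤ 1 + r * (2 * Db) := fun j G => by
    refine (abs_add_le _ _).trans (add_le_add ?_ ?_)
    · rw [abs_mul, abs_of_nonneg (hφ' _).1]
      exact mul_le_one₀ (hφ' _).2 (abs_nonneg _) (hp1 j G)
    · rw [abs_mul]
      refine mul_le_mul (abs_softCut_le hr _) ((hdpb j G).trans ?_) (abs_nonneg _) hr.le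
      exact mul_le_of_le_one_right (by linarith [hD0 j]) ((le_abs_self _).trans (hp1 j G))
  have hd : ∀ j G, HasDerivAt (fun z => F j (Function.update G j z)) (F' j G) (G j) := fun j G => by
    have hbw := fun x => deriv_vbw_G P (w := w) b bz qd lam G j x
    have hinner : HasDerivAt (fun z => p j (Function.update G j z)) (dp j G) (G j) := by
      refine (deriv_mean (v := fun z => vbw P w b bz qd lam (Function.update G j z))
        (dv := fun y => √(lam j) * vdir P b bz lam G y j) (s := G j)
        (fun y => by simpa using hpos G y) (fun y => by simpa using hbw y)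
        (F := fun _ y => if e y = j then (1 : ℝ) else 0)
        (fun y => hasDerivAt_const _ _)).congr_deriv ?_
      simp only [Function.update_eq_self, hdp, hγ, zero_add]
    refine (((hasDerivAt_softCut r (G j)).mul hinner).congr_deriv ?_).congr_of_eventuallyEq
      (Eventually.of_forall fun z => ?_)
    · simp only [hF', Function.update_eq_self]
    · simp [hF]
  have hibp : ∀ j, ∫ G, G j * F j G ∂gaus I ≤ 2 * (1 + 2 * Db ^ 2) * ∫ G, p j G ∂gaus I := fun j => by
    have hi := ibp_gaus j (hFc j) (hF'c j) (hFb j) (hF'b j) (hd j)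
    have hI := integrable_coord_mul (hFc j) (hFb j) j
    have hpI : Integrable (p j) (gaus I) := integrable_bdd (hpc j) (hp1 j)
    have hle : ∫ G, F' j G ∂gaus I
        ≤ ∫ G, (1 / 2 * (G j * F j G) + (1 + 2 * Db ^ 2) * p j G) ∂gaus I := by
      refine integral_mono (integrable_bdd (hF'c j) (hF'b j))
        ((hI.const_mul _).add (hpI.const_mul _)) fun G => ?_
      have h1 := mul_le_of_le_one_left (hp0 j G) (hφ' (G j)).2
      have h2 : softCut r (G j) * dp j G ≤ |softCut r (G j)| * (2 * Db * p j G) :=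
        (le_abs_self _).trans ((abs_mul _ _).trans_le
          (mul_le_mul_of_nonneg_left (hdpb j G) (abs_nonneg _)))
      have h3 : 2 * Db * |softCut r (G j)| ≤ 1 / 2 * (G j * softCut r (G j)) + 2 * Db ^ 2 := by
        nlinarith [sq_softCut_le r (G j), sq_abs (softCut r (G j)),
          sq_nonneg (|softCut r (G j)| - 2 * Db)]
      have h4 := mul_le_mul_of_nonneg_right h3 (hp0 j G)
      simp only [hF', hF]
      linarith
    rw [integral_add (hI.const_mul _) (hpI.const_mul _), integral_const_mul, integral_const_mul,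
      ← hi] at hle
    linarith
  have hpt : ∀ G : I → ℝ, ∑ x, γ G x * (if r < |G (e x)| then |G (e x)| else 0)
      ≤ √2 / r * ∑ j, G j * F j G := fun G => by
    have e1 : ∑ j, G j * F j G = ∑ x, γ G x * (G (e x) * softCut r (G (e x))) := by
      simp only [hF, hpd, Finset.mul_sum]
      rw [Finset.sum_comm]
      refine Finset.sum_congr rfl fun x _ => ?_
      simp only [mul_ite, mul_one, mul_zero, Finset.sum_ite_eq, Finset.mem_univ, if_true]
      ring
    rw [e1, Finset.mul_sum]
    refine Finset.sum_le_sum fun x _ => ?_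
    rw [mul_left_comm]
    exact mul_le_mul_of_nonneg_left (cut_le_softCut hr _) (gibbs_nonneg (hpos G) x)
  have hR : Integrable (fun G => √2 / r * ∑ j, G j * F j G) (gaus I) :=
    (integrable_finsetSum _ fun j _ => integrable_coord_mul (hFc j) (hFb j) j).const_mul _
  refine (integral_mono_of_nonneg (ae_of_all _ fun G => Finset.sum_nonneg fun x _ =>
    mul_nonneg (gibbs_nonneg (hpos G) x) (by split_ifs <;> positivity)) hR (ae_of_all _ hpt)).trans ?_
  rw [integral_const_mul, integral_finsetSum _ fun j _ => integrable_coord_mul (hFc j) (hFb j) j]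
  have hsum : ∑ j, ∫ G, p j G ∂gaus I = 1 := by
    rw [← integral_finsetSum _ fun j _ => integrable_bdd (hpc j) (hp1 j)]
    have : ∀ G, ∑ j, p j G = 1 := fun G => by
      simp only [hpd, mul_ite, mul_one, mul_zero]
      rw [Finset.sum_comm]
      simp only [Finset.sum_ite_eq, Finset.mem_univ, if_true]
      exact sum_gibbs (hpos G)
    simp [this]
  refine (mul_le_mul_of_nonneg_left (Finset.sum_le_sum fun j _ => hibp j)
    (by positivity)).trans_eq ?_
  rw [← Finset.mul_sum, hsum]
  ring

end Tail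

section Branch

variable {Z L : Type*} {K n : ℕ}

/-- A coordinate of one branch, as a coordinate of the tree at a leaf. -/
def liftC (α : Leaf K n) : Z ⊕ (Option (Node K 1) × L) → Z ⊕ (Option (Node K n) × L)
  | Sum.inl p => Sum.inl p
  | Sum.inr (none, l) => Sum.inr (none, l)
  | Sum.inr (some u, l) => Sum.inr (some (node α u.1), l)

/-- A coordinate of the tree, as a coordinate of one branch. -/
def dropC : Z ⊕ (Option (Node K n) × L) → Z ⊕ (Option (Node K 1) × L)
  | Sum.inl p => Sum.inl p
  | Sum.inr (none, l) => Sum.inr (none, l)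
  | Sum.inr (some u, l) => Sum.inr (some (node (fun _ => 0) u.1), l)

theorem below_self {m : ℕ} (α : Leaf K m) (a : Fin K) : below α (some (node α a)) = 1 := if_pos rfl

theorem abs_below_le {m : ℕ} (α : Leaf K m) (u : Node K m) : |below α (some u)| ≤ 1 := by
  simp only [below]
  split_ifs <;> norm_num

theorem treeDir_lift (v0 : Z → ℝ) (u : Fin (K + 1) → L → ℝ) (α : Leaf K n) (β : Leaf K 1)
    (i : Z ⊕ (Option (Node K 1) × L)) :
    treeDir v0 u α (liftC α i) = treeDir v0 u β i := by
  rcases i with p | ⟨_ | v, l⟩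
  · rfl
  · rfl
  · have hv : node β v.1 = v := by
      obtain ⟨a, f⟩ := v
      exact Sigma.ext rfl (heq_of_eq (Subsingleton.elim _ _))
    show below α (some (node α v.1)) * _ = below β (some v) * _
    rw [below_self]
    simp [below, hv]
    rfl

theorem abs_treeDir_le (v0 : Z → ℝ) (u : Fin (K + 1) → L → ℝ) (α : Leaf K n) (β : Leaf K 1)
    (i : Z ⊕ (Option (Node K n) × L)) :
    |treeDir v0 u α i| ≤ |treeDir v0 u β (dropC i)| := by
  rcases i with p | ⟨_ | v, l⟩
  · exact le_rfl
  · exact le_rfl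
  · show |below α (some v) * _| ≤ |below β (some (node (fun _ => 0) v.1)) * u v.1.succ l|
    have hb : β = fun _ => 0 := funext fun _ => Subsingleton.elim _ _
    rw [hb, below_self, one_mul, abs_mul]
    exact mul_le_of_le_one_left (abs_nonneg _) (abs_below_le α v)

/-- A sum against a direction only sees the branch. -/
theorem sum_branch [Fintype Z] [Fintype L] (v0 : Z → ℝ) (u : Fin (K + 1) → L → ℝ) (α : Leaf K n)
    (β : Leaf K 1) (f : Z ⊕ (Option (Node K n) × L) → ℝ) :
    ∑ i, treeDir v0 u α i * f i = ∑ i, treeDir v0 u β i * f (liftC α i) := by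
  have key : ∀ {m : ℕ} (γ : Leaf K m) (F : Z ⊕ (Option (Node K m) × L) → ℝ),
      ∑ i, treeDir v0 u γ i * F i = (∑ p, v0 p * F (Sum.inl p))
        + ((∑ l, u 0 l * F (Sum.inr (none, l)))
          + ∑ a : Fin K, ∑ l, u a.succ l * F (Sum.inr (some (node γ a), l))) := fun γ F => by
    rw [Fintype.sum_sum_type, Fintype.sum_prod_type]
    refine congrArg₂ (· + ·) rfl ?_
    have h := sum_below γ fun o => ∑ l, u (lev o) l * F (Sum.inr (o, l))
    refine (Finset.sum_congr rfl fun o _ => ?_).trans h
    rw [Finset.mul_sum]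
    exact Finset.sum_congr rfl fun l _ => mul_assoc _ _ _
  rw [key α f, key β fun i => f (liftC α i)]
  rfl

end Branch

end Vale.Agent.P166.Casc
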