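import Vale.Agent.P166.Casc.VPoint
import Vale.Agent.P166.Casc.VTail

/-!
The rotations of fine atoms of the spins: the derivative of the energy against a test of two spins
has a small expectation, uniformly in the size of the tree and in bounded variances.
-/

open MeasureTheory ProbabilityTheory Filter Topology Set

namespace Vale.Agent.P166.Casc

open Vale.Agent.P157.Casc Vale.Agent.P157.Casc.Itp VItp Vale.Agent.P166.Pen Formula

section Lift

variable {N M d R D K n : ℕ}

theorem vpull_lift (c : VCIdx N M d R D K → ℝ) (α : Leaf K n) (q : VGIdx N M d R D K 1) :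
    vpull c (liftC α q) = vpull c q := by
  rcases q with p | ⟨_ | u, l⟩ <;> rfl

/-- A linear field at a leaf as one on a branch. -/
theorem lin_lift (v0 : ZIdx N M → ℝ) (u : Fin (K + 1) → VLIdx N M d R D → ℝ)
    (c : VCIdx N M d R D K → ℝ) (G : VGIdx N M d R D K n → ℝ) (α : Leaf K n) :
    ∑ q, √(vpull c q) * treeDir v0 u α q * G q
      = ∑ q, √(vpull c q) * treeDir v0 u (fun _ => (0 : Fin 1)) q * G (liftC α q) := by
  simp only [mul_comm (√_) (treeDir v0 u _ _), mul_assoc]
  rw [sum_branch v0 u α (fun _ => (0 : Fin 1))]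
  simp only [vpull_lift]

end Lift

section Agree

variable {N M K K' L J nA n : ℕ} {τ B : ℝ} {γ : Fin K → ℝ} {A : Coeffs K nA}
  (P : VPot K) (Φ : VFac N K K') (π : VPrior N K (nker K nA) (N + L + J))
  (c : VCIdx N M K (nker K nA) (N + L + J) K' → ℝ)
  (G : VGIdx N M K (nker K nA) (N + L + J) K' n → ℝ)

/-- A state has the directions of one point. -/
structure AtPt (τ B : ℝ) (γ : Fin K → ℝ) (A : Coeffs K nA) (σ : Fin π.c)
    (ω : Fin K → Fin N → ℝ) (ξ : Fin L) : Prop where
  cfg : π.cfg σ = cfgOf τ γ ω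
  ker : ∀ κ, π.ker κ σ = kerFeat τ B γ J A (kscale τ B γ A ω κ • ω) ξ κ

variable {π} {σ : Fin π.c} {ω : Fin K → Fin N → ℝ} {ξ : Fin L} (h : AtPt π τ B γ A σ ω ξ)
include h

theorem vbpat_pt (α : Leaf K' n) (a : Fin M) (k : Fin K) :
    vbpat π Φ a k (σ, α) = treeDir (rowZ (ptPrior τ B γ J A ω ξ) a k (0 : Fin 1)) (rowL Φ a k) α := by
  funext q
  rcases q with (⟨a', u⟩ | u) | ⟨o, p⟩ <;> simp [vbpat, treeDir, rowZ, ptPrior, h.cfg]

theorem vbspin_pt (α : Leaf K' n) :
    vbspin (M := M) π Φ (σ, α)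
      = treeDir (fun _ => 0) (spinL (ptPrior τ B γ J A ω ξ) Φ (0 : Fin 1)) α := by
  funext q
  rcases q with p | ⟨o, p | p | p⟩ <;> simp [vbspin, treeDir, spinL, ptPrior, h.cfg, h.ker]

theorem vqd_pt (α : Leaf K' n) :
    vqd (M := M) π Φ (σ, α)
      = treeDir (tiltQ (ptPrior τ B γ J A ω ξ) Φ (0 : Fin 1)) (fun _ _ => 0) α := by
  funext q
  rcases q with (p | p) | p <;> simp [vqd, treeDir, tiltQ, ptPrior, h.cfg]

theorem vfld_pt (α : Leaf K' n) (a : Fin M) :
    vfld (vbpat π Φ) (vpull c) G (σ, α) a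
      = vfld (vbpat (ptPrior τ B γ J A ω ξ) Φ) (vpull c) (fun q => G (liftC α q)) (ptSt K') a := by
  funext k
  simp only [vfld, lin, vbpat_pt Φ h α a k]
  exact lin_lift _ _ c G α

theorem vham_pt (α : Leaf K' n) :
    vham P (vbpat π Φ) (vbspin π Φ) (vqd π Φ) (vpull c) G (σ, α)
      = ptHam τ B γ A P Φ c (fun q => G (liftC α q)) ω ξ := by
  simp only [ptHam, vham, lin, vfld_pt Φ c G h α, vbspin_pt Φ h α, vqd_pt Φ h α]
  refine congrArg₂ (· + ·) (congrArg₂ (· - ·) (congrArg₂ (· + ·) rfl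
    (lin_lift _ _ c G α)) (congrArg _ ?_)) ?_
  · have e : ∀ {m : ℕ} (β : Leaf K' m) (q : VGIdx N M K (nker K nA) (N + L + J) K' m),
        vpull c q * treeDir (fun _ => 0) (spinL (ptPrior τ B γ J A ω ξ) Φ (0 : Fin 1)) β q ^ 2
          = treeDir (fun _ => 0) (spinL (ptPrior τ B γ J A ω ξ) Φ (0 : Fin 1)) β q
            * (vpull c q * treeDir (fun _ => 0) (spinL (ptPrior τ B γ J A ω ξ) Φ (0 : Fin 1)) β q) :=
      fun β q => by ring
    refine ((Finset.sum_congr rfl fun q _ => e α q).trans (sum_branch _ _ α (fun _ => (0 : Fin 1)) _)).trans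
      (Finset.sum_congr rfl fun q _ => ?_)
    rw [vpull_lift, treeDir_lift _ _ α (fun _ => (0 : Fin 1))]
    exact (e _ q).symm
  · simp only [mul_comm (vpull c _)]
    rw [sum_branch _ _ α (fun _ => (0 : Fin 1))]
    simp only [vpull_lift]
    rfl

theorem vtan_pt {i j : Fin N} {dk : Fin N → Fin N → Fin (nker K nA) → Fin π.c → Fin (N + L + J) → ℝ}
    (hdk : ∀ κ, dk i j κ σ = dker τ B γ L J A i j ω κ) (α : Leaf K' n) :
    vtan P (vbpat π Φ) (dvbpat π i j) (dvbspin π Φ dk i j) (vpull c) G (σ, α)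
      = ptTan τ B γ A P Φ c (fun q => G (liftC α q)) i j ω ξ := by
  set π' := ptPrior τ B γ J A ω ξ
  have ed : ∀ (a : Fin M) k, dvbpat π i j a k (σ, α)
      = treeDir (drowZ π' i j a k (0 : Fin 1)) (fun _ _ => 0) α := fun a k => by
    funext q
    rcases q with (⟨a', u⟩ | u) | ⟨o, p⟩ <;> simp [dvbpat, treeDir, drowZ, π', ptPrior, h.cfg]
  have ez : dvbspin (M := M) π Φ dk i j (σ, α) = treeDir (fun _ => 0)
      (dspinL π' Φ (fun i j κ _ => dker τ B γ L J A i j ω κ) i j (0 : Fin 1)) α := by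
    funext q
    rcases q with p | ⟨o, p | p | p⟩ <;>
      simp [dvbspin, treeDir, dspinL, π', ptPrior, h.cfg, h.ker, hdk]
  simp only [ptTan, vtan, tdir, vfld_pt Φ c G h α, ed, ez, mul_add, Finset.mul_sum,
    Finset.sum_add_distrib]
  congr 1
  · rw [Finset.sum_comm]
    conv_rhs => rw [Finset.sum_comm]
    refine Finset.sum_congr rfl fun a _ => ?_
    rw [Finset.sum_comm]
    conv_rhs => rw [Finset.sum_comm]
    refine Finset.sum_congr rfl fun k _ => ?_
    set f := P.g k (vfld (vbpat π' Φ) (vpull c) (fun q => G (liftC α q)) (ptSt K') a)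
    refine (Finset.sum_congr rfl fun q _ => show _ = f * (√(vpull c q)
      * treeDir (drowZ π' i j a k (0 : Fin 1)) (fun _ _ => 0) α q * G q) by ring).trans ?_
    rw [← Finset.mul_sum, lin_lift _ _ c G α, Finset.mul_sum]
    exact Finset.sum_congr rfl fun q _ => by simp only [dvbpat, ptSt, π']; ring
  · refine (Finset.sum_congr rfl fun q _ => mul_right_comm _ _ _).trans
      ((lin_lift _ _ c G α).trans (Finset.sum_congr rfl fun q _ => ?_))
    simp only [dvbspin, ptSt, π']
    ring

theorem abs_vdir_pt (α : Leaf K' n) (q : VGIdx N M K (nker K nA) (N + L + J) K' n) :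
    |vdir P (vbpat π Φ) (vbspin π Φ) (vpull c) G (σ, α) q|
      ≤ (∑ a, ∑ k, |P.b1| *
          |vbpat (M := M) (n := 1) (ptPrior τ B γ J A ω ξ) Φ a k (ptSt K') (dropC q)|)
        + |vbspin (M := M) (n := 1) (ptPrior τ B γ J A ω ξ) Φ (ptSt K') (dropC q)| := by
  refine (abs_add_le _ _).trans (add_le_add ?_ ?_)
  · refine (Finset.abs_sum_le_sum_abs _ _).trans (Finset.sum_le_sum fun a _ =>
      (Finset.abs_sum_le_sum_abs _ _).trans (Finset.sum_le_sum fun k _ => ?_))
    rw [abs_mul, vbpat_pt Φ h α a k]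
    exact mul_le_mul ((P.h1 _ _).trans (le_abs_self _)) (abs_treeDir_le _ _ α _ q) (abs_nonneg _)
      (abs_nonneg _)
  · rw [vbspin_pt Φ h α]
    exact abs_treeDir_le _ _ α _ q

end Agree

section Bound

variable {N K K' L nA : ℕ} (τ B : ℝ) (γ : Fin K → ℝ) (A : Coeffs K nA) (P : VPot K)
  (Φ : VFac N K K')

/-- Size of the directions and of the velocities of one point at one coordinate. -/
noncomputable def ptCoord (M J : ℕ) (i j : Fin N) (ω : Fin K → Fin N → ℝ) (ξ : Fin L)
    (q : VGIdx N M K (nker K nA) (N + L + J) K' 1) : ℝ :=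
  ((∑ a, ∑ k, |P.b1| * |vbpat (ptPrior τ B γ J A ω ξ) Φ a k (ptSt K') q|)
      + |vbspin (ptPrior τ B γ J A ω ξ) Φ (ptSt K') q|)
    + ((∑ a, ∑ k, |P.b1| * |dvbpat (ptPrior τ B γ J A ω ξ) i j a k (ptSt K') q|)
      + |dvbspin (ptPrior τ B γ J A ω ξ) Φ (fun i j κ _ => dker τ B γ L J A i j ω κ) i j (ptSt K') q|)

/-- Bound on the directions and velocities of one point. -/
noncomputable def ptSize (M J : ℕ) (i j : Fin N) (ω : Fin K → Fin N → ℝ) (ξ : Fin L) : ℝ :=
  ∑ q, ptCoord τ B γ A P Φ M J i j ω ξ q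

theorem ptCoord_nonneg (M J : ℕ) (i j : Fin N) (ω : Fin K → Fin N → ℝ) (ξ : Fin L)
    (q : VGIdx N M K (nker K nA) (N + L + J) K' 1) : 0 ≤ ptCoord τ B γ A P Φ M J i j ω ξ q := by
  unfold ptCoord; positivity

theorem continuous_ptSize (M J : ℕ) (i j : Fin N) (ξ : Fin L) :
    Continuous fun ω => ptSize τ B γ A P Φ M J i j ω ξ := by
  have hd := fun q : VGIdx N M K (nker K nA) (N + L + J) K' 1 =>
    cont_pt_dirs (M := M) (J := J) τ B γ A Φ ξ i j (ptSt K') q
  refine continuous_finsetSum _ fun q _ => (Continuous.add ?_ (hd q).2.1.abs).add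
    (Continuous.add ?_ (hd q).2.2.2.2.abs) <;>
    refine continuous_finsetSum _ fun a _ => continuous_finsetSum _ fun k _ =>
      Continuous.const_mul ?_ _
  · exact ((hd q).1 a k).abs
  · exact ((hd q).2.2.2.1 a k).abs

theorem abs_ptTan_le {M J : ℕ} (c : VCIdx N M K (nker K nA) (N + L + J) K' → ℝ)
    (g : VGIdx N M K (nker K nA) (N + L + J) K' 1 → ℝ) {Cb : ℝ} (hc : ∀ q, c q ∈ Icc 0 Cb)
    (i j : Fin N) (ω : Fin K → Fin N → ℝ) (ξ : Fin L) :
    |ptTan τ B γ A P Φ c g i j ω ξ| ≤ √Cb * ptSize τ B γ A P Φ M J i j ω ξ * ∑ q, |g q| := by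
  rw [Finset.mul_sum]
  refine (Finset.abs_sum_le_sum_abs _ _).trans (Finset.sum_le_sum fun q _ => ?_)
  rw [abs_mul, abs_mul, abs_of_nonneg (Real.sqrt_nonneg _), mul_right_comm]
  have hq : vpull c q ≤ Cb := by rcases q with p | ⟨o, p⟩ <;> exact (hc _).2
  refine mul_le_mul_of_nonneg_right (mul_le_mul (Real.sqrt_le_sqrt hq) ?_ (abs_nonneg _)
    (Real.sqrt_nonneg _)) (abs_nonneg _)
  refine le_trans ?_ (Finset.single_le_sum (fun q _ => ptCoord_nonneg τ B γ A P Φ M J i j ω ξ q)
    (Finset.mem_univ q))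
  refine le_add_of_nonneg_of_le (by positivity) ((abs_add_le _ _).trans (add_le_add ?_ le_rfl))
  refine (Finset.abs_sum_le_sum_abs _ _).trans (Finset.sum_le_sum fun a _ =>
    (Finset.abs_sum_le_sum_abs _ _).trans (Finset.sum_le_sum fun k _ => ?_))
  rw [abs_mul]
  exact mul_le_mul_of_nonneg_right ((P.h1 _ _).trans (le_abs_self _)) (abs_nonneg _)

end Bound

section Defect

variable {N M K K' L J nA : ℕ} {τ B lam : ℝ} {γ : Fin K → ℝ}

/-- Velocities of the kernel vectors of the atoms. -/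
noncomputable def dkAtom {ν : Measure (Fin K → Fin N → ℝ)} {ε : ℝ} (hτ : 0 ≤ τ) (A : Coeffs K nA)
    (a : Atoms ν (cutSet B K N) ε) (hL : 0 < L) (J : ℕ) :
    Fin N → Fin N → Fin (nker K nA) → Fin (penPrior (γ := γ) hτ A a hL J).c →
      Fin (N + L + J) → ℝ :=
  fun i j κ σ => dker τ B γ L J A i j (a.x (finProdFinEquiv.symm σ).1) κ

/-- The expected derivative along a rotation of fine atoms is small, whatever the tree. -/
theorem rot_defect (hτ : 0 ≤ τ) (hlam : 0 ≤ lam) (d : OIdx K → ℝ) (A : Coeffs K nA)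
    (hL : 0 < L) (P : VPot K) (Φ : VFac N K K') (Cb : ℝ) {i j : Fin N} (hij : i ≠ j)
    (ht : typ γ i = typ γ j) {Q Q' : (Fin N → Fin K → ℝ) → (Fin N → Fin K → ℝ) → ℝ}
    (hQc : Continuous fun p : (Fin N → Fin K → ℝ) × (Fin N → Fin K → ℝ) => Q p.1 p.2)
    (hQ'c : Continuous fun p : (Fin N → Fin K → ℝ) × (Fin N → Fin K → ℝ) => Q' p.1 p.2)
    (hQ : ∀ y x, HasDerivAt (fun s => Q y fun u k => prot i j s (fun u => x u k) u) (Q' y x) 0) :
    ∀ η > 0, ∃ δ > 0, ∀ {ε : ℝ} (a : Atoms (spinMeas τ γ B lam d N) (cutSet B K N) ε), ε ≤ δ →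
      ∀ (n : ℕ), 0 < n → ∀ W : Node K' n → ℝ, (∀ u, 0 < W u) →
      ∀ c : VCIdx N M K (nker K nA) (N + L + J) K' → ℝ, (∀ q, c q ∈ Icc 0 Cb) →
      (∀ u, c (Sum.inl (Sum.inr u)) = 0) →
      ∀ (S : Finset (Fin N)) (θ : ℝ) (pF : Fin (K' + 1) → Fin K → Fin K → ℝ)
        (e : Fin (K' + 1) → Fin (nker K nA) → (p : Fin (N + L + J)) → Fin (p.val + 2) → ℝ),
      TypeVar Φ c S θ pF e → i ∈ S → j ∈ S →
      ∀ φ : Fin (K' + 1) → ℝ, (∀ l, |φ l| ≤ 1) →
      |vpair P (vstw (penPrior (γ := γ) hτ A a hL J) W) (vbpat (penPrior (γ := γ) hτ A a hL J) Φ)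
        (vbspin (penPrior (γ := γ) hτ A a hL J) Φ) (vqd (penPrior (γ := γ) hτ A a hL J) Φ) (vpull c)
        (fun G x y => φ (vlev (penPrior (γ := γ) hτ A a hL J) x y) *
          (Q ((penPrior (γ := γ) hτ A a hL J).cfg y.1) ((penPrior (γ := γ) hτ A a hL J).cfg x.1) *
            vtan P (vbpat (penPrior (γ := γ) hτ A a hL J) Φ)
              (dvbpat (penPrior (γ := γ) hτ A a hL J) i j)
              (dvbspin (penPrior (γ := γ) hτ A a hL J) Φ (dkAtom hτ A a hL J) i j) (vpull c) G x
            + Q' ((penPrior (γ := γ) hτ A a hL J).cfg y.1)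
              ((penPrior (γ := γ) hτ A a hL J).cfg x.1)))| ≤ η := by
  intro η hη
  set cut := cutSet B K N
  have hcut : IsCompact cut := isCompact_cut B K N
  set ν := spinMeas τ γ B lam d N with hν
  have : IsFiniteMeasure ν := spinMeas_finite hlam d
  have hcfg : Continuous fun ω : Fin K → Fin N → ℝ => cfgOf τ γ ω :=
    continuous_pi fun u => continuous_pi fun k => cont_pt_cfg τ γ u k
  set Y := (fun ω => cfgOf τ γ ω) '' cut with hY
  have hYc : IsCompact Y := hcut.image hcfg
  obtain ⟨Cq, hCq⟩ := (hYc.prod hYc).exists_bound_of_continuousOn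
    (hQc.prodMk hQ'c).continuousOn
  obtain ⟨Cd, hCd⟩ := hcut.exists_bound_of_continuousOn
    (continuous_pi fun ξ : Fin L =>
      continuous_ptSize τ B γ A P Φ M J i j ξ).continuousOn
  have hCd' : ∀ ω ∈ cut, ∀ ξ : Fin L, ptSize τ B γ A P Φ M J i j ω ξ ≤ Cd := fun ω hω ξ =>
    (le_abs_self _).trans ((norm_le_pi_norm _ ξ).trans (hCd ω hω))
  set Cf := |Cq| * (1 + √Cb * |Cd|) with hCf
  set q0 := (Fintype.card (VGIdx N M K (nker K nA) (N + L + J) K' 1) : ℝ) with hq0
  set Db := √Cb * |Cd|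
  obtain ⟨r, hr1, hrb⟩ : ∃ r : ℝ, 1 ≤ r ∧
      Cf * (1 + q0) * (q0 * (2 * √2 * (1 + 2 * Db ^ 2))) / r ≤ η / 2 := by
    refine ⟨max 1 (2 * (Cf * (1 + q0) * (q0 * (2 * √2 * (1 + 2 * Db ^ 2)))) / η), le_max_left _ _,
      ?_⟩
    rw [div_le_iff₀ (lt_max_of_lt_left one_pos)]
    refine le_trans (le_of_eq ?_) (mul_le_mul_of_nonneg_left (le_max_right _ _) (half_pos hη).le)
    field_simp
  set box := (Set.univ.pi fun _ : VCIdx N M K (nker K nA) (N + L + J) K' => Icc (0 : ℝ) Cb) ×ˢ
    ((Set.univ.pi fun _ : VGIdx N M K (nker K nA) (N + L + J) K' 1 => Icc (-r) r) ×ˢ cut) with hbox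
  have hboxc : IsCompact box :=
    (isCompact_univ_pi fun _ => isCompact_Icc).prod ((isCompact_univ_pi fun _ => isCompact_Icc).prod hcut)
  have hH := fun ξ : Fin L => continuous_ptHam (τ := τ) (B := B) (γ := γ) (A := A) (P := P) (Φ := Φ)
    (M := M) (J := J) ξ
  obtain ⟨CH, hCH⟩ := hboxc.exists_bound_of_continuousOn (continuous_pi hH).continuousOn
  set hf := fun (p : PtPar N M K K' L J nA × (Fin N → Fin K → ℝ)) (ξ : Fin L) =>
    Real.exp (ptHam τ B γ A P Φ p.1.1 p.1.2.1 p.1.2.2 ξ) *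
      (ptTan τ B γ A P Φ p.1.1 p.1.2.1 i j p.1.2.2 ξ * Q p.2 (cfgOf τ γ p.1.2.2)
        + Q' p.2 (cfgOf τ γ p.1.2.2)) with hhf
  have hfc : Continuous hf := continuous_pi fun ξ => by
    have hw : Continuous fun p : PtPar N M K K' L J nA × (Fin N → Fin K → ℝ) =>
        (p.2, cfgOf τ γ p.1.2.2) := continuous_snd.prodMk (hcfg.comp (by fun_prop))
    exact (Real.continuous_exp.comp ((hH ξ).comp continuous_fst)).mul
      ((((continuous_ptTan (τ := τ) (B := B) (γ := γ) (A := A) (P := P) (Φ := Φ) (M := M) (J := J)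
        ξ i j).comp continuous_fst).mul (hQc.comp hw)).add (hQ'c.comp hw))
  have huc := (hboxc.prod hYc).uniformContinuousOn_of_continuous hfc.continuousOn
  obtain ⟨δ, hδ, hδ'⟩ := Metric.uniformContinuousOn_iff_le.1 huc (η / 2 * Real.exp (-|CH|))
    (mul_pos (half_pos hη) (Real.exp_pos _))
  refine ⟨δ, hδ, fun {ε} a hε n hn W hW c hc hc0 S θ pF e hT hi hj φ hφ => ?_⟩
  set π := penPrior (γ := γ) hτ A a hL J with hπ
  have : Nonempty (Fin π.c) := ⟨⟨0, π.c_pos⟩⟩
  have : Nonempty (Leaf K' n) := ⟨fun _ => ⟨0, hn⟩⟩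
  set pt := fun σ : Fin π.c => a.x (finProdFinEquiv.symm σ).1
  set lab := fun σ : Fin π.c => (finProdFinEquiv.symm σ).2
  have hat : ∀ σ, AtPt π τ B γ A σ (pt σ) (lab σ) := fun σ => by
    refine ⟨rfl, fun κ => ?_⟩
    rw [kerFeat_scale hτ A (a.mem _), one_smul]
    rfl
  have hmem : ∀ σ, cfgOf τ γ (pt σ) ∈ Y := fun σ => ⟨_, a.mem _, rfl⟩
  have hlamnn : ∀ q : VGIdx N M K (nker K nA) (N + L + J) K' n, vpull c q ∈ Icc 0 Cb := fun q => by
    rcases q with p | ⟨o, p⟩ <;> exact hc _
  have hw : ∀ st, 0 < vstw π W st := fun st => mul_pos (π.w_pos _) (P157.Casc.wgt_pos _ hW _)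
  set u := fun G => vbw P (vstw π W) (vbpat π Φ) (vbspin π Φ) (vqd π Φ) (vpull c) G with hu
  have hpos := fun G => vbw_pos P (vbpat π Φ) (vbspin π Φ) (vqd π Φ) hw (vpull c) G
  set bad := fun (G : VGIdx N M K (nker K nA) (N + L + J) K' n → ℝ)
      (p : VGIdx N M K (nker K nA) (N + L + J) K' 1) (x : VState π K' n) =>
    if r < |G (liftC x.2 p)| then |G (liftC x.2 p)| else 0 with hbad
  have hbad0 : ∀ G p x, 0 ≤ bad G p x := fun G p x => by
    simp only [hbad]; split_ifs <;> positivity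
  set F := fun (G : VGIdx N M K (nker K nA) (N + L + J) K' n → ℝ) (x y : VState π K' n) =>
    φ (vlev π x y) * (Q (π.cfg y.1) (π.cfg x.1) *
      vtan P (vbpat π Φ) (dvbpat π i j) (dvbspin π Φ (dkAtom hτ A a hL J) i j) (vpull c) G x
      + Q' (π.cfg y.1) (π.cfg x.1)) with hF
  have hCf0 : 0 ≤ Cf := by positivity
  have hpt : ∀ G, |avg2 (u G) (F G)| ≤ η / 2
      + Cf * (1 + q0) * ∑ p, ∑ x, gibbs (u G) x * bad G p x := fun G => by
    set tb := fun x => ∑ p, bad G p x with htb
    have hy : ∀ y, |∑ x, gibbs (u G) x * F G x y| ≤ η / 2 + Cf * (1 + q0) * ∑ p, ∑ x, gibbs (u G) x * bad G p x :=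
      fun y => by
      have hY0 : cfgOf τ γ (pt y.1) ∈ Y := hmem _
      have hα : ∀ α, |∑ σ, u G (σ, α) * F G (σ, α) y|
          ≤ ∑ σ, u G (σ, α) * (η / 2 + Cf * (1 + q0) * tb (σ, α)) := fun α => by
        set g := fun q => G (liftC α q)
        have hF' : ∀ σ, F G (σ, α) y = φ (com α y.2) *
            (ptTan τ B γ A P Φ c g i j (pt σ) (lab σ) * Q (cfgOf τ γ (pt y.1)) (cfgOf τ γ (pt σ))
              + Q' (cfgOf τ γ (pt y.1)) (cfgOf τ γ (pt σ))) := fun σ => by
          simp only [hF, vlev, vtan_pt P Φ c G (hat σ) (dk := dkAtom hτ A a hL J) (fun κ => rfl) α,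
            (hat σ).cfg, (hat y.1).cfg]
          ring
        by_cases hg : ∀ q, |g q| ≤ r
        · set s := ∑ ξ : Fin L, ∑ τ' : Fin a.c, a.w τ' * hf ((c, g, a.x τ'), cfgOf τ γ (pt y.1)) ξ
          have hsum : ∀ Z : Fin L → (Fin K → Fin N → ℝ) → ℝ, ∑ σ, π.w σ * Z (lab σ) (pt σ)
              = (1 / (L : ℝ)) * ∑ ξ, ∑ τ', a.w τ' * Z ξ (a.x τ') := fun Z => by
            show ∑ σ : Fin (a.c * L), _ = _
            rw [← finProdFinEquiv.sum_comp, Fintype.sum_prod_type, Finset.sum_comm, Finset.mul_sum]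
            refine Finset.sum_congr rfl fun ξ _ => ?_
            rw [Finset.mul_sum]
            refine Finset.sum_congr rfl fun τ' _ => ?_
            rw [show π.w (finProdFinEquiv (τ', ξ)) = a.w τ' / L by simp [π, penPrior]]
            simp only [pt, lab, Equiv.symm_apply_apply]
            ring
          have hu' : ∀ σ, u G (σ, α) = P157.Casc.wgt (mlev K') W α *
              (π.w σ * Real.exp (ptHam τ B γ A P Φ c g (pt σ) (lab σ))) := fun σ => by
            simp only [hu, vbw, vstw, vham_pt P Φ c G (hat σ) α, g]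
            ring
          have e1 : ∑ σ, u G (σ, α) * F G (σ, α) y
              = P157.Casc.wgt (mlev K') W α * φ (com α y.2) * ((1 / (L : ℝ)) * s) := by
            rw [show s = ∑ ξ, ∑ τ', a.w τ' * hf ((c, g, a.x τ'), cfgOf τ γ (pt y.1)) ξ from rfl,
              ← hsum fun ξ ω => hf ((c, g, ω), cfgOf τ γ (pt y.1)) ξ, Finset.mul_sum]
            exact Finset.sum_congr rfl fun σ _ => by rw [hu', hF']; simp only [hhf]; ring
          have hm : ∑ τ', a.w τ' = ν.real Set.univ := by simpa using a.repr fun _ => 1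
          have hs : ∀ ξ : Fin L, |∑ τ', a.w τ' * hf ((c, g, a.x τ'), cfgOf τ γ (pt y.1)) ξ|
              ≤ η / 2 * Real.exp (-|CH|) * ν.real Set.univ := fun ξ => by
            have hc1 : Continuous fun ω => hf ((c, g, ω), cfgOf τ γ (pt y.1)) ξ :=
              (continuous_apply ξ).comp (hfc.comp (by fun_prop))
            have hz : ∫ ω, hf ((c, g, ω), cfgOf τ γ (pt y.1)) ξ ∂ν = 0 :=
              integral_pt_zero (τ := τ) (B := B) (A := A) (P := P) c g hT hc0 hi hj hij ht hlam d
                (Q := Q (cfgOf τ γ (pt y.1))) (Q' := Q' (cfgOf τ γ (pt y.1)))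
                (hQc.comp (continuous_const.prodMk continuous_id))
                (hQ'c.comp (continuous_const.prodMk continuous_id)) (hQ _) ξ
            obtain ⟨C1, hC1⟩ := hcut.exists_bound_of_continuousOn hc1.continuousOn
            have hb := a.defect (ae_mem_cut d) hc1.measurable
              ((integrable_const C1).mono' hc1.aestronglyMeasurable
                (by filter_upwards [ae_mem_cut d] with ω hω using hC1 ω hω))
              (η := η / 2 * Real.exp (-|CH|)) fun x hx z hz' hd => by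
              have hin : ∀ w ∈ cut, ((c, g, w), cfgOf τ γ (pt y.1)) ∈ box ×ˢ Y := fun w hw =>
                ⟨⟨fun q _ => hc q, fun q _ => abs_le.1 (hg q), hw⟩, hY0⟩
              have hdist := hδ' _ (hin x hx) _ (hin z hz') (by
                simp only [Prod.dist_eq, dist_self, max_le_iff]
                exact ⟨⟨hδ.le, hδ.le, hd.trans hε⟩, hδ.le⟩)
              exact ((dist_le_pi_dist _ _ ξ).trans hdist)
            rwa [hz, sub_zero] at hb
          have hlow : P157.Casc.wgt (mlev K') W α * (Real.exp (-|CH|) * ν.real Set.univ) ≤ ∑ σ, u G (σ, α) := by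
            simp only [hu', ← Finset.mul_sum]
            refine mul_le_mul_of_nonneg_left ?_ (P157.Casc.wgt_pos _ hW _).le
            rw [hsum fun ξ ω => Real.exp (ptHam τ B γ A P Φ c g ω ξ)]
            refine le_trans (le_of_eq ?_) (mul_le_mul_of_nonneg_left (Finset.sum_le_sum
              (f := fun _ => ∑ τ', a.w τ' * Real.exp (-|CH|)) fun ξ _ =>
              Finset.sum_le_sum fun τ' _ => mul_le_mul_of_nonneg_left (Real.exp_le_exp.2 ?_)
                (a.w_pos τ').le) (by positivity))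
            · rw [Finset.sum_const, Finset.card_univ, Fintype.card_fin, nsmul_eq_mul, ← Finset.sum_mul,
                hm, ← mul_assoc (1 / (L : ℝ)), one_div_mul_cancel (Nat.cast_pos.2 hL).ne']
              ring
            · have hb := (norm_le_pi_norm _ ξ).trans (hCH (c, g, a.x τ')
                ⟨fun q _ => hc q, fun q _ => abs_le.1 (hg q), a.mem τ'⟩)
              exact (abs_le.1 (hb.trans (le_abs_self CH))).1
          have hw0 := (P157.Casc.wgt_pos (mlev K') hW α).le
          calc |∑ σ, u G (σ, α) * F G (σ, α) y|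
              ≤ P157.Casc.wgt (mlev K') W α * (η / 2 * Real.exp (-|CH|) * ν.real Set.univ) := by
                rw [e1, abs_mul, abs_mul, abs_of_nonneg hw0, mul_assoc]
                refine mul_le_mul_of_nonneg_left ((mul_le_of_le_one_left (abs_nonneg _) (hφ _)).trans ?_) hw0
                rw [abs_mul, abs_of_nonneg (show (0 : ℝ) ≤ 1 / L by positivity)]
                refine (mul_le_mul_of_nonneg_left ((Finset.abs_sum_le_sum_abs _ _).trans
                  (Finset.sum_le_sum fun ξ _ => hs ξ)) (by positivity)).trans_eq ?_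
                rw [Finset.sum_const, Finset.card_univ, Fintype.card_fin, nsmul_eq_mul, ← mul_assoc,
                  one_div_mul_cancel (Nat.cast_pos.2 hL).ne', one_mul]
            _ ≤ η / 2 * ∑ σ, u G (σ, α) := by
                refine le_trans (le_of_eq ?_) (mul_le_mul_of_nonneg_left hlow (half_pos hη).le)
                ring
            _ ≤ _ := by
                rw [Finset.mul_sum]
                refine Finset.sum_le_sum fun σ _ => ?_
                rw [mul_comm]
                exact mul_le_mul_of_nonneg_left (le_add_of_nonneg_right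
                  (mul_nonneg (mul_nonneg hCf0 (by positivity))
                    (Finset.sum_nonneg fun p _ => hbad0 G p _))) (hpos G _).le
        · push Not at hg
          obtain ⟨p0, hp0⟩ := hg
          refine (Finset.abs_sum_le_sum_abs _ _).trans (Finset.sum_le_sum fun σ _ => ?_)
          rw [abs_mul, abs_of_pos (hpos G _)]
          refine mul_le_mul_of_nonneg_left (le_add_of_nonneg_of_le (half_pos hη).le ?_) (hpos G _).le
          set Sb := tb (σ, α)
          have hge : ∀ q, r < |g q| → |g q| ≤ Sb := fun q hq =>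
            le_of_eq_of_le (by simp [hbad, g, hq]) (Finset.single_le_sum
              (f := fun p => bad G p (σ, α)) (fun p _ => hbad0 G p _) (Finset.mem_univ q))
          have hSr : r ≤ Sb := hp0.le.trans (hge p0 hp0)
          have hle : ∀ q, |g q| ≤ Sb := fun q =>
            (le_or_gt |g q| r).elim (fun h => h.trans hSr) (hge q)
          have hq := hCq (cfgOf τ γ (pt y.1), cfgOf τ γ (pt σ)) ⟨hY0, hmem σ⟩
          rw [Prod.norm_def, max_le_iff] at hq
          simp only [Real.norm_eq_abs] at hq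
          rw [hF', abs_mul]
          refine (mul_le_of_le_one_left (abs_nonneg _) (hφ _)).trans ((abs_add_le _ _).trans
            ((add_le_add ?_ (hq.2.trans (le_abs_self _))).trans
              (?_ : √Cb * |Cd| * (q0 * Sb) * |Cq| + |Cq| ≤ _)))
          · rw [abs_mul]
            refine mul_le_mul ((abs_ptTan_le τ B γ A P Φ c g hc i j (pt σ) (lab σ)).trans ?_)
              (hq.1.trans (le_abs_self _)) (abs_nonneg _)
              (mul_nonneg (mul_nonneg (Real.sqrt_nonneg Cb) (abs_nonneg Cd))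
                (mul_nonneg (Nat.cast_nonneg _) ((zero_le_one.trans hr1).trans hSr)))
            refine mul_le_mul (mul_le_mul_of_nonneg_left
              ((hCd' _ (a.mem _) _).trans (le_abs_self _)) (Real.sqrt_nonneg _))
              ((Finset.sum_le_sum fun q _ => hle q).trans_eq ?_)
              (Finset.sum_nonneg fun q _ => abs_nonneg _) (by positivity)
            rw [Finset.sum_const, Finset.card_univ, nsmul_eq_mul]
          · have : (0 : ℝ) ≤ q0 := by positivity
            have h1 : 1 ≤ Sb := hr1.trans hSr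
            simp only [hCf]
            nlinarith [mul_nonneg (mul_nonneg (abs_nonneg Cq) this) (show 0 ≤ Sb by linarith),
              mul_nonneg (mul_nonneg (abs_nonneg Cq) (mul_nonneg (Real.sqrt_nonneg Cb)
                (abs_nonneg Cd))) (show 0 ≤ Sb by linarith), mul_le_mul_of_nonneg_left h1
                (abs_nonneg Cq)]
      have hZ : 0 < ∑ x, u G x := Finset.sum_pos (fun x _ => hpos G x) Finset.univ_nonempty
      simp only [gibbs, div_mul_eq_mul_div, ← Finset.sum_div]
      rw [abs_div, abs_of_pos hZ, div_le_iff₀ hZ, add_mul, mul_assoc (Cf * (1 + q0)),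
        div_mul_cancel₀ _ hZ.ne', Finset.mul_sum (s := (Finset.univ : Finset (VState π K' n)))]
      simp only [Fintype.sum_prod_type]
      rw [Finset.sum_comm]
      refine (Finset.abs_sum_le_sum_abs _ _).trans ((Finset.sum_le_sum fun α _ => hα α).trans_eq ?_)
      simp only [mul_add, Finset.sum_add_distrib, htb, Finset.mul_sum]
      rw [Finset.sum_comm]
      congr 1
      · exact Finset.sum_congr rfl fun σ _ => Finset.sum_congr rfl fun α _ => mul_comm _ _
      · rw [Finset.sum_comm, Finset.sum_congr rfl fun σ _ => Finset.sum_comm, Finset.sum_comm]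
        exact Finset.sum_congr rfl fun p _ => Finset.sum_congr rfl fun σ _ =>
          Finset.sum_congr rfl fun α _ => by ring
    rw [avg2]
    refine le_trans (le_of_eq ?_) (Itp.abs_mean_le (hpos G) (F := fun y => ∑ x, gibbs (u G) x * F G x y) hy)
    rw [Finset.sum_comm]
    congr 1
    refine Finset.sum_congr rfl fun y _ => ?_
    rw [Finset.mul_sum]
    exact Finset.sum_congr rfl fun x _ => by ring
  have htail : ∀ p, Integrable (fun G => ∑ x, gibbs (u G) x * bad G p x) (gaus _) ∧
      ∫ G, ∑ x, gibbs (u G) x * bad G p x ∂gaus _ ≤ 2 * √2 * (1 + 2 * Db ^ 2) / r := fun p => by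
    refine ⟨?_, tail_le P (vbpat π Φ) (vbspin π Φ) (vqd π Φ) hw (vpull c) (fun x => liftC x.2 p)
      (fun G x q => ?_) (zero_lt_one.trans_le hr1)⟩
    · refine (integrable_finsetSum (μ := gaus (VGIdx N M K (nker K nA) (N + L + J) K' n))
        (Finset.univ : Finset (VState π K' n))
        (f := fun x G => |G (liftC x.2 p)|) fun x _ =>
          (P157.Casc.Itp.integrable_coord _).abs).mono' ?_ (ae_of_all _ fun G => ?_)
      · refine (Finset.measurable_sum _ fun x _ =>
          (cont_vgibbs P _ _ _ hw (vpull c) x).measurable.mul ?_).aestronglyMeasurable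
        exact Measurable.ite (measurableSet_lt measurable_const (by fun_prop)) (by fun_prop)
          measurable_const
      · rw [Real.norm_eq_abs, abs_of_nonneg (Finset.sum_nonneg fun x _ =>
          mul_nonneg (gibbs_nonneg (hpos G) x) (hbad0 G p x))]
        refine Finset.sum_le_sum fun x _ => ?_
        refine (mul_le_of_le_one_left (hbad0 G p x) ((Finset.single_le_sum
          (fun y _ => gibbs_nonneg (hpos G) y) (Finset.mem_univ x)).trans_eq (sum_gibbs (hpos G)))).trans ?_
        simp only [hbad]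
        split_ifs <;> simp
    · rw [abs_mul, abs_of_nonneg (Real.sqrt_nonneg _)]
      exact mul_le_mul (Real.sqrt_le_sqrt (hlamnn q).2) ((abs_vdir_pt P Φ c G (hat x.1) x.2 q).trans
        (((le_add_of_nonneg_right (by positivity)).trans (Finset.single_le_sum
          (fun q' _ => ptCoord_nonneg τ B γ A P Φ M J i j (pt x.1) (lab x.1) q')
          (Finset.mem_univ (dropC q)))).trans ((hCd' _ (a.mem _) _).trans (le_abs_self _))))
        (abs_nonneg _) (Real.sqrt_nonneg _)
  refine (abs_integral_le_integral_abs).trans ((integral_mono_of_nonneg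
    (ae_of_all _ fun G => abs_nonneg _) ((integrable_const (η / 2)).add
      ((integrable_finsetSum _ fun p _ => (htail p).1).const_mul (Cf * (1 + q0))))
    (ae_of_all _ hpt)).trans ?_)
  simp only [Pi.add_apply]
  rw [integral_add (integrable_const _)
      ((integrable_finsetSum _ fun p _ => (htail p).1).const_mul _), integral_const,
    probReal_univ, one_smul, integral_const_mul, integral_finsetSum _ fun p _ => (htail p).1]
  refine (add_le_add le_rfl ((mul_le_mul_of_nonneg_left (Finset.sum_le_sum fun p _ => (htail p).2)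
    (mul_nonneg hCf0 (by positivity))).trans (le_of_eq_of_le ?_ hrb))).trans_eq (add_halves η)
  rw [Finset.sum_const, Finset.card_univ, nsmul_eq_mul, hq0]
  ring

end Defect

end Vale.Agent.P166.Casc
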