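import Vale.Agent.P166.Casc.VSegment

/-!
A priori bound on a statistic penalised in the weights: with the penalty at strength `κ`, the mean
of the statistic is at most the logarithm of the gain of removing the penalty, over `κ`.
-/

open MeasureTheory ProbabilityTheory Filter Topology Set

namespace Vale.Agent.P166.Casc

open Vale.Agent.P157.Casc Vale.Agent.P157.Casc.Itp

section Sys

variable {T I : Type*} [Fintype T] [Fintype I] {M d : ℕ}

/-- Exponential moment of a linear form of independent standard Gaussian coordinates. -/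
theorem exp_lin_gaus (a : I → ℝ) :
    Integrable (fun G => Real.exp (∑ i, a i * G i)) (gaus I) ∧
    ∫ G, Real.exp (∑ i, a i * G i) ∂gaus I = Real.exp (∑ i, a i ^ 2 / 2) := by
  have h1 : ∀ i, ∫ z, Real.exp (a i * z) ∂gaussianReal 0 1 = Real.exp (a i ^ 2 / 2) := fun i => by
    have h := congrFun (mgf_id_gaussianReal (μ := 0) (v := 1)) (a i)
    simpa [mgf] using h
  have e : (fun G : I → ℝ => Real.exp (∑ i, a i * G i)) = fun G => ∏ i, Real.exp (a i * G i) :=
    funext fun G => Real.exp_sum _ _
  rw [e]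
  refine ⟨Integrable.fintype_prod fun i => integrable_exp_mul_gaussianReal _, ?_⟩
  rw [gaus, integral_fintype_prod_eq_prod (𝕜 := ℝ) fun i z => Real.exp (a i * z),
    Finset.prod_congr rfl fun i _ => h1 i, Real.exp_sum]

variable [Nonempty T] (P : VPot d) {w : T → ℝ} (b : Fin M → Fin d → T → I → ℝ)
  (bz qd : T → I → ℝ) (hw : ∀ x, 0 < w x) {lam : I → ℝ}
include hw

/-- The expected free energy is at most the logarithm of the mass, up to the rows. -/
theorem vfree_le_mass (hlam : ∀ i, 0 ≤ lam i) (hq : ∀ x, ∑ i, lam i * qd x i = 0) :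
    vfree P w b bz qd lam ≤ Real.log (∑ x, w x) + M * P.bF := by
  set a := fun (x : T) (i : I) => √(lam i) * bz x i
  set c := fun x => w x * Real.exp (M * P.bF - 1 / 2 * ∑ i, lam i * bz x i ^ 2)
  set S := fun G : I → ℝ => ∑ x, vbw P w b bz qd lam G x
  set Q := (∑ x, w x) * Real.exp (M * P.bF)
  have hS : ∀ G, 0 < S G := fun G => sum_u_pos (VItp.vbw_pos P b bz qd hw lam G)
  have hQ : 0 < Q := mul_pos (sum_u_pos hw) (Real.exp_pos _)
  have hSc : Continuous S := by
    refine continuous_finsetSum _ fun x _ => ?_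
    have := (VItp.cont_vham P b bz qd x).comp' (continuous_const (y := lam).prodMk continuous_id)
    simp only [id_eq] at this
    unfold vbw; fun_prop
  have hle : ∀ G, S G ≤ ∑ x, c x * Real.exp (∑ i, a x i * G i) := fun G => by
    refine Finset.sum_le_sum fun x _ => ?_
    simp only [vbw, c, mul_assoc, ← Real.exp_add]
    refine mul_le_mul_of_nonneg_left (Real.exp_le_exp.2 ?_) (hw x).le
    have h1 : ∑ a, P.f (vfld b lam G x a) ≤ M * P.bF :=
      ((Finset.sum_le_sum fun a _ => le_of_abs_le (P.hF _)).trans_eq (by simp))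
    have h2 : lin bz lam G x = ∑ i, a x i * G i := rfl
    simp only [vham, hq x, h2]
    linarith
  have hdom : Integrable (fun G => ∑ x, c x * Real.exp (∑ i, a x i * G i)) (gaus I) :=
    integrable_finsetSum _ fun x _ => ((exp_lin_gaus (a x)).1).const_mul _
  have hSi : Integrable S (gaus I) := hdom.mono' hSc.aestronglyMeasurable
    (ae_of_all _ fun G => by rw [Real.norm_eq_abs, abs_of_pos (hS G)]; exact hle G)
  have hint : ∫ G, S G ∂gaus I ≤ Q := by
    refine (integral_mono hSi hdom hle).trans_eq ?_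
    rw [integral_finsetSum _ fun x _ => ((exp_lin_gaus (a x)).1).const_mul _]
    simp only [integral_const_mul, (exp_lin_gaus (I := I) _).2, Q, Finset.sum_mul]
    refine Finset.sum_congr rfl fun x _ => ?_
    simp only [c, mul_assoc, ← Real.exp_add]
    congr 2
    rw [Finset.mul_sum]
    have : ∑ i, a x i ^ 2 / 2 = ∑ i, 1 / 2 * (lam i * bz x i ^ 2) := Finset.sum_congr rfl fun i _ => by
      simp only [a, mul_pow, Real.sq_sqrt (hlam i)]; ring
    linarith
  have hi1 : Integrable (fun G => S G / Q - 1) (gaus I) :=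
    (hSi.div_const Q).sub (integrable_const 1)
  refine (integral_mono (VItp.integrable_vlog P b bz qd hw lam)
    ((integrable_const _).add hi1)
    (g := fun G => Real.log Q + (S G / Q - 1)) fun G => ?_).trans ?_
  · have := Real.log_le_sub_one_of_pos (div_pos (hS G) hQ)
    rw [Real.log_div (hS G).ne' hQ.ne'] at this
    simp only [S] at this ⊢
    linarith
  · rw [integral_add (integrable_const _) hi1,
      integral_sub (hSi.div_const Q) (integrable_const 1), integral_div]
    simp only [integral_const, probReal_univ, smul_eq_mul, one_mul]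
    have h3 : Real.log Q = Real.log (∑ x, w x) + M * P.bF := by
      rw [Real.log_mul (sum_u_pos hw).ne' (Real.exp_pos _).ne', Real.log_exp]
    have h4 := div_le_one_of_le₀ hint hQ.le
    linarith

/-- The expected free energy is at least the logarithm of the mass, up to rows and compensation. -/
theorem mass_le_vfree (hq : ∀ x, ∑ i, lam i * qd x i = 0) {Z : ℝ}
    (hZ : ∀ x, ∑ i, lam i * bz x i ^ 2 ≤ Z) :
    Real.log (∑ x, w x) - M * P.bF - Z / 2 ≤ vfree P w b bz qd lam := by
  set p := gibbs w
  have hW := sum_u_pos hw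
  have hp : ∀ x, 0 ≤ p x := gibbs_nonneg hw
  have hp1 : ∑ x, p x = 1 := sum_gibbs hw
  have hlow : ∀ G, Real.log (∑ x, w x) + (∑ x, p x * vham P b bz qd lam G x)
      ≤ Real.log (∑ x, vbw P w b bz qd lam G x) := fun G => by
    have h := convexOn_exp.map_sum_le (t := (Finset.univ : Finset T)) (w := p)
      (p := fun x => vham P b bz qd lam G x) (fun x _ => hp x) hp1 (fun x _ => Set.mem_univ _)
    simp only [smul_eq_mul] at h
    have e : ∑ x, p x * Real.exp (vham P b bz qd lam G x)
        = (∑ x, vbw P w b bz qd lam G x) / ∑ x, w x := by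
      simp only [p, gibbs, vbw, Finset.sum_div]
      exact Finset.sum_congr rfl fun x _ => by ring
    rw [e] at h
    have h2 := Real.log_le_log (Real.exp_pos _) h
    rw [Real.log_exp, Real.log_div (sum_u_pos (VItp.vbw_pos P b bz qd hw lam G)).ne' hW.ne'] at h2
    linarith
  set a := fun i => ∑ x, p x * (√(lam i) * bz x i)
  have hge : ∀ G, Real.log (∑ x, w x) - M * P.bF - Z / 2 + ∑ i, a i * G i
      ≤ Real.log (∑ x, vbw P w b bz qd lam G x) := fun G => by
    refine le_trans ?_ (hlow G)
    have h : ∀ x, -(M * P.bF) - Z / 2 + lin bz lam G x ≤ vham P b bz qd lam G x := fun x => by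
      have h1 : -(M * P.bF) ≤ ∑ a, P.f (vfld b lam G x a) :=
        le_trans (by simp) (Finset.sum_le_sum fun a _ => neg_le_of_abs_le (P.hF _))
      simp only [vham, hq x]
      linarith [hZ x]
    have e : ∑ x, p x * lin bz lam G x = ∑ i, a i * G i := by
      simp only [lin, Finset.mul_sum, a, Finset.sum_mul]
      rw [Finset.sum_comm]
      exact Finset.sum_congr rfl fun i _ => Finset.sum_congr rfl fun x _ => by ring
    have := Finset.sum_le_sum (s := Finset.univ) fun x _ => mul_le_mul_of_nonneg_left (h x) (hp x)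
    simp only [mul_add, Finset.sum_add_distrib, e, ← Finset.sum_mul, hp1, one_mul] at this
    linarith
  have hlin : Integrable (fun G : I → ℝ => ∑ i, a i * G i) (gaus I) :=
    integrable_finsetSum _ fun i _ => (integrable_coord i).const_mul _
  have h0 : ∫ G : I → ℝ, ∑ i, a i * G i ∂gaus I = 0 := by
    rw [integral_finsetSum _ fun i _ => (integrable_coord i).const_mul _]
    refine Finset.sum_eq_zero fun i _ => ?_
    rw [integral_const_mul]
    have : ∫ G : I → ℝ, G i ∂gaus I = 0 := by
      rw [gaus, integral_comp_eval (μ := fun _ : I => gaussianReal 0 1) (f := fun z => z)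
        (by fun_prop)]
      simp [integral_id_gaussianReal]
    rw [this, mul_zero]
  refine le_trans (le_of_eq ?_) (integral_mono ((integrable_const _).add hlin)
    (VItp.integrable_vlog P b bz qd hw lam) hge)
  rw [integral_add' (integrable_const _) hlin, h0]
  simp

/-- The mean of a penalised statistic. -/
theorem vpair_dev (hlam : ∀ i, 0 ≤ lam i) (hq : ∀ x, ∑ i, lam i * qd x i = 0) {Z : ℝ}
    (hZ : ∀ x, ∑ i, lam i * bz x i ^ 2 ≤ Z) (X : T → ℝ) (κ : ℝ) :
    κ * vpair P w b bz qd lam (fun _ x _ => X x)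
      ≤ Real.log (∑ x, w x * Real.exp (κ * X x)) - Real.log (∑ x, w x)
        + 2 * (M * P.bF) + Z / 2 := by
  set w0 := fun x => w x * Real.exp (κ * X x)
  have hw0 : ∀ x, 0 < w0 x := fun x => mul_pos (hw x) (Real.exp_pos _)
  have h : ∀ G, κ * avg2 (vbw P w b bz qd lam G) (fun x _ => X x)
      ≤ Real.log (∑ x, vbw P w0 b bz qd lam G x) - Real.log (∑ x, vbw P w b bz qd lam G x) := fun G => by
    set u := vbw P w b bz qd lam G
    have hu : ∀ x, 0 < u x := VItp.vbw_pos P b bz qd hw lam G
    have hj := convexOn_exp.map_sum_le (t := (Finset.univ : Finset T)) (w := gibbs u)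
      (p := fun x => κ * X x) (fun x _ => gibbs_nonneg hu x) (sum_gibbs hu)
      (fun x _ => Set.mem_univ _)
    simp only [smul_eq_mul] at hj
    have e : ∑ x, gibbs u x * Real.exp (κ * X x)
        = (∑ x, vbw P w0 b bz qd lam G x) / ∑ x, u x := by
      simp only [gibbs, Finset.sum_div]
      exact Finset.sum_congr rfl fun x _ => by simp only [w0, u, vbw]; ring
    rw [e] at hj
    have h2 := Real.log_le_log (Real.exp_pos _) hj
    rw [Real.log_exp, Real.log_div (sum_u_pos (VItp.vbw_pos P b bz qd hw0 lam G)).ne'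
      (sum_u_pos hu).ne'] at h2
    refine le_trans (le_of_eq ?_) h2
    rw [avg2_eq, Finset.mul_sum]
    refine Finset.sum_congr rfl fun x _ => ?_
    rw [← Finset.sum_mul, sum_gibbs hu]
    ring
  obtain ⟨C, hC⟩ : ∃ C, ∀ x : T, |X x| ≤ C :=
    ⟨∑ x, |X x|, fun x => Finset.single_le_sum (f := fun x => |X x|) (fun _ _ => abs_nonneg _)
      (Finset.mem_univ x)⟩
  have hi : Integrable (fun G => avg2 (vbw P w b bz qd lam G) (fun x _ => X x)) (gaus I) := by
    have hc : Continuous fun G => avg2 (vbw P w b bz qd lam G) (fun x _ => X x) := by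
      have := VItp.cont_vgibbs P b bz qd hw lam
      unfold avg2; fun_prop
    exact integrable_bdd hc fun G => abs_avg2_le (VItp.vbw_pos P b bz qd hw lam G) fun x _ => hC x
  have := integral_mono (hi.const_mul κ) ((VItp.integrable_vlog P b bz qd hw0 lam).sub
    (VItp.integrable_vlog P b bz qd hw lam)) h
  rw [integral_const_mul] at this
  simp only [Pi.sub_apply] at this
  rw [integral_sub (VItp.integrable_vlog P b bz qd hw0 lam)
    (VItp.integrable_vlog P b bz qd hw lam)] at this
  have h1 := vfree_le_mass P b bz qd hw0 hlam hq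
  have h2 := mass_le_vfree P b bz qd hw hq hZ
  simp only [vpair, vfree] at this h1 h2 ⊢
  linarith

end Sys

/-- The mean of a statistic of the configuration that is penalised in the prior. -/
theorem vmpair_dev {N M d R D K n : ℕ} (P : VPot d) (π : VPrior N d R D) (Φ : VFac N d K)
    (hn : 0 < n) {c : VCIdx N M d R D K → ℝ} (hc : ∀ i, 0 ≤ c i)
    (hq : ∀ x : VState π K n, ∑ i, vpull c i * vqd π Φ x i = 0) {Z : ℝ}
    (hZ : ∀ x : VState π K n, ∑ i, vpull c i * vbspin π Φ x i ^ 2 ≤ Z)
    (X : Fin π.c → ℝ) (κ : ℝ) :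
    κ * vmpair n P π Φ c (fun _ x _ => X x.1)
      ≤ Real.log (∑ σ, π.w σ * Real.exp (κ * X σ)) - Real.log (∑ σ, π.w σ)
        + 2 * (M * P.bF) + Z / 2 := by
  have := vstate_nonempty (K := K) π hn
  have : Nonempty (Fin π.c) := ⟨⟨0, π.c_pos⟩⟩
  obtain ⟨C, hC⟩ : ∃ C, ∀ σ : Fin π.c, |X σ| ≤ C :=
    ⟨∑ σ, |X σ|, fun σ => Finset.single_le_sum (f := fun σ => |X σ|) (fun _ _ => abs_nonneg _)
      (Finset.mem_univ σ)⟩
  rw [vmpair_eq P π Φ hn c (O := fun _ x _ => X x.1) (fun _ _ => continuous_const)
    (fun _ x _ => hC x.1), ← integral_const_mul]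
  set Rb := Real.log (∑ σ, π.w σ * Real.exp (κ * X σ)) - Real.log (∑ σ, π.w σ)
    + 2 * (M * P.bF) + Z / 2
  have hb : ∀ W, κ * vpair P (vpwt π W) (vbpat π Φ) (vbspin π Φ) (vqd π Φ) (vpull c)
      (fun _ x _ => X x.1) ≤ Rb := fun W => by
    refine (vpair_dev P (vbpat π Φ) (vbspin π Φ) (vqd π Φ) (vpwt_pos π W)
      (fun i => by rcases i with q | ⟨o, i⟩ <;> exact hc _) hq hZ (fun x => X x.1) κ).trans_eq ?_
    have hL : 0 < ∑ α : Leaf K n, P157.Casc.wgt (mlev K) (posV W) α := by
      have : Nonempty (Leaf K n) := ⟨fun _ => ⟨0, hn⟩⟩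
      exact Finset.sum_pos (fun α _ => P157.Casc.wgt_pos _ (posV_pos W) α) Finset.univ_nonempty
    have e : ∀ F : Fin π.c → ℝ, ∑ x : VState π K n, vpwt π W x * F x.1
        = (∑ σ, π.w σ * F σ) * ∑ α : Leaf K n, P157.Casc.wgt (mlev K) (posV W) α := fun F => by
      simp only [vpwt, vstw, Fintype.sum_prod_type, Finset.sum_mul, Finset.mul_sum]
      conv_rhs => rw [Finset.sum_comm]
      exact Finset.sum_congr rfl fun σ _ => Finset.sum_congr rfl fun α _ => by ring
    have hp : ∀ F : Fin π.c → ℝ, (∀ σ, 0 < F σ) → 0 < ∑ σ, π.w σ * F σ := fun F hF =>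
      Finset.sum_pos (fun σ _ => mul_pos (π.w_pos σ) (hF σ)) Finset.univ_nonempty
    have e1 := e fun σ => Real.exp (κ * X σ)
    have e2 := e fun _ => 1
    simp only [mul_one] at e2
    have p1 := hp (fun σ => Real.exp (κ * X σ)) fun σ => Real.exp_pos _
    have p2 := hp (fun _ => 1) fun _ => one_pos
    simp only [mul_one] at p2
    rw [e1, e2, Real.log_mul p1.ne' hL.ne', Real.log_mul p2.ne' hL.ne']
    simp only [Rb]
    ring
  refine (integral_mono ((integrable_of_bdd ?_ (C := C) fun W => ?_).const_mul κ)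
    (integrable_const Rb) hb).trans_eq (by simp)
  · have hm : Measurable fun p : (Node K n → ℝ) × (VGIdx N M d R D K n → ℝ) =>
        avg2 (vbw P (vpwt π p.1) (vbpat π Φ) (vbspin π Φ) (vqd π Φ) (vpull c) p.2)
          (fun x _ => X x.1) := by
      have := fun st => measurable_vmbw_env P π Φ (W := fun p : (Node K n → ℝ) ×
        (VGIdx N M d R D K n → ℝ) => p.1) measurable_fst (c := fun _ => c)
        (fun _ => measurable_const) (G := fun p => p.2)
        (fun i => (measurable_pi_apply i).comp measurable_snd) st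
      unfold avg2 gibbs; fun_prop
    exact hm.stronglyMeasurable.integral_prod_right'.aestronglyMeasurable
  · rw [← Real.norm_eq_abs]
    refine (norm_integral_le_of_norm_le_const (ae_of_all _ fun G => (Real.norm_eq_abs _).trans_le
      (abs_avg2_le (VItp.vbw_pos P (vbpat π Φ) (vbspin π Φ) (vqd π Φ) (vpwt_pos π W) _ G)
        fun x _ => hC x.1))).trans_eq ?_
    simp

end Vale.Agent.P166.Casc
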