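import Vale.Agent.P166.Casc.VEndBound
import Vale.Agent.P166.Casc.VFree

/-!
The start of the line: with free rows, and spins in the cascade fields of the best responses to the
paths of their types, the limit free energy is at most the row value plus the entropies less half
the pairings, once the penalty is strong.
-/

open MeasureTheory ProbabilityTheory Filter Topology Matrix

namespace Vale.Agent.P166.Casc

open Vale.Agent.P157.Casc Vale.Agent.P166.Pen
open Vale.Agent.P166.Formula hiding qTot_top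
open Vale.Agent.P150.Fast.Dom (arrMap arrMap_apply)

variable {N M d R D K : ℕ} {γ : Fin d → ℝ} {τ : ℝ}

theorem abs_atomFld_le (S : Fin N → Fin (K + 1) → Fin d → Fin d → ℝ) (j : Fin N) (k : Fin d)
    (z : Fin N × Fin d → ℝ) (y : Fin K → Fin N × Fin d → ℝ) :
    |atomFld S z y j k| ≤ (∑ l, ∑ k, ∑ r, |S j l k r|) * ((∑ i, |z i|) + ∑ l, ∑ i, |y l i|) := by
  set Z := ∑ i, |z i|
  set Y := ∑ l, ∑ i, |y l i|
  have hrow : ∀ f : Fin N × Fin d → ℝ, ∑ r, |f (j, r)| ≤ ∑ i, |f i| := fun f => by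
    rw [Fintype.sum_prod_type]
    exact Finset.single_le_sum (f := fun j => ∑ r, |f (j, r)|)
      (fun _ _ => Finset.sum_nonneg fun r _ => abs_nonneg _) (Finset.mem_univ j)
  have hZ : 0 ≤ Z := Finset.sum_nonneg fun _ _ => abs_nonneg _
  have hY : 0 ≤ Y := Finset.sum_nonneg fun _ _ => Finset.sum_nonneg fun _ _ => abs_nonneg _
  simp only [atomFld, rowFld, Pi.add_apply, Finset.sum_apply, Fin.sum_univ_succ (n := K), add_mul,
    Finset.sum_mul]
  refine (abs_add_le _ _).trans (add_le_add ?_ ((Finset.abs_sum_le_sum_abs _ _).trans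
    (Finset.sum_le_sum fun l _ => ?_)))
  · refine (abs_arrMap_le (S j 0) (fun r => z (j, r)) k).trans ((mul_le_mul_of_nonneg_left
      ((hrow z).trans (le_add_of_nonneg_right hY)) (Finset.sum_nonneg fun _ _ =>
        Finset.sum_nonneg fun _ _ => abs_nonneg _)).trans_eq ?_)
    simp only [Finset.sum_mul]
    rfl
  · refine (abs_arrMap_le (S j l.succ) (fun r => y l (j, r)) k).trans ((mul_le_mul_of_nonneg_left
      ((hrow (y l)).trans ((Finset.single_le_sum (f := fun l => ∑ i, |y l i|)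
        (fun _ _ => Finset.sum_nonneg fun _ _ => abs_nonneg _) (Finset.mem_univ l)).trans
        (le_add_of_nonneg_left hZ))) (Finset.sum_nonneg fun _ _ =>
        Finset.sum_nonneg fun _ _ => abs_nonneg _)).trans_eq ?_)
    simp only [Finset.sum_mul]
    rfl

theorem spinE_add (p : TPath d) (z : Fin N × Fin d → ℝ) (y : Fin K → Fin N × Fin d → ℝ)
    (ω : Fin d → Fin N → ℝ) :
    spinE γ p τ z y ω = (∑ j, atomFld (spinS γ p) z y j ⬝ᵥ cfgOf τ γ ω j)
      + spinE γ p τ (0 : Fin N × Fin d → ℝ) (0 : Fin K → Fin N × Fin d → ℝ) ω := by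
  simp only [spinE, spinH]
  rw [← Finset.sum_add_distrib]
  refine Finset.sum_congr rfl fun j _ => ?_
  have h0 : atomFld (spinS (K := K) γ p) (0 : Fin N × Fin d → ℝ)
      (0 : Fin K → Fin N × Fin d → ℝ) j = 0 := by
    funext k
    simp [atomFld, rowFld, arrMap_apply, Finset.sum_apply]
  rw [h0, zero_dotProduct]
  ring

/-- The energy of the spins grows linearly in the fields, uniformly on the cut. -/
theorem abs_spinE_le (γ : Fin d → ℝ) (p : TPath d) (τ B : ℝ) :
    ∃ A : ℝ, 0 ≤ A ∧ ∀ (z : Fin N × Fin d → ℝ) (y : Fin K → Fin N × Fin d → ℝ),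
      ∀ ω ∈ cutSet B d N, |spinE γ p τ z y ω|
        ≤ A * (1 + ∑ l, ∑ i, |y l i|) + A * ∑ i, |z i| := by
  obtain ⟨Q, hQ⟩ := (isCompact_cut B d N).exists_bound_of_continuousOn
    (continuous_spinE_right (K := K) γ p τ (0 : Fin N × Fin d → ℝ)
      (0 : Fin K → Fin N × Fin d → ℝ)).continuousOn
  set E := ∑ j : Fin N, ∑ l, ∑ k, ∑ r, |spinS (K := K) γ p j l k r|
  have hE : 0 ≤ E := Finset.sum_nonneg fun _ _ => Finset.sum_nonneg fun _ _ =>
    Finset.sum_nonneg fun _ _ => Finset.sum_nonneg fun _ _ => abs_nonneg _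
  refine ⟨|Q| + N * (d * (√τ * √(B * N) * E)), by positivity, fun z y ω hω => ?_⟩
  set Z := ∑ i, |z i|
  set Y := ∑ l, ∑ i, |y l i|
  have hZ : 0 ≤ Z := Finset.sum_nonneg fun _ _ => abs_nonneg _
  have hY : 0 ≤ Y := Finset.sum_nonneg fun _ _ => Finset.sum_nonneg fun _ _ => abs_nonneg _
  have hx : ∀ j k, |cfgOf τ γ ω j k| ≤ √τ * √(B * N) := fun j k => by
    unfold cfgOf
    split_ifs
    · rw [abs_mul, abs_of_nonneg (Real.sqrt_nonneg _)]
      exact mul_le_mul_of_nonneg_left (abs_coord_le_of_cut hω k j) (Real.sqrt_nonneg _)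
    · rw [abs_zero]; positivity
  have h1 : |∑ j, atomFld (spinS γ p) z y j ⬝ᵥ cfgOf τ γ ω j|
      ≤ N * (d * (√τ * √(B * N) * E)) * (Z + Y) := by
    refine (Finset.abs_sum_le_sum_abs _ _).trans ((Finset.sum_le_sum (g := fun _ =>
      (d : ℝ) * (√τ * √(B * N) * E * (Z + Y))) fun j _ => ?_).trans_eq (by simp; ring))
    refine (Finset.abs_sum_le_sum_abs _ _).trans ((Finset.sum_le_sum (g := fun _ =>
      √τ * √(B * N) * E * (Z + Y)) fun k _ => ?_).trans_eq (by simp))
    rw [abs_mul]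
    calc |atomFld (spinS γ p) z y j k| * |cfgOf τ γ ω j k|
        ≤ E * (Z + Y) * (√τ * √(B * N)) := by
          refine mul_le_mul ((abs_atomFld_le _ j k z y).trans (mul_le_mul_of_nonneg_right ?_
            (by positivity))) (hx j k) (abs_nonneg _) (by positivity)
          exact Finset.single_le_sum (f := fun j => ∑ l, ∑ k, ∑ r, |spinS γ p j l k r|)
            (fun _ _ => Finset.sum_nonneg fun _ _ => Finset.sum_nonneg fun _ _ =>
              Finset.sum_nonneg fun _ _ => abs_nonneg _) (Finset.mem_univ j)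
      _ = _ := by ring
  rw [spinE_add]
  refine (abs_add_le _ _).trans ((add_le_add h1
    (((Real.norm_eq_abs _).symm.trans_le (hQ ω hω)).trans (le_abs_self Q))).trans ?_)
  have h2 : 0 ≤ |Q| * Y := by positivity
  have h3 : 0 ≤ |Q| * Z := by positivity
  have h4 : 0 ≤ (N : ℝ) * (d * (√τ * √(B * N) * E)) := by positivity
  nlinarith

theorem integrable_sum_abs {I : Type} [Fintype I] :
    Integrable (fun z : I → ℝ => ∑ i, |z i|) (gaus I) :=
  integrable_finsetSum _ fun k _ => (memLp_one_iff_integrable.1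
    ((memLp_id_gaussianReal (μ := 0) (v := 1) 1).comp_measurePreserving
      (measurePreserving_eval (μ := fun _ : I => gaussianReal 0 1) k))).abs

theorem measurable_log_sum_spinE (γ : Fin d → ℝ) (p : TPath d) (τ : ℝ) {c : ℕ} (w : Fin c → ℝ)
    (x : Fin c → Fin d → Fin N → ℝ) :
    Measurable (Function.uncurry fun (z : Fin N × Fin d → ℝ) (y : Fin K → Fin N × Fin d → ℝ) =>
      Real.log (∑ σ, w σ * Real.exp (spinE γ p τ z y (x σ)))) :=
  (continuous_finsetSum _ fun σ _ => continuous_const.mul (Real.continuous_exp.comp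
    ((continuous_spinE γ p τ).comp
      (f := fun v : (Fin N × Fin d → ℝ) × (Fin K → Fin N × Fin d → ℝ) => (v, x σ))
      (continuous_id.prodMk continuous_const)))).measurable.log

theorem measurable_log_int_spinE (γ : Fin d → ℝ) (p : TPath d) (τ : ℝ)
    (ν : Measure (Fin d → Fin N → ℝ)) [IsFiniteMeasure ν] :
    Measurable (Function.uncurry fun (z : Fin N × Fin d → ℝ) (y : Fin K → Fin N × Fin d → ℝ) =>
      Real.log (∫ ω, Real.exp (spinE γ p τ z y ω) ∂ν)) :=
  (StronglyMeasurable.integral_prod_right' (ν := ν)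
    (Real.continuous_exp.comp (continuous_spinE (N := N) (K := K) γ p τ)).measurable.stronglyMeasurable
    ).measurable.log

theorem abs_log_sum_le {c : ℕ} (hc : 0 < c) {w e : Fin c → ℝ} (hw : ∀ σ, 0 < w σ) {s : ℝ}
    (he : ∀ σ, |e σ| ≤ s) :
    |Real.log (∑ σ, w σ * Real.exp (e σ))| ≤ s + |Real.log (∑ σ, w σ)| := by
  have : Nonempty (Fin c) := ⟨⟨0, hc⟩⟩
  have hw0 : 0 < ∑ σ, w σ := Finset.sum_pos (fun σ _ => hw σ) Finset.univ_nonempty
  have hp : 0 < ∑ σ, w σ * Real.exp (e σ) :=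
    Finset.sum_pos (fun σ _ => mul_pos (hw σ) (Real.exp_pos _)) Finset.univ_nonempty
  have h1 : (∑ σ, w σ) * Real.exp (-s) ≤ ∑ σ, w σ * Real.exp (e σ) := by
    rw [Finset.sum_mul]
    exact Finset.sum_le_sum fun σ _ =>
      mul_le_mul_of_nonneg_left (Real.exp_le_exp.2 (abs_le.1 (he σ)).1) (hw σ).le
  have h2 : ∑ σ, w σ * Real.exp (e σ) ≤ (∑ σ, w σ) * Real.exp s := by
    rw [Finset.sum_mul]
    exact Finset.sum_le_sum fun σ _ =>
      mul_le_mul_of_nonneg_left (Real.exp_le_exp.2 (abs_le.1 (he σ)).2) (hw σ).le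
  have l1 := Real.log_le_log (mul_pos hw0 (Real.exp_pos _)) h1
  have l2 := Real.log_le_log hp h2
  rw [Real.log_mul hw0.ne' (Real.exp_pos _).ne', Real.log_exp] at l1 l2
  exact abs_le.2 ⟨by linarith [neg_abs_le (Real.log (∑ σ, w σ))],
    by linarith [le_abs_self (Real.log (∑ σ, w σ))]⟩

theorem env_le {I : Type} [Fintype I] {A s : ℝ} (hs : 0 ≤ s) (y : Fin K → I → ℝ) :
    A * (1 + ∑ l, ∑ i, |y l i|) + s ≤ (A + s) * (1 + ∑ l, ∑ i, |y l i|) := by
  have hY : 0 ≤ ∑ l, ∑ i, |y l i| :=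
    Finset.sum_nonneg fun _ _ => Finset.sum_nonneg fun _ _ => abs_nonneg _
  have := mul_nonneg hs hY
  linarith

/-- The spins alone pass from fine atoms to their measure. -/
theorem spin_atoms_tendsto (γ : Fin d → ℝ) (p : TPath d) (τ : ℝ) {B : ℝ}
    {ν : Measure (Fin d → Fin N → ℝ)} [IsFiniteMeasure ν]
    (hmem : ∀ᵐ ω ∂ν, ω ∈ cutSet B d N) (hmass : 0 < ν.real Set.univ)
    {εa : ℕ → ℝ} (hεa : Tendsto εa atTop (𝓝 0))
    (a : ∀ W, Atoms ν (cutSet B d N) (εa W)) :
    Tendsto (fun W => ∫ z, casc (gaus (Fin N × Fin d)) K (mlev K) (fun y =>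
        Real.log (∑ σ, (a W).w σ * Real.exp (spinE γ p τ z y ((a W).x σ))))
        ∂gaus (Fin N × Fin d)) atTop
      (𝓝 (∫ z, casc (gaus (Fin N × Fin d)) K (mlev K) (fun y =>
        Real.log (∫ ω, Real.exp (spinE γ p τ z y ω) ∂ν)) ∂gaus (Fin N × Fin d))) ∧
    Integrable (fun z => casc (gaus (Fin N × Fin d)) K (mlev K) (fun y =>
        Real.log (∫ ω, Real.exp (spinE γ p τ z y ω) ∂ν))) (gaus (Fin N × Fin d)) ∧
    ∀ z, Grow (K := K) fun y => Real.log (∫ ω, Real.exp (spinE γ p τ z y ω) ∂ν) := by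
  obtain ⟨A, hA, hbd⟩ := abs_spinE_le (N := N) (K := K) γ p τ B
  set A' := A + |Real.log (ν.real Set.univ)|
  have hA' : 0 ≤ A' := add_nonneg hA (abs_nonneg _)
  set F : ℕ → (Fin N × Fin d → ℝ) → (Fin K → Fin N × Fin d → ℝ) → ℝ := fun W z y =>
    Real.log (∑ σ, (a W).w σ * Real.exp (spinE γ p τ z y ((a W).x σ)))
  set Fl : (Fin N × Fin d → ℝ) → (Fin K → Fin N × Fin d → ℝ) → ℝ := fun z y =>
    Real.log (∫ ω, Real.exp (spinE γ p τ z y ω) ∂ν)
  have hFm : ∀ W, Measurable (Function.uncurry (F W)) := fun W =>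
    measurable_log_sum_spinE γ p τ (a W).w (a W).x
  have hFlm : Measurable (Function.uncurry Fl) := measurable_log_int_spinE γ p τ ν
  have hFm1 : ∀ W z, Measurable (F W z) := fun W z => (hFm W).of_uncurry_left
  have hFlm1 : ∀ z, Measurable (Fl z) := fun z => hFlm.of_uncurry_left
  have hZ0 : ∀ z : Fin N × Fin d → ℝ, 0 ≤ A * ∑ i, |z i| := fun z =>
    mul_nonneg hA (Finset.sum_nonneg fun _ _ => abs_nonneg _)
  have hFb : ∀ W z y, |F W z y|
      ≤ A' * (1 + ∑ l, ∑ i, |y l i|) + A * ∑ i, |z i| := fun W z y => by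
    simp only [F]
    refine (abs_log_sum_le (e := fun σ => spinE γ p τ z y ((a W).x σ)) (a W).c_pos (a W).w_pos
      fun σ => hbd z y _ ((a W).mem σ)).trans ?_
    have hY : 0 ≤ ∑ l, ∑ i, |y l i| :=
      Finset.sum_nonneg fun _ _ => Finset.sum_nonneg fun _ _ => abs_nonneg _
    have := mul_nonneg (abs_nonneg (Real.log (ν.real Set.univ))) hY
    rw [show ∑ σ, (a W).w σ = ν.real Set.univ by simpa using (a W).repr fun _ => 1]
    simp only [A']
    linarith
  have hlim : ∀ z y, Tendsto (fun W => F W z y) atTop (𝓝 (Fl z y)) := fun z y => by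
    simp only [F, Fl]
    refine (tendsto_atoms ν (isCompact_cut B d N) hmem hεa a
      (h := fun ω => Real.exp (spinE γ p τ z y ω))
      (Real.continuous_exp.comp (continuous_spinE_right γ p τ z y))).log (ne_of_gt ?_)
    exact (log_integral_exp_bound hmass (continuous_spinE_right γ p τ z y).measurable
      (hmem.mono fun ω hω => hbd z y ω hω)).2.1
  have hFlb : ∀ z y, |Fl z y| ≤ A' * (1 + ∑ l, ∑ i, |y l i|) + A * ∑ i, |z i| := fun z y =>
    le_of_tendsto' (hlim z y).abs fun W => hFb W z y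
  obtain ⟨C, hC⟩ := exists_casc_bound (I := Fin N × Fin d) K (grid_mlev K) hA'
  have hint := (integrable_const C).add ((integrable_sum_abs (I := Fin N × Fin d)).const_mul A)
  have hTz : ∀ z, Tendsto (fun W => casc (gaus (Fin N × Fin d)) K (mlev K) (F W z)) atTop
      (𝓝 (casc (gaus (Fin N × Fin d)) K (mlev K) (Fl z))) := fun z =>
    tendsto_casc_grow K (grid_mlev K) (add_nonneg hA' (hZ0 z))
      (fun W => hFm1 W z) (hFlm1 z) (fun W y => (hFb W z y).trans (env_le (hZ0 z) y)) (hlim z)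
  refine ⟨?_, ?_, fun z => ⟨A' + A * ∑ i, |z i|, add_nonneg hA' (hZ0 z),
    fun y => (hFlb z y).trans (env_le (hZ0 z) y)⟩⟩
  · exact tendsto_integral_of_dominated_convergence (fun z => C + A * ∑ i, |z i|)
      (fun W => (measurable_casc_param K (mlev K) (H := F W) (hFm W)).aestronglyMeasurable) hint
      (fun W => ae_of_all _ fun z => by
        rw [Real.norm_eq_abs]
        exact hC (hFm1 W z) (hZ0 z) (hFb W z)) (ae_of_all _ hTz)
  · exact hint.mono' (measurable_casc_param K (mlev K) (H := Fl) hFlm).aestronglyMeasurable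
      (ae_of_all _ fun z => by
        rw [Real.norm_eq_abs]
        exact hC (hFlm1 z) (hZ0 z) (hFlb z))

theorem leafR_compFld_props (S : Fin N → Fin (K + 1) → Fin d → Fin d → ℝ) (τ : ℝ)
    {t : Finset (Fin d)} (P : Matrix (Fin t.card) (Fin t.card) ℝ) (R : ℕ) (j : Fin N)
    (z : Fin N × Fin d → ℝ) :
    Measurable (fun y => leafR τ P R (compFld (t := t) (S j) j z y)) ∧
      Grow (K := K) (fun y => leafR τ P R (compFld (t := t) (S j) j z y)) := by
  constructor
  · exact (measurable_leafR _ _ _).comp ((continuous_rowFld _).comp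
      (f := fun y : Fin K → Fin N × Fin d → ℝ =>
        (arrMap (fun b => S j 0 (comp t b)) fun r => z (j, r),
          fun l r => y l (j, r))) (by fun_prop)).measurable
  obtain ⟨A1, hA1, hb1⟩ := abs_leafR_le τ P R
  set E := ∑ l, ∑ k, ∑ r, |S j l k r|
  have hE : 0 ≤ E := Finset.sum_nonneg fun _ _ => Finset.sum_nonneg fun _ _ =>
    Finset.sum_nonneg fun _ _ => abs_nonneg _
  set Z := ∑ i, |z i|
  have hZ : 0 ≤ Z := Finset.sum_nonneg fun _ _ => abs_nonneg _
  refine ⟨A1 * (1 + t.card * E * (1 + Z)), by positivity, fun y => (hb1 _).trans ?_⟩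
  set Y := ∑ l, ∑ i, |y l i|
  have hY : 0 ≤ Y := Finset.sum_nonneg fun _ _ => Finset.sum_nonneg fun _ _ => abs_nonneg _
  have h1 : ∑ b, |compFld (t := t) (S j) j z y b| ≤ t.card * (E * (Z + Y)) := by
    refine (Finset.sum_le_sum fun b _ => ?_).trans_eq
      (show ∑ _b : Fin t.card, E * (Z + Y) = _ by simp)
    rw [← atomFld_comp]
    exact abs_atomFld_le _ j _ z y
  rw [mul_assoc A1]
  refine mul_le_mul_of_nonneg_left ?_ hA1
  have hc : 0 ≤ (t.card : ℝ) * E := mul_nonneg (Nat.cast_nonneg _) hE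
  nlinarith [mul_nonneg hc (mul_nonneg hZ hY), mul_nonneg hc hY]

/-- The spins under the penalty against the tilted values of the sites. -/
theorem spin_sites_le (hτ : 0 < τ) {B lam : ℝ} (hlam : 0 < lam) (hN : 0 < N) {dd : OIdx d → ℝ}
    {q : TPath d} (hq : ∀ j : Fin N, IsPath K (q (typ γ j)) ∧
      (typD γ dd (typ γ j) - q (typ γ j) K).PosDef)
    (hmass : 0 < (spinMeas τ γ B lam dd N).real Set.univ)
    (hli : Integrable (fun z => casc (gaus (Fin N × Fin d)) K (mlev K) (fun y =>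
      Real.log (∫ ω, Real.exp (spinE γ (endPath γ dd K q) τ z y ω) ∂spinMeas τ γ B lam dd N)))
      (gaus (Fin N × Fin d)))
    (hgl : ∀ z, Grow (K := K) fun y => Real.log
      (∫ ω, Real.exp (spinE γ (endPath γ dd K q) τ z y ω) ∂spinMeas τ γ B lam dd N)) :
    ∫ z, casc (gaus (Fin N × Fin d)) K (mlev K) (fun y =>
      Real.log (∫ ω, Real.exp (spinE γ (endPath γ dd K q) τ z y ω) ∂spinMeas τ γ B lam dd N))
        ∂gaus (Fin N × Fin d)
      ≤ (N : ℝ) * ((∑ i, tiltX γ (endA τ γ dd K q) i ^ 2) / (4 * lam)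
            - ∑ i, tiltX γ (endA τ γ dd K q) i * dd i)
        + ∑ j : Fin N, endVal K τ (typD γ dd (typ γ j)) (q (typ γ j)) := by
  set p := endPath γ dd K q with hpdef
  set ν := spinMeas τ γ B lam dd N
  have : IsFiniteMeasure ν := spinMeas_finite hlam.le dd
  have hp : ∀ j : Fin N, IsPath K (p (typ γ j)) := fun j =>
    bestPath_isPath (gridM_levels K) (hq j).1 (hq j).2
  have hFlm := fun z : Fin N × Fin d → ℝ =>
    (measurable_log_int_spinE (K := K) γ p τ ν).of_uncurry_left (x := z)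
  set R0 := ⌈√(B * N)⌉₊
  have hR0 : √(B * N) ≤ (R0 : ℝ) + 1 := (Nat.le_ceil _).trans (le_add_of_nonneg_right zero_le_one)
  set G : Fin N → (Fin N × Fin d → ℝ) → (Fin K → Fin N × Fin d → ℝ) → ℝ := fun j z y =>
    leafR τ (endP τ γ dd K q (typ γ j)) R0 (compFld (t := typ γ j) (spinS γ p j) j z y)
  have hG : ∀ j z, Measurable (G j z) ∧ Grow (G j z) := fun j z =>
    leafR_compFld_props (spinS γ p) τ (endP τ γ dd K q (typ γ j)) R0 j z
  have hsite := fun j : Fin N => site_le (S := spinS (K := K) γ p j) hτ (hq j).1 (hq j).2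
    (siteFac_spinS rfl (hp j)) R0 j
  set c0 := (N : ℝ) * ((∑ i, tiltX γ (endA τ γ dd K q) i ^ 2) / (4 * lam)
    - ∑ i, tiltX γ (endA τ γ dd K q) i * dd i)
  have hle : ∀ z, casc (gaus (Fin N × Fin d)) K (mlev K) (fun y =>
      Real.log (∫ ω, Real.exp (spinE γ p τ z y ω) ∂ν))
      ≤ (∑ j, casc (gaus (Fin N × Fin d)) K (mlev K) (G j z)) + c0 := fun z => by
    rw [← casc_sum_owner (grid_mlev K) Prod.fst (fun j => (hG j z).1) (fun j => (hG j z).2)
      (fun j y y' hy => by
        simp only [G, compFld]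
        congr 2
        funext l r
        exact hy l (j, r) rfl) Finset.univ]
    have hm := Finset.measurable_sum Finset.univ fun j (_ : j ∈ Finset.univ) => (hG j z).1
    refine casc_le_add c0 K (grid_mlev K) (hFlm z) hm ((hgl z).integrable_exp (hFlm z))
      ((Grow.sum _ fun j _ => (hG j z).2).integrable_exp hm) fun y => ?_
    rw [add_comm _ c0]
    exact log_spin_le (B := B) hτ hlam hN hp hmass hR0 z y
  have hGi := integrable_finsetSum Finset.univ fun j (_ : j ∈ Finset.univ) => (hsite j).1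
  refine (integral_mono hli (hGi.add (integrable_const c0)) hle).trans ?_
  simp only [Pi.add_apply]
  rw [integral_add hGi (integrable_const _), integral_finsetSum _ fun j _ => (hsite j).1,
    integral_const, probReal_univ, one_smul, add_comm _ c0]
  exact add_le_add le_rfl (Finset.sum_le_sum fun j _ => (hsite j).2)

/-- The spins alone: fine atoms are worth at most the tilted values of the sites. -/
theorem spin_rest_le (hτ : 0 < τ) {B lam : ℝ} (hlam : 0 < lam) (hN : 0 < N) {dd : OIdx d → ℝ}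
    {q : TPath d} (hq : ∀ j : Fin N, IsPath K (q (typ γ j)) ∧
      (typD γ dd (typ γ j) - q (typ γ j) K).PosDef)
    {εa : ℕ → ℝ} (hεa : Tendsto εa atTop (𝓝 0))
    (a : ∀ W, Atoms (spinMeas τ γ B lam dd N) (cutSet B d N) (εa W)) {η : ℝ} (hη : 0 < η) :
    ∀ᶠ W in atTop, ∫ z, casc (gaus (Fin N × Fin d)) K (mlev K) (fun y =>
        Real.log (∑ σ, (a W).w σ * Real.exp (spinE γ (endPath γ dd K q) τ z y ((a W).x σ))))
        ∂gaus (Fin N × Fin d)
      ≤ (N : ℝ) * ((∑ i, tiltX γ (endA τ γ dd K q) i ^ 2) / (4 * lam)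
            - ∑ i, tiltX γ (endA τ γ dd K q) i * dd i)
        + (∑ j : Fin N, endVal K τ (typD γ dd (typ γ j)) (q (typ γ j))) + η := by
  have : IsFiniteMeasure (spinMeas τ γ B lam dd N) := spinMeas_finite hlam.le dd
  have hmass : 0 < (spinMeas τ γ B lam dd N).real Set.univ := by
    have : Nonempty (Fin (a 0).c) := ⟨⟨0, (a 0).c_pos⟩⟩
    rw [← show ∑ σ, (a 0).w σ = (spinMeas τ γ B lam dd N).real Set.univ by
      simpa using (a 0).repr fun _ => 1]
    exact Finset.sum_pos (fun σ _ => (a 0).w_pos σ) Finset.univ_nonempty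
  obtain ⟨hT, hli, hgl⟩ := spin_atoms_tendsto (K := K) γ (endPath γ dd K q) τ (ae_mem_cut dd)
    hmass hεa a
  refine hT.eventually (ge_mem_nhds ?_)
  linarith [spin_sites_le hτ hlam hN hq hmass hli hgl]

/-- Functions of some of the coordinates see only their marginal. -/
theorem casc_marginal {I I' J : Type} [Fintype I] [Fintype I'] [Fintype J] {g : I' → I}
    (hg : Function.Injective g) {g2 : I' → J} (hg2 : Function.Injective g2) {m : Fin K → ℝ}
    {H : (I' → ℝ) → (Fin K → I' → ℝ) → ℝ} (hH : Measurable (Function.uncurry H)) :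
    ∫ z, casc (gaus I) K m (fun y => H (fun i => z (g2 i)) fun l i => y l (g i)) ∂gaus J
      = ∫ z, casc (gaus I') K m (H z) ∂gaus I' := by
  have hmp : MeasurePreserving (fun (v : I → ℝ) (i : I') => v (g i)) (gaus I) (gaus I') :=
    P157.mp_comp (gaussianReal 0 1) hg
  have hmz : MeasurePreserving (fun (v : J → ℝ) (i : I') => v (g2 i)) (gaus J) (gaus I') :=
    P157.mp_comp (gaussianReal 0 1) hg2
  have h1 : ∀ z' : I' → ℝ, casc (gaus I) K m (fun y => H z' fun l i => y l (g i))
      = casc (gaus I') K m (H z') := fun z' =>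
    (casc_map hmp K m (H := H z') (a := fun _ => (1 : ℝ))
      (hH.comp measurable_prodMk_left) measurable_const).1
  simp only [h1]
  rw [← hmz.map_eq, integral_map hmz.measurable.aemeasurable
    (measurable_casc_param K m (H := H) hH).aestronglyMeasurable]

/-- The rows alone are worth at most the value of the overlap path. -/
theorem free_row_le (P : VPot d) (hγ : ∀ k, 0 < γ k ∧ γ k ≤ 1) {dd : OIdx d → ℝ}
    (hd : Clean γ dd) (hK : 0 < K) {q : TPath d} (hq : Formula.Adm γ dd K q) (p : TPath d) (a : Fin M) :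
    let Φ : VFac N d K := lineFac γ (topAt K (dTot dd) (qTot γ q)) p
    let c : VCIdx N M d R D K → ℝ := lineC 0
    rowCasc P.f (rowA Φ c a 0) (fun l => rowA Φ c a l.succ)
      ≤ rowVal P.f K (dTot dd) (qTot γ q) := by
  intro Φ c
  have hpath := qTot_isPath hγ hq.path
  have htop := Formula.qTot_top hγ hd hq
  have hcq : ∀ l u, cq (rowA Φ c a l) u
      = cq (facOf (pathInc (topAt K (dTot dd) (qTot γ q)) l)) u := fun l u => by
    simp [cq, rowA, Φ, c, lineFac, lineC, vfldc, rowEmb, Fintype.sum_prod_type, Fin.sum_univ_two]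
  refine (rowVal_merge hK hpath htop (A := rowA Φ c a) ⟨fun u => ?_, fun l hl u => ?_,
    fun l hl u => ?_⟩ P.cf.measurable P.hF).1
  · rw [hcq]
    simp only [pathInc, Fin.val_zero, if_true, topAt, if_neg hK.ne]
    exact cq_facOf hpath.nonneg u
  · rw [hcq]
    simp only [pathInc, Fin.val_succ, Nat.add_one_ne_zero, if_false, topAt, Nat.add_sub_cancel,
      if_neg hl.ne, if_neg l.isLt.ne]
    exact cq_facOf (hpath.step l.val l.isLt) u
  · rw [hcq]
    simp only [pathInc, Fin.val_succ, Nat.add_one_ne_zero, if_false, topAt, Nat.add_sub_cancel,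
      if_pos hl, if_neg l.isLt.ne]
    refine cq_facOf ?_ u
    have h := htop.add (hpath.step l.val l.isLt)
    rw [hl] at h
    convert h using 1
    abel

/-- The rest of the line without its rows: the spins of the atoms. -/
theorem log_vrestY_line (P : VPot d) (hτ : 0 ≤ τ) {B : ℝ} {ν : Measure (Fin d → Fin N → ℝ)}
    {ε : ℝ} {nA L : ℕ} (A : Coeffs d nA) (a : Atoms ν (cutSet B d N) ε) (hL : 0 < L) (J : ℕ)
    (qr : ℕ → Matrix (Fin d) (Fin d) ℝ) (p : TPath d)
    (z : VRIdx N M d (nker d nA) (N + L + J) → ℝ)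
    (y : Fin K → VLIdx N M d (nker d nA) (N + L + J) → ℝ) :
    Real.log (vrestY P (penPrior (γ := γ) hτ A a hL J) (lineFac γ qr p) (lineC 0) Finset.univ z y)
      = Real.log (∑ σ, a.w σ * Real.exp (spinE γ p τ (fun i => z (Sum.inr (spinPt i)))
          (fun l i => y l (spinPt i)) (a.x σ))) := by
  refine congrArg Real.log ?_
  simp only [vrestY, vrestH_line]
  refine (sum_penPrior (γ := γ) hτ A a hL (J := J) fun x _ => Real.exp
    (spinH (spinS γ p) x (fun i => z (Sum.inr (spinPt i))) fun l i => y l (spinPt i))).trans ?_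
  rw [Finset.sum_const, Finset.card_univ, Fintype.card_fin, nsmul_eq_mul, ← mul_assoc,
    mul_one_div_cancel (Nat.cast_pos.2 hL).ne', one_mul]
  rfl

/-- The limit free energy at the start of the line. -/
theorem vcasc_line_start (P : VPot d) (hτ : 0 ≤ τ) {B : ℝ} {ν : Measure (Fin d → Fin N → ℝ)}
    {ε : ℝ} {nA L : ℕ} (A : Coeffs d nA) (a : Atoms ν (cutSet B d N) ε) (hL : 0 < L) (J : ℕ)
    (qr : ℕ → Matrix (Fin d) (Fin d) ℝ) (p : TPath d) :
    let π := penPrior (γ := γ) hτ A a hL J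
    let Φ : VFac N d K := lineFac γ qr p
    vcasc (M := M) P π Φ (lineC 0)
      = (∫ z, casc (gaus (Fin N × Fin d)) K (mlev K) (fun y =>
          Real.log (∑ σ, a.w σ * Real.exp (spinE γ p τ z y (a.x σ)))) ∂gaus (Fin N × Fin d))
        + ∑ r : Fin M, rowCasc P.f (rowA (R := nker d nA) (D := N + L + J) Φ (lineC 0) r 0)
            (fun l => rowA (R := nker d nA) (D := N + L + J) Φ (lineC 0) r l.succ) := by
  intro π Φ
  have hS : FreeRows (lineC 0 : VCIdx N M d (nker d nA) (N + L + J) K → ℝ) Finset.univ :=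
    fun r _ j => by simp [lineC, vfldc]
  rw [(vcasc_free_rows P π Φ hS).2, ← casc_marginal
    (g := spinPt (M := M) (R := nker d nA) (D := N + L + J) (N := N) (d := d)) spinPt_inj
    (g2 := fun i => (Sum.inr (spinPt i) : VRIdx N M d (nker d nA) (N + L + J)))
    (Sum.inr_injective.comp spinPt_inj) (measurable_log_sum_spinE γ p τ a.w a.x)]
  simp only [π, Φ, log_vrestY_line]

/-- The start of the line: at strong penalties, at most the rows' value and the entropies less half
the pairings. -/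
theorem line_start {B η Bt : ℝ} (hτ : 0 < τ) (hγ : ∀ k, 0 < γ k ∧ γ k ≤ 1) (P : VPot d)
    {dd : OIdx d → ℝ} (hd : Clean γ dd) (hη : 0 < η) :
    ∃ lam0 : ℝ, ∀ lam ≥ lam0, ∀ K, 0 < K → ∀ q : TPath d, Formula.Adm γ dd K q →
      (∀ t, Occupied γ t → mabs (bestTilt (gridM K) K (typD γ dd t) (q t)) ≤ Bt) →
      ∃ N0 : ℕ, ∀ N ≥ N0, ∀ (M nA : ℕ) (A : Coeffs d nA) (L : ℕ) (hL : 0 < L) (J : ℕ)
        (εa : ℕ → ℝ), Tendsto εa atTop (𝓝 0) →
        ∀ a : ∀ W, Atoms (spinMeas τ γ B lam dd N) (cutSet B d N) (εa W),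
        ∀ᶠ W in atTop, ∀ᶠ n in atTop,
          vmfree (M := M) n P (penPrior (γ := γ) hτ.le A (a W) hL J)
              (lineFac (K := K) γ (topAt K (dTot dd) (qTot γ q)) (endPath γ dd K q)) (lineC 0)
            ≤ M * rowVal P.f K (dTot dd) (qTot γ q)
              + N * ((∑ t, tfrac γ t * (ent (gridM K) K τ (typD γ dd t) (q t)
                  - pairing (gridM K) K (endPath γ dd K q t) (q t) / 2)) + η) := by
  set c2 := (Fintype.card (OIdx d) : ℝ) * ((Bt + d / τ) / 2) ^ 2
  refine ⟨max 1 (c2 / η), fun lam hlam K hK q hq hBt => ?_⟩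
  have hlam0 : 0 < lam := one_pos.trans_le ((le_max_left _ _).trans hlam)
  set V : Finset (Fin d) → ℝ := fun t => endVal K τ (typD γ dd t) (q t)
  refine ⟨⌈(∑ t, |V t|) * (4 / η)⌉₊ + 1, fun N hN0 M nA A L hL J εa hεa a => ?_⟩
  have hN : 0 < N := by omega
  have hNR : (0 : ℝ) < N := Nat.cast_pos.2 hN
  have hq' : ∀ t, t = ∅ ∨ Occupied γ t → IsPath K (q t) ∧ (typD γ dd t - q t K).PosDef := by
    rintro t (rfl | h)
    · have he : ∀ X : Matrix (Fin (∅ : Finset (Fin d)).card) (Fin (∅ : Finset (Fin d)).card) ℝ,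
          X.PosSemidef ∧ X.PosDef := fun X => by
        have hX : X = 1 := Matrix.ext fun b => absurd b.isLt (by simp)
        rw [hX]
        exact ⟨Matrix.PosSemidef.one, Matrix.PosDef.one⟩
      exact ⟨⟨(he _).1, fun l _ => (he _).1⟩, (he _).2⟩
    · exact ⟨hq.path t h, hq.top t h⟩
  have hspin := spin_rest_le (γ := γ) (K := K) (q := q) hτ hlam0 hN
    (fun j => hq' _ (typ_nonocc γ j)) hεa a
    (show 0 < (N : ℝ) * (η / 8) by positivity)
  -- the entropies
  have hAb : ∀ t, Occupied γ t → mabs (endA τ γ dd K q t) ≤ Bt + d / τ := fun t ht => by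
    refine (mabs_sub _ _).trans (add_le_add (hBt t ht) ?_)
    rw [mabs_smul, abs_of_pos (inv_pos.2 hτ)]
    simp only [mabs, Matrix.one_apply, apply_ite abs, abs_one, abs_zero, Finset.sum_ite_eq,
      Finset.mem_univ, if_true, Finset.sum_const, Finset.card_univ, Fintype.card_fin, nsmul_eq_mul,
      mul_one, inv_mul_eq_div]
    exact div_le_div_of_nonneg_right (Nat.cast_le.2 ((Finset.card_le_univ _).trans_eq
      (Fintype.card_fin d))) hτ.le
  have hX : (∑ i, tiltX γ (endA τ γ dd K q) i ^ 2) / (4 * lam) ≤ η / 4 := by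
    rw [div_le_iff₀ (by positivity)]
    have h := (sum_tiltX_sq (γ := γ) hAb)
    have h' := (div_le_iff₀ hη).1 ((le_max_right _ _).trans hlam)
    simp only [c2] at h'
    linarith
  have hVj : ∑ j : Fin N, V (typ γ j)
      ≤ (N : ℝ) * (∑ t, tfrac γ t * V t) + (N : ℝ) * (η / 4) := by
    have h1 : ∑ j : Fin N, V (typ γ j)
        = ∑ t, ((Finset.univ.filter fun j : Fin N => typ γ j = t).card : ℝ) * V t := by
      rw [← Finset.sum_fiberwise Finset.univ fun j : Fin N => typ γ j]
      refine Finset.sum_congr rfl fun t _ => ?_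
      rw [Finset.sum_congr rfl fun j hj => congrArg V (Finset.mem_filter.1 hj).2,
        Finset.sum_const, nsmul_eq_mul]
    have h2 : ∀ t, ((Finset.univ.filter fun j : Fin N => typ γ j = t).card : ℝ) * V t
        ≤ (N : ℝ) * (tfrac γ t * V t) + |V t| := fun t => by
      have hc := count_typ hγ hN t
      rw [div_sub' hNR.ne', abs_div, abs_of_pos hNR, div_le_div_iff_of_pos_right hNR] at hc
      have h3 : |(((Finset.univ.filter fun j : Fin N => typ γ j = t).card : ℝ)
          - N * tfrac γ t) * V t| ≤ |V t| := by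
        rw [abs_mul]
        exact mul_le_of_le_one_left (abs_nonneg _) hc
      linarith [le_abs_self ((((Finset.univ.filter fun j : Fin N => typ γ j = t).card : ℝ)
          - N * tfrac γ t) * V t)]
    have h3 : ∑ t, |V t| ≤ (N : ℝ) * (η / 4) := by
      have h4 : (∑ t, |V t|) * (4 / η) ≤ N :=
        (Nat.le_ceil _).trans (Nat.cast_le.2 (by omega))
      rw [mul_div_assoc', div_le_iff₀ hη] at h4
      linarith
    refine h1.trans_le ((Finset.sum_le_sum fun t _ => h2 t).trans ?_)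
    rw [Finset.sum_add_distrib, ← Finset.mul_sum]
    exact add_le_add le_rfl h3
  have hid : ∀ t, tfrac γ t * V t + tfrac γ t * ((endA τ γ dd K q t * typD γ dd t).trace / 2)
      = tfrac γ t * (ent (gridM K) K τ (typD γ dd t) (q t)
          - pairing (gridM K) K (endPath γ dd K q t) (q t) / 2) := fun t => by
    by_cases ht : t = ∅ ∨ Occupied γ t
    · have h := bestPath_eq_ent (gridM_levels K) τ (hq' t ht).1 (hq' t ht).2
      rw [← h, ← mul_add]
      simp only [V, endVal, endA, endPath, Matrix.sub_mul, Matrix.trace_sub, Matrix.smul_mul,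
        Matrix.one_mul, Matrix.trace_smul, smul_eq_mul, inv_mul_eq_div]
      ring
    · rw [not_or] at ht
      simp [tfrac_eq_zero hγ (Finset.nonempty_iff_ne_empty.2 ht.1) ht.2]
  have hsumid := Finset.sum_congr rfl fun t (_ : t ∈ (Finset.univ : Finset (Finset (Fin d)))) => hid t
  rw [Finset.sum_add_distrib, ← sum_tiltX_centre hγ hd] at hsumid
  filter_upwards [hspin] with W hW
  have hrow : ∑ r : Fin M, rowCasc P.f
      (rowA (R := nker d nA) (D := N + L + J)
        (lineFac (N := N) γ (topAt K (dTot dd) (qTot γ q)) (endPath γ dd K q)) (lineC 0) r 0)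
      (fun l => rowA (R := nker d nA) (D := N + L + J)
        (lineFac (N := N) γ (topAt K (dTot dd) (qTot γ q)) (endPath γ dd K q)) (lineC 0) r l.succ)
      ≤ M * rowVal P.f K (dTot dd) (qTot γ q) :=
    (Finset.sum_le_sum fun r _ => free_row_le P hγ hd hK hq (endPath γ dd K q) r).trans_eq
      (by simp)
  have hlt : vcasc (M := M) P (penPrior (γ := γ) hτ.le A (a W) hL J)
      (lineFac (K := K) γ (topAt K (dTot dd) (qTot γ q)) (endPath γ dd K q)) (lineC 0)
      < M * rowVal P.f K (dTot dd) (qTot γ q)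
          + N * ((∑ t, tfrac γ t * (ent (gridM K) K τ (typD γ dd t) (q t)
            - pairing (gridM K) K (endPath γ dd K q t) (q t) / 2)) + η) := by
    rw [vcasc_line_start P hτ.le A (a W) hL J]
    have h1 := mul_le_mul_of_nonneg_left hX hNR.le
    have h2 : (0 : ℝ) < N * η := mul_pos hNR hη
    rw [← hsumid]
    simp only [V] at hVj
    nlinarith
  exact ((tendsto_vmfree P _ _ tendsto_const_nhds tendsto_id).eventually
    (eventually_lt_nhds hlt)).mono fun n hn => hn.le

end Vale.Agent.P166.Casc
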