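import Vale.Agent.P166.Casc.VEndEnergy

/-!
The start of the line, pointwise: the penalty of the self-overlaps dominates the tilts of the best
responses, and the free spins inside the cut separate into sites cut to cubes.
-/

open MeasureTheory ProbabilityTheory Filter Topology Matrix

namespace Vale.Agent.P166.Casc

open Vale.Agent.P157.Casc Vale.Agent.P166.Pen
open Vale.Agent.P166.Formula hiding qTot_top
open Vale.Agent.P150.Fast.Dom (arrMap arrMap_apply)

variable {N d K : ℕ}

/-- The best responses of the types to a family of overlap paths. -/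
noncomputable def endPath (γ : Fin d → ℝ) (dd : OIdx d → ℝ) (K : ℕ) (q : TPath d) : TPath d :=
  fun t => bestPath (gridM K) K (typD γ dd t) (q t)

/-- The quadratic tilt of a type: its bottom precision less the prior one. -/
noncomputable def endA (τ : ℝ) (γ : Fin d → ℝ) (dd : OIdx d → ℝ) (K : ℕ) (q : TPath d)
    (t : Finset (Fin d)) : Matrix (Fin t.card) (Fin t.card) ℝ :=
  bestTilt (gridM K) K (typD γ dd t) (q t) - τ⁻¹ • 1

/-- The quadratic term of one spin of a type at the start of the line. -/
noncomputable def endP (τ : ℝ) (γ : Fin d → ℝ) (dd : OIdx d → ℝ) (K : ℕ) (q : TPath d)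
    (t : Finset (Fin d)) : Matrix (Fin t.card) (Fin t.card) ℝ :=
  tLam (gridM K) K (bestTilt (gridM K) K (typD γ dd t) (q t)) (endPath γ dd K q t) K - τ⁻¹ • 1

theorem endP_eq (τ : ℝ) (γ : Fin d → ℝ) (dd : OIdx d → ℝ) (K : ℕ) (q : TPath d)
    (t : Finset (Fin d)) :
    endP τ γ dd K q t = endPath γ dd K q t K + endA τ γ dd K q t := by
  rw [endP, tLam_top (gridM_levels K), endA]
  abel

/-- The tilts of the occupied types as a table on the self-overlaps. -/
noncomputable def tiltX (γ : Fin d → ℝ)
    (A : (t : Finset (Fin d)) → Matrix (Fin t.card) (Fin t.card) ℝ) (i : OIdx d) : ℝ := by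
  classical
  exact if Occupied γ i.1 then -(1 / 2) * liftM i.1 (A i.1) i.2.1 i.2.2 else 0

variable {γ : Fin d → ℝ} {τ : ℝ}

theorem sum_tiltX_ovl (hτ : 0 ≤ τ) (hN : 0 < N)
    (A : (t : Finset (Fin d)) → Matrix (Fin t.card) (Fin t.card) ℝ) (ω : Fin d → Fin N → ℝ) :
    (N : ℝ) * ∑ i, tiltX γ A i * ovl τ γ ω i
      = -∑ t ∈ Finset.univ.image (fun j : Fin N => typ γ j),
          ∑ a, (√τ • subG (fun j : Fin N => typ γ j) t ω a) ⬝ᵥ
            A t *ᵥ (√τ • subG (fun j : Fin N => typ γ j) t ω a) / 2 := by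
  set T := fun j : Fin N => typ γ j with hT
  have hN' : (N : ℝ) ≠ 0 := Nat.cast_ne_zero.2 hN.ne'
  rw [Finset.sum_subset (Finset.subset_univ (Finset.univ.image T)) fun t _ ht =>
    Finset.sum_eq_zero fun a _ =>
      absurd (Finset.mem_image.2 ⟨site T t a, Finset.mem_univ _, T_site T t a⟩) ht]
  rw [Fintype.sum_prod_type, Finset.mul_sum, ← Finset.sum_neg_distrib]
  refine Finset.sum_congr rfl fun t _ => ?_
  by_cases ho : Occupied γ t
  · set O : Matrix (Fin d) (Fin d) ℝ := Matrix.of fun k l => ovl τ γ ω (t, k, l) with hO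
    have h1 : ∑ y : Fin d × Fin d, tiltX γ A (t, y) * ovl τ γ ω (t, y)
        = -(1 / 2) * minner (liftM t (A t)) O := by
      simp only [Fintype.sum_prod_type, tiltX, if_pos ho, minner, hO, Matrix.of_apply,
        Finset.mul_sum, mul_assoc]
    have h2 : ∀ b b', subM t O b b'
        = τ / N * ∑ a, subG T t ω a b * subG T t ω a b' := fun b b' => by
      simp only [subM, Matrix.submatrix_apply, hO, Matrix.of_apply, ovl, comp_mem, and_self,
        if_true, subG]
      rw [← sum_site T t fun j => ω (comp t b) j * ω (comp t b') j]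
      rfl
    rw [h1, minner_liftM, minner]
    simp only [h2, dotProduct, Matrix.mulVec, Pi.smul_apply, smul_eq_mul, Finset.mul_sum,
      Finset.sum_div, ← Finset.sum_neg_distrib]
    conv_rhs => rw [Finset.sum_comm]
    refine Finset.sum_congr rfl fun b _ => ?_
    conv_rhs => rw [Finset.sum_comm]
    refine Finset.sum_congr rfl fun b' _ => Finset.sum_congr rfl fun a _ => ?_
    field_simp
    rw [Real.sq_sqrt hτ]
    ring
  · rw [Finset.sum_eq_zero fun y _ => by simp [tiltX, ho], mul_zero, eq_comm, neg_eq_zero]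
    refine Finset.sum_eq_zero fun a _ => ?_
    rcases typ_nonocc γ (site T t a) with h | h
    · rw [show typ γ (site T t a) = t from T_site T t a] at h
      subst h
      rw [dotProduct, Finset.sum_eq_zero fun b _ => absurd b.isLt (by simp), zero_div]
    · rw [show typ γ (site T t a) = t from T_site T t a] at h
      exact absurd h ho

theorem sum_tiltX_centre (hγ : ∀ k, 0 < γ k ∧ γ k ≤ 1) {dd : OIdx d → ℝ} (hd : Clean γ dd)
    (A : (t : Finset (Fin d)) → Matrix (Fin t.card) (Fin t.card) ℝ) :
    -∑ i, tiltX γ A i * dd i = ∑ t, tfrac γ t * ((A t * typD γ dd t).trace / 2) := by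
  rw [Fintype.sum_prod_type, ← Finset.sum_neg_distrib]
  refine Finset.sum_congr rfl fun t _ => ?_
  by_cases ho : Occupied γ t
  · set O : Matrix (Fin d) (Fin d) ℝ := Matrix.of fun k l => dd (t, k, l) with hO
    have h1 : ∑ y : Fin d × Fin d, tiltX γ A (t, y) * dd (t, y)
        = -(1 / 2) * minner (liftM t (A t)) O := by
      simp only [Fintype.sum_prod_type, tiltX, if_pos ho, minner, hO, Matrix.of_apply,
        Finset.mul_sum, mul_assoc]
    have h2 : minner (A t) (subM t O) = (A t * tmat dd t).trace := by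
      simp only [minner, Matrix.trace, Matrix.diag, Matrix.mul_apply, subM, Matrix.submatrix_apply,
        hO, tmat, Matrix.of_apply]
      exact Finset.sum_congr rfl fun b _ => Finset.sum_congr rfl fun b' _ => by rw [hd.1]
    have hne := (tfrac_pos hγ ho).ne'
    rw [h1, minner_liftM, h2, typD, Matrix.mul_smul, Matrix.trace_smul, smul_eq_mul]
    field_simp
  · rw [Finset.sum_eq_zero fun y _ => by simp [tiltX, ho], neg_zero, eq_comm]
    rcases t.eq_empty_or_nonempty with rfl | hne
    · rw [Matrix.trace, Finset.sum_eq_zero fun b _ => absurd b.isLt (by simp), zero_div, mul_zero]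
    · rw [tfrac_eq_zero hγ hne ho, zero_mul]

theorem sum_tiltX_sq {A : (t : Finset (Fin d)) → Matrix (Fin t.card) (Fin t.card) ℝ} {b : ℝ}
    (hb : ∀ t, Occupied γ t → mabs (A t) ≤ b) :
    ∑ i, tiltX γ A i ^ 2 ≤ (Fintype.card (OIdx d) : ℝ) * (b / 2) ^ 2 := by
  refine (Finset.sum_le_sum (g := fun _ => (b / 2) ^ 2) fun i _ => ?_).trans_eq (by simp)
  obtain ⟨t, k, l⟩ := i
  simp only [tiltX]
  by_cases ho : Occupied γ t
  · have h1 : |liftM t (A t) k l| ≤ b := by
      refine le_trans ?_ (hb t ho)
      rw [liftM_apply, mabs]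
      refine (Finset.abs_sum_le_sum_abs _ _).trans (Finset.sum_le_sum fun c _ =>
        (Finset.abs_sum_le_sum_abs _ _).trans (Finset.sum_le_sum fun c' _ => ?_))
      split_ifs
      · exact le_rfl
      · simp
    rw [if_pos ho, ← sq_abs]
    refine pow_le_pow_left₀ (abs_nonneg _) ?_ 2
    rw [abs_mul, abs_neg, abs_of_nonneg (by norm_num : (0 : ℝ) ≤ 1 / 2)]
    linarith
  · rw [if_neg ho, zero_pow two_ne_zero]
    positivity

/-- The penalty is below its linearisation at any table. -/
theorem penalty_le {ι : Type*} [Fintype ι] {lam : ℝ} (hlam : 0 < lam) {n : ℝ} (hn : 0 ≤ n)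
    (X r c : ι → ℝ) :
    -(lam * n * ∑ i, (r i - c i) ^ 2)
      ≤ n * ∑ i, X i * r i - n * ∑ i, X i * c i + n * ((∑ i, X i ^ 2) / (4 * lam)) := by
  have hpt : ∀ i, -(lam * (r i - c i) ^ 2) ≤ X i * r i - X i * c i + X i ^ 2 / (4 * lam) :=
    fun i => by
      have e : X i * r i - X i * c i + X i ^ 2 / (4 * lam) + lam * (r i - c i) ^ 2
          = (2 * lam * (r i - c i) + X i) ^ 2 / (4 * lam) := by
        field_simp
        ring
      have : 0 ≤ (2 * lam * (r i - c i) + X i) ^ 2 / (4 * lam) := by positivity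
      linarith
  have h := mul_le_mul_of_nonneg_left (Finset.sum_le_sum fun i (_ : i ∈ Finset.univ) => hpt i) hn
  simp only [Finset.sum_neg_distrib, Finset.sum_add_distrib, Finset.sum_sub_distrib,
    ← Finset.sum_div, ← Finset.mul_sum, mul_add, mul_sub, mul_neg] at h
  linarith

/-- The energy of the spins by types. -/
theorem spinE_split {p : TPath d} (hp : ∀ j : Fin N, IsPath K (p (typ γ j)))
    (z : Fin N × Fin d → ℝ) (y : Fin K → Fin N × Fin d → ℝ) (ω : Fin d → Fin N → ℝ) :
    spinE γ p τ z y ω
      = ∑ t ∈ Finset.univ.image (fun j : Fin N => typ γ j),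
          ∑ a, leafW τ (p t K) (compFld (spinS γ p (site (fun j : Fin N => typ γ j) t a))
            (site (fun j : Fin N => typ γ j) t a) z y) (subG (fun j : Fin N => typ γ j) t ω a) := by
  set T := fun j : Fin N => typ γ j
  have hC : ∀ t j, T j = t → atomCum (spinS (K := K) γ p) j = liftM t (p t K) := fun t j h => by
    subst h
    exact atomCum_spinS (hp j)
  rw [spinE, spinH, cfgOf_eq_mask, sum_by_type T]
  refine Finset.sum_congr rfl fun t _ => Finset.sum_congr rfl fun a _ => ?_
  have hu : (fun b => maskCfg T τ ω (site T t a) (comp t b)) = √τ • subG T t ω a := funext fun b => by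
    simp [maskCfg, T_site, comp_mem, subG]
  rw [leafW, hC t _ (T_site T t a), quad_liftM, hu]
  congr 1
  refine sum_mask T τ ω t a _ (Finset.sum_congr rfl fun b _ => ?_)
  rw [atomFld_comp]
  rfl

theorem continuous_spinE (γ : Fin d → ℝ) (p : TPath d) (τ : ℝ) :
    Continuous fun w : ((Fin N × Fin d → ℝ) × (Fin K → Fin N × Fin d → ℝ)) × (Fin d → Fin N → ℝ) =>
      spinE γ p τ w.1.1 w.1.2 w.2 := by
  have hc : ∀ j : Fin N, Continuous fun ω : Fin d → Fin N → ℝ => cfgOf τ γ ω j :=
    fun j => continuous_pi fun k => by unfold cfgOf; split_ifs <;> fun_prop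
  unfold spinE spinH
  refine continuous_finsetSum _ fun j _ => Continuous.sub
    (((continuous_atomFld (spinS γ p) j).comp continuous_fst).dotProduct
      ((hc j).comp continuous_snd)) (Continuous.div_const ?_ 2)
  exact ((hc j).dotProduct (continuous_const.matrix_mulVec (hc j))).comp continuous_snd

theorem continuous_spinE_right (γ : Fin d → ℝ) (p : TPath d) (τ : ℝ) (z : Fin N × Fin d → ℝ)
    (y : Fin K → Fin N × Fin d → ℝ) : Continuous fun ω => spinE γ p τ z y ω :=
  (continuous_spinE γ p τ).comp (f := fun ω => ((z, y), ω))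
    (continuous_const.prodMk continuous_id)

theorem cut_subset_cubes (T : Fin N → Finset (Fin d)) {B : ℝ} {R : ℕ}
    (hR : √(B * N) ≤ (R : ℝ) + 1) {ω : Fin d → Fin N → ℝ} (hω : ω ∈ cutSet B d N)
    (t : Finset (Fin d)) :
    subG T t ω ∈ Set.univ.pi fun _ : Fin (typSize T t) => cubeSet t.card R :=
  fun _ _ _ _ => abs_le.1 ((abs_coord_le_of_cut hω _ _).trans hR)

/-- The spins inside the cut under the penalty against separate sites in cubes. -/
theorem log_spin_le (hτ : 0 < τ) {B lam : ℝ} (hlam : 0 < lam) (hN : 0 < N) {dd : OIdx d → ℝ}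
    {q : TPath d} (hp : ∀ j : Fin N, IsPath K (endPath γ dd K q (typ γ j)))
    (hmass : 0 < (spinMeas τ γ B lam dd N).real Set.univ) {R : ℕ}
    (hR : √(B * N) ≤ (R : ℝ) + 1) (z : Fin N × Fin d → ℝ) (y : Fin K → Fin N × Fin d → ℝ) :
    Real.log (∫ ω, Real.exp (spinE γ (endPath γ dd K q) τ z y ω) ∂spinMeas τ γ B lam dd N)
      ≤ (N : ℝ) * ((∑ i, tiltX γ (endA τ γ dd K q) i ^ 2) / (4 * lam)
            - ∑ i, tiltX γ (endA τ γ dd K q) i * dd i)
        + ∑ j : Fin N, leafR τ (endP τ γ dd K q (typ γ j)) R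
            (compFld (spinS γ (endPath γ dd K q) j) j z y) := by
  set p := endPath γ dd K q with hpdef
  set A := endA τ γ dd K q
  set P := endP τ γ dd K q with hP
  set T := fun j : Fin N => typ γ j
  set TT := Finset.univ.image T
  set c0 := (N : ℝ) * ((∑ i, tiltX γ A i ^ 2) / (4 * lam) - ∑ i, tiltX γ A i * dd i)
  set lw : (t : Finset (Fin d)) → (Fin (typSize T t) → Fin t.card → ℝ) → ℝ := fun t g =>
    ∑ a, leafW τ (P t) (compFld (spinS γ p (site T t a)) (site T t a) z y) (g a)
  set C : (t : Finset (Fin d)) → Set (Fin (typSize T t) → Fin t.card → ℝ) := fun t =>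
    Set.univ.pi fun _ => cubeSet t.card R
  set F : (t : Finset (Fin d)) → (Fin (typSize T t) → Fin t.card → ℝ) → ℝ := fun t =>
    (C t).indicator fun g => Real.exp (lw t g)
  set E := fun ω => spinE γ p τ z y ω
  have hCm : ∀ t, MeasurableSet (C t) := fun t =>
    MeasurableSet.univ_pi fun _ => measurableSet_cubeSet _ _
  have hFm : ∀ t, Measurable (F t) := fun t => by
    refine (Real.continuous_exp.comp (continuous_finsetSum _ fun a _ => ?_)).measurable.indicator
      (hCm t)
    exact (continuous_leafW τ (P t)).comp (f := fun g : Fin (typSize T t) → Fin t.card → ℝ =>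
      (compFld (spinS γ p (site T t a)) (site T t a) z y, g a))
      (continuous_const.prodMk (continuous_apply a))
  have hF0 : ∀ t g, 0 ≤ F t g := fun t g =>
    Set.indicator_nonneg (fun _ _ => (Real.exp_pos _).le) g
  -- the integrand against the product over the types
  have hpt : ∀ ω ∈ cutSet B d N,
      Real.exp (E ω - lam * N * ∑ i, (ovl τ γ ω i - dd i) ^ 2)
        ≤ Real.exp c0 * ∏ t ∈ TT, F t (subG T t ω) := fun ω hω => by
    rw [Finset.prod_congr rfl fun t _ => (Set.indicator_of_mem (cut_subset_cubes T hR hω t) _ :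
      F t (subG T t ω) = Real.exp (lw t (subG T t ω))), ← Real.exp_sum, ← Real.exp_add,
      Real.exp_le_exp]
    have h1 := penalty_le hlam (Nat.cast_nonneg N) (tiltX γ A) (ovl τ γ ω) dd
    have h2 := sum_tiltX_ovl (γ := γ) hτ.le hN A ω
    have h3 : E ω - ∑ t ∈ TT, ∑ a, (√τ • subG T t ω a) ⬝ᵥ A t *ᵥ (√τ • subG T t ω a) / 2
        = ∑ t ∈ TT, lw t (subG T t ω) := by
      simp only [E]
      rw [spinE_split hp z y ω, ← Finset.sum_sub_distrib]
      refine Finset.sum_congr rfl fun t _ => ?_
      rw [← Finset.sum_sub_distrib]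
      refine Finset.sum_congr rfl fun a _ => ?_
      simp only [hP, endP_eq, hpdef, A, T, leafW, Matrix.add_mulVec, dotProduct_add]
      ring
    simp only [c0]
    linarith
  have hFb : ∀ t, ∃ b : ℝ, 0 ≤ b ∧ ∀ g, F t g ≤ b := fun t => by
    refine ⟨Real.exp (∑ a : Fin (typSize T t), (√τ * ((R : ℝ) + 1)
        * (∑ i, |compFld (t := t) (spinS γ p (site T t a)) (site T t a) z y i|)
      + τ.toNNReal * ((R : ℝ) + 1) ^ 2 * (∑ i, ∑ j, |P t i j|) / 2)), (Real.exp_pos _).le, fun g => ?_⟩
    by_cases hg : g ∈ C t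
    · simp only [F, Set.indicator_of_mem hg, Real.exp_le_exp, lw]
      exact Finset.sum_le_sum fun a _ => (le_abs_self _).trans
        (abs_leafW_le τ (P t) _ fun k => abs_le.2 (hg a (Set.mem_univ a) k (Set.mem_univ k)))
    · simp only [F, Set.indicator_of_notMem hg]
      exact (Real.exp_pos _).le
  choose b hb0 hb using hFb
  have hprodm : Measurable fun ω : Fin d → Fin N → ℝ => ∏ t ∈ TT, F t (subG T t ω) :=
    Finset.measurable_prod _ fun t _ => (hFm t).comp (mp_subG T t).measurable
  have hprodi : Integrable (fun ω : Fin d → Fin N → ℝ => ∏ t ∈ TT, F t (subG T t ω))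
      (spinLaw d N) := (integrable_const (∏ t ∈ TT, b t)).mono' hprodm.aestronglyMeasurable
    (ae_of_all _ fun ω => by
      rw [Real.norm_eq_abs, abs_of_nonneg (Finset.prod_nonneg fun t _ => hF0 t _)]
      exact Finset.prod_le_prod (fun t _ => hF0 t _) fun t _ => hb t _)
  have hF : ∀ t, ∫ g, F t g ∂blockGauss t.card (typSize T t)
      = Real.exp (∑ a, leafR τ (P t) R (compFld (spinS γ p (site T t a)) (site T t a) z y)) :=
    fun t => by
    simp only [F, integral_indicator (hCm t), C, blockGauss, Measure.restrict_pi_pi, lw,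
      Real.exp_sum]
    rw [integral_fintype_prod_eq_prod (f := fun (a : Fin (typSize T t)) (g : Fin t.card → ℝ) =>
      Real.exp (leafW τ (P t) (compFld (spinS γ p (site T t a)) (site T t a) z y) g))]
    refine Finset.prod_congr rfl fun a _ => (Real.exp_log ?_).symm
    exact (log_integral_exp_bound (cubeMeas_pos t.card R)
      ((continuous_leafW τ (P t)).comp
        (f := fun g => (compFld (spinS γ p (site T t a)) (site T t a) z y, g))
        (continuous_const.prodMk continuous_id)).measurable
      ((ae_cube t.card R).mono fun g hg => abs_leafW_le τ (P t) (compFld (spinS γ p (site T t a)) (site T t a) z y) hg)).2.1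
  have key := integral_prod_types T F (fun _ => 1) (fun _ _ _ => rfl) hFm measurable_const TT
  simp only [one_mul, integral_const, probReal_univ, one_smul, hF, ← Real.exp_sum] at key
  have hmain : ∫ ω, Real.exp (E ω) ∂spinMeas τ γ B lam dd N
      ≤ Real.exp c0 * ∫ ω, ∏ t ∈ TT, F t (subG T t ω) ∂spinLaw d N := by
    rw [integral_spinMeas, zpen, ← integral_const_mul]
    refine le_trans ?_ (setIntegral_le_integral (s := cutSet B d N) (hprodi.const_mul _)
      (ae_of_all _ fun ω => mul_nonneg (Real.exp_pos _).le (Finset.prod_nonneg fun t _ => hF0 t _)))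
    exact integral_mono_of_nonneg (ae_of_all _ fun ω => (Real.exp_pos _).le)
      (hprodi.const_mul _).integrableOn
      ((ae_restrict_iff' (measurableSet_cut B d N)).2 (ae_of_all _ hpt))
  have hpos : 0 < ∫ ω, Real.exp (E ω) ∂spinMeas τ γ B lam dd N := by
    have := spinMeas_finite (τ := τ) (γ := γ) (B := B) (N := N) hlam.le dd
    obtain ⟨b', hb'⟩ := (isCompact_cut B d N).exists_bound_of_continuousOn
      (continuous_spinE_right γ p τ z y).continuousOn
    exact (log_integral_exp_bound hmass (continuous_spinE_right γ p τ z y).measurable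
      ((ae_mem_cut dd).mono fun ω hω => (Real.norm_eq_abs _).symm.trans_le (hb' ω hω))).2.1
  refine (Real.log_le_log hpos hmain).trans_eq ?_
  rw [key, ← Real.exp_add, Real.log_exp, sum_by_type T fun j => leafR τ (P (typ γ j)) R
    (compFld (spinS γ p j) j z y)]
  refine congrArg (c0 + ·) (Finset.sum_congr rfl fun t _ => Finset.sum_congr rfl fun a _ => ?_)
  rw [show typ γ (site T t a) = t from T_site T t a]

end Vale.Agent.P166.Casc
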