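import Vale.Agent.P166.Casc.VSD
import Vale.Agent.P166.Formula.Stable

/-!
The rotation identities, up to errors, give the stationarity equations up to errors in mean over
the levels.
-/

open MeasureTheory ProbabilityTheory Filter Topology Matrix

namespace Vale.Agent.P166.Casc

variable {d K : ℕ}

/-- A path on the levels, extended by its last value. -/
def extPath (x : Fin (K + 1) → Matrix (Fin d) (Fin d) ℝ) (l : ℕ) : Matrix (Fin d) (Fin d) ℝ :=
  x ⟨min l K, by omega⟩

theorem extPath_val (x : Fin (K + 1) → Matrix (Fin d) (Fin d) ℝ) (j : Fin (K + 1)) :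
    extPath x j.val = x j := by
  unfold extPath
  congr 1
  exact Fin.ext (Nat.min_eq_left (by omega))

theorem extPath_smul (c : ℝ) (x : Fin (K + 1) → Matrix (Fin d) (Fin d) ℝ) :
    extPath (fun l => c • x l) = fun l => c • extPath x l := rfl

/-- The increment of the level weights. -/
def dmOf (m : ℕ → ℝ) (j : Fin (K + 1)) : ℝ := m (j.val + 1) - m j.val

theorem sum_fin_filter (P : ℕ → Prop) [DecidablePred P] (f : ℕ → Matrix (Fin d) (Fin d) ℝ) :
    ∑ j ∈ Finset.univ.filter (fun j : Fin (K + 1) => P j.val), f j.val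
      = ∑ j ∈ (Finset.range (K + 1)).filter P, f j := by
  rw [Finset.sum_filter, Finset.sum_filter,
    Fin.sum_univ_eq_sum_range (fun j => if P j then f j else 0)]

theorem cum_extPath (m : ℕ → ℝ) (p q : Fin (K + 1) → Matrix (Fin d) (Fin d) ℝ) :
    Formula.cum m (extPath p) (extPath q) (K + 1) = ∑ j, dmOf m j • (p j * q j) := by
  rw [Formula.cum, ← Fin.sum_univ_eq_sum_range
    (fun l => (m (l + 1) - m l) • (extPath p l * extPath q l))]
  simp only [extPath_val, dmOf]

theorem tripF_eq {m : ℕ → ℝ} (hm : Formula.Levels m K)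
    (p q : Fin (K + 1) → Matrix (Fin d) (Fin d) ℝ) (l : Fin (K + 1)) :
    tripF (dmOf m) p q l
      = (dmOf m l / 2) • Formula.triple m K (extPath p) (extPath q) l.val := by
  have hl : l.val ≤ K := by omega
  have e1 : (Finset.range (K + 1)).filter (fun j => j < l.val) = Finset.range l.val := by
    ext j; simp; omega
  have e2 : (Finset.range (K + 1)).filter (fun j => l.val < j) = Finset.Ioc l.val K := by
    ext j; simp; omega
  rw [dmOf, ← Formula.triple_value hm _ _ hl, tripF]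
  simp only [Fin.lt_def, ← extPath_val p, ← extPath_val q, dmOf, Matrix.smul_mul]
  rw [sum_fin_filter (fun j => j < l.val)
      (fun j => ((m (j + 1) - m j) * (m (l.val + 1) - m l.val) / 2) • (extPath p j * extPath q j)),
    sum_fin_filter (fun j => l.val < j)
      (fun j => ((m (j + 1) - m j) * (m (l.val + 1) - m l.val) / 2)
        • (extPath p j * extPath q l.val)),
    sum_fin_filter (fun j => l.val < j)
      (fun j => ((m (l.val + 1) - m l.val) * (m (j + 1) - m j) / 2)
        • (extPath p l.val * (extPath q j - extPath q l.val))), e1, e2]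
  congr 1
  · congr 2
    ring
  · exact Finset.sum_congr rfl fun j _ => by rw [mul_comm]

/-- The precision at the bottom attached to the two paths. -/
noncomputable def sdL (m : ℕ → ℝ) (a : ℝ) (D : Matrix (Fin d) (Fin d) ℝ)
    (p q : Fin (K + 1) → Matrix (Fin d) (Fin d) ℝ) : Matrix (Fin d) (Fin d) ℝ :=
  Formula.rotL m K (a⁻¹ • D) (extPath p) (extPath fun j => a⁻¹ • q j)

/-- The failure of the identity at a level, before weighting. -/
noncomputable def sdRes (m : ℕ → ℝ) (a : ℝ) (D : Matrix (Fin d) (Fin d) ℝ)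
    (p q : Fin (K + 1) → Matrix (Fin d) (Fin d) ℝ) (l : Fin (K + 1)) : Matrix (Fin d) (Fin d) ℝ :=
  (a • 1 - ∑ j, dmOf m j • (q j * p j)) * q l - D * p l * D
    + D * Formula.triple m K (extPath p) (extPath q) l.val

theorem sdRes_smul {m : ℕ → ℝ} (hm : Formula.Levels m K) (a : ℝ) (D : Matrix (Fin d) (Fin d) ℝ)
    (p q : Fin (K + 1) → Matrix (Fin d) (Fin d) ℝ) (l : Fin (K + 1)) :
    dmOf m l • sdRes m a D p q l
      = dmOf m l • ((a • 1 - ∑ j, dmOf m j • (q j * p j)) * q l - D * p l * D)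
        + (2 : ℝ) • (D * tripF (dmOf m) p q l) := by
  rw [tripF_eq hm, Matrix.mul_smul, smul_smul,
    show (2 : ℝ) * (dmOf m l / 2) = dmOf m l by ring, ← smul_add, sdRes]

theorem diag_sdL {m : ℕ → ℝ} {a : ℝ} (ha : a ≠ 0) {D : Matrix (Fin d) (Fin d) ℝ} (hD : D.det ≠ 0)
    (p q : Fin (K + 1) → Matrix (Fin d) (Fin d) ℝ) :
    sdL m a D p q * (a⁻¹ • D)
      + Formula.cum m (extPath p) (extPath fun j => a⁻¹ • q j) (K + 1) = 1 := by
  have hu : IsUnit (a⁻¹ • D).det := by
    rw [Matrix.det_smul]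
    exact isUnit_iff_ne_zero.2 (mul_ne_zero (pow_ne_zero _ (inv_ne_zero ha)) hD)
  rw [sdL, Formula.rotL, Matrix.nonsing_inv_mul_cancel_right _ _ hu, sub_add_cancel]

/-- The stationarity equations hold up to the errors of the two identities, in mean over the
levels. -/
theorem lmean_resid_le {m : ℕ → ℝ} (hm : Formula.Levels m K) {a : ℝ} (ha : a ≠ 0)
    {D : Matrix (Fin d) (Fin d) ℝ} (hD : D.det ≠ 0)
    {p q : Fin (K + 1) → Matrix (Fin d) (Fin d) ℝ} (hps : ∀ j, (p j).transpose = p j)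
    (hqs : ∀ j, (q j).transpose = q j) {B e0 e1 : ℝ} (hDi : mabs (a⁻¹ • D)⁻¹ ≤ B)
    (hqB : ∀ j, mabs (a⁻¹ • q j) ≤ B)
    (h0 : mabs ((∑ j, dmOf m j • (q j * p j)) * D - D * ∑ j, dmOf m j • (p j * q j)) ≤ e0)
    (h1 : ∑ l, mabs (dmOf m l • ((a • 1 - ∑ j, dmOf m j • (q j * p j)) * q l - D * p l * D)
      + (2 : ℝ) • (D * tripF (dmOf m) p q l)) ≤ e1) :
    Formula.lmean m K (Formula.resid m K (sdL m a D p q) (a⁻¹ • D) (extPath p)
        (extPath fun j => a⁻¹ • q j))
      ≤ |a⁻¹| ^ 2 * (B ^ 3 * e0 + B * e1) := by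
  set Dh := a⁻¹ • D with hDh
  set qh := fun j => a⁻¹ • q j with hqh
  set S := ∑ j, dmOf m j • (q j * p j) with hS
  set S' := ∑ j, dmOf m j • (p j * q j) with hS'
  have hu : IsUnit Dh.det := by
    rw [hDh, Matrix.det_smul]
    exact isUnit_iff_ne_zero.2 (mul_ne_zero (pow_ne_zero _ (inv_ne_zero ha)) hD)
  have hc : Formula.cum m (extPath p) (extPath qh) (K + 1) = a⁻¹ • S' := by
    rw [cum_extPath, hS', Finset.smul_sum]
    exact Finset.sum_congr rfl fun j _ => by rw [hqh, Matrix.mul_smul, smul_comm]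
  set X := fun j : Fin (K + 1) => (a⁻¹ * a⁻¹) • (Dh⁻¹ * (S * D - D * S') * Dh⁻¹ * qh j
      + Dh⁻¹ * sdRes m a D p q j) with hX
  have hres : ∀ j : Fin (K + 1),
      Formula.resid m K (sdL m a D p q) Dh (extPath p) (extPath qh) j.val = X j := fun j => by
    have htr : Formula.triple m K (extPath p) (extPath qh) j.val
        = a⁻¹ • Formula.triple m K (extPath p) (extPath q) j.val := by
      rw [hqh, extPath_smul]
      simp only [Formula.triple, Formula.cum, Matrix.mul_smul, smul_add, Finset.smul_sum,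
        smul_comm a⁻¹, Finset.mul_sum]
    have er : Formula.resid m K (sdL m a D p q) Dh (extPath p) (extPath qh) j.val
        = sdL m a D p q * qh j - p j * Dh + Formula.triple m K (extPath p) (extPath qh) j.val := by
      simp only [Formula.resid, Formula.tLam, Formula.tT, Formula.tail, Formula.triple,
        Matrix.add_mul, Matrix.mul_sub, Matrix.mul_add, Matrix.smul_mul, Matrix.mul_smul,
        extPath_val]
      module
    have hsdL : sdL m a D p q = Dh⁻¹ * (1 - a⁻¹ • S) + Dh⁻¹ * (a⁻¹ • S * Dh - Dh * (a⁻¹ • S')) * Dh⁻¹ := by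
      have e2 : Dh⁻¹ * (a⁻¹ • S * Dh - Dh * (a⁻¹ • S')) * Dh⁻¹
          = Dh⁻¹ * (a⁻¹ • S) - (a⁻¹ • S') * Dh⁻¹ := by
        rw [Matrix.mul_sub, Matrix.sub_mul, ← Matrix.mul_assoc,
          Matrix.mul_nonsing_inv_cancel_right _ _ hu, Matrix.nonsing_inv_mul_cancel_left _ _ hu]
      rw [sdL, ← hqh, ← hDh, Formula.rotL, hc, e2, Matrix.mul_sub, Matrix.mul_one, Matrix.sub_mul,
        Matrix.one_mul]
      abel
    have e3 : a⁻¹ • S * Dh - Dh * (a⁻¹ • S') = (a⁻¹ * a⁻¹) • (S * D - D * S') := by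
      simp only [hDh, Matrix.smul_mul, Matrix.mul_smul, smul_smul, smul_sub]
    have e4 : (1 - a⁻¹ • S) * qh j - Dh * p j * Dh
        + Dh * (a⁻¹ • Formula.triple m K (extPath p) (extPath q) j.val)
        = (a⁻¹ * a⁻¹) • sdRes m a D p q j := by
      simp only [sdRes, hDh, hqh, Matrix.sub_mul, Matrix.smul_mul, Matrix.mul_smul, Matrix.one_mul,
        smul_smul, smul_add, smul_sub]
      rw [show a⁻¹ * a⁻¹ * a = a⁻¹ by field_simp]
    rw [er, hsdL, e3, htr, hX]
    dsimp only
    rw [smul_add, ← Matrix.mul_smul Dh⁻¹ (a⁻¹ * a⁻¹) (sdRes m a D p q j), ← e4]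
    rw [Matrix.add_mul, Matrix.mul_assoc Dh⁻¹ (1 - a⁻¹ • S) (qh j)]
    generalize (1 - a⁻¹ • S) * qh j = A
    simp only [Matrix.mul_add, Matrix.mul_sub, Matrix.mul_smul, Matrix.smul_mul,
      Matrix.mul_assoc, Matrix.nonsing_inv_mul_cancel_left _ _ hu]
    abel
  have e0' : mabs (Dh⁻¹ * (S * D - D * S') * Dh⁻¹) ≤ B * e0 * B :=
    mabs_mul_le (mabs_mul_le hDi h0) hDi
  have hB0 : 0 ≤ B := (mabs_nonneg _).trans hDi
  have he0 : 0 ≤ e0 := (mabs_nonneg _).trans h0
  have hnn : ∀ j : Fin (K + 1), 0 ≤ dmOf m j := fun j => hm.dm_nonneg (l := j.val) (by omega)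
  rw [Formula.lmean, ← Fin.sum_univ_eq_sum_range
    (fun l => Formula.dmAt m l * mabs (Formula.resid m K (sdL m a D p q) Dh (extPath p) (extPath qh) l))]
  simp only [hres]
  refine (Finset.sum_le_sum (g := fun j => |a⁻¹| ^ 2 * (B ^ 3 * e0 * dmOf m j
    + B * mabs (dmOf m j • sdRes m a D p q j))) fun j _ => ?_).trans ?_
  · rw [show Formula.dmAt m j.val = dmOf m j from rfl, hX]
    dsimp only
    rw [mabs_smul, abs_mul, ← sq]
    refine (mul_le_mul_of_nonneg_left (mul_le_mul_of_nonneg_left ((mabs_add _ _).trans (add_le_add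
      (mabs_mul_le e0' (hqB j)) (mabs_mul_le hDi le_rfl))) (sq_nonneg _)) (hnn j)).trans_eq ?_
    rw [mabs_smul, abs_of_nonneg (hnn j)]
    ring
  · rw [← Finset.mul_sum, Finset.sum_add_distrib, ← Finset.mul_sum, ← Finset.mul_sum,
      show ∑ j : Fin (K + 1), dmOf m j = 1 by
        rw [show (dmOf m : Fin (K + 1) → ℝ) = fun j => Formula.dmAt m j.val from rfl,
          Fin.sum_univ_eq_sum_range (fun l => Formula.dmAt m l), hm.sum_dm le_rfl, hm.top], mul_one]
    refine mul_le_mul_of_nonneg_left (add_le_add le_rfl (mul_le_mul_of_nonneg_left ?_ hB0))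
      (sq_nonneg _)
    refine le_trans (le_of_eq (Finset.sum_congr rfl fun j _ => ?_)) h1
    rw [sdRes_smul hm]

end Vale.Agent.P166.Casc
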