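import Vale.Agent.P157.Casc.Ultra.Avg
import Vale.Agent.P166.Formula.SD

/-!
Overlap identities with random tests: transfer to continuous functions of a kernel, and the law of
three replicas against the levels.
-/

open MeasureTheory ProbabilityTheory Filter Topology Set

namespace Vale.Agent.P166.Casc

open Vale.Agent.P157.Casc

variable {T Ω : Type*} [Fintype T] [MeasurableSpace Ω]

/-- Expected average of a random observable of replicas. -/
noncomputable def reavg (μ : Measure Ω) (u : Ω → T → ℝ) (n : ℕ) (F : Ω → (Fin n → T) → ℝ) : ℝ :=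
  ∫ ω, avg (u ω) n (F ω) ∂μ

/-- Defect in the overlap identity for a random test. -/
noncomputable def rdef (μ : Measure Ω) (u : Ω → T → ℝ) (S : T → T → ℝ) (r : ℕ)
    (F : Ω → (Fin (r + 1) → T) → ℝ) : ℝ :=
  reavg μ u (r + 2) (fun ω x => F ω (fun i => x i.castSucc) * S (x 0) (x (Fin.last (r + 1))))
    - (reavg μ u (r + 1) F * reavg μ u 2 (fun _ x => S (x 0) (x 1))
        + ∑ l : Fin r, reavg μ u (r + 1) (fun ω x => F ω x * S (x 0) (x l.succ))) / (r + 1)

/-- A measurable bounded random test. -/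
structure BTest {n : ℕ} (F : Ω → (Fin n → T) → ℝ) (B : ℝ) : Prop where
  meas : ∀ x, Measurable fun ω => F ω x
  bound : ∀ ω x, |F ω x| ≤ B

omit [Fintype T] in
theorem BTest.mul {n : ℕ} {F F' : Ω → (Fin n → T) → ℝ} {B B' : ℝ} (h : BTest F B)
    (h' : BTest F' B') (hB : 0 ≤ B) : BTest (fun ω x => F ω x * F' ω x) (B * B') :=
  ⟨fun x => (h.meas x).mul (h'.meas x), fun ω x => by
    rw [abs_mul]
    exact mul_le_mul (h.bound ω x) (h'.bound ω x) (abs_nonneg _) hB⟩

omit [Fintype T] in
theorem bTest_const {n : ℕ} (F : (Fin n → T) → ℝ) {B : ℝ} (h : ∀ x, |F x| ≤ B) :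
    BTest (fun _ : Ω => F) B :=
  ⟨fun _ => measurable_const, fun _ x => h x⟩

variable {μ : Measure Ω} [IsProbabilityMeasure μ] {u : Ω → T → ℝ} [Nonempty T]
  (hm : ∀ x, Measurable fun ω => u ω x) (hp : ∀ ω x, 0 < u ω x)

include hm hp

theorem integrable_reavg {n : ℕ} {F : Ω → (Fin n → T) → ℝ} {B : ℝ} (hF : BTest F B) :
    Integrable (fun ω => avg (u ω) n (F ω)) μ := by
  refine Integrable.of_bound ?_ B (Eventually.of_forall fun ω =>
    (Real.norm_eq_abs _).trans_le (abs_avg' (hp ω) (hF.bound ω)))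
  exact (Finset.measurable_sum _ fun x _ => (Finset.measurable_prod _ fun i _ =>
    (hm _).div (Finset.measurable_sum _ fun y _ => hm y)).mul (hF.meas x)).aestronglyMeasurable

omit hm in
theorem abs_reavg_le {n : ℕ} {F : Ω → (Fin n → T) → ℝ} {B : ℝ} (hF : BTest F B) :
    |reavg μ u n F| ≤ B := by
  rw [reavg, ← Real.norm_eq_abs]
  refine (norm_integral_le_of_norm_le_const (C := B) (Eventually.of_forall fun ω =>
    (Real.norm_eq_abs _).trans_le (abs_avg' (hp ω) (hF.bound ω)))).trans_eq ?_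
  simp

theorem reavg_add {n : ℕ} {F H : Ω → (Fin n → T) → ℝ} {B B' : ℝ} (hF : BTest F B)
    (hH : BTest H B') :
    reavg μ u n (fun ω x => F ω x + H ω x) = reavg μ u n F + reavg μ u n H := by
  simp only [reavg, avg_add']
  exact integral_add (integrable_reavg hm hp hF) (integrable_reavg hm hp hH)

omit hm hp [IsProbabilityMeasure μ] [Nonempty T] in
theorem reavg_smul {n : ℕ} (c : ℝ) (F : Ω → (Fin n → T) → ℝ) :
    reavg μ u n (fun ω x => c * F ω x) = c * reavg μ u n F := by
  simp only [reavg, avg_smul']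
  exact integral_const_mul ..

theorem reavg_sum {ι : Type*} (s : Finset ι) {n : ℕ} {F : ι → Ω → (Fin n → T) → ℝ} {B : ι → ℝ}
    (hF : ∀ i ∈ s, BTest (F i) (B i)) :
    reavg μ u n (fun ω x => ∑ i ∈ s, F i ω x) = ∑ i ∈ s, reavg μ u n (F i) := by
  simp only [reavg, avg_sum']
  exact integral_finsetSum _ fun i hi => integrable_reavg hm hp (hF i hi)

omit hm hp [IsProbabilityMeasure μ] [Nonempty T] in
theorem reavg_perm {n : ℕ} (e : Equiv.Perm (Fin n)) (F : Ω → (Fin n → T) → ℝ) :
    reavg μ u n (fun ω x => F ω (x ∘ e)) = reavg μ u n F := by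
  simp only [reavg, avg_perm']

theorem rdef_sum {ι : Type*} (s : Finset ι) (c : ι → ℝ) (S : ι → T → T → ℝ) {r : ℕ}
    {F : Ω → (Fin (r + 1) → T) → ℝ} {B : ℝ} (hF : BTest F B) :
    rdef μ u (fun x y => ∑ i ∈ s, c i * S i x y) r F
      = ∑ i ∈ s, c i * rdef μ u (S i) r F := by
  have hS : ∀ i, ∀ {n : ℕ} (a b : Fin n),
      BTest (fun (_ : Ω) (x : Fin n → T) => c i * S i (x a) (x b)) (∑ x, ∑ y, |c i * S i x y|) :=
    fun i n a b => bTest_const _ fun x =>
      (Finset.single_le_sum (f := fun y => |c i * S i (x a) y|) (fun j _ => abs_nonneg _)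
        (Finset.mem_univ _)).trans (Finset.single_le_sum (f := fun z => ∑ y, |c i * S i z y|)
        (fun j _ => Finset.sum_nonneg fun k _ => abs_nonneg _) (Finset.mem_univ _))
  have hF' : BTest (fun ω (x : Fin (r + 2) → T) => F ω fun i => x i.castSucc) |B| :=
    ⟨fun x => hF.meas _, fun ω x => (hF.bound _ _).trans (le_abs_self _)⟩
  have hF'' : BTest F |B| := ⟨hF.meas, fun ω x => (hF.bound _ _).trans (le_abs_self _)⟩
  have e1 : reavg μ u (r + 2) (fun ω x => F ω (fun i => x i.castSucc) *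
        ∑ i ∈ s, c i * S i (x 0) (x (Fin.last (r + 1))))
      = ∑ i ∈ s, c i * reavg μ u (r + 2) (fun ω x =>
          F ω (fun j => x j.castSucc) * S i (x 0) (x (Fin.last (r + 1)))) := by
    simp only [Finset.mul_sum]
    rw [reavg_sum hm hp s fun i _ => hF'.mul (hS i 0 (Fin.last (r + 1))) (abs_nonneg _)]
    exact Finset.sum_congr rfl fun i _ => by rw [← reavg_smul]; simp only [mul_left_comm (c i)]
  have e2 : reavg μ u 2 (fun _ x => ∑ i ∈ s, c i * S i (x 0) (x 1))
      = ∑ i ∈ s, c i * reavg μ u 2 (fun _ x => S i (x 0) (x 1)) := by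
    rw [reavg_sum hm hp s fun i _ => hS i 0 1]
    exact Finset.sum_congr rfl fun i _ => reavg_smul _ _
  have e3 : ∀ l : Fin r, reavg μ u (r + 1) (fun ω x => F ω x * ∑ i ∈ s, c i * S i (x 0) (x l.succ))
      = ∑ i ∈ s, c i * reavg μ u (r + 1) (fun ω x => F ω x * S i (x 0) (x l.succ)) := fun l => by
    simp only [Finset.mul_sum]
    rw [reavg_sum hm hp s fun i _ => hF''.mul (hS i 0 l.succ) (abs_nonneg _)]
    exact Finset.sum_congr rfl fun i _ => by rw [← reavg_smul]; simp only [mul_left_comm (c i)]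
  rw [rdef, e1, e2, Finset.sum_congr rfl (fun l _ => e3 l)]
  simp only [rdef, mul_sub, mul_div_assoc', mul_add, Finset.mul_sum,
    Finset.sum_sub_distrib, Finset.sum_add_distrib, ← Finset.sum_div]
  rw [Finset.sum_comm]
  congr 3
  exact Finset.sum_congr rfl fun i _ => by ring

omit hm in
theorem abs_rdef_le {S : T → T → ℝ} {B : ℝ} (hS : ∀ x y, |S x y| ≤ B) {r : ℕ}
    {F : Ω → (Fin (r + 1) → T) → ℝ} (hF : BTest F 1) : |rdef μ u S r F| ≤ 2 * B := by
  have hB : ∀ {n : ℕ} (i j : Fin n), BTest (fun (_ : Ω) (x : Fin n → T) => S (x i) (x j)) B :=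
    fun i j => bTest_const _ fun x => hS _ _
  have hF' : BTest (fun ω (x : Fin (r + 2) → T) => F ω fun i => x i.castSucc) 1 :=
    ⟨fun x => hF.meas _, fun ω x => hF.bound _ _⟩
  have h1 := abs_reavg_le (μ := μ) hp (hF'.mul (hB 0 (Fin.last (r + 1))) zero_le_one)
  have h2 := abs_reavg_le (μ := μ) hp hF
  have h3 := abs_reavg_le (μ := μ) hp (hB (n := 2) 0 1)
  have h4 : |∑ l : Fin r, reavg μ u (r + 1) (fun ω x => F ω x * S (x 0) (x l.succ))| ≤ r * B := by
    refine (Finset.abs_sum_le_sum_abs _ _).trans ((Finset.sum_le_sum fun l _ =>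
      abs_reavg_le (μ := μ) hp (hF.mul (hB 0 l.succ) zero_le_one)).trans_eq (by simp))
  have h5 : |reavg μ u (r + 1) F * reavg μ u 2 (fun _ x => S (x 0) (x 1))| ≤ B := by
    rw [abs_mul]
    exact (mul_le_of_le_one_left (abs_nonneg _) h2).trans h3
  have hr : (0 : ℝ) < (r : ℝ) + 1 := by positivity
  refine (abs_sub _ _).trans ?_
  rw [abs_div, abs_of_pos hr, two_mul]
  refine add_le_add (by simpa using h1) ?_
  rw [div_le_iff₀ hr]
  linarith [(abs_add_le (reavg μ u (r + 1) F * reavg μ u 2 (fun _ x => S (x 0) (x 1)))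
    (∑ l : Fin r, reavg μ u (r + 1) (fun ω x => F ω x * S (x 0) (x l.succ))))]

omit hm in
theorem rdef_one {r : ℕ} {F : Ω → (Fin (r + 1) → T) → ℝ} :
    rdef μ u (fun _ _ => 1) r F = 0 := by
  have e : reavg μ u (r + 2) (fun ω x => F ω fun i => x i.castSucc) = reavg μ u (r + 1) F :=
    integral_congr_ae (Eventually.of_forall fun ω => by
      dsimp only
      rw [avg_snoc']
      simp [← Finset.sum_mul, gibbs_sum' (hp ω)])
  have e1 : reavg μ u 2 (fun _ _ => (1 : ℝ)) = 1 := by simp [reavg, avg_const' (hp _)]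
  simp only [rdef, mul_one, e1, e, Finset.sum_const, Finset.card_univ,
    Fintype.card_fin, nsmul_eq_mul]
  field_simp
  ring

/-- Identities for powers of a kernel give them for a continuous function of it. -/
theorem rdef_comp {S : T → T → ℝ} (hS : ∀ x y, S x y ∈ Icc (-1 : ℝ) 1) {p : Polynomial ℝ}
    {h : ℝ → ℝ} {ε δ : ℝ} (hδ : 0 ≤ δ) (hpol : ∀ s ∈ Icc (-1 : ℝ) 1, |p.eval s - h s| ≤ ε)
    {r : ℕ} {F : Ω → (Fin (r + 1) → T) → ℝ} (hF : BTest F 1)
    (hgg : ∀ j < p.natDegree, |rdef μ u (fun x y => S x y ^ (j + 1)) r F| ≤ δ) :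
    |rdef μ u (fun x y => h (S x y)) r F|
      ≤ 2 * ε + (∑ j ∈ Finset.range (p.natDegree + 1), |p.coeff j|) * δ := by
  have e : rdef μ u (fun x y => h (S x y)) r F
      = rdef μ u (fun x y => h (S x y) - p.eval (S x y)) r F
        + ∑ j ∈ Finset.range (p.natDegree + 1), p.coeff j * rdef μ u (fun x y => S x y ^ j) r F := by
    rw [← rdef_sum hm hp _ _ _ hF]
    have := rdef_sum (μ := μ) hm hp (Finset.univ : Finset Bool) (fun _ => (1 : ℝ))
      (fun b x y => if b then h (S x y) - p.eval (S x y) else p.eval (S x y)) hF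
    simp only [Fintype.sum_bool, one_mul, if_true, Bool.false_eq_true, if_false,
      sub_add_cancel] at this
    have he : (fun x y => ∑ j ∈ Finset.range (p.natDegree + 1), p.coeff j * S x y ^ j)
        = fun x y => p.eval (S x y) := by
      funext x y; exact (Polynomial.eval_eq_sum_range _).symm
    rw [he]
    exact this
  rw [e]
  refine (abs_add_le _ _).trans (add_le_add ?_ ?_)
  · exact abs_rdef_le hp (fun x y => by rw [abs_sub_comm]; exact hpol _ (hS x y)) hF
  · rw [Finset.sum_mul]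
    refine (Finset.abs_sum_le_sum_abs _ _).trans (Finset.sum_le_sum fun j hj => ?_)
    rw [abs_mul]
    refine mul_le_mul_of_nonneg_left ?_ (abs_nonneg _)
    rcases j with _ | j
    · simpa [rdef_one hp] using hδ
    · exact hgg j (by simpa [Nat.succ_le_iff] using hj)

section Levels

variable {K : ℕ} {U : T → T → Fin (K + 1)} {δ : ℝ}

/-- The law of the level of a pair. -/
noncomputable def levLaw (μ : Measure Ω) (u : Ω → T → ℝ) (U : T → T → Fin (K + 1))
    (n : Fin (K + 1)) : ℝ :=
  reavg μ u 2 fun _ x => if U (x 0) (x 1) = n then 1 else 0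

/-- An observable of a pair restricted to a level. -/
noncomputable def levPart (μ : Measure Ω) (u : Ω → T → ℝ) (U : T → T → Fin (K + 1))
    (O : Ω → T → T → ℝ) (n : Fin (K + 1)) : ℝ :=
  reavg μ u 2 fun ω x => if U (x 0) (x 1) = n then O ω (x 0) (x 1) else 0

/-- The value of three replicas, from the identities for the levels. -/
theorem triple_le (hU : ∀ x y z, Formula.Tri (U x y) (U x z) (U z y))
    (hUs : ∀ x y, U x y = U y x) {O : Ω → T → T → ℝ}
    (hOm : ∀ a b, Measurable fun ω => O ω a b) (hOb : ∀ ω a b, |O ω a b| ≤ 1)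
    (hgg : ∀ n j : Fin (K + 1),
      |rdef μ u (fun x y => if U x y = n then 1 else 0) 1
          (fun ω x => if U (x 0) (x 1) = j then O ω (x 0) (x 1) else 0)| ≤ δ ∧
      |rdef μ u (fun x y => if U x y = n then 1 else 0) 1
          (fun ω x => if U (x 0) (x 1) = j then O ω (x 1) (x 0) else 0)| ≤ δ)
    (g : Fin (K + 1) → ℝ) {G : ℝ} (hG : ∀ n, |g n| ≤ G) (l : Fin (K + 1)) :
    |reavg μ u 3 (fun ω x => if U (x 0) (x 2) = l then O ω (x 0) (x 1) * g (U (x 1) (x 2)) else 0)
      - ((∑ n ∈ Finset.univ.filter (fun n => n < l),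
            g n * (levPart μ u U O n * levLaw μ u U l / 2))
        + (∑ n ∈ Finset.univ.filter (fun n => l < n),
            g l * (levPart μ u U O n * levLaw μ u U l / 2))
        + g l * (levPart μ u U O l * (levLaw μ u U l + 1) / 2)
        + ∑ j ∈ Finset.univ.filter (fun j => l < j),
            (g j - g l) * (levPart μ u U O l * levLaw μ u U j / 2))|
      ≤ 5 * ((K : ℝ) + 1) * (G * δ) := by
  have hG0 : 0 ≤ G := (abs_nonneg _).trans (hG 0)
  set A := fun (O' : Ω → T → T → ℝ) (a n : Fin (K + 1)) => reavg μ u 3 fun ω x =>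
    (if U (x 0) (x 1) = n then O' ω (x 0) (x 1) else 0) * (if U (x 0) (x 2) = a then 1 else 0)
    with hA
  have hlev : ∀ (O' : Ω → T → T → ℝ), (∀ a b, Measurable fun ω => O' ω a b) →
      (∀ ω a b, |O' ω a b| ≤ 1) → (∀ a n, |rdef μ u (fun x y => if U x y = a then 1 else 0) 1
          (fun ω x => if U (x 0) (x 1) = n then O' ω (x 0) (x 1) else 0)| ≤ δ) → ∀ a n,
      |A O' a n - (levPart μ u U O' n * levLaw μ u U a
        + if n = a then levPart μ u U O' n else 0) / 2| ≤ δ := by
    intro O' hm' hb' hg' a n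
    have h := hg' a n
    simp only [rdef, Fin.sum_univ_succ, Fin.sum_univ_zero, add_zero, Nat.cast_one] at h
    have e1 : reavg μ u 2 (fun ω x => (if U (x 0) (x 1) = n then O' ω (x 0) (x 1) else 0) *
        (if U (x 0) (x ((0 : Fin 1).succ)) = a then 1 else 0))
        = if n = a then levPart μ u U O' n else 0 := by
      rw [show ((0 : Fin 1).succ : Fin 2) = 1 from rfl]
      split_ifs with hna
      · subst hna
        refine integral_congr_ae (Eventually.of_forall fun ω => congrArg _ (funext fun x => ?_))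
        dsimp only
        split_ifs <;> simp
      · rw [show (fun ω (x : Fin 2 → T) => (if U (x 0) (x 1) = n then O' ω (x 0) (x 1) else 0) *
            (if U (x 0) (x 1) = a then (1 : ℝ) else 0)) = fun _ _ => 0 from by
          funext ω x
          split_ifs with h1 h2 <;> simp_all]
        simp [reavg, avg]
    rw [e1, show (1 : ℝ) + 1 = 2 by norm_num] at h
    exact h
  set O' := fun ω a b => O ω b a with hO'
  have hpart : ∀ n, levPart μ u U O' n = levPart μ u U O n := fun n => by
    rw [levPart, levPart, ← reavg_perm (Equiv.swap (0 : Fin 2) 1)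
      (fun ω x => if U (x 0) (x 1) = n then O ω (x 0) (x 1) else 0)]
    refine integral_congr_ae (Eventually.of_forall fun ω => congrArg _ (funext fun x => ?_))
    simp [hO', hUs (x 1) (x 0)]
  have hX : ∀ n, BTest (fun ω (x : Fin 3 → T) =>
      (if U (x 0) (x 1) = n then O ω (x 0) (x 1) else 0) * (if U (x 0) (x 2) = l then 1 else 0)) 1 :=
    fun n => ⟨fun x => (by
        split_ifs <;> first | exact (hOm _ _).mul_const _ | exact measurable_const.mul_const _),
      fun ω x => by split_ifs <;> first | simp; done | simpa using hOb _ _ _⟩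
  set Y := fun j => reavg μ u 3 fun ω x =>
    (if U (x 0) (x 1) = l then O ω (x 0) (x 1) else 0) * (if U (x 1) (x 2) = j then 1 else 0)
    with hY
  have hYb : ∀ j, BTest (fun ω (x : Fin 3 → T) =>
      (if U (x 0) (x 1) = l then O ω (x 0) (x 1) else 0) * (if U (x 1) (x 2) = j then 1 else 0)) 1 :=
    fun j => ⟨fun x => (by
        split_ifs <;> first | exact (hOm _ _).mul_const _ | exact measurable_const.mul_const _),
      fun ω x => by split_ifs <;> first | simp; done | simpa using hOb _ _ _⟩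
  have hY' : ∀ j, Y j = A O' j l := fun j => by
    rw [hY, hA]
    dsimp only
    rw [← reavg_perm (Equiv.swap (0 : Fin 3) 1)]
    refine integral_congr_ae (Eventually.of_forall fun ω => congrArg _ (funext fun x => ?_))
    simp [hO', hUs (x 1) (x 0), Equiv.swap_apply_def]
  have hmain : reavg μ u 3 (fun ω x =>
        if U (x 0) (x 2) = l then O ω (x 0) (x 1) * g (U (x 1) (x 2)) else 0)
      = (∑ n ∈ Finset.univ.filter (fun n => n < l), g n * A O l n)
        + (∑ n ∈ Finset.univ.filter (fun n => l < n), g l * A O l n)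
        + g l * A O l l
        + ∑ j ∈ Finset.univ.filter (fun j => l < j), (g j - g l) * Y j := by
    have hb : ∀ (c : ℝ) {F : Ω → (Fin 3 → T) → ℝ}, BTest F 1 →
        BTest (fun ω x => c * F ω x) |c| := fun c F hF =>
      ⟨fun x => (hF.meas x).const_mul c, fun ω x => by
        rw [abs_mul]; exact mul_le_of_le_one_right (abs_nonneg _) (hF.bound ω x)⟩
    simp only [hA, hY, ← reavg_smul]
    rw [← reavg_sum hm hp _ fun n _ => hb (g n) (hX n),
      ← reavg_sum hm hp _ fun n _ => hb (g l) (hX n),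
      ← reavg_sum hm hp _ fun j _ => hb (g j - g l) (hYb j)]
    have bsum : ∀ (s : Finset (Fin (K + 1))) (c : Fin (K + 1) → ℝ)
        (F : Fin (K + 1) → Ω → (Fin 3 → T) → ℝ), (∀ i, BTest (F i) 1) →
        BTest (fun ω x => ∑ i ∈ s, c i * F i ω x) (∑ i ∈ s, |c i|) := fun s c F hF =>
      ⟨fun x => Finset.measurable_sum _ fun i _ => ((hF i).meas x).const_mul _, fun ω x =>
        (Finset.abs_sum_le_sum_abs _ _).trans (Finset.sum_le_sum fun i _ => (hb _ (hF i)).bound ω x)⟩
    have b1 := bsum (Finset.univ.filter fun n => n < l) g _ hX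
    have b2 := bsum (Finset.univ.filter fun n => l < n) (fun _ => g l) _ hX
    have b3 := bsum (Finset.univ.filter fun n => l < n) (fun n => g n - g l) _ hYb
    have badd : ∀ {F H : Ω → (Fin 3 → T) → ℝ} {B B' : ℝ}, BTest F B → BTest H B' →
        BTest (fun ω x => F ω x + H ω x) (B + B') := fun hF hH =>
      ⟨fun x => (hF.meas x).add (hH.meas x), fun ω x =>
        (abs_add_le _ _).trans (add_le_add (hF.bound ω x) (hH.bound ω x))⟩
    have b12 := badd b1 b2
    have b12l := badd b12 (hb (g l) (hX l))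
    rw [← reavg_add hm hp b1 b2, ← reavg_add hm hp b12 (hb (g l) (hX l)),
      ← reavg_add hm hp b12l b3]
    refine integral_congr_ae (Eventually.of_forall fun ω => congrArg _ (funext fun x => ?_))
    dsimp only
    have hd := Formula.level_decomp (hU (x 0) (x 2) (x 1)) l (fun j => O ω (x 0) (x 1) * g j)
    simp only [ite_and] at hd
    rw [hd]
    simp only [mul_ite, mul_one, mul_zero, sub_mul]
    congr 1
    · congr 1
      · congr 1 <;> refine Finset.sum_congr rfl fun n _ => ?_ <;> split_ifs <;> ring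
      · split_ifs <;> ring
    · refine Finset.sum_congr rfl fun n _ => ?_
      split_ifs <;> ring
  have hcard : ∀ (s : Finset (Fin (K + 1))), (s.card : ℝ) ≤ (K : ℝ) + 1 := fun s => by
    have := Finset.card_le_univ s
    rw [Fintype.card_fin] at this
    exact_mod_cast this
  have hδ0 : 0 ≤ δ := (abs_nonneg _).trans (hlev O hOm hOb (fun a n => (hgg a n).1) l l)
  have hsum : ∀ (s : Finset (Fin (K + 1))) (c X Z : Fin (K + 1) → ℝ) (C : ℝ), 0 ≤ C →
      (∀ i ∈ s, |c i| ≤ C) → (∀ i ∈ s, |X i - Z i| ≤ δ) →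
      |(∑ i ∈ s, c i * X i) - ∑ i ∈ s, c i * Z i| ≤ ((K : ℝ) + 1) * (C * δ) := by
    intro s c X Z C hC hc hXZ
    rw [← Finset.sum_sub_distrib]
    refine (Finset.abs_sum_le_sum_abs _ _).trans ((Finset.sum_le_sum (g := fun _ => C * δ)
      fun i hi => ?_).trans ?_)
    · rw [← mul_sub, abs_mul]
      exact mul_le_mul (hc i hi) (hXZ i hi) (abs_nonneg _) hC
    · rw [Finset.sum_const, nsmul_eq_mul]
      exact mul_le_mul_of_nonneg_right (hcard s) (mul_nonneg hC hδ0)
  have v1 : ∀ n, n ≠ l → |A O l n - levPart μ u U O n * levLaw μ u U l / 2| ≤ δ := fun n hn => by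
    simpa [hn] using hlev O hOm hOb (fun a n => (hgg a n).1) l n
  have v2 : |A O l l - levPart μ u U O l * (levLaw μ u U l + 1) / 2| ≤ δ := by
    have := hlev O hOm hOb (fun a n => (hgg a n).1) l l
    rw [if_pos rfl] at this
    rwa [mul_add, mul_one]
  have v3 : ∀ j, j ≠ l → |Y j - levPart μ u U O l * levLaw μ u U j / 2| ≤ δ := fun j hj => by
    have := hlev O' (fun a b => hOm b a) (fun ω a b => hOb ω b a) (fun a n => (hgg a n).2) j l
    rw [if_neg (Ne.symm hj), add_zero, hpart] at this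
    rw [hY']
    exact this
  rw [hmain]
  have w1 := hsum (Finset.univ.filter fun n => n < l) g (A O l)
    (fun n => levPart μ u U O n * levLaw μ u U l / 2) G hG0 (fun i _ => hG i)
    (fun i hi => v1 i (Finset.mem_filter.1 hi).2.ne)
  have w2 := hsum (Finset.univ.filter fun n => l < n) (fun _ => g l) (A O l)
    (fun n => levPart μ u U O n * levLaw μ u U l / 2) G hG0 (fun i _ => hG l)
    (fun i hi => v1 i (Finset.mem_filter.1 hi).2.ne')
  have w3 := hsum (Finset.univ.filter fun n => l < n) (fun n => g n - g l) Y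
    (fun n => levPart μ u U O l * levLaw μ u U n / 2) (G + G) (add_nonneg hG0 hG0)
    (fun i _ => (abs_sub _ _).trans (add_le_add (hG i) (hG l)))
    (fun i hi => v3 i (Finset.mem_filter.1 hi).2.ne')
  have w4 : |g l * A O l l - g l * (levPart μ u U O l * (levLaw μ u U l + 1) / 2)| ≤ G * δ := by
    rw [← mul_sub, abs_mul]
    exact mul_le_mul (hG l) v2 (abs_nonneg _) hG0
  have hGd : 0 ≤ (K : ℝ) * (G * δ) := mul_nonneg (Nat.cast_nonneg K) (mul_nonneg hG0 hδ0)
  rw [abs_le]
  constructor <;>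
    linarith [(abs_le.1 w1).1, (abs_le.1 w1).2, (abs_le.1 w2).1, (abs_le.1 w2).2, (abs_le.1 w3).1,
      (abs_le.1 w3).2, (abs_le.1 w4).1, (abs_le.1 w4).2]

end Levels

end Vale.Agent.P166.Casc
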