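import Vale.Agent.P166.Casc.VLevel
import Vale.Agent.P166.Casc.VSegment
import Vale.Agent.P166.Casc.VTriple

/-!
Uniform positivity, monotonicity and law of the level averages of pair functions of the
configurations, for large trees.
-/

open MeasureTheory ProbabilityTheory Filter Topology Set

namespace Vale.Agent.P166.Casc

open Vale.Agent.P157.Casc

variable {N M d R D K n : ℕ}

/-- Weights of the states with repaired cascade weights. -/
noncomputable def vposW (P : VPot d) (π : VPrior N d R D) (Φ : VFac N d K)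
    (c : VCIdx N M d R D K → ℝ) (p : (Node K n → ℝ) × (VGIdx N M d R D K n → ℝ)) :
    VState π K n → ℝ :=
  vmbw P π Φ c (posV p.1, p.2)

theorem vposW_pos (P : VPot d) (π : VPrior N d R D) (Φ : VFac N d K)
    (c : VCIdx N M d R D K → ℝ) (p : (Node K n → ℝ) × (VGIdx N M d R D K n → ℝ))
    (st : VState π K n) : 0 < vposW P π Φ c p st :=
  mul_pos (mul_pos (π.w_pos _) (wgt_pos _ (posV_pos p.1) _)) (Real.exp_pos _)

theorem measurable_vposW (P : VPot d) (π : VPrior N d R D) (Φ : VFac N d K)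
    (c : VCIdx N M d R D K → ℝ) (st : VState π K n) :
    Measurable fun p => vposW P π Φ c p st :=
  (continuous_vmbw P π Φ c st).measurable.comp
    ((measurable_posV.comp measurable_fst).prodMk measurable_snd)

theorem ae_vposW (P : VPot d) (π : VPrior N d R D) (Φ : VFac N d K)
    (c : VCIdx N M d R D K → ℝ) :
    ∀ᵐ p ∂venv N M d R D K n, vposW P π Φ c p = vmbw P π Φ c p := by
  filter_upwards [Measure.quasiMeasurePreserving_fst.ae (ae_posV (mlev K))] with p hp
  rw [vposW, hp]

theorem reavg_vposW (P : VPot d) (π : VPrior N d R D) (Φ : VFac N d K)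
    (c : VCIdx N M d R D K → ℝ) (r : ℕ)
    (F : (Node K n → ℝ) × (VGIdx N M d R D K n → ℝ) → (Fin r → VState π K n) → ℝ) :
    reavg (venv N M d R D K n) (vposW P π Φ c) r F
      = reavg (venv N M d R D K n) (vmbw P π Φ c) r F := by
  refine integral_congr_ae ?_
  filter_upwards [ae_vposW P π Φ c] with p hp
  rw [hp]

theorem rdef_vposW (P : VPot d) (π : VPrior N d R D) (Φ : VFac N d K)
    (c : VCIdx N M d R D K → ℝ) (S : VState π K n → VState π K n → ℝ) (r : ℕ)
    (F : (Node K n → ℝ) × (VGIdx N M d R D K n → ℝ) → (Fin (r + 1) → VState π K n) → ℝ) :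
    rdef (venv N M d R D K n) (vposW P π Φ c) S r F
      = rdef (venv N M d R D K n) (vmbw P π Φ c) S r F := by
  simp only [rdef, reavg_vposW]

/-- The level part of a pair function of the configurations, as a two-replica test. -/
def levO (π : VPrior N d R D) (O : Fin π.c → Fin π.c → ℝ) (l : Fin (K + 1))
    (x : Fin 2 → VState π K n) : ℝ :=
  onLev l (vlev π (x 0) (x 1)) (O (x 0).1 (x 1).1)

theorem abs_levO_le (π : VPrior N d R D) {O : Fin π.c → Fin π.c → ℝ} {B : ℝ}
    (hB : ∀ σ τ, |O σ τ| ≤ B) (l : Fin (K + 1)) (x : Fin 2 → VState π K n) :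
    |levO π O l x| ≤ B := by
  unfold levO onLev
  split_ifs
  · exact hB _ _
  · rw [abs_zero]; exact (abs_nonneg _).trans (hB (x 0).1 (x 1).1)

theorem pairLev_eq_reavg (P : VPot d) (π : VPrior N d R D) (Φ : VFac N d K) (hn : 0 < n)
    (c : VCIdx N M d R D K → ℝ) (O : Fin π.c → Fin π.c → ℝ) (l : Fin (K + 1)) :
    pairLev n P π Φ c O l
      = reavg (venv N M d R D K n) (vposW P π Φ c) 2 (fun _ => levO π O l) := by
  have := vstate_nonempty (K := K) π hn
  refine integral_congr_ae ?_
  filter_upwards [ae_vposW P π Φ c] with p hp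
  rw [← hp]
  simp only [avg2]
  rw [avg_cons']
  refine Finset.sum_congr rfl fun a _ => ?_
  rw [avg_cons', Finset.mul_sum]
  refine Finset.sum_congr rfl fun b _ => ?_
  simp only [avg_zero']
  rw [show levO π O l (Fin.cons a (Fin.cons b Fin.elim0)) = onLev l (vlev π a b) (O a.1 b.1) from
    rfl]
  ring

/-- The sum of `f` against the pair `στ`. -/
def pairFun {S : Type*} [DecidableEq S] (σ τ i : S) : ℝ :=
  (if i = σ then 1 else 0) + if i = τ then 1 else 0

/-- A pair average is a combination of averages of squares. -/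
theorem pairLev_qform (P : VPot d) (π : VPrior N d R D) (Φ : VFac N d K) (hn : 0 < n)
    (c : VCIdx N M d R D K → ℝ) (O : Fin π.c → Fin π.c → ℝ) (l : Fin (K + 1)) :
    pairLev n P π Φ c O l = qform O fun v => pairLev n P π Φ c (fun σ τ => v σ * v τ) l := by
  have := vstate_nonempty (K := K) π hn
  have hm := measurable_vposW (n := n) P π Φ c
  have hp := vposW_pos (n := n) P π Φ c
  simp only [qform, pairLev_eq_reavg P π Φ hn]
  set μ := venv N M d R D K n
  set u := vposW (n := n) P π Φ c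
  set Of : (Fin π.c → ℝ) → (Fin π.c → Fin π.c → ℝ) := fun v σ τ => v σ * v τ with hOf
  set G : Fin π.c → Fin π.c → (Fin 2 → VState π K n) → ℝ := fun σ τ x =>
    levO π (Of (pairFun σ τ)) l x - levO π (Of fun i => if i = σ then 1 else 0) l x
      - levO π (Of fun i => if i = τ then 1 else 0) l x
  have hbig : ∀ (O' : Fin π.c → Fin π.c → ℝ) (σ τ : Fin π.c), |O' σ τ| ≤ ∑ a, ∑ b, |O' a b| :=
    fun O' σ τ => (Finset.single_le_sum (f := fun b => |O' σ b|) (fun b _ => abs_nonneg _)
      (Finset.mem_univ τ)).trans (Finset.single_le_sum (f := fun a => ∑ b, |O' a b|)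
      (fun a _ => Finset.sum_nonneg fun b _ => abs_nonneg _) (Finset.mem_univ σ))
  have hT : ∀ O' : Fin π.c → Fin π.c → ℝ, BTest (fun (_ : (Node K n → ℝ) ×
      (VGIdx N M d R D K n → ℝ)) => levO (n := n) π O' l) (∑ a, ∑ b, |O' a b|) := fun O' =>
    bTest_const _ fun x => abs_levO_le π (hbig O') l x
  have hlin : ∀ σ τ, O σ τ / 2 * (reavg μ u 2 (fun _ => levO π (Of (pairFun σ τ)) l)
      - reavg μ u 2 (fun _ => levO π (Of fun i => if i = σ then 1 else 0) l)
      - reavg μ u 2 (fun _ => levO π (Of fun i => if i = τ then 1 else 0) l))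
      = reavg μ u 2 (fun _ x => O σ τ / 2 * G σ τ x) := by
    intro σ τ
    rw [reavg_smul]
    congr 1
    simp only [reavg, G, avg_sub']
    have i1 := integrable_reavg (μ := μ) hm hp (hT (Of (pairFun σ τ)))
    have i2 := integrable_reavg (μ := μ) hm hp (hT (Of fun i => if i = σ then 1 else 0))
    have i12 : Integrable (fun ω => avg (u ω) 2 (levO π (Of (pairFun σ τ)) l)
        - avg (u ω) 2 (levO π (Of fun i => if i = σ then 1 else 0) l)) μ := i1.sub i2
    rw [integral_sub i12 (integrable_reavg hm hp (hT _)), integral_sub i1 i2]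
  change _ = ∑ σ, ∑ τ, O σ τ / 2 * (reavg μ u 2 (fun _ => levO π (Of (pairFun σ τ)) l)
      - reavg μ u 2 (fun _ => levO π (Of fun i => if i = σ then 1 else 0) l)
      - reavg μ u 2 (fun _ => levO π (Of fun i => if i = τ then 1 else 0) l))
  simp only [hlin]
  have hG : ∀ σ τ, BTest (fun (_ : (Node K n → ℝ) × (VGIdx N M d R D K n → ℝ)) x =>
      O σ τ / 2 * G σ τ x) (∑ x, |O σ τ / 2 * G σ τ x|) := fun σ τ =>
    bTest_const _ fun x => Finset.single_le_sum (f := fun y => |O σ τ / 2 * G σ τ y|)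
      (fun y _ => abs_nonneg _) (Finset.mem_univ x)
  have hr : ∀ σ, BTest (fun (_ : (Node K n → ℝ) × (VGIdx N M d R D K n → ℝ)) x =>
      ∑ τ, O σ τ / 2 * G σ τ x) (∑ x, |∑ τ, O σ τ / 2 * G σ τ x|) := fun σ =>
    bTest_const _ fun x => Finset.single_le_sum (f := fun y => |∑ τ, O σ τ / 2 * G σ τ y|)
      (fun y _ => abs_nonneg _) (Finset.mem_univ x)
  rw [Finset.sum_congr rfl fun σ _ => (reavg_sum hm hp Finset.univ fun τ _ => hG σ τ).symm,
    ← reavg_sum hm hp Finset.univ fun σ _ => hr σ]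
  have hsym : ∀ x : Fin 2 → VState π K n, ∑ σ, ∑ τ, O σ τ / 2 * G σ τ x
      = (levO π O l x + levO π O l (x ∘ Equiv.swap (0 : Fin 2) 1)) / 2 := fun x => by
    have hc : vlev π (x 1) (x 0) = vlev π (x 0) (x 1) := com_comm _ _
    simp only [G, levO, onLev, Function.comp_apply, Equiv.swap_apply_left, Equiv.swap_apply_right,
      hc]
    split_ifs
    · simp only [hOf, pairFun, add_mul, mul_add]
      simp only [sub_sub, add_assoc]
      have e : ∀ σ τ : Fin π.c, O σ τ / 2 *
          ((if (x 0).1 = σ then (1 : ℝ) else 0) * (if (x 1).1 = τ then 1 else 0)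
            + (if (x 0).1 = τ then (1 : ℝ) else 0) * (if (x 1).1 = σ then 1 else 0))
          = (if (x 0).1 = σ then (if (x 1).1 = τ then O σ τ / 2 else 0) else 0)
            + if (x 0).1 = τ then (if (x 1).1 = σ then O σ τ / 2 else 0) else 0 := fun σ τ => by
        split_ifs <;> ring
      rw [show (O (x 0).1 (x 1).1 + O (x 1).1 (x 0).1) / 2
        = ∑ σ, ∑ τ, O σ τ / 2 * ((if (x 0).1 = σ then (1 : ℝ) else 0) * (if (x 1).1 = τ then 1 else 0)
            + (if (x 0).1 = τ then (1 : ℝ) else 0) * (if (x 1).1 = σ then 1 else 0)) by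
        simp only [e, Finset.sum_add_distrib, Finset.sum_ite_eq, Finset.mem_univ, if_true]
        rw [Finset.sum_comm]
        simp [Finset.sum_ite_eq]
        ring]
      exact Finset.sum_congr rfl fun σ _ => Finset.sum_congr rfl fun τ _ => by ring
    · simp
  simp only [hsym]
  have hsw : BTest (fun (_ : (Node K n → ℝ) × (VGIdx N M d R D K n → ℝ))
      (x : Fin 2 → VState π K n) => levO π O l (x ∘ Equiv.swap (0 : Fin 2) 1))
      (∑ a, ∑ b, |O a b|) :=
    bTest_const _ fun x => abs_levO_le π (hbig O) l _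
  have e3 : reavg μ u 2 (fun _ x => (levO π O l x + levO π O l (x ∘ Equiv.swap (0 : Fin 2) 1)) / 2)
      = reavg μ u 2 (fun _ => levO π O l) := by
    simp only [div_eq_inv_mul]
    rw [reavg_smul, reavg_add hm hp (hT O) hsw,
      reavg_perm (Equiv.swap (0 : Fin 2) 1) (fun _ => levO π O l)]
    ring
  exact e3.symm

/-- The limit of a pair average on a level. -/
noncomputable def pairLim (P : VPot d) (π : VPrior N d R D) (Φ : VFac N d K)
    (c : VCIdx N M d R D K → ℝ) (O : Fin π.c → Fin π.c → ℝ) (l : Fin (K + 1)) : ℝ :=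
  qform O fun v => pi0 K * sqLim P π Φ c v l

theorem tendsto_pairLev (P : VPot d) (π : VPrior N d R D) (Φ : VFac N d K)
    {c : ℕ → VCIdx N M d R D K → ℝ} {cl : VCIdx N M d R D K → ℝ} (hc : Tendsto c atTop (𝓝 cl))
    {O : ℕ → Fin π.c → Fin π.c → ℝ} {Ol : Fin π.c → Fin π.c → ℝ} (hO : Tendsto O atTop (𝓝 Ol))
    {nn : ℕ → ℕ} (hn : Tendsto nn atTop atTop) (l : Fin (K + 1)) :
    Tendsto (fun k => pairLev (nn k) P π Φ (c k) (O k) l) atTop
      (𝓝 (pairLim P π Φ cl Ol l)) := by
  have h : Tendsto (fun k => qform (O k) fun v =>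
      pairLev (nn k) P π Φ (c k) (fun σ τ => v σ * v τ) l) atTop (𝓝 (pairLim P π Φ cl Ol l)) := by
    unfold qform pairLim
    exact tendsto_finsetSum _ fun σ _ => tendsto_finsetSum _ fun τ _ =>
      ((tendsto_pi_nhds.1 (tendsto_pi_nhds.1 hO σ) τ).div_const 2).mul
        (((tendsto_pairLev_sq P π Φ hc tendsto_const_nhds hn l).sub
          (tendsto_pairLev_sq P π Φ hc tendsto_const_nhds hn l)).sub
          (tendsto_pairLev_sq P π Φ hc tendsto_const_nhds hn l))
  refine h.congr' ?_
  filter_upwards [hn.eventually (eventually_gt_atTop 0)] with k hk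
  exact (pairLev_qform P π Φ hk (c k) (O k) l).symm

theorem vleafAvg_const_eq (P : VPot d) (π : VPrior N d R D) (Φ : VFac N d K)
    (c : VCIdx N M d R D K → ℝ) (v : Fin π.c → ℝ) (z : VRIdx N M d R D → ℝ)
    (y : Fin K → VLIdx N M d R D → ℝ) :
    vleafAvg P π Φ c (fun σ _ => v σ) z y
      = ∑ σ, v σ * (π.w σ * Real.exp (vbham P π Φ c σ (vbranch z y)) / vleafY P π Φ c z y) := by
  rw [vleafAvg, Finset.sum_div]
  exact Finset.sum_congr rfl fun σ _ => by ring

/-- The facts on the limit: at almost every root the exponent is integrable. -/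
theorem ae_leaf_exp (P : VPot d) (π : VPrior N d R D) (Φ : VFac N d K)
    (c : VCIdx N M d R D K → ℝ) :
    ∀ᵐ z ∂gaus (VRIdx N M d R D), Measurable (fun y => Real.log (vleafY P π Φ c z y)) ∧
      Integrable (fun y => Real.exp (Real.log (vleafY P π Φ c z y)))
        (Measure.pi fun _ : Fin K => gaus (VLIdx N M d R D)) := by
  obtain ⟨A, hA⟩ := vleafY_conv P π Φ (B := ‖c‖) (c := fun _ => c)
    (fun _ i => (Real.norm_eq_abs _).symm.trans_le (norm_le_pi_norm c i)) tendsto_const_nhds
  filter_upwards [hA.env_mean.2] with z hz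
  refine ⟨hz.measl.log, ?_⟩
  simpa only [Real.exp_log (vleafY_pos P π Φ c z _)] using hz.intl

theorem integrable_sq_csq (P : VPot d) (π : VPrior N d R D) (Φ : VFac N d K)
    (c : VCIdx N M d R D K → ℝ) (v : Fin π.c → ℝ) (l : Fin (K + 1)) :
    Integrable (fun z => csq (gaus (VLIdx N M d R D)) K (mlev K)
      (fun y => Real.log (vleafY P π Φ c z y))
      (fun y => vleafAvg P π Φ c (fun σ _ => v σ) z y) l) (gaus (VRIdx N M d R D)) := by
  refine Integrable.of_bound (measurable_csq_param K (mlev K)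
    (((continuous_vleafY P π Φ).comp
      (f := fun p : (VRIdx N M d R D → ℝ) × (Fin K → VLIdx N M d R D → ℝ) => (c, p.1, p.2))
      (continuous_const.prodMk continuous_id)).measurable.log)
    (measurable_vleafAvg P π Φ c v) l).aestronglyMeasurable ((∑ σ, |v σ|) ^ 2) ?_
  filter_upwards [ae_leaf_exp P π Φ c] with z hz
  exact (Real.norm_eq_abs _).trans_le ((csq_bound_mono K (grid_mlev K) hz.1
    ((measurable_vleafAvg P π Φ c v).comp measurable_prodMk_left) hz.2
    fun y => abs_vleafAvg_le P π Φ c (fun σ => Finset.single_le_sum (f := fun σ => |v σ|)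
      (fun τ _ => abs_nonneg _) (Finset.mem_univ σ)) z y).1 l)

/-- Forms that are nonnegative on the simplex have nonnegative limits. -/
theorem pairLim_nonneg (P : VPot d) (π : VPrior N d R D) (Φ : VFac N d K)
    (c : VCIdx N M d R D K → ℝ) {O : Fin π.c → Fin π.c → ℝ}
    (hO : ∀ a : Fin π.c → ℝ, (∀ σ, 0 ≤ a σ) → ∑ σ, a σ = 1 →
      0 ≤ ∑ σ, ∑ τ, O σ τ * (a σ * a τ)) (l : Fin (K + 1)) :
    0 ≤ pairLim P π Φ c O l := by
  have hi := fun v => (integrable_sq_csq P π Φ c v l).const_mul (pi0 K)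
  have e : pairLim P π Φ c O l = ∫ z, qform O (fun v => pi0 K *
      csq (gaus (VLIdx N M d R D)) K (mlev K) (fun y => Real.log (vleafY P π Φ c z y))
        (fun y => vleafAvg P π Φ c (fun σ _ => v σ) z y) l) ∂gaus (VRIdx N M d R D) := by
    set f : (Fin π.c → ℝ) → (VRIdx N M d R D → ℝ) → ℝ := fun v z => pi0 K *
      csq (gaus (VLIdx N M d R D)) K (mlev K) (fun y => Real.log (vleafY P π Φ c z y))
        (fun y => vleafAvg P π Φ c (fun σ _ => v σ) z y) l
    have hv : ∀ v, pi0 K * sqLim P π Φ c v l = ∫ z, f v z ∂gaus (VRIdx N M d R D) := fun v =>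
      (integral_const_mul _ _).symm
    set A : Fin π.c → Fin π.c → (VRIdx N M d R D → ℝ) → ℝ := fun σ τ z => O σ τ / 2 *
      (f (fun i => (if i = σ then 1 else 0) + if i = τ then 1 else 0) z
        - f (fun i => if i = σ then 1 else 0) z - f (fun i => if i = τ then 1 else 0) z)
    have hAi : ∀ σ τ, Integrable (A σ τ) (gaus (VRIdx N M d R D)) := fun σ τ =>
      (((hi _).sub (hi _)).sub (hi _)).const_mul _
    show _ = ∫ z, ∑ σ, ∑ τ, A σ τ z ∂gaus (VRIdx N M d R D)
    rw [integral_finsetSum _ fun σ _ => integrable_finsetSum _ fun τ _ => hAi σ τ, pairLim, qform]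
    refine Finset.sum_congr rfl fun σ _ => ?_
    rw [integral_finsetSum _ fun τ _ => hAi σ τ]
    refine Finset.sum_congr rfl fun τ _ => ?_
    set v1 : Fin π.c → ℝ := fun i => (if i = σ then 1 else 0) + if i = τ then 1 else 0
    set v2 : Fin π.c → ℝ := fun i => if i = σ then 1 else 0
    have i12 : Integrable (fun z => f v1 z - f v2 z) (gaus (VRIdx N M d R D)) :=
      (hi v1).sub (hi v2)
    set v3 : Fin π.c → ℝ := fun i => if i = τ then 1 else 0
    have i3 : Integrable (f v3) (gaus (VRIdx N M d R D)) := hi v3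
    show _ = ∫ z, O σ τ / 2 * ((f v1 z - f v2 z) - f v3 z) ∂gaus (VRIdx N M d R D)
    rw [integral_const_mul, integral_sub i12 i3, integral_sub (hi v1) (hi v2)]
    simp only [f, v1, v2, v3, sqLim, integral_const_mul]
  rw [e]
  refine integral_nonneg_of_ae ?_
  filter_upwards [ae_leaf_exp P π Φ c] with z hz
  set g : Fin π.c → (Fin K → VLIdx N M d R D → ℝ) → ℝ := fun σ y =>
    π.w σ * Real.exp (vbham P π Φ c σ (vbranch z y)) / vleafY P π Φ c z y
  have hg : ∀ σ, Measurable (g σ) := fun σ =>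
    (((Real.continuous_exp.comp ((continuous_vbham P π Φ σ).comp
      (f := fun y : Fin K → VLIdx N M d R D → ℝ => (c, z, y))
      (continuous_const.prodMk (continuous_const.prodMk continuous_id)))).const_mul _).measurable).div
      ((continuous_vleafY P π Φ).comp (f := fun y : Fin K → VLIdx N M d R D → ℝ => (c, z, y))
        (continuous_const.prodMk (continuous_const.prodMk continuous_id))).measurable
  have h := cquad_nonneg (ν := gaus (VLIdx N M d R D)) O hO K (grid_mlev K) hz.1 hg hz.2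
    (fun σ y => (div_pos (mul_pos (π.w_pos σ) (Real.exp_pos _)) (vleafY_pos P π Φ c z y)).le)
    (fun y => by
      simp only [g, ← Finset.sum_div]
      exact div_self (vleafY_pos P π Φ c z y).ne') l
  simp only [cquad, g, qform, ← vleafAvg_const_eq] at h
  simp only [Pi.zero_apply, qform, ← mul_sub, mul_left_comm (_ / (2 : ℝ)) (pi0 K), ← Finset.mul_sum]
  exact mul_nonneg (by rw [pi0]; positivity) h

/-- Averages of squares are monotone in the level in the limit, and nonnegative. -/
theorem sqLim_mono (P : VPot d) (π : VPrior N d R D) (Φ : VFac N d K)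
    (c : VCIdx N M d R D K → ℝ) (φ : Fin π.c → ℝ) :
    Monotone (sqLim P π Φ c φ) ∧ 0 ≤ sqLim P π Φ c φ 0 := by
  refine ⟨fun l l' hl => integral_mono_ae (integrable_sq_csq P π Φ c φ l)
    (integrable_sq_csq P π Φ c φ l') ?_, integral_nonneg fun z => ?_⟩
  · filter_upwards [ae_leaf_exp P π Φ c] with z hz
    exact (csq_bound_mono K (grid_mlev K) hz.1
      ((measurable_vleafAvg P π Φ c φ).comp measurable_prodMk_left) hz.2
      fun y => abs_vleafAvg_le P π Φ c (fun σ => Finset.single_le_sum (f := fun σ => |φ σ|)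
        (fun τ _ => abs_nonneg _) (Finset.mem_univ σ)) z y).2 hl
  · simp only [Pi.zero_apply, csq_zero]
    exact sq_nonneg _

theorem sqLim_one (P : VPot d) (π : VPrior N d R D) (Φ : VFac N d K)
    (c : VCIdx N M d R D K → ℝ) (l : Fin (K + 1)) : sqLim P π Φ c (fun _ => 1) l = 1 := by
  have h1 : ∀ z y, vleafAvg P π Φ c (fun _ _ => (1 : ℝ)) z y = 1 := fun z y => by
    simp only [vleafAvg, mul_one]
    exact div_self (vleafY_pos P π Φ c z y).ne'
  have he : ∀ᵐ z ∂gaus (VRIdx N M d R D), csq (gaus (VLIdx N M d R D)) K (mlev K)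
      (fun y => Real.log (vleafY P π Φ c z y))
      (fun y => vleafAvg P π Φ c (fun _ _ => (1 : ℝ)) z y) l = 1 := by
    filter_upwards [ae_leaf_exp P π Φ c] with z hz
    simp only [h1]
    rw [(csq_const 1 K (grid_mlev K) hz.1 hz.2).2 l, one_pow]
  rw [sqLim, integral_congr_ae he]
  simp

/-- For large trees: positivity, monotonicity and the law of the levels, uniformly over a compact
set of variances and over bounded observables. -/
theorem pairLev_uniform (P : VPot d) (π : VPrior N d R D) (Φ : VFac N d K)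
    {s : Set (VCIdx N M d R D K → ℝ)} (hs : IsCompact s) (B : ℝ) {η : ℝ} (hη : 0 < η) :
    ∃ n0, ∀ n ≥ n0, ∀ c ∈ s,
      (∀ l, |pairLev n P π Φ c (fun _ _ => 1) l - pi0 K| ≤ η) ∧
      (∀ O : Fin π.c → Fin π.c → ℝ, (∀ σ τ, |O σ τ| ≤ B) →
        (∀ a : Fin π.c → ℝ, (∀ σ, 0 ≤ a σ) → ∑ σ, a σ = 1 →
          0 ≤ ∑ σ, ∑ τ, O σ τ * (a σ * a τ)) → ∀ l, -η ≤ pairLev n P π Φ c O l) ∧
      ∀ φ : Fin π.c → ℝ, (∀ σ, |φ σ| ≤ B) → ∀ l l' : Fin (K + 1), l ≤ l' →
        pairLev n P π Φ c (fun σ τ => φ σ * φ τ) l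
          ≤ pairLev n P π Φ c (fun σ τ => φ σ * φ τ) l' + η := by
  have h1 : ∀ l, ∃ n0, ∀ n ≥ n0, ∀ c ∈ s, |pairLev n P π Φ c (fun _ _ => 1) l - pi0 K| ≤ η :=
    fun l => uniform_of_seq hs (D := fun n c => |pairLev n P π Φ c (fun _ _ => 1) l - pi0 K|)
      (fun c cl nn _ _ hlim hnn ε hε => by
        have h := tendsto_pairLev_sq P π Φ hlim (φ := fun _ _ => (1 : ℝ)) tendsto_const_nhds hnn l
        rw [sqLim_one, mul_one] at h
        simp only [mul_one] at h
        have := (h.sub_const (pi0 K)).abs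
        rw [sub_self, abs_zero] at this
        exact this.eventually (eventually_le_nhds hε)) hη
  have h2 : ∀ l, ∃ n0, ∀ n ≥ n0, ∀ p ∈ s ×ˢ {O : Fin π.c → Fin π.c → ℝ | (∀ σ τ, O σ τ ∈ Icc (-B) B) ∧
      ∀ a : Fin π.c → ℝ, (∀ σ, 0 ≤ a σ) → ∑ σ, a σ = 1 → 0 ≤ ∑ σ, ∑ τ, O σ τ * (a σ * a τ)},
      -pairLev n P π Φ p.1 p.2 l ≤ η := fun l => by
    have hcl : IsClosed {O : Fin π.c → Fin π.c → ℝ |
        ∀ a : Fin π.c → ℝ, (∀ σ, 0 ≤ a σ) → ∑ σ, a σ = 1 →
          0 ≤ ∑ σ, ∑ τ, O σ τ * (a σ * a τ)} := by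
      simp only [Set.ofPred_forall]
      exact isClosed_iInter fun a => isClosed_iInter fun _ => isClosed_iInter fun _ =>
        isClosed_le continuous_const (by fun_prop)
    have hbox : IsCompact {O : Fin π.c → Fin π.c → ℝ | ∀ σ τ, O σ τ ∈ Icc (-B) B} := by
      have := isCompact_univ_pi fun _ : Fin π.c =>
        isCompact_univ_pi fun _ : Fin π.c => isCompact_Icc (a := -B) (b := B)
      convert this using 1
      ext O
      simp only [Set.mem_ofPred_eq, Set.mem_univ_pi]
    refine uniform_of_seq (hs.prod (hbox.inter_right hcl))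
      (D := fun n p => -pairLev n P π Φ p.1 p.2 l) (fun c cl nn _ hmem hlim hnn ε hε => ?_) hη
    have h := tendsto_pairLev P π Φ ((continuous_fst.tendsto cl).comp hlim)
      ((continuous_snd.tendsto cl).comp hlim) hnn l
    exact h.neg.eventually (eventually_le_nhds (by
      linarith [pairLim_nonneg P π Φ cl.1 hmem.2.2 l]))
  have h3 : ∀ p : Fin (K + 1) × Fin (K + 1), ∃ n0, ∀ n ≥ n0, ∀ q ∈ s ×ˢ
      (Set.univ.pi fun _ : Fin π.c => Icc (-B) B),
      (if p.1 ≤ p.2 then pairLev n P π Φ q.1 (fun σ τ => q.2 σ * q.2 τ) p.1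
        - pairLev n P π Φ q.1 (fun σ τ => q.2 σ * q.2 τ) p.2 else 0) ≤ η := fun p =>
    uniform_of_seq (hs.prod (isCompact_univ_pi fun _ => isCompact_Icc))
      (D := fun n q => if p.1 ≤ p.2 then pairLev n P π Φ q.1 (fun σ τ => q.2 σ * q.2 τ) p.1
        - pairLev n P π Φ q.1 (fun σ τ => q.2 σ * q.2 τ) p.2 else 0)
      (fun c cl nn _ _ hlim hnn ε hε => by
        by_cases hp : p.1 ≤ p.2
        · simp only [if_pos hp]
          have h := fun l => tendsto_pairLev_sq P π Φ ((continuous_fst.tendsto cl).comp hlim)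
            (φ := fun k => (c k).2) ((continuous_snd.tendsto cl).comp hlim) hnn l
          have hm := mul_le_mul_of_nonneg_left ((sqLim_mono P π Φ cl.1 cl.2).1 hp)
            (show 0 ≤ pi0 K by rw [pi0]; positivity)
          exact ((h p.1).sub (h p.2)).eventually (eventually_le_nhds (by linarith))
        · simp only [if_neg hp]
          exact Eventually.of_forall fun _ => hε.le) hη
  choose a ha using h1
  choose b hb using h2
  choose e he using h3
  refine ⟨(∑ l, a l) + (∑ l, b l) + ∑ p, e p, fun n hn c hc => ⟨fun l => ha l n ?_ c hc,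
    fun O hB hO l => ?_, fun φ hB l l' hl => ?_⟩⟩
  · have := Finset.single_le_sum (f := a) (fun _ _ => Nat.zero_le _) (Finset.mem_univ l)
    omega
  · have h := hb l n (by
      have := Finset.single_le_sum (f := b) (fun _ _ => Nat.zero_le _) (Finset.mem_univ l)
      omega) (c, O) ⟨hc, fun σ τ => abs_le.1 (hB σ τ), hO⟩
    simp only at h
    linarith
  · have h := he (l, l') n (by
      have := Finset.single_le_sum (f := e) (fun _ _ => Nat.zero_le _) (Finset.mem_univ (l, l'))
      omega) (c, φ) ⟨hc, fun σ _ => abs_le.1 (hB σ)⟩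
    simp only [if_pos hl] at h
    linarith

end Vale.Agent.P166.Casc
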