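import Vale.Agent.P166.Casc.VGGAvg
import Vale.Agent.P166.Casc.VLevelU
import Vale.Agent.P157.Casc.SyncModel
import Vale.Agent.P157.Casc.Ultra.Sync

/-!
Synchronisation of the scalar kernels of the vector model with the levels, and the overlap
identities of the indicators of the levels, in mean over the perturbation parameters.
-/

open MeasureTheory ProbabilityTheory Filter Topology Set

namespace Vale.Agent.P166.Casc

open Vale.Agent.P157.Casc

variable {N M d R D K n : ℕ}

theorem ggDef_eq_rdef {T Ω : Type} [Fintype T] [MeasurableSpace Ω] (μ : Measure Ω)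
    (u : Ω → T → ℝ) (S : T → T → ℝ) (r : ℕ) (F : (Fin (r + 1) → T) → ℝ) :
    ggDef μ u S r F = rdef μ u S r fun _ => F := rfl

/-- Synchronisation, uniform over all systems: finitely many identities with a fixed error
suffice. -/
theorem sync_error_unif {K : ℕ} (hK : 0 < K) {ε : ℝ} (hε : 0 < ε) :
    ∃ J : ℕ, ∃ δ > (0 : ℝ), ∀ (T Ω : Type) [Fintype T] [Nonempty T] [MeasurableSpace Ω]
      (μ : Measure Ω) [IsProbabilityMeasure μ] (u : Ω → T → ℝ),
      (∀ x, Measurable fun ω => u ω x) → (∀ ω x, 0 < u ω x) →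
      ∀ (R : T → T → ℝ) (U : T → T → Fin (K + 1)), UnitGram R →
      UnitGram (fun x y => ((U x y : ℕ) : ℝ) / K) →
      (∀ x y z, min (U x y) (U y z) ≤ U x z) →
      (∀ j < J, ∀ (r : ℕ) (F : (Fin (r + 1) → T) → ℝ), (∀ y, |F y| ≤ 1) →
        |ggDef μ u (fun x y => jointS R U x y ^ (j + 1)) r F| ≤ δ) →
      (∀ l, eavg μ u 2 (fun y => if U (y 0) (y 1) = l then (1 : ℝ) else 0) ≤ 2 * pi0 K) →
      syncErr μ u R U ≤ 26 * pi0 K + ε := by
  by_contra hne
  push Not at hne
  have h := fun k : ℕ => hne k (1 / ((k : ℝ) + 1)) (by positivity)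
  choose T Ω iT iN iM μ iP u hm hp R U hR hU hmin hgg hlev hbad using h
  have hlim : Tendsto (fun k : ℕ => 1 / ((k : ℝ) + 1)) atTop (𝓝 0) :=
    tendsto_one_div_add_atTop_nhds_zero_nat
  have hs := sync_error (T := T) (Ω := Ω) (μ := μ) (u := u) hm hp hR hU hmin
    (fun j ε' hε' => by
      filter_upwards [eventually_gt_atTop j, hlim.eventually (eventually_le_nhds hε')] with k hjk hk
        r F hF
      exact (hgg k j hjk r F hF).trans hk)
    hK (fun l => Eventually.of_forall fun k => hlev k l) hε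
  obtain ⟨k, hk⟩ := hs.exists
  exact absurd hk (hbad k).not_ge

/-- The error of the prediction is at most two. -/
theorem syncErr_le_two {T Ω : Type} [Fintype T] [Nonempty T] [MeasurableSpace Ω] {μ : Measure Ω}
    [IsProbabilityMeasure μ] {u : Ω → T → ℝ} (hm : ∀ x, Measurable fun ω => u ω x)
    (hp : ∀ ω x, 0 < u ω x) {R : T → T → ℝ} (hR : ∀ x y, |R x y| ≤ 1)
    (U : T → T → Fin (K + 1)) : syncErr μ u R U ≤ 2 := by
  rw [syncErr, ← eavg_const' (μ := μ) hp 2 (2 : ℝ)]
  refine eavg_mono' hm hp fun x => (abs_sub _ _).trans ?_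
  have hd : |eavg μ u 2 (fun y => if U (y 0) (y 1) = U (x 0) (x 1) then R (y 0) (y 1) else 0)|
      ≤ eavg μ u 2 (fun y => if U (y 0) (y 1) = U (x 0) (x 1) then 1 else 0) := by
    rw [abs_le, ← neg_one_mul, ← eavg_smul']
    refine ⟨eavg_mono' hm hp fun y => ?_, eavg_mono' hm hp fun y => ?_⟩ <;>
      (have h := abs_le.1 (hR (y 0) (y 1)); split_ifs <;> linarith [h.1, h.2])
  have h0 := (abs_nonneg _).trans hd
  rw [abs_div, abs_of_nonneg h0]
  linarith [hR (x 0) (x 1), div_le_one_of_le₀ hd h0]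

/-- The prior of one spin. -/
def onePrior : Prior 1 := ⟨1, fun _ => 1, fun _ _ => 1, fun _ => one_pos, by simp, by simp⟩

theorem unitGram_vlev (π : VPrior N d R D) (hK : 0 < K) :
    UnitGram fun st st' : VState π K n => ((vlev π st st' : ℕ) : ℝ) / K := by
  obtain ⟨e, v, hv, h1⟩ := unitGram_ovU (n := n) onePrior hK
  exact ⟨e, fun st => v (⟨0, Nat.one_pos⟩, st.2), fun st st' => hv (⟨0, Nat.one_pos⟩, st.2)
    (⟨0, Nat.one_pos⟩, st'.2), fun st => h1 (⟨0, Nat.one_pos⟩, st.2)⟩

theorem unitGram_vkerov (π : VPrior N d R D) (κ : Fin R) :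
    UnitGram (vkerov π κ : VState π K n → VState π K n → ℝ) :=
  ⟨D, fun st => π.ker κ st.1, fun _ _ => rfl, fun st => by
    simpa [vkerov, pow_two] using π.ker_unit κ st.1⟩

theorem vS_eq_jointS (π : VPrior N d R D) (κ : Fin R) (st st' : VState π K n) :
    vS π κ st st' = jointS (vkerov π κ) (vlev π) st st' := rfl

/-- The set of perturbed variances. -/
noncomputable def vsysSet (s : Set (VCIdx N M d R D K → ℝ)) : Set (VCIdx N M d R D K → ℝ) :=
  (fun p : (VCIdx N M d R D K → ℝ) × (Fin R × Fin N → ℝ) => vsys p.1 p.2) ''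
    (s ×ˢ Set.univ.pi fun _ => Icc (1 : ℝ) 2)

theorem isCompact_vsysSet {s : Set (VCIdx N M d R D K → ℝ)} (hs : IsCompact s) :
    IsCompact (vsysSet s) :=
  (hs.prod (isCompact_univ_pi fun _ => isCompact_Icc)).image continuous_vsys

theorem mem_vsysSet {s : Set (VCIdx N M d R D K → ℝ)} {fld : VCIdx N M d R D K → ℝ} (hf : fld ∈ s)
    {y : Fin R × Fin N → ℝ} (hy : ∀ p, y p ∈ Icc (1 : ℝ) 2) : vsys fld y ∈ vsysSet s :=
  ⟨(fld, y), ⟨hf, fun p _ => hy p⟩, rfl⟩

theorem levLaw_eq_pairLev (P : VPot d) (π : VPrior N d R D) (Φ : VFac N d K) (hn : 0 < n)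
    (c : VCIdx N M d R D K → ℝ) (l : Fin (K + 1)) :
    levLaw (venv N M d R D K n) (vposW P π Φ c) (vlev π) l
      = pairLev n P π Φ c (fun _ _ => 1) l := by
  rw [pairLev_eq_reavg P π Φ hn]
  rfl

/-- Deterministic tests do not see the perturbations. -/
theorem pertFree_det {T : Type*} {m : ℕ} {F : (Fin m → T) → ℝ} (h : ∀ x, |F x| ≤ 1) :
    PertFree (fun _ : (Node K n → ℝ) × (VGIdx N M d R D K n → ℝ) => F) :=
  ⟨fun _ => measurable_const, fun _ _ => continuous_const, fun _ _ _ _ => rfl, fun _ x => h x⟩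

theorem pertFree_bTest {T : Type*} {m : ℕ}
    {F : (Node K n → ℝ) × (VGIdx N M d R D K n → ℝ) → (Fin m → T) → ℝ} (h : PertFree F) :
    BTest F 1 :=
  ⟨h.meas, h.bound⟩

/-- Synchronisation of every kernel and the identities of the levels, for large systems. -/
theorem vsync (P : VPot d) (B : ℝ) (R0 : ℕ) (hK : 0 < K) {ε : ℝ} (hε : 0 < ε) :
    ∃ Nmin : ℕ, ∀ N ≥ Nmin, ∀ M R D : ℕ, R ≤ R0 → N ≤ D →
      ∀ (π : VPrior N d R D) (Φ : VFac N d K) (s : Set (VCIdx N M d R D K → ℝ)), IsCompact s →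
      (∀ fld ∈ s, PertZero fld ∧ VSized π Φ B fld) →
      ∃ n0, 0 < n0 ∧ ∀ n ≥ n0, ∀ fld ∈ s,
        ∃ δ : (Fin R × Fin N → ℝ) → ℝ, Integrable δ (vxlaw R N) ∧ (∀ y, 0 ≤ δ y) ∧
          ∫ y, δ y ∂vxlaw R N ≤ ε ∧ ∀ y : Fin R × Fin N → ℝ, (∀ p, y p ∈ Icc (1 : ℝ) 2) →
            ∀ κ : Fin R,
              syncErr (venv N M d R D K n) (vposW P π Φ (vsys fld y)) (vkerov π κ) (vlev π)
                ≤ 26 * pi0 K + δ y ∧
              ∀ (l : Fin (K + 1)) (r : ℕ) (F : (Node K n → ℝ) × (VGIdx N M d R D K n → ℝ) →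
                (Fin (r + 1) → VState π K n) → ℝ), PertFree F →
                |rdef (venv N M d R D K n) (vmbw P π Φ (vsys fld y))
                  (fun a b => if vlev π a b = l then 1 else 0) r F| ≤ δ y := by
  set e := ε / 2 with he
  have he0 : 0 < e := by positivity
  obtain ⟨J, δ0, hδ0, hsync⟩ := sync_error_unif hK (show (0 : ℝ) < e from he0)
  choose p hp using fun l : Fin (K + 1) =>
    exists_polynomial_near_of_continuousOn (-1) 1 (levSel K l) (continuous_levSel K l).continuousOn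
      (e / 2) (by positivity)
  set JT := J + ∑ l, (p l).natDegree
  set C := 2 / δ0 + ∑ l, ∑ j ∈ Finset.range ((p l).natDegree + 1), |(p l).coeff j|
  have hC : 0 < C := by
    have : 0 ≤ ∑ l, ∑ j ∈ Finset.range ((p l).natDegree + 1), |(p l).coeff j| :=
      Finset.sum_nonneg fun l _ => Finset.sum_nonneg fun j _ => abs_nonneg _
    positivity
  set e' := e / (C * ((R0 : ℝ) + 1) * ((JT : ℝ) + 1))
  choose Nmin hNmin using fun j => vmodel_gg P B R0 K j (show 0 < e' by positivity)
  refine ⟨∑ j ∈ Finset.range (JT + 1), Nmin j, fun N hN M R D hR hD π Φ s hs hfld => ?_⟩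
  have hNj : ∀ j ∈ Finset.range (JT + 1), Nmin j ≤ N := fun j hj =>
    (Finset.single_le_sum (fun i _ => Nat.zero_le _) hj).trans hN
  choose! nj hnj using fun j (hj : j ∈ Finset.range (JT + 1)) =>
    (hNmin j N (hNj j hj)).2 M R D hR hD π Φ s hs hfld
  obtain ⟨n1, hn1⟩ := pairLev_uniform P π Φ (isCompact_vsysSet hs) 1
    (show (0 : ℝ) < pi0 K by rw [pi0]; positivity)
  refine ⟨n1 + 1 + ∑ j ∈ Finset.range (JT + 1), nj j, by omega, fun n hn fld hf => ?_⟩
  have hn' : 0 < n := by omega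
  choose! δj hδi hδ0' hδe hδ using fun j (hj : j ∈ Finset.range (JT + 1)) => fun κ : Fin R =>
    hnj j hj n ((Finset.single_le_sum (fun i _ => Nat.zero_le _) hj).trans (by omega)) fld hf κ
  set S : (Fin R × Fin N → ℝ) → ℝ := fun y => ∑ κ, ∑ j ∈ Finset.range (JT + 1), δj j κ y with hS
  have hS0 : ∀ y, 0 ≤ S y := fun y =>
    Finset.sum_nonneg fun κ _ => Finset.sum_nonneg fun j hj => hδ0' j hj κ y
  have hSj : ∀ y κ, ∀ j ∈ Finset.range (JT + 1), δj j κ y ≤ S y := fun y κ j hj =>
    (Finset.single_le_sum (f := fun j => δj j κ y) (fun i hi => hδ0' i hi κ y) hj).trans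
      (Finset.single_le_sum (f := fun κ => ∑ j ∈ Finset.range (JT + 1), δj j κ y)
        (fun κ _ => Finset.sum_nonneg fun i hi => hδ0' i hi κ y) (Finset.mem_univ κ))
  have hSi : Integrable S (vxlaw R N) :=
    integrable_finsetSum _ fun κ _ => integrable_finsetSum _ fun j hj => hδi j hj κ
  refine ⟨fun y => e + C * S y, (integrable_const e).add (hSi.const_mul C),
    fun y => by have := hS0 y; positivity, ?_, fun y hy κ => ?_⟩
  · rw [integral_add (integrable_const e) (hSi.const_mul C), integral_const, probReal_univ,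
      one_smul, integral_const_mul]
    have hb : ∫ y, S y ∂vxlaw R N ≤ ((R0 : ℝ) + 1) * ((JT : ℝ) + 1) * e' := by
      rw [hS, integral_finsetSum _ fun κ _ => integrable_finsetSum _ fun j hj => hδi j hj κ]
      refine (Finset.sum_le_sum (g := fun _ : Fin R => ((JT : ℝ) + 1) * e') fun κ _ => ?_).trans ?_
      · rw [integral_finsetSum _ fun j hj => hδi j hj κ]
        refine (Finset.sum_le_sum fun j hj => hδe j hj κ).trans_eq ?_
        simp
      · rw [Finset.sum_const, Finset.card_univ, Fintype.card_fin, nsmul_eq_mul, mul_assoc]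
        refine mul_le_mul_of_nonneg_right ?_ (by positivity)
        exact_mod_cast hR.trans (Nat.le_succ R0)
    have := mul_le_mul_of_nonneg_left hb hC.le
    have hee : C * (((R0 : ℝ) + 1) * ((JT : ℝ) + 1) * e') = e := by
      simp only [e']; field_simp
    linarith
  have := vstate_nonempty (K := K) π hn'
  set c := vsys fld y
  set μ := venv N M d R D K n
  set u := vposW (n := n) P π Φ c
  have hm := measurable_vposW (n := n) P π Φ c
  have hpos := vposW_pos (n := n) P π Φ c
  have hpow : ∀ j ∈ Finset.range (JT + 1), ∀ (r : ℕ) (F : (Node K n → ℝ) ×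
      (VGIdx N M d R D K n → ℝ) → (Fin (r + 1) → VState π K n) → ℝ), PertFree F →
      |rdef μ u (fun a b => vS π κ a b ^ (j + 1)) r F| ≤ S y := fun j hj r F hF => by
    rw [rdef_vposW]
    exact (hδ j hj κ y hy r F hF).trans (hSj y κ j hj)
  have hR1 : ∀ a b : VState π K n, vkerov π κ a b ∈ Icc (-1 : ℝ) 1 := (unitGram_vkerov π κ).mem
  have hC1 : 2 / δ0 * S y ≤ C * S y := mul_le_mul_of_nonneg_right
    (le_add_of_nonneg_right (Finset.sum_nonneg fun l _ => Finset.sum_nonneg fun j _ => abs_nonneg _))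
    (hS0 y)
  refine ⟨?_, fun l r F hF => ?_⟩
  · by_cases hy' : S y ≤ δ0
    · have h := hsync (VState π K n) ((Node K n → ℝ) × (VGIdx N M d R D K n → ℝ)) μ u hm hpos
        (vkerov π κ) (vlev π) (unitGram_vkerov π κ) (unitGram_vlev π hK)
        (fun a b c => com_min a.2 b.2 c.2)
        (fun j hj r F hF => by
          rw [ggDef_eq_rdef]
          exact (hpow j (Finset.mem_range.2 (by omega)) r _ (pertFree_det hF)).trans hy')
        (fun l => by
          have h := (abs_le.1 ((hn1 n (by omega) c (mem_vsysSet hf hy)).1 l)).2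
          rw [← levLaw_eq_pairLev P π Φ hn'] at h
          change levLaw μ u (vlev π) l ≤ _
          linarith)
      have := mul_nonneg hC.le (hS0 y)
      linarith
    · have h := syncErr_le_two (K := K) (μ := μ) hm hpos (fun a b => abs_le.2 (hR1 a b)) (vlev π)
      have h2 : 2 ≤ 2 / δ0 * S y := by
        rw [div_mul_eq_mul_div, le_div_iff₀ hδ0]
        linarith [not_le.1 hy']
      have : 0 < pi0 K := by rw [pi0]; positivity
      linarith
  · rw [← rdef_vposW]
    have hj' : ∀ j < (p l).natDegree, |rdef μ u (fun a b => vS π κ a b ^ (j + 1)) r F| ≤ S y :=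
      fun j hj => hpow j (Finset.mem_range.2 (by
        have := Finset.single_le_sum (f := fun l => (p l).natDegree) (fun _ _ => Nat.zero_le _)
          (Finset.mem_univ l)
        omega)) r F hF
    have hS1 : ∀ a b : VState π K n, vS π κ a b ∈ Icc (-1 : ℝ) 1 :=
      (unitGram_joint hK (unitGram_vkerov π κ) (unitGram_vlev π hK)).mem
    have h := rdef_comp (μ := μ) hm hpos hS1 (p := p l) (h := levSel K l) (ε := e / 2) (hS0 y)
      (fun t ht => (hp l t ht).le) (pertFree_bTest hF) hj'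
    have he' : (fun a b : VState π K n => levSel K l (vS π κ a b))
        = fun a b => if vlev π a b = l then 1 else 0 := funext₂ fun a b => by
      rw [vS_eq_jointS]
      exact levSel_joint (hR1 a b) l
    rw [he'] at h
    refine h.trans ?_
    rw [mul_div_cancel₀ _ (two_ne_zero (α := ℝ))]
    refine add_le_add le_rfl (mul_le_mul_of_nonneg_right ?_ (hS0 y))
    exact (Finset.single_le_sum (f := fun l => ∑ j ∈ Finset.range ((p l).natDegree + 1),
      |(p l).coeff j|) (fun l _ => Finset.sum_nonneg fun j _ => abs_nonneg _)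
      (Finset.mem_univ l)).trans (le_add_of_nonneg_left (by positivity))

end Vale.Agent.P166.Casc
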