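import Vale.Agent.P166.Casc.VRotId
import Vale.Agent.P166.Casc.VSDApprox
import Vale.Agent.P166.Casc.VSync
import Vale.Agent.P166.Casc.BlockShell

/-!
Stationarity of the penalised spins: synchronised overlaps of one type and the mean covariances of
the levels solve the stationarity equations up to small errors in mean over the levels.
-/

open MeasureTheory ProbabilityTheory Filter Topology Set

namespace Vale.Agent.P166.Casc

open Vale.Agent.P157.Casc Vale.Agent.P157.Casc.Itp VItp Vale.Agent.P166.Pen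

section Levels

/-- Equal weights of the levels. -/
noncomputable def ulev (K : ℕ) (l : ℕ) : ℝ := ((min l (K + 1) : ℕ) : ℝ) / ((K : ℝ) + 1)

theorem levels_ulev (K : ℕ) : Formula.Levels (ulev K) K where
  zero := by simp [ulev]
  pos := fun l h1 h2 => by
    rw [ulev, Nat.min_eq_left h2]
    have : (0 : ℝ) < l := Nat.cast_pos.2 h1
    positivity
  mono := fun l _ => by
    unfold ulev
    gcongr
    omega
  top := by
    rw [ulev, Nat.min_self]
    push_cast
    field_simp

theorem dmOf_ulev (K : ℕ) (j : Fin (K + 1)) : dmOf (ulev K) j = pi0 K := by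
  have hj := j.isLt
  rw [dmOf, ulev, ulev, Nat.min_eq_left (by omega), Nat.min_eq_left (by omega), pi0]
  push_cast
  ring

theorem tri_com {K n : ℕ} (α β γ : Leaf K n) : Formula.Tri (com α β) (com α γ) (com γ β) := by
  refine ⟨?_, ?_, ?_⟩
  · have h := com_min γ α β
    rw [com_comm γ α] at h
    rw [min_comm]
    exact h
  · have h := com_min α β γ
    rw [com_comm β γ] at h
    exact h
  · exact com_min α γ β

end Levels

section Perturb

variable {N M d R D K J : ℕ}

/-- The sizes of the perturbations by level and degree. -/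
noncomputable def ePert (y : Fin R × Fin J → ℝ) (l : Fin (K + 1)) (κ : Fin R) (p : Fin D)
    (q : Fin (p.val + 2)) : ℝ :=
  if p.val < J then
    (amp J p * vext y κ p) ^ 2 * ((p.val + 1).choose q.val * 3 ^ (p.val + 1 - q.val)
      * incr (powPath K (p.val + 1 - q.val)) l) / ((3 * K + 1 : ℕ) : ℝ) ^ (p.val + 1)
  else 0

/-- Perturbed variances have a common type, if the fields have one. -/
theorem typeVar_vsys {Φ : VFac N d K} {fld : VCIdx N M d R D K → ℝ} {S : Finset (Fin N)} {θ : ℝ}
    {pF : Fin (K + 1) → Fin d → Fin d → ℝ} (hf : PertZero fld)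
    (hrow : ∀ a, ∀ u ∈ S, fld (Sum.inl (Sum.inl (a, u))) = θ)
    (hfld : ∀ u ∈ S, ∀ l k k', ∑ l' ∈ Finset.Iic l, ∑ s, ∑ r,
      fld (Sum.inr (l', Sum.inr (Sum.inl (s, u, r)))) * (Φ.2.1 s u l' k r * Φ.2.1 s u l' k' r)
        = pF l k k')
    (y : Fin R × Fin J → ℝ) : TypeVar Φ (vsys fld y) S θ pF (ePert y) where
  row := fun a u hu => by simp [vsys, vpert, hrow a u hu]
  fld := fun u hu l k k' => by
    simp only [vsys, vpert, add_zero]
    exact hfld u hu l k k'
  pert := fun l κ j i t => by simp [vsys, vpert, ePert, hf l (κ, (⟨j, i, t⟩ : PIdx D))]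

theorem pertSize_ePert_le (y : Fin R × Fin J → ℝ) {X : ℝ} (hy : ∀ p, |y p| ≤ X) :
    pertSize (ePert (K := K) (D := D) y) ≤ R * (X ^ 2 * (J : ℝ) ^ ((3 : ℝ) / 4)) := by
  have hin : ∀ (k : ℕ) (l : Fin (K + 1)), 0 ≤ incr (powPath K k) l := fun k l => by
    refine Fin.cases ?_ (fun r => ?_) l
    · simp only [incr, Fin.cases_zero, powPath]; positivity
    · simp only [incr, Fin.cases_succ, powPath, Fin.val_succ, Fin.val_castSucc, sub_nonneg]
      exact pow_le_pow_left₀ (Nat.cast_nonneg _) (by exact_mod_cast Nat.le_succ _) _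
  have hsum : ∀ k : ℕ, ∑ l, incr (powPath K k) l = (K : ℝ) ^ k := fun k => by
    have hK : ∀ (L : ℕ) (v : Fin (L + 1) → ℝ), ∑ l, incr v l = v (Fin.last L) := fun L v => by
      induction L with
      | zero => simp [incr]
      | succ L ih =>
        rw [Fin.sum_univ_castSucc]
        have h := ih fun l => v l.castSucc
        have e : ∀ l : Fin (L + 1), incr v l.castSucc = incr (fun l => v l.castSucc) l := fun l => by
          refine Fin.cases ?_ (fun r => ?_) l
          · simp [incr]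
          · simp only [incr, Fin.cases_succ, ← Fin.succ_castSucc]
        simp only [e, h]
        rw [show Fin.last (L + 1) = (Fin.last L).succ from rfl, incr, Fin.cases_succ]
        ring
    simp [hK, powPath]
  have hp : ∀ (κ : Fin R) (p : Fin D),
      ∑ q : Fin (p.val + 2), (q.val : ℝ) * ∑ l : Fin (K + 1), |ePert y l κ p q|
        ≤ X ^ 2 * (J : ℝ) ^ ((3 : ℝ) / 4) * if p.val < J then (1 / 2 : ℝ) ^ (p.val + 1) else 0 := by
    intro κ p
    by_cases hp : p.val < J
    swap
    · simp [ePert, hp]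
    simp only [ePert, if_pos hp]
    set A := (amp J p * vext y κ p) ^ 2 with hA
    set den := ((3 * K + 1 : ℕ) : ℝ) ^ (p.val + 1) with hden
    have hden0 : 0 < den := by positivity
    have he : ∀ q : Fin (p.val + 2),
        ∑ l : Fin (K + 1), |A * ((p.val + 1).choose q.val * 3 ^ (p.val + 1 - q.val)
          * incr (powPath K (p.val + 1 - q.val)) l) / den|
        = A / den * ((1 : ℝ) ^ q.val * (3 * (K : ℝ)) ^ (p.val + 1 - q.val) * (p.val + 1).choose q.val) :=
      fun q => by
      rw [mul_pow, one_pow, one_mul, ← hsum, Finset.mul_sum, Finset.sum_mul, Finset.mul_sum]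
      refine Finset.sum_congr rfl fun l _ => ?_
      rw [abs_of_nonneg (div_nonneg (mul_nonneg (sq_nonneg _)
        (mul_nonneg (by positivity) (hin _ l))) hden0.le)]
      ring
    simp only [he]
    refine (Finset.sum_le_sum (g := fun q : Fin (p.val + 2) => ((p.val : ℝ) + 1) * (A / den *
      ((1 : ℝ) ^ q.val * (3 * (K : ℝ)) ^ (p.val + 1 - q.val) * (p.val + 1).choose q.val)))
      fun q _ => ?_).trans ?_
    · refine mul_le_mul_of_nonneg_right ?_ (by positivity)
      have : q.val ≤ p.val + 1 := Nat.lt_succ_iff.1 q.isLt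
      exact_mod_cast this
    rw [← Finset.mul_sum, ← Finset.mul_sum, Fin.sum_univ_eq_sum_range
      (fun q => (1 : ℝ) ^ q * (3 * (K : ℝ)) ^ (p.val + 1 - q) * (p.val + 1).choose q) (p.val + 2),
      ← add_pow, show (1 : ℝ) + 3 * (K : ℝ) = ((3 * K + 1 : ℕ) : ℝ) by push_cast; ring, ← hden,
      div_mul_cancel₀ _ hden0.ne', hA, amp]
    have hv : vext y κ p ^ 2 ≤ X ^ 2 := by
      rw [vext, dif_pos hp, ← sq_abs]
      exact pow_le_pow_left₀ (abs_nonneg _) (hy _) 2
    have hJ : ((J : ℝ) ^ ((3 : ℝ) / 8)) ^ 2 = (J : ℝ) ^ ((3 : ℝ) / 4) := by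
      rw [← Real.rpow_natCast, ← Real.rpow_mul (Nat.cast_nonneg J)]
      norm_num
    have h2 : ((p.val : ℝ) + 1) / 2 ^ (p.val + 1) ≤ 1 := by
      rw [div_le_one (by positivity)]
      exact_mod_cast (Nat.lt_two_pow_self (n := p.val + 1)).le
    calc ((p.val : ℝ) + 1) * ((J : ℝ) ^ ((3 : ℝ) / 8) / 2 ^ (p.val + 1) * vext y κ p) ^ 2
        = vext y κ p ^ 2 * (J : ℝ) ^ ((3 : ℝ) / 4) *
          (((p.val : ℝ) + 1) / 2 ^ (p.val + 1) * (1 / 2) ^ (p.val + 1)) := by
          rw [← hJ, div_pow (1 : ℝ), one_pow]; ring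
      _ ≤ X ^ 2 * (J : ℝ) ^ ((3 : ℝ) / 4) * (1 * (1 / 2) ^ (p.val + 1)) := by
          refine mul_le_mul (mul_le_mul_of_nonneg_right hv (by positivity))
            (mul_le_mul_of_nonneg_right h2 (by positivity)) (by positivity) (by positivity)
      _ = _ := by ring
  rw [pertSize]
  refine (Finset.sum_le_sum (g := fun _ : Fin R => X ^ 2 * (J : ℝ) ^ ((3 : ℝ) / 4))
    fun κ _ => ?_).trans_eq ?_
  · refine (Finset.sum_le_sum fun p _ => hp κ p).trans ?_
    rw [← Finset.mul_sum, Fin.sum_univ_eq_sum_range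
      (fun p => if p < J then (1 / 2 : ℝ) ^ (p + 1) else 0) D]
    refine mul_le_of_le_one_right (by positivity) ?_
    refine (Finset.sum_le_sum (g := fun p => (1 / 2 : ℝ) * (1 / 2) ^ p) fun p _ => ?_).trans ?_
    · split_ifs
      · rw [pow_succ']
      · positivity
    · rw [← Finset.mul_sum]
      have := sum_geometric_two_le D
      linarith
  · simp

end Perturb

section Types

variable {d : ℕ} {t : Finset (Fin d)}

/-- The components of a type of a matrix. -/
def subM (t : Finset (Fin d)) (A : Matrix (Fin d) (Fin d) ℝ) : Matrix (Fin t.card) (Fin t.card) ℝ :=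
  A.submatrix (comp t) (comp t)

/-- The submatrix of a product over components inside the type. -/
theorem subM_mul {A B : Matrix (Fin d) (Fin d) ℝ}
    (h : ∀ i k l, k ∉ t → A i k * B k l = 0) : subM t (A * B) = subM t A * subM t B := by
  ext b b'
  simp only [subM, Matrix.submatrix_apply, Matrix.mul_apply]
  rw [← sum_comp_eq t fun k => A (comp t b) k * B k (comp t b')]
  exact (Finset.sum_subset (Finset.subset_univ t) fun k _ hk => h _ k _ hk).symm

theorem mabs_subM_le (t : Finset (Fin d)) (A : Matrix (Fin d) (Fin d) ℝ) :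
    mabs (subM t A) ≤ mabs A := by
  have h : ∀ (F : Fin d → ℝ), (∀ k, 0 ≤ F k) → ∑ b, F (comp t b) ≤ ∑ k, F k := fun F hF => by
    rw [← sum_comp_eq t F]
    exact Finset.sum_le_sum_of_subset_of_nonneg (Finset.subset_univ t) fun k _ _ => hF k
  simp only [mabs, subM, Matrix.submatrix_apply]
  refine (Finset.sum_le_sum fun b _ => h (fun l => |A (comp t b) l|) fun _ => abs_nonneg _).trans ?_
  exact h (fun k => ∑ l, |A k l|) fun k => Finset.sum_nonneg fun _ _ => abs_nonneg _

theorem subM_ite (p : Prop) [Decidable p] (A : Matrix (Fin d) (Fin d) ℝ) :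
    subM t (if p then A else 0) = if p then subM t A else 0 := by
  split_ifs
  · rfl
  · simp [subM]

end Types

section Stationary

variable {N M K K' L J nA n : ℕ} {τ B lam : ℝ} {γ : Fin K → ℝ}

/-- The mean covariance on a level. -/
noncomputable def levMean {T Ω : Type*} [Fintype T] [MeasurableSpace Ω] {d : ℕ} (μ : Measure Ω)
    (u : Ω → T → ℝ) (U : T → T → Fin (K' + 1)) (C : Ω → T → T → Matrix (Fin d) (Fin d) ℝ)
    (l : Fin (K' + 1)) : Matrix (Fin d) (Fin d) ℝ :=
  (pi0 K')⁻¹ • mexp μ u 2 fun ω x => if U (x 0) (x 1) = l then C ω (x 0) (x 1) else 0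

theorem vfld_congr_pert {d R D : ℕ} {π : VPrior N d R D} {Φ : VFac N d K'}
    (lam : VGIdx N M d R D K' n → ℝ) {G G' : VGIdx N M d R D K' n → ℝ}
    (h : ∀ i, ¬PertIdx i → G i = G' i) (x : VState π K' n) (a : Fin M) :
    vfld (vbpat π Φ) lam G x a = vfld (vbpat π Φ) lam G' x a := by
  funext k
  refine Finset.sum_congr rfl fun i _ => ?_
  rcases i with p | ⟨o, p | p | p⟩
  · rw [h _ id]
  · rw [h _ id]
  · rw [h _ id]
  · simp [vbpat, treeDir, rowL]

/-- The overlaps of one type vanish outside its components. -/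
theorem rmat_supp (hτ : 0 ≤ τ) {ν : Measure (Fin K → Fin N → ℝ)} {ε : ℝ} (A : Coeffs K nA)
    (a : Atoms ν (cutSet B K N) ε) (hL : 0 < L) {S : Finset (Fin N)} {t : Finset (Fin K)}
    (hS : ∀ u ∈ S, typ γ u = t) (x y : VState (penPrior (γ := γ) hτ A a hL J) K' n) (k l : Fin K)
    (h : k ∉ t ∨ l ∉ t) : rmat (penPrior (γ := γ) hτ A a hL J) S x y k l = 0 := by
  simp only [rmat, Matrix.of_apply, vov]
  rw [Finset.sum_eq_zero fun j hj => ?_, zero_div]
  have hc : ∀ (ω : Fin K → Fin N → ℝ) m, m ∉ t → cfgOf τ γ ω j m = 0 := fun ω m hm => by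
    refine if_neg fun hlt => hm ?_
    rw [← hS j hj]
    simpa [typ] using hlt
  simp only [penPrior]
  rcases h with h | h <;> simp [hc _ _ h]

/-- The identities of one type, on the components of the type. -/
theorem rot_subM (hτ : 0 ≤ τ) {ν : Measure (Fin K → Fin N → ℝ)} {ε : ℝ} (A : Coeffs K nA)
    (a : Atoms ν (cutSet B K N) ε) (hL : 0 < L) {S : Finset (Fin N)} {t : Finset (Fin K)}
    (hS : ∀ u ∈ S, typ γ u = t) {Ω : Type*} [MeasurableSpace Ω] (μ : Measure Ω)
    (u : Ω → VState (penPrior (γ := γ) hτ A a hL J) K' n → ℝ)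
    (U : VState (penPrior (γ := γ) hτ A a hL J) K' n → VState (penPrior (γ := γ) hτ A a hL J) K' n →
      Fin (K' + 1))
    (C : Ω → VState (penPrior (γ := γ) hτ A a hL J) K' n →
      VState (penPrior (γ := γ) hτ A a hL J) K' n → Matrix (Fin K) (Fin K) ℝ) (av : ℝ)
    (l : Fin (K' + 1)) :
    rotLev μ u U (fun x y => subM t (rmat (penPrior (γ := γ) hτ A a hL J) S x y))
        (fun ω x y => subM t (C ω x y)) av l
      = subM t (rotLev μ u U (rmat (penPrior (γ := γ) hτ A a hL J) S) C av l) ∧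
    rotDiag μ u (fun x y => subM t (rmat (penPrior (γ := γ) hτ A a hL J) S x y))
        (fun ω x y => subM t (C ω x y))
      = subM t (rotDiag μ u (rmat (penPrior (γ := γ) hτ A a hL J) S) C) := by
  set R := rmat (K := K') (n := n) (penPrior (γ := γ) hτ A a hL J) S
  have h3 : ∀ x y x' y' (X : Matrix (Fin K) (Fin K) ℝ),
      subM t (R x y * X * R x' y') = subM t (R x y) * subM t X * subM t (R x' y') := by
    intro x y x' y' X
    have h0 : ∀ x y k m, k ∉ t ∨ m ∉ t → R x y k m = 0 := fun x y k m h =>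
      rmat_supp (J := J) hτ A a hL hS x y k m h
    rw [subM_mul fun i k m hk => by rw [h0 x' y' k m (Or.inl hk), mul_zero],
      subM_mul fun i k m hk => by rw [h0 x y i k (Or.inr hk), zero_mul]]
  have hm : ∀ (m : ℕ) (F : Ω → (Fin m → VState (penPrior (γ := γ) hτ A a hL J) K' n) →
      Matrix (Fin K) (Fin K) ℝ),
      subM t (mexp μ u m F) = mexp μ u m fun ω x => subM t (F ω x) := fun m F => rfl
  refine ⟨?_, ?_⟩
  · rw [rotLev, rotLev, hm]
    congr 1
    funext ω x
    rw [subM_ite]
    congr 1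
    simp only [← h3]
    rfl
  · rw [rotDiag, rotDiag, hm]
    congr 1
    funext ω x
    simp only [← h3]
    rfl

/-- Stationarity on the components of one type up to errors, from synchronisation and the
identities of the levels. -/
theorem stat_pen_typ (hτ : 0 ≤ τ) (hlam : 0 ≤ lam) (d : OIdx K → ℝ) (A : Coeffs K nA) (hL : 0 < L)
    (P : VPot K) (hh : ∀ k k' y, P.h k k' y = P.h k' k y) (Φ : VFac N K K') (hN : 0 < N) (Cb : ℝ)
    (S : Finset (Fin N)) (t : Finset (Fin K)) (hS : ∀ u ∈ S, typ γ u = t) (hS2 : 2 ≤ S.card) :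
    ∀ η > 0, ∃ δa > 0, ∀ {ε : ℝ} (a : Atoms (spinMeas τ γ B lam d N) (cutSet B K N) ε), ε ≤ δa →
      ∀ (n : ℕ), 0 < n →
      ∀ c : VCIdx N M K (nker K nA) (N + L + J) K' → ℝ, (∀ q, c q ∈ Icc 0 Cb) →
      (∀ u, c (Sum.inl (Sum.inr u)) = 0) →
      ∀ (θ : ℝ) (pF : Fin (K' + 1) → Fin K → Fin K → ℝ)
        (e : Fin (K' + 1) → Fin (nker K nA) → (p : Fin (N + L + J)) → Fin (p.val + 2) → ℝ),
      TypeVar Φ c S θ pF e → (∀ l k k', pF l k k' = pF l k' k) →
      ∀ (Dm : Matrix (Fin t.card) (Fin t.card) ℝ)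
        (q : Fin (K' + 1) → Matrix (Fin t.card) (Fin t.card) ℝ)
        (B1 B2 δ εl : ℝ), 1 ≤ B1 → Dm.det ≠ 0 → (∀ j, (q j).transpose = q j) →
      mabs Dm ≤ B1 → (∀ j, mabs (q j) ≤ B1) →
      mabs ((((S.card : ℝ) - 1) / N)⁻¹ • Dm)⁻¹ ≤ B2 →
      (∀ j, mabs ((((S.card : ℝ) - 1) / N)⁻¹ • q j) ≤ B2) → |((S.card : ℝ) - 1) / N| ≤ B1 →
      (∀ x y : VState (penPrior (γ := γ) hτ A a hL J) K' n,
        mabs (rmat (penPrior (γ := γ) hτ A a hL J) S x y) ≤ B1) →
      (∀ G (x y : VState (penPrior (γ := γ) hτ A a hL J) K' n),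
        mabs (cmat P (penPrior (γ := γ) hτ A a hL J) Φ c θ pF G x y) ≤ B1) →
      0 ≤ εl → εl ≤ pi0 K' → 0 ≤ δ →
      reavg (venv N M K (nker K nA) (N + L + J) K' n)
        (vposW P (penPrior (γ := γ) hτ A a hL J) Φ c) 1
        (fun _ x => mabs (subM t (rmat (penPrior (γ := γ) hτ A a hL J) S (x 0) (x 0)) - Dm)) ≤ δ →
      reavg (venv N M K (nker K nA) (N + L + J) K' n)
        (vposW P (penPrior (γ := γ) hτ A a hL J) Φ c) 2
        (fun _ x => mabs (subM t (rmat (penPrior (γ := γ) hτ A a hL J) S (x 0) (x 1))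
          - q (vlev (penPrior (γ := γ) hτ A a hL J) (x 0) (x 1)))) ≤ δ →
      (∀ l, |levLaw (venv N M K (nker K nA) (N + L + J) K' n)
        (vposW P (penPrior (γ := γ) hτ A a hL J) Φ c) (vlev (penPrior (γ := γ) hτ A a hL J)) l
          - pi0 K'| ≤ εl) →
      (∀ (l : Fin (K' + 1)) (F : (Node K' n → ℝ) × (VGIdx N M K (nker K nA) (N + L + J) K' n → ℝ) →
          (Fin 2 → VState (penPrior (γ := γ) hτ A a hL J) K' n) → ℝ), PertFree F →
        |rdef (venv N M K (nker K nA) (N + L + J) K' n)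
          (vposW P (penPrior (γ := γ) hτ A a hL J) Φ c)
          (fun x y => if vlev (penPrior (γ := γ) hτ A a hL J) x y = l then 1 else 0) 1 F| ≤ εl) →
      (∀ l, (levMean (venv N M K (nker K nA) (N + L + J) K' n)
          (vposW P (penPrior (γ := γ) hτ A a hL J) Φ c) (vlev (penPrior (γ := γ) hτ A a hL J))
          (fun p x y => subM t (cmat P (penPrior (γ := γ) hτ A a hL J) Φ c θ pF p.2 x y)) l).IsSymm ∧
        mabs (levMean (venv N M K (nker K nA) (N + L + J) K' n)
          (vposW P (penPrior (γ := γ) hτ A a hL J) Φ c) (vlev (penPrior (γ := γ) hτ A a hL J))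
          (fun p x y => subM t (cmat P (penPrior (γ := γ) hτ A a hL J) Φ c θ pF p.2 x y)) l) ≤ 2 * B1) ∧
      Formula.lmean (ulev K') K'
        (Formula.resid (ulev K') K'
          (sdL (ulev K') (((S.card : ℝ) - 1) / N) Dm
            (levMean (venv N M K (nker K nA) (N + L + J) K' n)
              (vposW P (penPrior (γ := γ) hτ A a hL J) Φ c) (vlev (penPrior (γ := γ) hτ A a hL J))
              (fun p x y => subM t (cmat P (penPrior (γ := γ) hτ A a hL J) Φ c θ pF p.2 x y))) q)
          ((((S.card : ℝ) - 1) / N)⁻¹ • Dm)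
          (extPath (levMean (venv N M K (nker K nA) (N + L + J) K' n)
              (vposW P (penPrior (γ := γ) hτ A a hL J) Φ c) (vlev (penPrior (γ := γ) hτ A a hL J))
              (fun p x y => subM t (cmat P (penPrior (γ := γ) hτ A a hL J) Φ c θ pF p.2 x y))))
          (extPath fun j => (((S.card : ℝ) - 1) / N)⁻¹ • q j))
        ≤ |(((S.card : ℝ) - 1) / N)⁻¹| ^ 2 *
          (B2 ^ 3 * ((K : ℝ) ^ 2 * (η + 4 * (pertSize e * (τ * B)) / N)
              + δ * (4 * (2 * B1) ^ 2) + εl * (2 * ((K' : ℝ) + 1) * (2 * B1) ^ 2))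
            + B2 * (((K' : ℝ) + 1) * ((K : ℝ) ^ 2 * (η + 4 * (pertSize e * (τ * B)) / N))
              + δ * (13 * (2 * B1) ^ 2) + εl * (((K' : ℝ) + 1) * sdC K' t.card (2 * B1)))) := by
  intro η hη
  obtain ⟨δa, hδa, hrot⟩ := rot_identities (M := M) (J := J) hτ hlam d A hL P hh Φ hN Cb S t hS η hη
  refine ⟨δa, hδa, fun {ε} a hε n hn c hc hc0 θ pF e hT hpF Dm q B1 B2 δ εl hB1 hDm hqs hDb hqb
    hDi hqB ha hRb hCb hεl hεπ hδ hself hsync hlaw hgg => ?_⟩
  obtain ⟨hlevs0, hdiag0⟩ := hrot a hε n hn c hc hc0 θ pF e hT hpF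
  have hlevs : ∀ lv, _ ≤ (K : ℝ) ^ 2 * (η + 4 * (pertSize e * (τ * B)) / N) := fun lv =>
    ((congrArg mabs (rot_subM (J := J) hτ A a hL hS _ _ _ _ _ lv).1).trans_le
      (mabs_subM_le t _)).trans (hlevs0 lv)
  have hdiag : _ ≤ (K : ℝ) ^ 2 * (η + 4 * (pertSize e * (τ * B)) / N) :=
    ((congrArg mabs (rot_subM (J := J) hτ A a hL hS _ _
      (vlev (penPrior (γ := γ) hτ A a hL J)) _ 0 0).2).trans_le (mabs_subM_le t _)).trans hdiag0
  set π := penPrior (γ := γ) hτ A a hL J
  have : Nonempty (VState π K' n) := ⟨(⟨0, π.c_pos⟩, fun _ => ⟨0, hn⟩)⟩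
  set μ := venv N M K (nker K nA) (N + L + J) K' n
  set u := vposW (n := n) P π Φ c
  set C := fun (p : (Node K' n → ℝ) × (VGIdx N M K (nker K nA) (N + L + J) K' n → ℝ))
    (x y : VState π K' n) => subM t (cmat P π Φ c θ pF p.2 x y)
  set R := fun x y : VState π K' n => subM t (rmat π S x y)
  set U := vlev (K := K') (n := n) π
  set av := ((S.card : ℝ) - 1) / N
  set p := levMean μ u U C
  have hm := measurable_vposW (n := n) P π Φ c
  have hpos := vposW_pos (n := n) P π Φ c
  have hπ0 : 0 < pi0 K' := by rw [pi0]; positivity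
  have hB0 : 0 ≤ B1 := zero_le_one.trans hB1
  have hCm : ∀ x y k l, Measurable fun ω => C ω x y k l := fun x y k l => by
    have := fun b z q => (P.cg q).comp' (cont_vfld (vbpat (M := M) π Φ) (vpull (n := n) c) z b)
    have hcont : Continuous fun G => subM t (cmat P π Φ c θ pF G x y) k l := by
      simp only [subM, Matrix.submatrix_apply, cmat, Matrix.of_apply, rC, vovP]
      fun_prop
    exact hcont.measurable.comp measurable_snd
  have hCt : ∀ ω x y, C ω y x = (C ω x y).transpose := fun ω x y => by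
    simp only [C, subM, Matrix.transpose_submatrix, cmat_transpose P π Φ hpF ω.2 x y]
  have hCb' : ∀ G x y, mabs (subM t (cmat P π Φ c θ pF G x y)) ≤ B1 := fun G x y =>
    (mabs_subM_le t _).trans (hCb G x y)
  have hCl : ∀ l, MTest (fun ω (x : Fin 2 → VState π K' n) =>
      if U (x 0) (x 1) = l then C ω (x 0) (x 1) else 0) B1 := fun l =>
    (MTest.mk (F := fun ω (x : Fin 2 → VState π K' n) => C ω (x 0) (x 1)) (fun x => hCm _ _)
      (fun ω x => hCb' _ _ _)).ite fun x => U (x 0) (x 1) = l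
  have hps : ∀ l, (p l).transpose = p l := fun l => by
    simp only [p, levMean, Matrix.transpose_smul]
    congr 1
    rw [← mexp_transpose, ← mexp_perm (Equiv.swap (0 : Fin 2) 1)]
    congr 1
    funext ω x
    simp only [Function.comp, Equiv.swap_apply_left, Equiv.swap_apply_right]
    rw [show U (x 1) (x 0) = U (x 0) (x 1) from com_comm _ _]
    split_ifs
    · exact (hCt ω (x 1) (x 0)).symm
    · simp
  have hpb : ∀ l, mabs (p l) ≤ 2 * B1 := fun l => by
    simp only [p, levMean, mabs_smul, abs_inv, abs_of_pos hπ0]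
    have hb1 : BTest (fun _ (x : Fin 2 → VState π K' n) => if U (x 0) (x 1) = l then (1 : ℝ) else 0)
        1 := bTest_const (Ω := (Node K' n → ℝ) × (VGIdx N M K (nker K nA) (N + L + J) K' n → ℝ)) _
          fun x => by split_ifs <;> norm_num
    have hB2 : BTest (fun (_ : (Node K' n → ℝ) × (VGIdx N M K (nker K nA) (N + L + J) K' n → ℝ))
        (x : Fin 2 → VState π K' n) => B1 * if U (x 0) (x 1) = l then (1 : ℝ) else 0) B1 :=
      bTest_const _ fun x => by split_ifs <;> simp [abs_of_nonneg hB0, hB0]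
    have h1 : mabs (mexp μ u 2 fun ω x => if U (x 0) (x 1) = l then C ω (x 0) (x 1) else 0)
        ≤ B1 * (2 * pi0 K') := by
      refine (mabs_mexp_le hm hpos (hCl l)).trans ?_
      refine (reavg_mono hm hpos (A := B1) ⟨fun x => Finset.measurable_sum _ fun k _ =>
        Finset.measurable_sum _ fun k' _ => ((hCl l).meas x k k').abs,
        fun ω x => (abs_of_nonneg (mabs_nonneg _)).trans_le ((hCl l).bound ω x)⟩ hB2
        fun ω x => ?_).trans ?_
      · split_ifs
        · rw [mul_one]; exact hCb' ω.2 (x 0) (x 1)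
        · simp
      · rw [reavg_smul]
        refine mul_le_mul_of_nonneg_left ?_ hB0
        have h2 : levLaw μ u U l - pi0 K' ≤ εl := (le_abs_self _).trans (hlaw l)
        simp only [levLaw] at h2
        linarith
    calc (pi0 K')⁻¹ * _ ≤ (pi0 K')⁻¹ * (B1 * (2 * pi0 K')) :=
          mul_le_mul_of_nonneg_left h1 (inv_nonneg.2 hπ0.le)
      _ = _ := by field_simp
  have H : SDHyp μ u U R C Dm q p (dmOf (ulev K')) (2 * B1) δ εl := {
    one_le := by linarith
    eps := hεl
    del := hδ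
    tri := fun x y z => tri_com x.2 y.2 z.2
    symU := fun x y => com_comm x.2 y.2
    Ct := hCt
    Cm := hCm
    Rb := fun x y => ((mabs_subM_le t _).trans (hRb x y)).trans (by linarith)
    Cb := fun ω x y => (hCb' ω.2 x y).trans (by linarith)
    Db := hDb.trans (by linarith)
    qb := fun j => (hqb j).trans (by linarith)
    pb := hpb
    psym := hps
    dmb := fun j => by
      rw [dmOf_ulev]
      refine ⟨hπ0.le, ?_⟩
      rw [pi0]
      exact div_le_one_of_le₀ (le_add_of_nonneg_left (Nat.cast_nonneg K')) (by positivity)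
    self := hself
    sync := hsync
    law := fun l => by rw [dmOf_ulev]; exact hlaw l
    part := fun l => by
      simp only [dmOf_ulev, p, levMean, smul_smul, mul_inv_cancel₀ hπ0.ne', one_smul, sub_self,
        mabs_zero]
      exact hεl
    gg := fun l j b b' => by
      have hF : ∀ (i i' : Fin 2), PertFree (fun ω (x : Fin 2 → VState π K' n) =>
          if U (x 0) (x 1) = j then (2 * B1)⁻¹ * C ω (x i) (x i') b b' else 0) := fun i i' => by
        refine ⟨fun x => ?_, fun W x => ?_, fun W G G' hG => ?_, fun ω x => ?_⟩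
        · split_ifs
          · exact (hCm _ _ b b').const_mul _
          · exact measurable_const
        · have := fun a' z k => (P.cg k).comp' (cont_vfld (vbpat (M := M) π Φ) (vpull (n := n) c) z a')
          simp only [C, subM, Matrix.submatrix_apply, cmat, Matrix.of_apply, rC, vovP]
          split_ifs <;> fun_prop
        · funext x
          simp only [C, subM, Matrix.submatrix_apply, cmat, Matrix.of_apply, rC, vovP, vfld_congr_pert (vpull c) hG]
        · split_ifs
          · rw [abs_mul, abs_inv, abs_of_pos (show (0 : ℝ) < 2 * B1 by linarith),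
              inv_mul_le_iff₀ (show (0 : ℝ) < 2 * B1 by linarith), mul_one]
            exact ((abs_le_mabs _ b b').trans (hCb' ω.2 _ _)).trans (by linarith)
          · simp
      exact ⟨hgg l _ (hF 0 1), hgg l _ (hF 1 0)⟩ }
  have hl := rotLev_sum_le hm hpos H (a := av) (ha.trans (by linarith))
  have hd := rotDiag_le hm hpos H
  refine ⟨fun l => ⟨hps l, hpb l⟩, ?_⟩
  have hav : av ≠ 0 := by
    have h1 : (2 : ℝ) ≤ S.card := by exact_mod_cast hS2
    exact div_ne_zero (by linarith) (Nat.cast_pos.2 hN).ne'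
  refine lmean_resid_le (levels_ulev K') hav hDm hps hqs hDi hqB ?_ ?_
  · set X := (∑ j, dmOf (ulev K') j • (q j * p j)) * Dm - Dm * ∑ j, dmOf (ulev K') j • (p j * q j)
    have e1 : X = rotDiag μ u R C - (rotDiag μ u R C - X) := (sub_sub_self _ _).symm
    rw [e1]
    exact (mabs_sub _ _).trans ((add_le_add hdiag hd).trans_eq (by ring))
  · refine (Finset.sum_le_sum (g := fun l => mabs (rotLev μ u U R C av l)
      + mabs (rotLev μ u U R C av l - (dmOf (ulev K') l •
        ((av • 1 - ∑ j, dmOf (ulev K') j • (q j * p j)) * q l - Dm * p l * Dm)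
        + (2 : ℝ) • (Dm * tripF (dmOf (ulev K')) p q l)))) fun l _ => ?_).trans ?_
    · set X := dmOf (ulev K') l • ((av • 1 - ∑ j, dmOf (ulev K') j • (q j * p j)) * q l - Dm * p l * Dm)
        + (2 : ℝ) • (Dm * tripF (dmOf (ulev K')) p q l)
      have e1 : X = rotLev μ u U R C av l - (rotLev μ u U R C av l - X) :=
        (sub_sub_self _ _).symm
      calc mabs X = mabs (rotLev μ u U R C av l - (rotLev μ u U R C av l - X)) :=
            congrArg _ e1
        _ ≤ _ := mabs_sub _ _
    · rw [Finset.sum_add_distrib]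
      refine (add_le_add ((Finset.sum_le_sum fun l _ => hlevs l).trans_eq ?_) hl).trans_eq (add_assoc _ _ _).symm
      simp

end Stationary

end Vale.Agent.P166.Casc
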