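import Vale.Agent.P166.Casc.VSegment
import Vale.Agent.P166.Casc.VStat
import Vale.Agent.P166.Formula.Value

/-!
The line of variances between free rows and spins in cascade fields of given paths and the model
with rows of full strength.
-/

open MeasureTheory ProbabilityTheory Filter Topology
open scoped MatrixOrder

namespace Vale.Agent.P166.Casc

open Vale.Agent.P157.Casc Vale.Agent.P166.Pen
open Vale.Agent.P166.Formula (facOf TPath liftM selM qTot tfrac IsPath)

variable {N M d R D K : ℕ}

/-- The increment of a path at a level, the root included. -/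
def pathInc (p : ℕ → Matrix (Fin d) (Fin d) ℝ) (l : Fin (K + 1)) : Matrix (Fin d) (Fin d) ℝ :=
  if l.val = 0 then p 0 else p l.val - p (l.val - 1)

/-- A path with its last level moved up to `D`. -/
def topAt (K : ℕ) (D : Matrix (Fin d) (Fin d) ℝ) (q : ℕ → Matrix (Fin d) (Fin d) ℝ) (l : ℕ) :
    Matrix (Fin d) (Fin d) ℝ :=
  if l = K then D else q l

/-- The field path of one site. -/
noncomputable def sitePath (γ : Fin d → ℝ) (p : TPath d) (j : Fin N) (l : ℕ) :
    Matrix (Fin d) (Fin d) ℝ :=
  liftM (typ γ j) (p (typ γ j) l)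

/-- Factors of the line: the row path in the first slot of the rows, the paths of the types in the
first slot of the spins. -/
noncomputable def lineFac (γ : Fin d → ℝ) (qr : ℕ → Matrix (Fin d) (Fin d) ℝ) (p : TPath d) :
    VFac N d K :=
  (fun z l => if z = 0 then facOf (pathInc qr l) else 0,
    fun z j l => if z = 0 then facOf (pathInc (sitePath γ p j) l) else 0, fun _ => 0)

/-- Variances on the line: strength `s` of the matrix, `1 - s` of the fields. -/
def lineC (s : ℝ) : VCIdx N M d R D K → ℝ :=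
  vfldc (fun _ _ => s) (fun _ => 0) (fun _ _ => 1 - s) fun _ _ => 1 - s

theorem sum_pathInc (p : ℕ → Matrix (Fin d) (Fin d) ℝ) (l : Fin (K + 1)) :
    ∑ l' ∈ Finset.Iic l, pathInc p l' = p l.val := by
  induction l using Fin.induction with
  | zero =>
    rw [show Finset.Iic (0 : Fin (K + 1)) = {0} from Finset.Iic_bot]
    simp [pathInc]
  | succ i ih =>
    have e : Finset.Iic i.succ = insert i.succ (Finset.Iic i.castSucc) := by
      ext x
      simp only [Finset.mem_Iic, Finset.mem_insert, Fin.le_def, Fin.ext_iff, Fin.val_succ,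
        Fin.val_castSucc]
      omega
    rw [e, Finset.sum_insert (by simp [Fin.le_def]), ih]
    simp [pathInc]

theorem lineC_one : (lineC 1 : VCIdx N M d R D K → ℝ) = vfldc (fun _ _ => 1) (fun _ => 0)
    (fun _ _ => 0) fun _ _ => 0 := by
  simp [lineC]

theorem lineC_nonneg {s : ℝ} (hs : s ∈ Set.Icc (0 : ℝ) 1) (i : VCIdx N M d R D K) :
    0 ≤ lineC s i ∧ lineC s i ≤ 1 := by
  rcases i with (⟨a, u⟩ | u) | ⟨l, ⟨z, a, r⟩ | ⟨z, u, r⟩ | p⟩ <;>
    simp [lineC, vfldc, hs.1, hs.2]

/-- The direction of the line. -/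
def lineD : VCIdx N M d R D K → ℝ :=
  vfldc (fun _ _ => 1) (fun _ => 0) (fun _ _ => -1) fun _ _ => -1

theorem lineC_add (s t : ℝ) :
    (fun i => lineC s i + t * lineD i) = (lineC (s + t) : VCIdx N M d R D K → ℝ) := by
  funext i
  rcases i with (⟨a, u⟩ | u) | ⟨l, ⟨z, a, r⟩ | ⟨z, u, r⟩ | p⟩ <;>
    simp only [lineC, lineD, vfldc, mul_one, mul_neg, mul_zero, add_zero]
  all_goals ring

theorem pertZero_lineC (s : ℝ) : PertZero (lineC s : VCIdx N M d R D K → ℝ) := fun _ _ => rfl

/-- The product of the factors of a nonnegative matrix. -/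
theorem facOf_mul {P : Matrix (Fin d) (Fin d) ℝ} (hP : P.PosSemidef) (k l : Fin d) :
    ∑ r, facOf P k r * facOf P l r = P k l := by
  have hs : (CFC.sqrt P).PosSemidef := Matrix.nonneg_iff_posSemidef.1 (CFC.sqrt_nonneg P)
  have ht := hs.isHermitian.eq
  rw [Matrix.conjTranspose_eq_transpose_of_trivial] at ht
  have h := congrFun (congrFun (CFC.sqrt_mul_sqrt_self P hP.nonneg) k) l
  rw [Matrix.mul_apply] at h
  refine (Finset.sum_congr rfl fun r _ => ?_).trans h
  simp only [facOf]
  rw [← Matrix.transpose_apply (CFC.sqrt P) l r, ht]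

/-- The covariance of a slot at a level is the path there. -/
theorem slot_cum {p : ℕ → Matrix (Fin d) (Fin d) ℝ} (hp : IsPath K p) (u : Fin (K + 1))
    (k l : Fin d) :
    ∑ i ∈ Finset.Iic u, ∑ z : Fin 2, ∑ r,
      (if z = 0 then facOf (pathInc p i) else 0) k r * (if z = 0 then facOf (pathInc p i) else 0) l r
      = p u.val k l := by
  have hi : ∀ i : Fin (K + 1), (pathInc p i).PosSemidef := fun i => by
    unfold pathInc
    split_ifs with h
    · exact hp.nonneg
    · have h1 := hp.step (i.val - 1) (by omega)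
      rwa [Nat.sub_add_cancel (Nat.one_le_iff_ne_zero.2 h)] at h1
  rw [← sum_pathInc p u, Matrix.sum_apply]
  refine Finset.sum_congr rfl fun i _ => ?_
  simp [Fin.sum_univ_two, facOf_mul (hi i)]

/-- The entrywise product of two matrices, summed. -/
def minner {m : ℕ} (A B : Matrix (Fin m) (Fin m) ℝ) : ℝ := ∑ k, ∑ l, A k l * B k l

theorem minner_sub {m : ℕ} (A A' B : Matrix (Fin m) (Fin m) ℝ) :
    minner (A - A') B = minner A B - minner A' B := by
  simp only [minner, Matrix.sub_apply, sub_mul, Finset.sum_sub_distrib]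

theorem minner_sub_right {m : ℕ} (A B B' : Matrix (Fin m) (Fin m) ℝ) :
    minner A (B - B') = minner A B - minner A B' := by
  simp only [minner, Matrix.sub_apply, mul_sub, Finset.sum_sub_distrib]

theorem minner_smul {m : ℕ} (a : ℝ) (A B : Matrix (Fin m) (Fin m) ℝ) :
    minner (a • A) B = a * minner A B := by
  simp only [minner, Matrix.smul_apply, smul_eq_mul, Finset.mul_sum, mul_assoc]

theorem minner_smul_right {m : ℕ} (a : ℝ) (A B : Matrix (Fin m) (Fin m) ℝ) :
    minner A (a • B) = a * minner A B := by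
  simp only [minner, Matrix.smul_apply, smul_eq_mul, Finset.mul_sum, mul_left_comm]

theorem minner_comm {m : ℕ} (A B : Matrix (Fin m) (Fin m) ℝ) : minner A B = minner B A := by
  simp only [minner, mul_comm]

theorem minner_sum {m : ℕ} {ι : Type*} (s : Finset ι) (A : ι → Matrix (Fin m) (Fin m) ℝ)
    (B : Matrix (Fin m) (Fin m) ℝ) : minner (∑ i ∈ s, A i) B = ∑ i ∈ s, minner (A i) B := by
  simp only [minner, Matrix.sum_apply, Finset.sum_mul]
  conv_rhs => rw [Finset.sum_comm]
  exact Finset.sum_congr rfl fun k _ => Finset.sum_comm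

theorem abs_minner_le {m : ℕ} (A B : Matrix (Fin m) (Fin m) ℝ) :
    |minner A B| ≤ mabs A * mabs B := by
  refine (Finset.abs_sum_le_sum_abs _ _).trans ?_
  rw [mabs, Finset.sum_mul]
  refine Finset.sum_le_sum fun k _ => (Finset.abs_sum_le_sum_abs _ _).trans ?_
  rw [Finset.sum_mul]
  refine Finset.sum_le_sum fun l _ => ?_
  rw [abs_mul]
  exact mul_le_mul_of_nonneg_left (abs_le_mabs B k l) (abs_nonneg _)

theorem mabs_le_of_entry {m : ℕ} {A : Matrix (Fin m) (Fin m) ℝ} {b : ℝ}
    (h : ∀ k l, |A k l| ≤ b) : mabs A ≤ (m : ℝ) ^ 2 * b := by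
  refine (Finset.sum_le_sum fun k _ => Finset.sum_le_sum fun l _ => h k l).trans_eq ?_
  simp [sq, mul_assoc]

/-- Pairing of a supported matrix is that of the components. -/
theorem minner_supp {t : Finset (Fin d)} {A : Matrix (Fin d) (Fin d) ℝ}
    (h : ∀ k l, k ∉ t ∨ l ∉ t → A k l = 0) (B : Matrix (Fin d) (Fin d) ℝ) :
    minner A B = minner (subM t A) (subM t B) := by
  simp only [minner, subM, Matrix.submatrix_apply]
  rw [← sum_comp_eq t fun k => ∑ b', A k (comp t b') * B k (comp t b')]
  rw [← Finset.sum_subset (Finset.subset_univ t) fun k _ hk =>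
    Finset.sum_eq_zero fun l _ => by rw [h k l (Or.inl hk), zero_mul]]
  refine Finset.sum_congr rfl fun k _ => ?_
  rw [← sum_comp_eq t fun l => A k l * B k l]
  exact (Finset.sum_subset (Finset.subset_univ t) fun l _ hl => by
    rw [h k l (Or.inr hl), zero_mul]).symm

theorem liftM_supp (t : Finset (Fin d)) (X : Matrix (Fin t.card) (Fin t.card) ℝ) (k l : Fin d)
    (h : k ∉ t ∨ l ∉ t) : liftM t X k l = 0 := by
  rw [Formula.liftM_apply]
  refine Finset.sum_eq_zero fun b _ => Finset.sum_eq_zero fun b' _ => if_neg fun e => ?_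
  rcases h with h | h
  · exact h (e.1 ▸ comp_mem t b)
  · exact h (e.2 ▸ comp_mem t b')

theorem subM_liftM (t : Finset (Fin d)) (X : Matrix (Fin t.card) (Fin t.card) ℝ) :
    subM t (liftM t X) = X :=
  Matrix.ext fun b b' => Formula.liftM_apply_comp X b b'

theorem minner_liftM (t : Finset (Fin d)) (X : Matrix (Fin t.card) (Fin t.card) ℝ)
    (B : Matrix (Fin d) (Fin d) ℝ) : minner (liftM t X) B = minner X (subM t B) := by
  rw [minner_supp (liftM_supp t X), subM_liftM]

/-- The sites of a type. -/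
noncomputable def typS (γ : Fin d → ℝ) (N : ℕ) (t : Finset (Fin d)) : Finset (Fin N) :=
  Finset.univ.filter fun j => typ γ j = t

section Derivative

variable {n : ℕ} (P : VPot d) (π : VPrior N d R D)

/-- The gradient overlaps of the rows as a matrix. -/
noncomputable def pmat (Φ : VFac N d K) (c : VCIdx N M d R D K → ℝ)
    (G : VGIdx N M d R D K n → ℝ) (x y : VState π K n) : Matrix (Fin d) (Fin d) ℝ :=
  Matrix.of fun k l => vovP P π Φ c k l G x y

/-- The one-replica matrix of the rows as a matrix. -/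
noncomputable def hmat (Φ : VFac N d K) (c : VCIdx N M d R D K → ℝ)
    (G : VGIdx N M d R D K n → ℝ) (x : VState π K n) : Matrix (Fin d) (Fin d) ℝ :=
  Matrix.of fun k l => vovH P π Φ c k l G x

variable {γ : Fin d → ℝ} {qr : ℕ → Matrix (Fin d) (Fin d) ℝ} {p : TPath d}

/-- The derivative along the line: the rows against the row path, the spins against their
paths. -/
theorem vkern_lineD (hN : 0 < N) (hqr : IsPath K qr) (hp : ∀ j : Fin N, IsPath K (sitePath γ p j))
    (c : VCIdx N M d R D K → ℝ) (G : VGIdx N M d R D K n → ℝ) (x y : VState π K n) :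
    vkern P (vbpat π (lineFac γ qr p)) (vbspin π (lineFac γ qr p)) (vqd π (lineFac γ qr p))
        (vpull c) (vpull lineD) G x y
      = N * (minner (rmat π Finset.univ x y - qr (vlev π x y).val) (pmat P π (lineFac γ qr p) c G x y)
          - ∑ t, minner (rmat π (typS γ N t) x y) (liftM t (p t (vlev π x y).val))
          - minner (rmat π Finset.univ x x - qr K) (hmat P π (lineFac γ qr p) c G x)) := by
  set Φ : VFac N d K := lineFac γ qr p
  have hN' : (N : ℝ) ≠ 0 := Nat.cast_ne_zero.2 hN.ne'
  have hb : ∀ (a : Fin M) k l (x y : VState π K n),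
      bcov (vbpat π Φ) (vpull lineD) a k l x y
        = rmat π Finset.univ x y k l - qr (vlev π x y).val k l := fun a k l x y => by
    have e := cov_vbpat π Φ (lineD (M := M) (R := R) (D := D)) a k l x y
    simp only [bcov]
    rw [e, vlev, ← slot_cum hqr (com x.2 y.2) k l]
    simp [lineD, vfldc, rmat, vov, Φ, lineFac, Finset.sum_neg_distrib, sub_eq_add_neg]
  have hz : ∑ i, vpull (lineD (M := M) (R := R) (D := D)) i * (vbspin π Φ x i * vbspin π Φ y i)
      = -(N * ∑ t, minner (rmat π (typS γ N t) x y) (liftM t (p t (vlev π x y).val))) := by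
    rw [cov_vbspin]
    simp only [lineD, vfldc, Finset.sum_const_zero, mul_zero, add_zero, neg_one_mul,
      Finset.sum_neg_distrib, neg_inj]
    have hj : ∀ j : Fin N, ∑ l ∈ Finset.Iic (com x.2 y.2), ∑ z : Fin 2, ∑ r,
        (∑ k, π.cfg x.1 j k * Φ.2.1 z j l k r) * (∑ k, π.cfg y.1 j k * Φ.2.1 z j l k r)
        = ∑ k, ∑ k', π.cfg x.1 j k * π.cfg y.1 j k' * sitePath γ p j (com x.2 y.2).val k k' :=
      fun j => by
      simp only [Finset.sum_mul_sum]
      simp_rw [fun k k' => (slot_cum (hp j) (com x.2 y.2) k k').symm, Finset.mul_sum]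
      conv_rhs => arg 2; ext k; rw [Finset.sum_comm]; arg 2; ext l; rw [Finset.sum_comm]; arg 2; ext z; rw [Finset.sum_comm]
      conv_rhs => rw [Finset.sum_comm]; arg 2; ext l; rw [Finset.sum_comm]; arg 2; ext z; rw [Finset.sum_comm]
      refine Finset.sum_congr rfl fun l _ => Finset.sum_congr rfl fun z _ => Finset.sum_congr rfl
        fun r _ => Finset.sum_congr rfl fun k _ => Finset.sum_congr rfl fun k' _ => ?_
      simp only [Φ, lineFac]
      ring
    rw [Finset.sum_congr rfl fun l _ => Finset.sum_comm, Finset.sum_comm,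
      Finset.sum_congr rfl fun j _ => hj j, Finset.mul_sum]
    simp only [typS, minner, rmat, Matrix.of_apply, vov, vlev]
    rw [← Finset.sum_fiberwise Finset.univ fun j : Fin N => typ γ j]
    refine Finset.sum_congr rfl fun t _ => ?_
    rw [Finset.sum_comm, Finset.mul_sum]
    refine Finset.sum_congr rfl fun k _ => ?_
    rw [Finset.sum_comm, Finset.mul_sum]
    refine Finset.sum_congr rfl fun k' _ => ?_
    rw [← mul_assoc, mul_div_cancel₀ _ hN', Finset.sum_mul]
    refine Finset.sum_congr rfl fun j hj => ?_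
    rw [sitePath, (Finset.mem_filter.1 hj).2]
  have hq : ∀ i, vpull (lineD (M := M) (R := R) (D := D)) i * vqd π Φ x i = 0 := fun i => by
    rcases i with (q | q) | ⟨o, q⟩ <;> simp [lineD, vfldc, vpull, vqd, treeDir, tiltQ]
  have hvlev : vlev π x x = Fin.last K := com_self x.2
  rw [vkern, vgrad, vdiag, hz, Finset.sum_congr rfl fun i _ => hq i]
  simp only [hb, Finset.sum_const_zero, mul_zero, sub_zero, minner, pmat, hmat, vovP, vovH,
    Matrix.of_apply, Matrix.sub_apply, hvlev, Fin.val_last]
  have hsum : ∀ (A : Fin d → Fin d → ℝ) (F : Fin M → Fin d → Fin d → ℝ),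
      ∑ a, ∑ k, ∑ l, A k l * F a k l = N * ∑ k, ∑ l, A k l * ((∑ a, F a k l) / N) := fun A F => by
    simp only [← mul_div_assoc, Finset.mul_sum, mul_div_cancel₀ _ hN', ← mul_div_assoc]
    rw [Finset.sum_comm]
    exact Finset.sum_congr rfl fun k _ => Finset.sum_comm
  simp only [hsum]
  ring

/-- The product of the two deviations of one type. -/
noncomputable def linX (γ : Fin d → ℝ) (Φ : VFac N d K) (c : VCIdx N M d R D K → ℝ)
    (t : Finset (Fin d)) (q p : ℕ → Matrix (Fin t.card) (Fin t.card) ℝ)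
    (G : VGIdx N M d R D K n → ℝ) (x y : VState π K n) : ℝ :=
  minner (subM t (rmat π (typS γ N t) x y) - tfrac γ t • q (vlev π x y).val)
    (subM t (pmat P π Φ c G x y) - p (vlev π x y).val)

/-- The derivative split into the types, the pairing of the paths, and the top. -/
theorem vkern_lineD_types (hN : 0 < N) (q : TPath d) (Dt : Matrix (Fin d) (Fin d) ℝ)
    (hqr : IsPath K (topAt K Dt (qTot γ q))) (hp : ∀ j : Fin N, IsPath K (sitePath γ p j))
    (hsupp : ∀ t (x y : VState π K n) k l, k ∉ t ∨ l ∉ t → rmat π (typS γ N t) x y k l = 0)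
    (c : VCIdx N M d R D K → ℝ) (G : VGIdx N M d R D K n → ℝ) (x y : VState π K n) :
    let Φ : VFac N d K := lineFac γ (topAt K Dt (qTot γ q)) p
    vkern P (vbpat π Φ) (vbspin π Φ) (vqd π Φ) (vpull c) (vpull lineD) G x y
      = N * ((∑ t, linX P π γ Φ c t (q t) (p t) G x y)
          - (∑ t, tfrac γ t * minner (q t (vlev π x y).val) (p t (vlev π x y).val))
          + minner (qTot γ q (vlev π x y).val - topAt K Dt (qTot γ q) (vlev π x y).val)
              (pmat P π Φ c G x y)
          - minner (rmat π Finset.univ x x - Dt) (hmat P π Φ c G x)) := by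
  intro Φ
  rw [vkern_lineD P π hN hqr hp c G x y]
  congr 1
  have hu : rmat π Finset.univ x y = ∑ t, rmat π (typS γ N t) x y := by
    ext k l
    simp only [rmat, vov, Matrix.sum_apply, Matrix.of_apply, typS, ← Finset.sum_div]
    rw [Finset.sum_fiberwise Finset.univ fun j : Fin N => typ γ j]
  set U := (vlev π x y).val
  set V := pmat P π Φ c G x y
  have hX : ∀ t, minner (rmat π (typS γ N t) x y) V - minner (rmat π (typS γ N t) x y) (liftM t (p t U))
      - tfrac γ t * minner (liftM t (q t U)) V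
      = linX P π γ Φ c t (q t) (p t) G x y - tfrac γ t * minner (q t U) (p t U) := fun t => by
    rw [linX, minner_supp (hsupp t x y) V, minner_supp (hsupp t x y) (liftM t _), subM_liftM,
      minner_liftM]
    simp only [minner_sub, minner_sub_right, minner_smul]
    ring
  have hs := Finset.sum_congr rfl fun t (_ : t ∈ (Finset.univ : Finset (Finset (Fin d)))) => hX t
  simp only [Finset.sum_sub_distrib, ← minner_sum, ← minner_smul] at hs
  rw [hu] at *
  simp only [topAt, if_true, qTot, minner_sub, minner_smul, minner_sum] at hs ⊢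
  linarith

theorem mabs_pmat_le (Φ : VFac N d K) (c : VCIdx N M d R D K → ℝ)
    (G : VGIdx N M d R D K n → ℝ) (x y : VState π K n) :
    mabs (pmat P π Φ c G x y) ≤ (d : ℝ) ^ 2 * (M * P.b1 ^ 2 / N) := by
  refine mabs_le_of_entry fun k l => ?_
  rw [pmat, Matrix.of_apply, vovP, abs_div, Nat.abs_cast]
  refine div_le_div_of_nonneg_right ((Finset.abs_sum_le_sum_abs _ _).trans
    ((Finset.sum_le_sum (g := fun _ => P.b1 ^ 2) fun a _ => ?_).trans_eq (by simp))) (Nat.cast_nonneg N)
  rw [abs_mul, sq]
  exact mul_le_mul (P.h1 _ _) (P.h1 _ _) (abs_nonneg _) ((abs_nonneg _).trans (P.h1 k fun _ => 0))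

theorem mabs_hmat_le (Φ : VFac N d K) (c : VCIdx N M d R D K → ℝ)
    (G : VGIdx N M d R D K n → ℝ) (x : VState π K n) :
    mabs (hmat P π Φ c G x) ≤ (d : ℝ) ^ 2 * (M * (|P.b2| + P.b1 ^ 2) / N) := by
  refine mabs_le_of_entry fun k l => ?_
  rw [hmat, Matrix.of_apply, vovH, abs_div, Nat.abs_cast]
  refine div_le_div_of_nonneg_right ((Finset.abs_sum_le_sum_abs _ _).trans
    ((Finset.sum_le_sum (g := fun _ => |P.b2| + P.b1 ^ 2) fun a _ => ?_).trans_eq
      (by simp; ring))) (Nat.cast_nonneg N)
  refine (abs_add_le _ _).trans (add_le_add ((P.h2 _ _ _).trans (le_abs_self _)) ?_)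
  rw [abs_mul, sq]
  exact mul_le_mul (P.h1 _ _) (P.h1 _ _) (abs_nonneg _) ((abs_nonneg _).trans (P.h1 k fun _ => 0))

end Derivative

end Vale.Agent.P166.Casc
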