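import Vale.Agent.P166.Casc.BlockAtoms
import Vale.Agent.P166.Casc.VLine
import Vale.Agent.P166.Formula.Best

/-!
The start of the line: the energy of free spins in the fields of the paths of their types, and the
value of one of them cut to a cube.
-/

open MeasureTheory ProbabilityTheory Filter Topology Matrix

namespace Vale.Agent.P166.Casc

open Vale.Agent.P157.Casc Vale.Agent.P166.Pen
open Vale.Agent.P166.Formula hiding qTot_top
open Vale.Agent.P150.Fast.Dom (arrMap arrMap_apply)

variable {N M d R D K : ℕ} {γ : Fin d → ℝ} {p : TPath d}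

/-- The factors of the fields of the sites along the paths of their types. -/
noncomputable def spinS (γ : Fin d → ℝ) (p : TPath d) (j : Fin N) (l : Fin (K + 1)) :
    Fin d → Fin d → ℝ :=
  facOf (pathInc (sitePath γ p j) l)

/-- The label coordinate of a spin field of the first slot. -/
def spinPt (i : Fin N × Fin d) : VLIdx N M d R D := Sum.inr (Sum.inl (0, i.1, i.2))

theorem spinPt_inj : Function.Injective (spinPt (M := M) (R := R) (D := D) (N := N) (d := d)) :=
  fun i j h => by simpa [spinPt, Prod.ext_iff] using h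

/-- The energy of spins in their fields, with the compensation of the self-covariance. -/
noncomputable def spinE (γ : Fin d → ℝ) (p : TPath d) (τ : ℝ) (z : Fin N × Fin d → ℝ)
    (y : Fin K → Fin N × Fin d → ℝ) (ω : Fin d → Fin N → ℝ) : ℝ :=
  spinH (spinS γ p) (cfgOf τ γ ω) z y

theorem cfgOf_eq_mask (τ : ℝ) (γ : Fin d → ℝ) (ω : Fin d → Fin N → ℝ) :
    cfgOf τ γ ω = maskCfg (fun j => typ γ j) τ ω := by
  funext j k
  simp [cfgOf, maskCfg, typ]

/-- At the start of the line every row is free and only the spin fields act on the spins. -/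
theorem vrestH_line (P : VPot d) (π : VPrior N d R D) (qr : ℕ → Matrix (Fin d) (Fin d) ℝ)
    (σ : Fin π.c) (z : VRIdx N M d R D → ℝ) (y : Fin K → VLIdx N M d R D → ℝ) :
    vrestH P π (lineFac γ qr p) (lineC 0) Finset.univ σ (vbranch z y)
      = spinH (spinS γ p) (π.cfg σ) (fun i => z (Sum.inr (spinPt i)))
          (fun l i => y l (spinPt i)) := by
  set Φ : VFac N d K := lineFac γ qr p
  set c : VCIdx N M d R D K → ℝ := lineC 0
  have hq : ∑ i, vpull (n := 1) c i * vqd (M := M) π Φ (σ, fun _ => 0) i = 0 := by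
    rw [sum_vqd]
    simp [c, lineC, vfldc]
  have hb : ∑ i, vpull (n := 1) c i * vbspin (M := M) π Φ (σ, fun _ => 0) i ^ 2
      = ∑ j, π.cfg σ j ⬝ᵥ atomCum (spinS (K := K) γ p) j *ᵥ π.cfg σ j := by
    simp only [pow_two, quad_atomCum, cq]
    rw [cov_vbspin, com_self, show Finset.Iic (Fin.last K) = Finset.univ from
      Finset.ext fun i => by simp [Fin.le_last]]
    simp only [c, Φ, lineC, lineFac, vfldc, Fin.sum_univ_two, spinS]
    simp only [sub_zero, one_mul, Finset.sum_const_zero, mul_zero, add_zero, if_pos, Fin.isValue,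
      one_ne_zero, if_false, mul_zero, Pi.zero_apply]
    exact Finset.sum_comm
  have hl : lin (vbspin (M := M) π Φ) (vpull c) (vbranch z y) ((σ, fun _ => 0) : VState π K 1)
      = ∑ j, atomFld (spinS γ p) (fun i => z (Sum.inr (spinPt i)))
          (fun l i => y l (spinPt i)) j ⬝ᵥ π.cfg σ j := by
    rw [vbranch_eq_joinT]
    simp only [lin, vbspin]
    rw [lin_treeDir _ (fun l i => c (Sum.inr (l, i))) _ _ z (fun u : Node K 1 => y u.1)
      (fun _ => 0) (treeDir_eq _ _ _) (vpull_eq c)]
    simp only [Fintype.sum_sum_type, Fintype.sum_prod_type, spinL, c, Φ, lineC, lineFac, vfldc,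
      Fin.sum_univ_two, sub_zero, Real.sqrt_one, one_mul, Real.sqrt_zero, zero_mul, mul_zero,
      Finset.sum_const_zero, zero_add, add_zero, if_pos, Fin.isValue, one_ne_zero, if_false,
      Pi.zero_apply, atomFld, rowFld, dotProduct, Pi.add_apply, Finset.sum_apply, arrMap_apply,
      spinS, spinPt, add_mul, Finset.sum_add_distrib, Finset.sum_mul]
    refine congrArg₂ (· + ·) ?_ ?_
    · refine Finset.sum_congr rfl fun j _ => ?_
      rw [Finset.sum_comm]
      exact Finset.sum_congr rfl fun k _ => Finset.sum_congr rfl fun r _ => by ring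
    · rw [Finset.sum_comm]
      refine Finset.sum_congr rfl fun j _ => ?_
      conv_rhs => rw [Finset.sum_comm]
      refine Finset.sum_congr rfl fun l _ => ?_
      rw [Finset.sum_comm]
      exact Finset.sum_congr rfl fun k _ => Finset.sum_congr rfl fun r _ => by
        simp only [path, node]; ring
  simp only [vrestH, vbham, vham]
  rw [hl, hb, hq, spinH, Finset.sum_sub_distrib, ← Finset.sum_div]
  ring

theorem sitePath_isPath {j : Fin N} (hp : IsPath K (p (typ γ j))) :
    IsPath K (sitePath γ p j) := by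
  refine ⟨liftM_psd hp.nonneg, fun l hl => ?_⟩
  simp only [sitePath, ← liftM_sub]
  exact liftM_psd (hp.step l hl)

theorem pathInc_psd {p : ℕ → Matrix (Fin d) (Fin d) ℝ} (hp : IsPath K p) (l : Fin (K + 1)) :
    (pathInc p l).PosSemidef := by
  unfold pathInc
  split_ifs with h
  · exact hp.nonneg
  · have h1 := hp.step (l.val - 1) (by omega)
    rwa [Nat.sub_add_cancel (Nat.one_le_iff_ne_zero.2 h)] at h1

theorem atomCum_spinS {j : Fin N} (hp : IsPath K (p (typ γ j))) :
    atomCum (spinS (K := K) γ p) j = liftM (typ γ j) (p (typ γ j) K) := by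
  have hs := sitePath_isPath hp
  ext k k'
  simp only [atomCum, Matrix.of_apply, spinS, facOf_mul (pathInc_psd hs _)]
  have h := congrFun (congrFun (sum_pathInc (sitePath γ p j) (Fin.last K)) k) k'
  rw [show Finset.Iic (Fin.last K) = Finset.univ from
    Finset.ext fun i => by simp [Fin.le_last], Matrix.sum_apply] at h
  exact h

/-- A quadratic form on the components of a type. -/
theorem quad_liftM (t : Finset (Fin d)) (X : Matrix (Fin t.card) (Fin t.card) ℝ) (x : Fin d → ℝ) :
    x ⬝ᵥ liftM t X *ᵥ x = (fun b => x (comp t b)) ⬝ᵥ X *ᵥ fun b => x (comp t b) := by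
  have e : selM t *ᵥ x = fun b => x (comp t b) := funext fun b => by
    simp [selM, Matrix.mulVec, dotProduct, Matrix.one_apply]
  rw [Formula.liftM, ← Matrix.mulVec_mulVec, ← Matrix.mulVec_mulVec, Matrix.dotProduct_mulVec,
    Matrix.vecMul_transpose, e]

/-- The rows of a factor of a lifted matrix at the components of the type. -/
theorem cq_facOf_liftM {t : Finset (Fin d)} {X : Matrix (Fin t.card) (Fin t.card) ℝ}
    (hX : X.PosSemidef) (u : Fin t.card → ℝ) :
    cq (fun b => facOf (liftM t X) (comp t b)) u = u ⬝ᵥ X *ᵥ u := by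
  set v : Fin d → ℝ := fun k => ∑ b, if comp t b = k then u b else 0
  have hv : (fun b => v (comp t b)) = u := funext fun b => by
    simp [v, (comp t).injective.eq_iff]
  have h := cq_facOf (liftM_psd (t := t) hX) v
  rw [quad_liftM, hv] at h
  rw [← h, cq, cq]
  refine Finset.sum_congr rfl fun i _ => congrArg (· ^ 2) ?_
  simp only [v, Finset.sum_mul, ite_mul, zero_mul]
  rw [Finset.sum_comm]
  simp

/-- The field of a site at the components of a type. -/
noncomputable def compFld {t : Finset (Fin d)} (S : Fin (K + 1) → Fin d → Fin d → ℝ) (i : Fin N)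
    (z : Fin N × Fin d → ℝ) (y : Fin K → Fin N × Fin d → ℝ) : Fin t.card → ℝ :=
  rowFld (fun l b => S l.succ (comp t b)) (arrMap (fun b => S 0 (comp t b)) fun r => z (i, r))
    fun l r => y l (i, r)

theorem atomFld_comp (S : Fin N → Fin (K + 1) → Fin d → Fin d → ℝ) (i : Fin N)
    (z : Fin N × Fin d → ℝ) (y : Fin K → Fin N × Fin d → ℝ) (t : Finset (Fin d))
    (b : Fin t.card) : atomFld S z y i (comp t b) = compFld (S i) i z y b := by
  simp [atomFld, compFld, rowFld, arrMap_apply, Finset.sum_apply]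

/-- Factors of the levels of a site along a path of a type. -/
structure SiteFac {t : Finset (Fin d)} (S : Fin (K + 1) → Fin d → Fin d → ℝ)
    (p : ℕ → Matrix (Fin t.card) (Fin t.card) ℝ) : Prop where
  root : ∀ u, cq (fun b => S 0 (comp t b)) u = u ⬝ᵥ p 0 *ᵥ u
  level : ∀ (l : Fin K) u, cq (fun b => S l.succ (comp t b)) u
    = u ⬝ᵥ (p (l.val + 1) - p l.val) *ᵥ u

theorem siteFac_spinS {j : Fin N} {t : Finset (Fin d)} (ht : typ γ j = t) (hp : IsPath K (p t)) :
    SiteFac (spinS (K := K) γ p j) (p t) := by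
  subst ht
  refine ⟨fun u => ?_, fun l u => ?_⟩
  · simp only [spinS, pathInc, Fin.val_zero, if_true, sitePath]
    exact cq_facOf_liftM hp.nonneg u
  · simp only [spinS, pathInc, Fin.val_succ, Nat.add_one_ne_zero, if_false, sitePath,
      Nat.add_sub_cancel, ← liftM_sub]
    exact cq_facOf_liftM (hp.step l.val l.isLt) u

/-- The value of one free spin at the best response, without the term of the self-overlap. -/
noncomputable def endVal {n : ℕ} (K : ℕ) (τ : ℝ) (D : Matrix (Fin n) (Fin n) ℝ)
    (q : ℕ → Matrix (Fin n) (Fin n) ℝ) : ℝ :=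
  spinVal (gridM K) K τ D (bestTilt (gridM K) K D q) (bestPath (gridM K) K D q)
    - ((bestTilt (gridM K) K D q * D).trace - D.trace / τ) / 2

theorem abs_casc_leafR_le {n : ℕ} (τ : ℝ) (P : Matrix (Fin n) (Fin n) ℝ) (R : ℕ)
    (p : ℕ → Matrix (Fin n) (Fin n) ℝ) :
    ∃ C A : ℝ, 0 ≤ A ∧ ∀ h, |casc (gaus (Fin n)) K (mlev K)
      (fun u => leafR τ P R (h + ∑ l, blockFac p l *ᵥ u l))| ≤ C + A * ∑ b, |h b| := by
  obtain ⟨A, hA, hb⟩ := abs_leafR_le τ P R
  set E := ∑ l : Fin K, mabs (blockFac p l)
  have hE : 0 ≤ E := Finset.sum_nonneg fun l _ => mabs_nonneg _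
  obtain ⟨C, hC⟩ := exists_casc_bound (I := Fin n) K (grid_mlev K)
    (A := A * (1 + n * E)) (by positivity)
  refine ⟨C, A, hA, fun h => hC ((measurable_leafR τ P R).comp (by fun_prop))
    (mul_nonneg hA (Finset.sum_nonneg fun b _ => abs_nonneg _)) fun u => ?_⟩
  refine (hb _).trans ?_
  set Y := ∑ l, ∑ b, |u l b|
  have hY : 0 ≤ Y := Finset.sum_nonneg fun l _ => Finset.sum_nonneg fun b _ => abs_nonneg _
  have h1 : ∑ b, |(h + ∑ l, blockFac p l *ᵥ u l) b| ≤ (∑ b, |h b|) + n * (E * Y) := by
    refine (Finset.sum_le_sum fun b _ => ?_).trans_eq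
      (show ∑ b : Fin n, (|h b| + E * Y) = _ by simp [Finset.sum_add_distrib])
    simp only [Pi.add_apply, Finset.sum_apply]
    refine (abs_add_le _ _).trans (add_le_add le_rfl ?_)
    refine (Finset.abs_sum_le_sum_abs _ _).trans ?_
    simp only [E, Finset.sum_mul]
    refine Finset.sum_le_sum fun l _ => ?_
    refine le_trans (le_of_eq_of_le ?_ (abs_arrMap_le (blockFac p l) (u l) b)) ?_
    · simp only [Matrix.mulVec, dotProduct]
      exact congrArg abs (arrMap_apply (blockFac p l) (u l) b).symm
    · exact mul_le_mul_of_nonneg_left (Finset.single_le_sum (f := fun l => ∑ b, |u l b|)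
        (fun l _ => Finset.sum_nonneg fun b _ => abs_nonneg _) (Finset.mem_univ l)) (mabs_nonneg _)
  calc A * (1 + ∑ b, |(h + ∑ l, blockFac p l *ᵥ u l) b|)
      ≤ A * (1 + ((∑ b, |h b|) + n * (E * Y))) := mul_le_mul_of_nonneg_left (by linarith) hA
    _ ≤ A * (1 + n * E) * (1 + Y) + A * ∑ b, |h b| := by
      have h2 : 0 ≤ A * Y := mul_nonneg hA hY
      have h3 : 0 ≤ A * (n * E) := by positivity
      nlinarith

/-- One free spin cut to a cube is worth at most its closed value. -/
theorem site_le {τ : ℝ} (hτ : 0 < τ) {t : Finset (Fin d)}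
    {D : Matrix (Fin t.card) (Fin t.card) ℝ} {q : ℕ → Matrix (Fin t.card) (Fin t.card) ℝ}
    (hq : IsPath K q) (hD : (D - q K).PosDef) {S : Fin (K + 1) → Fin d → Fin d → ℝ}
    (hS : SiteFac S (bestPath (gridM K) K D q)) (R : ℕ) (i : Fin N) :
    Integrable (fun z => casc (gaus (Fin N × Fin d)) K (mlev K) fun y =>
        leafR τ (tLam (gridM K) K (bestTilt (gridM K) K D q) (bestPath (gridM K) K D q) K - τ⁻¹ • 1)
          R (compFld S i z y)) (gaus (Fin N × Fin d)) ∧
      ∫ z, casc (gaus (Fin N × Fin d)) K (mlev K) (fun y =>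
        leafR τ (tLam (gridM K) K (bestTilt (gridM K) K D q) (bestPath (gridM K) K D q) K - τ⁻¹ • 1)
          R (compFld S i z y)) ∂gaus (Fin N × Fin d) ≤ endVal K τ D q := by
  set L := bestTilt (gridM K) K D q with hL
  set p := bestPath (gridM K) K D q with hp
  have hm := gridM_levels K
  have hpath : IsPath K p := bestPath_isPath hm hq hD
  have hpd : ∀ l, l ≤ K → (tLam (gridM K) K L p l).PosDef := fun l hl => by
    rw [← Matrix.inv_eq_left_inv (bestPath_mul_eq_one hm hq hD l hl)]
    exact (tT_posDef hm hq hD l hl).inv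
  set P := tLam (gridM K) K L p K - τ⁻¹ • (1 : Matrix (Fin t.card) (Fin t.card) ℝ) with hP
  set G : (Fin t.card → ℝ) → ℝ := fun h => casc (gaus (Fin t.card)) K (mlev K)
    fun u => leafR τ P R (h + ∑ l, blockFac p l *ᵥ u l) with hG
  have hpr : MeasurePreserving (fun (g : Fin N × Fin d → ℝ) (r : Fin d) => g (i, r))
      (gaus (Fin N × Fin d)) (gaus (Fin d)) :=
    P157.mp_comp (gaussianReal 0 1) (fun a b h => by simpa using h)
  have hGe : ∀ h, G h = casc (gaus (Fin t.card)) K (mlev K)
      fun u => leafR τ P R (rowFld (fun l => facOf (p (l.val + 1) - p l.val)) h u) := fun h => by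
    simp only [hG]
    congr 1
  have e : ∀ z : Fin N × Fin d → ℝ, casc (gaus (Fin N × Fin d)) K (mlev K)
      (fun y => leafR τ P R (compFld S i z y))
      = G (arrMap (fun b => S 0 (comp t b)) fun r => z (i, r)) := fun z => by
    obtain ⟨h1, -, -⟩ := casc_map hpr K (mlev K) (H := fun u : Fin K → Fin d → ℝ => leafR τ P R
        (rowFld (fun l b => S l.succ (comp t b)) (arrMap (fun b => S 0 (comp t b)) fun r => z (i, r)) u))
      (a := fun _ => (1 : ℝ)) ((measurable_leafR τ P R).comp
        ((continuous_rowFld _).measurable.comp measurable_prodMk_left)) measurable_const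
    rw [hGe, ← casc_fld_congr K (mlev K) (fun l b => S l.succ (comp t b)) _
      (fun l u => by rw [hS.level, cq_facOf (hpath.step l.val l.isLt)]) (measurable_leafR τ P R)]
    exact h1
  simp only [e]
  have hGm : Measurable G := by
    rw [funext hGe]
    exact measurable_casc_fld _ _ (measurable_leafR τ P R)
  obtain ⟨C, A, hA, hGb⟩ := abs_casc_leafR_le (K := K) τ P R p
  have habs : ∀ k : Fin t.card, Integrable (fun w : Fin t.card → ℝ => |w k|) (gaus (Fin t.card)) :=
    fun k => by
      have := ((memLp_id_gaussianReal (μ := 0) (v := 1) 1).comp_measurePreserving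
        (measurePreserving_eval (μ := fun _ : Fin t.card => gaussianReal 0 1) k))
      exact (memLp_one_iff_integrable.1 this).abs
  have hroot : ∀ u, cq (fun b => S 0 (comp t b)) u = cq (facOf (p 0)) u := fun u => by
    rw [hS.root, cq_facOf hpath.nonneg]
  set T := Matrix.of (facOf (p 0)) with hT
  have hTm : ∀ w, arrMap (facOf (p 0)) w = T *ᵥ w := fun w => funext fun b => by
    simp [T, arrMap_apply, Matrix.mulVec, dotProduct]
  have hiw : Integrable (fun w => G (T *ᵥ w)) (gaus (Fin t.card)) := by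
    refine ((integrable_const C).add (((integrable_finsetSum Finset.univ fun k _ => habs k).const_mul
      (t.card * mabs T)).const_mul A)).mono'
      (hGm.comp (by fun_prop)).aestronglyMeasurable (ae_of_all _ fun w => ?_)
    refine (hGb _).trans (add_le_add le_rfl (mul_le_mul_of_nonneg_left ?_ hA))
    refine (Finset.sum_le_sum fun b _ => ?_).trans_eq
      (show ∑ _b : Fin t.card, mabs T * ∑ k, |w k| = _ by simp [mul_assoc])
    rw [← hTm]
    exact abs_arrMap_le _ _ b
  have hbig : Integrable (fun z : Fin N × Fin d → ℝ =>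
      G (arrMap (fun b => S 0 (comp t b)) fun r => z (i, r))) (gaus (Fin N × Fin d)) ∧
      ∫ z, G (arrMap (fun b => S 0 (comp t b)) fun r => z (i, r)) ∂gaus (Fin N × Fin d)
        = ∫ w, G (T *ᵥ w) ∂gaus (Fin t.card) := by
    have hlaw := Vale.Agent.P150.Fast.Dom.map_gp_eq _ _ hroot
    have hm1 : Measurable fun v : Fin d → ℝ => arrMap (fun b => S 0 (comp t b)) v :=
      (arrMap _).continuous.measurable
    have hm2 : Measurable fun w : Fin t.card → ℝ => arrMap (facOf (p 0)) w :=
      (arrMap _).continuous.measurable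
    have hi2 : Integrable G ((gaus (Fin t.card)).map fun w => arrMap (facOf (p 0)) w) := by
      rw [integrable_map_measure hGm.aestronglyMeasurable hm2.aemeasurable]
      exact hiw.congr (ae_of_all _ fun w => by simp [hTm])
    have hi1 : Integrable (fun v => G (arrMap (fun b => S 0 (comp t b)) v)) (gaus (Fin d)) :=
      (integrable_map_measure hGm.aestronglyMeasurable hm1.aemeasurable).1 (hlaw ▸ hi2)
    refine ⟨hpr.integrable_comp_of_integrable hi1, ?_⟩
    have h1 := integral_map (μ := gaus (Fin N × Fin d)) hpr.measurable.aemeasurable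
      (f := fun v => G (arrMap (fun b => S 0 (comp t b)) v))
      (by rw [hpr.map_eq]; exact hi1.aestronglyMeasurable)
    rw [hpr.map_eq] at h1
    rw [← h1, integral_image_eq hroot hGm]
    simp only [hTm]
  refine ⟨hbig.1, ?_⟩
  rw [hbig.2]
  set Λ := fun l : Fin (K + 1) => tLam (gridM K) K L p l.val
  set c := -((Real.log (Λ (Fin.last K)).det + t.card * Real.log τ) / 2)
    + ∑ l : Fin K, (2 * mlev K l)⁻¹ * (Real.log (Λ l.succ).det - Real.log (Λ l.castSucc).det)
  have hle : ∀ h, G h ≤ h ⬝ᵥ (Λ 0)⁻¹ *ᵥ h / 2 + c := fun h => by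
    have h1 := (casc_leafR_lim hτ K (mlev K) Λ (blockFac p) (grid_mlev K).pos
      (fun l => hpd _ (Nat.le_of_lt_succ l.isLt)) (fun l => by
        simp only [Λ, Fin.val_succ, Fin.val_castSucc]
        rw [blockFac_mul hpath, ← gridM_succ, tLam_step (m := gridM K) L p l.isLt,
          sub_add_cancel]) h).1 R
    simp only [hG, hP, c, Λ, Fin.val_last, ← add_assoc] at h1 ⊢
    exact h1
  set A0 := T.transpose * (Λ 0)⁻¹ * T
  have eq : ∀ w : Fin t.card → ℝ, (T *ᵥ w) ⬝ᵥ (Λ 0)⁻¹ *ᵥ (T *ᵥ w) = w ⬝ᵥ A0 *ᵥ w := fun w => by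
    simp only [A0]
    rw [← Matrix.mulVec_mulVec, ← Matrix.mulVec_mulVec, Matrix.dotProduct_mulVec w T.transpose,
      Matrix.vecMul_transpose]
  have hint : Integrable (fun w => (T *ᵥ w) ⬝ᵥ (Λ 0)⁻¹ *ᵥ (T *ᵥ w) / 2) (gaus (Fin t.card)) := by
    simp only [eq]
    refine Integrable.div_const ?_ 2
    simp only [dotProduct, Matrix.mulVec, Finset.mul_sum]
    refine integrable_finsetSum _ fun i _ => integrable_finsetSum _ fun j _ => ?_
    simp only [mul_left_comm (_ : ℝ) (A0 i j)]
    refine Integrable.const_mul ?_ _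
    have hL2 : ∀ k, MemLp (fun w : Fin t.card → ℝ => w k) 2 (gaus (Fin t.card)) := fun k =>
      (memLp_id_gaussianReal (μ := 0) (v := 1) 2).comp_measurePreserving
        (measurePreserving_eval (μ := fun _ : Fin t.card => gaussianReal 0 1) k)
    exact (hL2 i).integrable_mul (hL2 j)
  refine (integral_mono hiw (hint.add (integrable_const c)) fun w => hle _).trans_eq ?_
  simp only [Pi.add_apply]
  rw [integral_add hint (integrable_const _), integral_const, probReal_univ, one_smul,
    integral_div]
  simp only [eq, gaus_eq_gs]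
  rw [integral_dot_quad]
  have htr : A0.trace = (p 0 * (Λ 0)⁻¹).trace := by
    have hTT : T * T.transpose = p 0 := by
      ext k l
      simp [T, Matrix.mul_apply, facOf_mul hpath.nonneg]
    simp only [A0]
    rw [Matrix.trace_mul_cycle, hTT]
  rw [htr, endVal, spinVal, levelSum]
  simp only [c, Λ, Fin.val_last, Fin.val_zero, Fin.val_succ, Fin.val_castSucc, ← gridM_succ, ← hL,
    ← hp]
  rw [Fin.sum_univ_eq_sum_range (fun l => (2 * gridM K (l + 1))⁻¹
    * (Real.log (tLam (gridM K) K L p (l + 1)).det - Real.log (tLam (gridM K) K L p l).det)) K]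
  simp only [mul_inv, mul_assoc (2 : ℝ)⁻¹, ← Finset.mul_sum]
  ring

end Vale.Agent.P166.Casc
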