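import Vale.Agent.P157.Casc.GGFluct
import Vale.Agent.P157.Casc.ModelGG

/-!
The mean logarithm of the total weight along a tilt is Lipschitz, and the overlap identities for
random tests are small on average over the strength of the tilt.
-/

open MeasureTheory ProbabilityTheory Filter Topology Set

namespace Vale.Agent.P166.Casc

open Vale.Agent.P157.Casc

variable {T I Ω : Type*} [Fintype T] [Fintype I] [MeasurableSpace Ω]
  {μ : Measure Ω} {w : Ω → (I → ℝ) → T → ℝ} {b : T → I → ℝ} [Nonempty T] {S : Finset I}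
  (h : RGGHyp μ w b S)
include h

omit [Fintype T] [Nonempty T] in
theorem abs_rfield_le (x : T) (G : I → ℝ) : |∑ i, b x i * G i| ≤ 1 + ∑ i, |G i| := by
  refine ((Finset.abs_sum_le_sum_abs _ _).trans (Finset.sum_le_sum (g := fun i => |G i|)
    fun i _ => ?_)).trans (le_add_of_nonneg_left zero_le_one)
  rw [abs_mul]
  refine mul_le_of_le_one_left (abs_nonneg _) ((sq_le_one_iff_abs_le_one _).1 ?_)
  rw [← h.unit x]
  exact Finset.single_le_sum (f := fun j => b x j ^ 2) (fun j _ => sq_nonneg _) (Finset.mem_univ i)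

/-- Jensen: the shifted logarithm lies above the tangent. -/
theorem log_rtilt_tangent (t s : ℝ) (p : Ω × (I → ℝ)) :
    Real.log (∑ x, rtilt w b t p x)
        + (s - t) * avg (rtilt w b t p) 1 (fun x => ∑ i, b (x 0) i * p.2 i)
      ≤ Real.log (∑ x, rtilt w b s p x) := by
  set u := rtilt w b t p
  have hu : ∀ x, 0 < u x := rtilt_pos h t p
  set ξ : T → ℝ := fun x => ∑ i, b x i * p.2 i
  have hz : 0 < ∑ x, u x := Itp.sum_u_pos hu
  have e : avg u 1 (fun x => ξ (x 0)) = ∑ x, gibbs u x * ξ x := by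
    rw [avg_cons' 0]
    simp only [avg_zero', Fin.cons_zero]
  set m := (s - t) * ∑ x, gibbs u x * ξ x with hm
  have hs : ∀ x, rtilt w b s p x = u x * Real.exp ((s - t) * ξ x) := fun x => by
    simp only [u, ξ, rtilt, mul_assoc, ← Real.exp_add]
    ring_nf
  have hge : Real.exp m * ∑ x, u x ≤ ∑ x, rtilt w b s p x := by
    have h1 : ∀ x, u x * (Real.exp m * (1 + ((s - t) * ξ x - m))) ≤ rtilt w b s p x := fun x => by
      rw [hs]
      refine mul_le_mul_of_nonneg_left ?_ (hu x).le
      calc Real.exp m * (1 + ((s - t) * ξ x - m))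
          ≤ Real.exp m * Real.exp ((s - t) * ξ x - m) := mul_le_mul_of_nonneg_left
            (by linarith [Real.add_one_le_exp ((s - t) * ξ x - m)]) (Real.exp_pos _).le
        _ = _ := by rw [← Real.exp_add]; ring_nf
    refine le_trans (le_of_eq ?_) (Finset.sum_le_sum fun x _ => h1 x)
    have h2 : ∑ x, u x * ((s - t) * ξ x - m) = 0 := by
      simp only [mul_sub, Finset.sum_sub_distrib, ← Finset.sum_mul, mul_left_comm (u _) (s - t),
        ← Finset.mul_sum]
      rw [hm, mul_left_comm (∑ x, u x), Finset.mul_sum Finset.univ _ (∑ x, u x), sub_eq_zero]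
      congr 1
      refine Finset.sum_congr rfl fun x _ => ?_
      rw [gibbs, ← mul_assoc, mul_div_cancel₀ _ hz.ne']
    have h3 : ∑ x, u x * (Real.exp m * (1 + ((s - t) * ξ x - m)))
        = Real.exp m * ((∑ x, u x) + ∑ x, u x * ((s - t) * ξ x - m)) := by
      rw [← Finset.sum_add_distrib, Finset.mul_sum]
      exact Finset.sum_congr rfl fun x _ => by ring
    rw [h3, h2, add_zero]
  have hl := Real.log_le_log (mul_pos (Real.exp_pos _) hz) hge
  rw [Real.log_mul (Real.exp_pos _).ne' hz.ne', Real.log_exp] at hl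
  rw [e, ← hm]
  linarith

theorem abs_log_rtilt_sub_le (t s : ℝ) (p : Ω × (I → ℝ)) :
    |Real.log (∑ x, rtilt w b s p x) - Real.log (∑ x, rtilt w b t p x)|
      ≤ |s - t| * (1 + ∑ i, |p.2 i|) := by
  have key : ∀ u v : ℝ, Real.log (∑ x, rtilt w b u p x) - |v - u| * (1 + ∑ i, |p.2 i|)
      ≤ Real.log (∑ x, rtilt w b v p x) := fun u v => by
    refine le_trans ?_ (log_rtilt_tangent h u v p)
    have ha : |avg (rtilt w b u p) 1 (fun x => ∑ i, b (x 0) i * p.2 i)| ≤ 1 + ∑ i, |p.2 i| :=
      abs_avg' (rtilt_pos h u p) fun x => abs_rfield_le h (x 0) p.2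
    have hm := mul_le_mul_of_nonneg_left ha (abs_nonneg (v - u))
    rw [← abs_mul] at hm
    linarith [(abs_le.1 hm).1]
  have h1 := key t s
  have h2 := key s t
  rw [abs_sub_comm t s] at h2
  exact abs_le.2 ⟨by linarith, by linarith⟩

variable [IsProbabilityMeasure μ]

theorem integrable_log_rtilt
    (hi : Integrable (fun p => Real.log (∑ x, rtilt w b 0 p x)) (μ.prod (gaus I))) (t : ℝ) :
    Integrable (fun p => Real.log (∑ x, rtilt w b t p x)) (μ.prod (gaus I)) := by
  have hG : Integrable (fun p : Ω × (I → ℝ) => |t - 0| * (1 + ∑ i, |p.2 i|)) (μ.prod (gaus I)) :=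
    ((integrable_const (1 : ℝ)).add (integrable_finsetSum _ fun i _ =>
      ((Itp.integrable_coord i).comp_snd μ).abs)).const_mul _
  refine (hi.abs.add hG).mono'
    (Finset.measurable_sum _ fun x _ => measurable_rtilt h t x).log.aestronglyMeasurable
    (Eventually.of_forall fun p => ?_)
  rw [Real.norm_eq_abs, Pi.add_apply]
  linarith [abs_log_rtilt_sub_le h 0 t p,
    abs_sub_abs_le_abs_sub (Real.log (∑ x, rtilt w b t p x)) (Real.log (∑ x, rtilt w b 0 p x))]

/-- The mean of the field is of the order of the strength. -/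
theorem abs_ravg_field_le (t : ℝ) :
    |ravg μ w b t 1 fun _ G x => ∑ i, b (x 0) i * G i| ≤ 2 * |t| := by
  have h1 : RTest (Ω := Ω) S (n := 1) (fun _ _ (_ : Fin 1 → T) => (1 : ℝ)) :=
    ⟨fun _ => measurable_const, fun _ _ => continuous_const, fun _ _ _ _ => rfl,
      fun _ _ _ => by simp⟩
  have e := ravg_field h (t := t) 0 h1
  simp only [one_mul] at e
  rw [e, abs_mul, mul_comm 2]
  refine mul_le_mul_of_nonneg_left ?_ (abs_nonneg t)
  have hker : ∀ x y, |rker b x y| ≤ 1 := fun x y => by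
    have hs := Real.sum_mul_le_sqrt_mul_sqrt Finset.univ (fun i => |b x i|) (fun i => |b y i|)
    simp only [sq_abs, h.unit, Real.sqrt_one, mul_one] at hs
    exact (Finset.abs_sum_le_sum_abs _ _).trans (by simpa only [abs_mul] using hs)
  have hb : ∀ {n : ℕ} (i j : Fin n),
      |ravg μ w b t n (fun _ _ x => rker b (x i) (x j))| ≤ 1 := fun i j => by
    rw [ravg, ← Real.norm_eq_abs]
    refine (norm_integral_le_of_norm_le_const (C := 1) (Eventually.of_forall fun p =>
      (Real.norm_eq_abs _).trans_le (abs_avg' (rtilt_pos h t p) fun x => hker _ _))).trans_eq ?_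
    simp
  rw [Fin.sum_univ_one, Nat.cast_zero, zero_add (1 : ℝ), one_mul]
  exact (abs_sub _ _).trans (by linarith [hb (n := 1) 0 0, hb (n := 2) 0 (Fin.last 1)])

/-- The mean logarithm is Lipschitz in the strength, with constant twice the strength. -/
theorem abs_rlogz_sub_le
    (hi : Integrable (fun p => Real.log (∑ x, rtilt w b 0 p x)) (μ.prod (gaus I))) {t s A : ℝ}
    (ht : |t| ≤ A) (hs : |s| ≤ A) :
    |rlogz μ w b s - rlogz μ w b t| ≤ 2 * A * |s - t| := by
  have key : ∀ u v : ℝ, |u| ≤ A →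
      rlogz μ w b u - 2 * A * |v - u| ≤ rlogz μ w b v := fun u v hu => by
    have hx : Integrable (fun p : Ω × (I → ℝ) =>
        avg (rtilt w b u p) 1 (fun x => ∑ i, b (x 0) i * p.2 i)) (μ.prod (gaus I)) :=
      rfluct_int h u (F := fun _ G x => ∑ i, b (x 0) i * G i) (C := 1) (fun x => by fun_prop)
        fun ω G x => (abs_rfield_le h (x 0) G).trans_eq (one_mul _).symm
    have h1 := integral_mono ((integrable_log_rtilt h hi u).add (hx.const_mul (v - u)))
      (integrable_log_rtilt h hi v) fun p => log_rtilt_tangent h u v p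
    rw [integral_add' (integrable_log_rtilt h hi u) (hx.const_mul _), integral_const_mul] at h1
    have h2 : |(v - u) * ravg μ w b u 1 fun _ G x => ∑ i, b (x 0) i * G i|
        ≤ |v - u| * (2 * A) := by
      rw [abs_mul]
      exact mul_le_mul_of_nonneg_left ((abs_ravg_field_le h u).trans (by linarith)) (abs_nonneg _)
    simp only [rlogz]
    simp only [ravg] at h2
    linarith [(abs_le.1 h2).1]
  have h1 := key t s ht
  have h2 := key s t hs
  rw [abs_sub_comm t s] at h2
  exact abs_le.2 ⟨by linarith, by linarith⟩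

/-- The bound on the identities at the strength `a * v`, with step `a * δ`. -/
noncomputable def ggErr (μ : Measure Ω) (w : Ω → (I → ℝ) → T → ℝ) (b : T → I → ℝ)
    (a δ D v : ℝ) : ℝ :=
  2 / (a * (a * δ)) * (Real.log 2 + (rlogz μ w b (a * (v + δ)) + rlogz μ w b (a * (v - δ))
    - 2 * rlogz μ w b (a * v)) / 2 + 3 * D)

theorem ggErr_nonneg
    (hi : Integrable (fun p => Real.log (∑ x, rtilt w b 0 p x)) (μ.prod (gaus I)))
    {a δ D : ℝ} (ha : 0 < a) (hδ : 0 < δ) (hD : 0 ≤ D) (v : ℝ) : 0 ≤ ggErr μ w b a δ D v := by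
  have h2 := rlogz_convex h (t := a * v) (δ := a * δ) fun s _ => integrable_log_rtilt h hi s
  rw [← mul_add, ← mul_sub] at h2
  exact mul_nonneg (by positivity) (by have := Real.log_nonneg one_le_two; positivity)

/-- The identities at one strength, uniformly in the random tests. -/
theorem rgg_point
    (hi : Integrable (fun p => Real.log (∑ x, rtilt w b 0 p x)) (μ.prod (gaus I)))
    {a δ D v : ℝ} (ha : 0 < a) (hδ : 0 < δ) (hv : 1 ≤ v)
    (hD : ∀ s, s = v - δ ∨ s = v ∨ s = v + δ →
      ∫ p, |Real.log (∑ x, rtilt w b (a * s) p x) - rlogz μ w b (a * s)| ∂μ.prod (gaus I) ≤ D)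
    (r : ℕ) {F : Ω → (I → ℝ) → (Fin (r + 1) → T) → ℝ} (hF : RTest S F) :
    |ravg μ w b (a * v) (r + 2) (fun ω G x =>
        F ω G (fun i => x i.castSucc) * rker b (x 0) (x (Fin.last (r + 1))))
      - (ravg μ w b (a * v) (r + 1) F * ravg μ w b (a * v) 2 (fun _ _ x => rker b (x 0) (x 1))
          + ∑ l : Fin r,
              ravg μ w b (a * v) (r + 1) (fun ω G x => F ω G x * rker b (x 0) (x l.succ)))
        / (r + 1)| ≤ ggErr μ w b a δ D v := by
  have haδ : 0 < a * δ := mul_pos ha hδ
  have hD' : ∀ s, s = a * v - a * δ ∨ s = a * v ∨ s = a * v + a * δ →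
      ∫ p, |Real.log (∑ x, rtilt w b s p x) - rlogz μ w b s| ∂μ.prod (gaus I) ≤ D := by
    intro s hs
    rw [← mul_sub, ← mul_add] at hs
    rcases hs with rfl | rfl | rfl
    exacts [hD _ (Or.inl rfl), hD _ (Or.inr (Or.inl rfl)), hD _ (Or.inr (Or.inr rfl))]
  have hfl := rfluct_le h haδ (fun s _ => integrable_log_rtilt h hi s) hD'
  have hav : 0 < a * v := mul_pos ha (by linarith)
  have hg := rgg_le h hav ((rlogz μ w b (a * v + a * δ)
    - rlogz μ w b (a * v - a * δ)) / (2 * (a * δ))) r hF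
  rw [← mul_sub, ← mul_add] at hfl hg
  have h0 : 0 ≤ rfluct μ w b (a * v)
      ((rlogz μ w b (a * (v + δ)) - rlogz μ w b (a * (v - δ))) / (2 * (a * δ))) :=
    integral_nonneg fun p => Finset.sum_nonneg fun x _ => mul_nonneg
      (Finset.prod_nonneg fun i _ => gibbs_nonneg' (rtilt_pos h _ p) _) (abs_nonneg _)
  refine hg.trans ?_
  calc 2 * rfluct μ w b (a * v) _ / (a * v) ≤ 2 * rfluct μ w b (a * v) _ / a :=
        div_le_div_of_nonneg_left (mul_nonneg zero_le_two h0) ha (le_mul_of_one_le_right ha.le hv)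
    _ ≤ 2 * ((Real.log 2 + (rlogz μ w b (a * (v + δ)) + rlogz μ w b (a * (v - δ))
          - 2 * rlogz μ w b (a * v)) / 2 + 3 * D) / (a * δ)) / a := by gcongr
    _ = _ := by rw [ggErr]; field_simp

/-- The average of the bound over the strengths. -/
theorem integral_ggErr_le
    (hi : Integrable (fun p => Real.log (∑ x, rtilt w b 0 p x)) (μ.prod (gaus I)))
    {a δ D : ℝ} (ha : 0 < a) (hδ : 0 < δ) (hδ1 : δ ≤ 1) :
    ∫ v in Icc (1 : ℝ) 2, ggErr μ w b a δ D v
      ≤ 2 / (a * (a * δ)) * (Real.log 2 + 6 * a ^ 2 * δ ^ 2 + 3 * D) := by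
  set g : ℝ → ℝ := fun v => rlogz μ w b (a * v)
  have hg : ∀ v ∈ Icc (0 : ℝ) 3, ∀ v' ∈ Icc (0 : ℝ) 3, |g v - g v'| ≤ 6 * a ^ 2 * |v - v'| := by
    intro v hv v' hv'
    have hab : ∀ u ∈ Icc (0 : ℝ) 3, |a * u| ≤ 3 * a := fun u hu => by
      rw [abs_mul, abs_of_pos ha, abs_of_nonneg hu.1]
      nlinarith [hu.2]
    refine (abs_rlogz_sub_le h hi (hab v' hv') (hab v hv)).trans_eq ?_
    rw [← mul_sub, abs_mul, abs_of_pos ha]
    ring
  have hgc : ContinuousOn g (Icc 0 3) :=
    (LipschitzOnWith.of_dist_le_mul (K := (6 * a ^ 2).toNNReal) fun v hv v' hv' => by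
      rw [Real.dist_eq, Real.dist_eq, Real.coe_toNNReal _ (by positivity)]
      exact hg v hv v' hv').continuousOn
  have hint : IntegrableOn (fun v => g (v + δ) + g (v - δ) - 2 * g v) (Icc 1 2) :=
    (((hgc.comp (continuous_add_const δ).continuousOn fun u hu =>
        (⟨by linarith [hu.1], by linarith [hu.2]⟩ : u + δ ∈ Icc (0 : ℝ) 3)).add
      (hgc.comp (continuous_sub_right δ).continuousOn fun u hu =>
        (⟨by linarith [hu.1], by linarith [hu.2]⟩ : u - δ ∈ Icc (0 : ℝ) 3))).sub
      ((hgc.mono fun u hu => ⟨zero_le_one.trans hu.1, hu.2.trans (by norm_num)⟩).const_mul 2)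
      ).integrableOn_compact isCompact_Icc
  have hsd := integral_second_diff ⟨hδ.le, hδ1⟩ hg
  have : IsProbabilityMeasure (volume.restrict (Icc (1 : ℝ) 2)) := ⟨by norm_num⟩
  have i2 : Integrable (fun v => Real.log 2 + (g (v + δ) + g (v - δ) - 2 * g v) / 2)
      (volume.restrict (Icc (1 : ℝ) 2)) := (integrable_const _).add (hint.div_const 2)
  simp only [ggErr]
  rw [integral_const_mul, integral_add i2 (integrable_const _),
    integral_add (integrable_const _) (hint.div_const 2), integral_div]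
  simp only [integral_const, probReal_univ, one_smul]
  gcongr
  linarith

end Vale.Agent.P166.Casc
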