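import Vale.Agent.P157.Casc.InterpBase
import Vale.Agent.P157.Casc.Ultra.Avg

/-!
The overlap identities for tests that may depend on the environment, from the fluctuation of a
compensated perturbing field.
-/

open MeasureTheory ProbabilityTheory Filter Topology Set

namespace Vale.Agent.P166.Casc

open Vale.Agent.P157.Casc

variable {T I Ω : Type*} [Fintype T] [Fintype I] [MeasurableSpace Ω]

/-- A perturbing field supported in `S` with unit variance, and weights and tests that do not
depend on the coordinates in `S`. -/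
structure RGGHyp (μ : Measure Ω) (w : Ω → (I → ℝ) → T → ℝ) (b : T → I → ℝ) (S : Finset I) :
    Prop where
  meas : ∀ x, Measurable fun p : Ω × (I → ℝ) => w p.1 p.2 x
  cont : ∀ ω x, Continuous fun G => w ω G x
  pos : ∀ ω G x, 0 < w ω G x
  indep : ∀ ω G G', (∀ i, i ∉ S → G i = G' i) → w ω G = w ω G'
  supp : ∀ x i, i ∉ S → b x i = 0
  unit : ∀ x, ∑ i, b x i ^ 2 = 1

/-- An admissible random test of `n` replicas. -/
structure RTest (S : Finset I) {n : ℕ} (F : Ω → (I → ℝ) → (Fin n → T) → ℝ) : Prop where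
  meas : ∀ x, Measurable fun p : Ω × (I → ℝ) => F p.1 p.2 x
  cont : ∀ ω x, Continuous fun G => F ω G x
  indep : ∀ ω G G', (∀ i, i ∉ S → G i = G' i) → F ω G = F ω G'
  bound : ∀ ω G x, |F ω G x| ≤ 1

variable (μ : Measure Ω) (w : Ω → (I → ℝ) → T → ℝ) (b : T → I → ℝ)

/-- Weights tilted by `t` times the perturbing field. -/
noncomputable def rtilt (t : ℝ) (p : Ω × (I → ℝ)) (x : T) : ℝ :=
  w p.1 p.2 x * Real.exp (t * ∑ i, b x i * p.2 i)

/-- Expected average of a random test under the tilted weights. -/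
noncomputable def ravg (t : ℝ) (n : ℕ) (F : Ω → (I → ℝ) → (Fin n → T) → ℝ) : ℝ :=
  ∫ p, avg (rtilt w b t p) n (F p.1 p.2) ∂μ.prod (gaus I)

/-- Mean deviation of the perturbing field from `m0`. -/
noncomputable def rfluct (t m0 : ℝ) : ℝ :=
  ravg μ w b t 1 fun _ G x => |∑ i, b (x 0) i * G i - m0|

/-- The kernel of the perturbing field. -/
def rker (x y : T) : ℝ := ∑ i, b x i * b y i

variable {μ w b}

section

variable [Nonempty T] {S : Finset I} (h : RGGHyp μ w b S)
include h

omit [Fintype T] [Nonempty T] in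
theorem rtilt_pos (t : ℝ) (p : Ω × (I → ℝ)) (x : T) : 0 < rtilt w b t p x :=
  mul_pos (h.pos _ _ _) (Real.exp_pos _)

omit [Fintype T] [Nonempty T] in
theorem measurable_rtilt (t : ℝ) (x : T) : Measurable fun p => rtilt w b t p x :=
  (h.meas x).mul (by fun_prop)

omit [Fintype T] [Nonempty T] in
theorem cont_rtilt (t : ℝ) (ω : Ω) (x : T) : Continuous fun G => rtilt w b t (ω, G) x :=
  (h.cont ω x).mul (by fun_prop)

omit [Nonempty T] in
theorem measurable_ravg (t : ℝ) {n : ℕ} {F : Ω → (I → ℝ) → (Fin n → T) → ℝ}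
    (hF : ∀ x, Measurable fun p : Ω × (I → ℝ) => F p.1 p.2 x) :
    Measurable fun p : Ω × (I → ℝ) => avg (rtilt w b t p) n (F p.1 p.2) := by
  have := measurable_rtilt h t
  unfold avg gibbs
  fun_prop

variable [IsProbabilityMeasure μ]

theorem integrable_ravg_bdd (t : ℝ) {n : ℕ} {F : Ω → (I → ℝ) → (Fin n → T) → ℝ} {C : ℝ}
    (hF : ∀ x, Measurable fun p : Ω × (I → ℝ) => F p.1 p.2 x) (hC : ∀ ω G x, |F ω G x| ≤ C) :
    Integrable (fun p : Ω × (I → ℝ) => avg (rtilt w b t p) n (F p.1 p.2)) (μ.prod (gaus I)) :=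
  Integrable.of_bound (measurable_ravg h t hF).aestronglyMeasurable C
    (Eventually.of_forall fun p =>
      (Real.norm_eq_abs _).trans_le (abs_avg' (rtilt_pos h t p) (hC p.1 p.2)))

theorem integrable_ravg_coord (t : ℝ) {n : ℕ} {F : Ω → (I → ℝ) → (Fin n → T) → ℝ} {C : ℝ}
    (hF : ∀ x, Measurable fun p : Ω × (I → ℝ) => F p.1 p.2 x) (hC : ∀ ω G x, |F ω G x| ≤ C) (i : I) :
    Integrable (fun p : Ω × (I → ℝ) => p.2 i * avg (rtilt w b t p) n (F p.1 p.2))
      (μ.prod (gaus I)) :=
  ((Itp.integrable_coord i).comp_snd μ).mul_bdd (measurable_ravg h t hF).aestronglyMeasurable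
    (Eventually.of_forall fun p =>
      (Real.norm_eq_abs _).trans_le (abs_avg' (rtilt_pos h t p) (hC p.1 p.2)))

/-- Integration by parts of the perturbing field against a random test. -/
theorem ravg_field {t : ℝ} (r : ℕ) {F : Ω → (I → ℝ) → (Fin (r + 1) → T) → ℝ} (hF : RTest S F) :
    ravg μ w b t (r + 1) (fun ω G x => F ω G x * ∑ i, b (x 0) i * G i)
      = t * ((∑ l : Fin (r + 1), ravg μ w b t (r + 1) (fun ω G x => F ω G x * rker b (x 0) (x l)))
          - ((r : ℝ) + 1) * ravg μ w b t (r + 2) (fun ω G x =>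
              F ω G (fun i => x i.castSucc) * rker b (x 0) (x (Fin.last (r + 1))))) := by
  classical
  have hb1 : ∀ x i, |b x i| ≤ 1 := fun x i => by
    have := Finset.single_le_sum (f := fun j => b x j ^ 2) (fun j _ => sq_nonneg _) (Finset.mem_univ i)
    rw [h.unit x] at this
    exact (sq_le_one_iff_abs_le_one _).1 this
  set H := fun (i : I) ω G (x : Fin (r + 1) → T) => F ω G x * b (x 0) i with hH
  set H' := fun (i : I) ω G (x : Fin (r + 1) → T) => F ω G x * b (x 0) i *
    ∑ l : Fin (r + 1), (b (x l) i - ∑ y, gibbs (rtilt w b t (ω, G)) y * b y i) with hH'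
  have hHm : ∀ i x, Measurable fun p : Ω × (I → ℝ) => H i p.1 p.2 x := fun i x =>
    (hF.meas x).mul_const _
  have hH'm : ∀ i x, Measurable fun p : Ω × (I → ℝ) => H' i p.1 p.2 x := fun i x => by
    have := measurable_rtilt h t
    have := hF.meas x
    simp only [hH', gibbs]
    fun_prop
  have hHb : ∀ i ω G x, |H i ω G x| ≤ 1 := fun i ω G x => by
    rw [hH, abs_mul]
    exact mul_le_one₀ (hF.bound ω G x) (abs_nonneg _) (hb1 _ i)
  have hH'b : ∀ i ω G x, |H' i ω G x| ≤ 1 * ((r + 1 : ℕ) * 2) := fun i ω G x => by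
    simp only [hH']
    rw [abs_mul]
    refine mul_le_mul ?_ ?_ (abs_nonneg _) zero_le_one
    · rw [abs_mul]; exact mul_le_one₀ (hF.bound ω G x) (abs_nonneg _) (hb1 _ i)
    refine (Finset.abs_sum_le_sum_abs _ _).trans
      ((Finset.sum_le_sum (g := fun _ => (2 : ℝ)) fun l _ => ?_).trans_eq (by simp))
    refine (abs_sub _ _).trans ?_
    linarith [hb1 (x l) i,
      Itp.abs_mean_le (u := rtilt w b t (ω, G)) (F := fun y => b y i) (rtilt_pos h t _)
        (fun y => hb1 y i)]
  have hibp : ∀ i, ∫ p, p.2 i * avg (rtilt w b t p) (r + 1) (H i p.1 p.2) ∂μ.prod (gaus I)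
      = t * ∫ p, avg (rtilt w b t p) (r + 1) (H' i p.1 p.2) ∂μ.prod (gaus I) := fun i => by
    rw [integral_prod _ (integrable_ravg_coord h t (hHm i) (hHb i) i),
      integral_prod _ (integrable_ravg_bdd h t (hH'm i) (hH'b i)), ← integral_const_mul]
    refine integral_congr_ae (Eventually.of_forall fun ω => ?_)
    dsimp only
    rw [← integral_const_mul]
    by_cases hi : i ∈ S
    · have hcg := fun x => cont_rtilt h t ω x
      have hz : ∀ G : I → ℝ, (∑ y, rtilt w b t (ω, G) y) ≠ 0 := fun G =>
        (Itp.sum_u_pos fun y => rtilt_pos h t (ω, G) y).ne'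
      have hgi : ∀ x, Continuous fun G => gibbs (rtilt w b t (ω, G)) x := fun x =>
        (hcg x).div (continuous_finsetSum _ fun y _ => hcg y) hz
      have hFc := fun x => hF.cont ω x
      refine Itp.ibp_gaus (C := 1) (C' := |t| * ((1 : ℝ) * ((r + 1 : ℕ) * 2))) i ?_ ?_
        (fun G => abs_avg' (rtilt_pos h t (ω, G)) (hHb i ω G)) (fun G => ?_) (fun G => ?_)
      · simp only [avg, hH]; fun_prop
      · simp only [avg, hH']; fun_prop
      · rw [abs_mul]
        exact mul_le_mul_of_nonneg_left (abs_avg' (rtilt_pos h t (ω, G)) (hH'b i ω G)) (abs_nonneg _)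
      · have hindep : ∀ z, (∀ j, j ∉ S → Function.update G i z j = G j) := fun z j hj =>
          Function.update_of_ne (fun e => hj (by rw [e]; exact hi)) _ _
        have hu : ∀ x, HasDerivAt (fun z => rtilt w b t (ω, Function.update G i z) x)
            (rtilt w b t (ω, G) x * (t * b x i)) (G i) := fun x => by
          have e : ∀ z, rtilt w b t (ω, Function.update G i z) x
              = w ω G x * Real.exp (t * ∑ j, b x j * Function.update G i z j) := fun z => by
            simp only [rtilt, h.indep ω _ G (hindep z)]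
          simp only [e]
          have hsum : HasDerivAt (fun z => ∑ j, b x j * Function.update G i z j)
              (b x i) (G i) := by
            have := HasDerivAt.fun_sum (u := Finset.univ) fun j _ =>
              ((hasDerivAt_update G i (G i)) |> hasDerivAt_pi.1) j |>.const_mul (b x j)
            simpa [Pi.single_apply] using this
          refine (((hsum.const_mul t).exp).const_mul (w ω G x)).congr_deriv ?_
          simp only [Function.update_eq_self, rtilt]
          ring
        refine (Itp.deriv_avg (v := fun z => rtilt w b t (ω, Function.update G i z))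
          (dv := fun x => t * b x i) (s := G i) (fun x => by simpa using rtilt_pos h t (ω, G) x)
          (fun x => by simpa using hu x)
          (F := fun z x => H i ω (Function.update G i z) x) (dF := fun _ => 0) fun x => ?_).congr_deriv ?_
        · have e : ∀ z, H i ω (Function.update G i z) x = H i ω G x := fun z => by
            simp only [hH, hF.indep ω _ G (hindep z)]
          simp only [e]
          exact hasDerivAt_const _ _
        · simp only [Function.update_eq_self, zero_add, avg, hH, hH', Finset.mul_sum]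
          refine Finset.sum_congr rfl fun x _ => Finset.sum_congr rfl fun l _ => ?_
          simp only [mul_left_comm (gibbs _ _) t, ← Finset.mul_sum]
          ring
    · have hb0 : ∀ x, b x i = 0 := fun x => h.supp x i hi
      simp [avg, hH, hH', hb0]
  have hkey : ∀ p : Ω × (I → ℝ),
      avg (rtilt w b t p) (r + 1) (fun x => F p.1 p.2 x * ∑ i, b (x 0) i * p.2 i)
        = ∑ i, p.2 i * avg (rtilt w b t p) (r + 1) (H i p.1 p.2) := fun p => by
    simp only [hH, ← avg_smul', ← avg_sum']
    congr 1
    funext x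
    rw [Finset.mul_sum]
    exact Finset.sum_congr rfl fun i _ => by ring
  have hker : ∀ p : Ω × (I → ℝ), ∑ i, avg (rtilt w b t p) (r + 1) (H' i p.1 p.2)
      = (∑ l : Fin (r + 1), avg (rtilt w b t p) (r + 1) (fun x => F p.1 p.2 x * rker b (x 0) (x l)))
        - ((r : ℝ) + 1) * avg (rtilt w b t p) (r + 2) (fun x =>
            F p.1 p.2 (fun i => x i.castSucc) * rker b (x 0) (x (Fin.last (r + 1)))) := fun p => by
    rw [avg_snoc' (r + 1)]
    simp only [← avg_sum', ← avg_smul', ← avg_sub', hH', rker]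
    congr 1
    funext x
    have e : ∀ y : T, (fun i : Fin (r + 1) => (Fin.snoc x y : Fin (r + 2) → T) i.castSucc) = x :=
      fun y => funext fun i => Fin.snoc_castSucc ..
    have e0 : ∀ y : T, (Fin.snoc x y : Fin (r + 2) → T) 0 = x 0 := fun y => by
      rw [show (0 : Fin (r + 2)) = (0 : Fin (r + 1)).castSucc from rfl, Fin.snoc_castSucc]
    simp only [Fin.snoc_last, e, e0, Finset.mul_sum, mul_sub, Finset.sum_sub_distrib]
    congr 1
    · rw [Finset.sum_comm]
      exact Finset.sum_congr rfl fun l _ => Finset.sum_congr rfl fun i _ => by ring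
    · simp only [Finset.sum_const, Finset.card_univ, Fintype.card_fin, nsmul_eq_mul]
      rw [Finset.sum_comm]
      push_cast
      simp only [Finset.mul_sum]
      exact Finset.sum_congr rfl fun i _ => Finset.sum_congr rfl fun y _ => by ring
  have hint1 : ∀ l : Fin (r + 1), Integrable (fun p : Ω × (I → ℝ) =>
      avg (rtilt w b t p) (r + 1) (fun x => F p.1 p.2 x * rker b (x 0) (x l))) (μ.prod (gaus I)) :=
    fun l => integrable_ravg_bdd h t (F := fun ω G x => F ω G x * rker b (x 0) (x l))
      (C := ∑ x, ∑ y, |rker b x y|) (fun x => (hF.meas x).mul_const _) fun ω G x => by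
        rw [abs_mul]
        refine (mul_le_of_le_one_left (abs_nonneg _) (hF.bound ω G x)).trans ?_
        exact (Finset.single_le_sum (f := fun y => |rker b (x 0) y|) (fun j _ => abs_nonneg _)
          (Finset.mem_univ _)).trans (Finset.single_le_sum (f := fun x => ∑ y, |rker b x y|)
          (fun j _ => Finset.sum_nonneg fun k _ => abs_nonneg _) (Finset.mem_univ _))
  have hint2 : Integrable (fun p : Ω × (I → ℝ) => avg (rtilt w b t p) (r + 2) (fun x =>
      F p.1 p.2 (fun i => x i.castSucc) * rker b (x 0) (x (Fin.last (r + 1))))) (μ.prod (gaus I)) :=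
    integrable_ravg_bdd h t
      (F := fun ω G x => F ω G (fun i => x i.castSucc) * rker b (x 0) (x (Fin.last (r + 1))))
      (C := ∑ x, ∑ y, |rker b x y|) (fun x => (hF.meas _).mul_const _) fun ω G x => by
        rw [abs_mul]
        refine (mul_le_of_le_one_left (abs_nonneg _) (hF.bound ω G _)).trans ?_
        exact (Finset.single_le_sum (f := fun y => |rker b (x 0) y|) (fun j _ => abs_nonneg _)
          (Finset.mem_univ _)).trans (Finset.single_le_sum (f := fun x => ∑ y, |rker b x y|)
          (fun j _ => Finset.sum_nonneg fun k _ => abs_nonneg _) (Finset.mem_univ _))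
  unfold ravg
  simp only [hkey]
  rw [integral_finsetSum _ fun i _ => integrable_ravg_coord h t (hHm i) (hHb i) i]
  simp only [hibp]
  rw [← Finset.mul_sum, ← integral_finsetSum _ fun i _ => integrable_ravg_bdd h t (hH'm i) (hH'b i)]
  simp only [hker]
  rw [integral_sub (integrable_finsetSum _ fun l _ => hint1 l) (hint2.const_mul _),
    integral_finsetSum _ fun l _ => hint1 l, integral_const_mul]

theorem rfluct_int (t : ℝ) {n : ℕ} {F : Ω → (I → ℝ) → (Fin n → T) → ℝ} {C : ℝ}
    (hF : ∀ x, Measurable fun p : Ω × (I → ℝ) => F p.1 p.2 x)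
    (hC : ∀ ω G x, |F ω G x| ≤ C * (1 + ∑ i, |G i|)) :
    Integrable (fun p : Ω × (I → ℝ) => avg (rtilt w b t p) n (F p.1 p.2)) (μ.prod (gaus I)) :=
  (((integrable_const (1 : ℝ)).add (integrable_finsetSum _ fun i _ =>
    ((Itp.integrable_coord i).comp_snd μ).abs)).const_mul C).mono'
    (measurable_ravg h t hF).aestronglyMeasurable
    (Eventually.of_forall fun p =>
      (Real.norm_eq_abs _).trans_le (abs_avg' (rtilt_pos h t p) (hC p.1 p.2)))

/-- The overlap identity for a random test. -/
theorem rgg_le {t : ℝ} (ht : 0 < t) (m0 : ℝ) (r : ℕ) {F : Ω → (I → ℝ) → (Fin (r + 1) → T) → ℝ}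
    (hF : RTest S F) :
    |ravg μ w b t (r + 2) (fun ω G x =>
        F ω G (fun i => x i.castSucc) * rker b (x 0) (x (Fin.last (r + 1))))
      - (ravg μ w b t (r + 1) F * ravg μ w b t 2 (fun _ _ x => rker b (x 0) (x 1))
          + ∑ l : Fin r, ravg μ w b t (r + 1) (fun ω G x => F ω G x * rker b (x 0) (x l.succ)))
        / (r + 1)| ≤ 2 * rfluct μ w b t m0 / t := by
  have h1 : RTest (Ω := Ω) S (n := 1) (fun _ _ (_ : Fin 1 → T) => (1 : ℝ)) :=
    ⟨fun _ => measurable_const, fun _ _ => continuous_const, fun _ _ _ _ => rfl,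
      fun _ _ _ => by simp⟩
  set ξ : (I → ℝ) → T → ℝ := fun G x => ∑ i, b x i * G i with hξ
  set A := ravg μ w b t (r + 1) (fun ω G x => F ω G x * ξ G (x 0)) with hA
  set B := ravg μ w b t 1 (fun _ G x => 1 * ξ G (x 0)) with hB
  set E := ravg μ w b t (r + 1) F with hE
  set Sb := ravg μ w b t 2 (fun _ _ x => rker b (x 0) (x 1)) with hSb
  have hunit : ∀ x, rker b x x = 1 := fun x => by
    simp only [rker, ← pow_two]; exact h.unit x
  have eA : A = t * (E + (∑ l : Fin r, ravg μ w b t (r + 1) (fun ω G x =>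
      F ω G x * rker b (x 0) (x l.succ))) - ((r : ℝ) + 1) * ravg μ w b t (r + 2) (fun ω G x =>
        F ω G (fun i => x i.castSucc) * rker b (x 0) (x (Fin.last (r + 1))))) := by
    rw [hA, ravg_field h r hF, Fin.sum_univ_succ]
    simp only [hunit, mul_one, hE]
  have eB : B = t * (1 - Sb) := by
    rw [hB, ravg_field h 0 h1]
    have e1 : ravg μ w b t 1 (fun _ _ _ => (1 : ℝ)) = 1 := by
      simp [ravg, avg_const' (rtilt_pos h t _)]
    rw [Fin.sum_univ_succ, Fin.sum_univ_zero]
    simp only [hunit, mul_one, one_mul, Nat.cast_zero, zero_add, add_zero, e1, hSb]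
    rfl
  have hb1 : ∀ x i, |b x i| ≤ 1 := fun x i => by
    have := Finset.single_le_sum (f := fun j => b x j ^ 2) (fun j _ => sq_nonneg _) (Finset.mem_univ i)
    rw [h.unit x] at this
    exact (sq_le_one_iff_abs_le_one _).1 this
  have hξb : ∀ G x, |ξ G x| ≤ 1 + ∑ i, |G i| := fun G x => by
    refine ((Finset.abs_sum_le_sum_abs _ _).trans (Finset.sum_le_sum (g := fun i => |G i|)
      fun i _ => ?_)).trans (le_add_of_nonneg_left zero_le_one)
    rw [abs_mul]
    exact mul_le_of_le_one_left (abs_nonneg _) (hb1 x i)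
  have hmξ : ∀ x, Measurable fun p : Ω × (I → ℝ) => ξ p.2 x := fun x => by
    simp only [hξ]; fun_prop
  have hdev : ∀ G x, |ξ G x - m0| ≤ (1 + |m0|) * (1 + ∑ i, |G i|) := fun G x => by
    have := hξb G x
    have hn : 0 ≤ ∑ i, |G i| := Finset.sum_nonneg fun i _ => abs_nonneg _
    nlinarith [abs_sub (ξ G x) m0, abs_nonneg m0]
  have hfl : ∀ p : Ω × (I → ℝ), avg (rtilt w b t p) (r + 1) (fun x => |ξ p.2 (x 0) - m0|)
      = avg (rtilt w b t p) 1 (fun x => |ξ p.2 (x 0) - m0|) := fun p => by
    rw [Itp.avg_one (rtilt_pos h t p) 0 (fun y => |ξ p.2 y - m0|),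
      Itp.avg_one (rtilt_pos h t p) 0 (fun y => |ξ p.2 y - m0|)]
  have hint0 : Integrable (fun p : Ω × (I → ℝ) =>
      avg (rtilt w b t p) 1 (fun x => |ξ p.2 (x 0) - m0|)) (μ.prod (gaus I)) :=
    rfluct_int h t (F := fun _ G x => |ξ G (x 0) - m0|)
      (fun x => ((hmξ _).sub_const _).abs) (fun ω G x => (abs_abs _).trans_le (hdev G _))
  have hX : |A - E * m0| ≤ rfluct μ w b t m0 := by
    have e : A - E * m0 = ∫ p, avg (rtilt w b t p) (r + 1)
        (fun x => F p.1 p.2 x * (ξ p.2 (x 0) - m0)) ∂μ.prod (gaus I) := by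
      rw [hA, hE, ravg, ravg, ← integral_mul_const, ← integral_sub
        (rfluct_int h t (F := fun ω G x => F ω G x * ξ G (x 0)) (C := 1)
          (fun x => (hF.meas x).mul (hmξ _)) fun ω G x => by
            rw [abs_mul, one_mul]
            exact (mul_le_of_le_one_left (abs_nonneg _) (hF.bound ω G x)).trans (hξb G _))
        ((integrable_ravg_bdd h t hF.meas hF.bound).mul_const _)]
      refine integral_congr_ae (Eventually.of_forall fun p => ?_)
      dsimp only
      rw [mul_comm (avg _ _ (F p.1 p.2)) m0, ← avg_smul', ← avg_sub']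
      exact congrArg _ (funext fun x => by ring)
    rw [e]
    refine abs_integral_le_integral_abs.trans (integral_mono_of_nonneg
      (Eventually.of_forall fun p => abs_nonneg _) hint0 (Eventually.of_forall fun p => ?_))
    refine (Itp.abs_avg_le (rtilt_pos h t p) fun x => ?_).trans_eq (hfl p)
    rw [abs_mul]
    exact mul_le_of_le_one_left (abs_nonneg _) (hF.bound _ _ x)
  have hY : |B - m0| ≤ rfluct μ w b t m0 := by
    have e : B - m0 = ∫ p, avg (rtilt w b t p) 1 (fun x => ξ p.2 (x 0) - m0) ∂μ.prod (gaus I) := by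
      have hc : m0 = ∫ _p, m0 ∂μ.prod (gaus I) := by simp
      conv_lhs => rw [hB, ravg, hc]
      rw [← integral_sub (rfluct_int h t (F := fun _ G x => 1 * ξ G (x 0)) (C := 1)
        (fun x => by simpa using hmξ (x 0)) (fun ω G x => by simpa using hξb G (x 0)))
        (integrable_const _)]
      refine integral_congr_ae (Eventually.of_forall fun p => ?_)
      dsimp only
      rw [avg_sub', avg_const' (rtilt_pos h t p)]
      simp
    rw [e]
    exact abs_integral_le_integral_abs.trans (integral_mono_of_nonneg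
      (Eventually.of_forall fun p => abs_nonneg _) hint0
      (Eventually.of_forall fun p => Itp.abs_avg_le (rtilt_pos h t p) fun x => le_rfl))
  have hE1 : |E| ≤ 1 := by
    rw [hE, ravg, ← Real.norm_eq_abs]
    refine (norm_integral_le_of_norm_le_const (C := 1) (Eventually.of_forall fun p =>
      (Real.norm_eq_abs _).trans_le (abs_avg' (rtilt_pos h t p) (hF.bound p.1 p.2)))).trans_eq ?_
    simp
  have hAB : |A - E * B| ≤ 2 * rfluct μ w b t m0 := by
    have : A - E * B = (A - E * m0) - E * (B - m0) := by ring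
    rw [this]
    refine (abs_sub _ _).trans ?_
    have hEB : |E * (B - m0)| ≤ 1 * rfluct μ w b t m0 := by
      rw [abs_mul]
      exact mul_le_mul hE1 hY (abs_nonneg _) zero_le_one
    linarith
  set X := ravg μ w b t (r + 2) (fun ω G x =>
    F ω G (fun i => x i.castSucc) * rker b (x 0) (x (Fin.last (r + 1))))
  set SumL := ∑ l : Fin r, ravg μ w b t (r + 1) (fun ω G x => F ω G x * rker b (x 0) (x l.succ))
  have hr : (0 : ℝ) < (r : ℝ) + 1 := by positivity
  have key : X - (E * Sb + SumL) / ((r : ℝ) + 1) = -(A - E * B) / (t * ((r : ℝ) + 1)) := by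
    rw [eA, eB]
    field_simp
    ring
  rw [key, abs_div, abs_neg, abs_of_pos (mul_pos ht hr)]
  calc |A - E * B| / (t * ((r : ℝ) + 1)) ≤ 2 * rfluct μ w b t m0 / (t * ((r : ℝ) + 1)) := by gcongr
    _ ≤ 2 * rfluct μ w b t m0 / t := by
      refine div_le_div_of_nonneg_left ((abs_nonneg _).trans hAB) ht ?_
      exact le_mul_of_one_le_right ht.le (le_add_of_nonneg_left (Nat.cast_nonneg r))

end

end Vale.Agent.P166.Casc
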