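import Vale.Agent.P166.Casc.VGGModel
import Vale.Agent.P166.Casc.VConc

/-!
The averaged overlap identities of the perturbed vector systems, from concentration.
-/

open MeasureTheory ProbabilityTheory Filter Topology Set

namespace Vale.Agent.P166.Casc

open Vale.Agent.P157.Casc

variable {N M d R D K n J : ℕ}

/-- Redrawing one coordinate preserves a product of probability measures. -/
theorem mp_update {ι : Type*} [Fintype ι] [DecidableEq ι] (μ : Measure ℝ) [IsProbabilityMeasure μ]
    (p : ι) : MeasurePreserving (fun q : (ι → ℝ) × ℝ => Function.update q.1 p q.2)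
      ((Measure.pi fun _ : ι => μ).prod μ) (Measure.pi fun _ : ι => μ) := by
  have hm : Measurable fun q : (ι → ℝ) × ℝ => Function.update q.1 p q.2 := by
    refine measurable_pi_lambda _ fun i => ?_
    by_cases h : i = p
    · subst h; simpa only [Function.update_self] using measurable_snd
    · simp only [Function.update_of_ne h]; fun_prop
  refine ⟨hm, (Measure.pi_eq fun s hs => ?_).symm⟩
  rw [Measure.map_apply hm (MeasurableSet.univ_pi hs)]
  have e : (fun q : (ι → ℝ) × ℝ => Function.update q.1 p q.2) ⁻¹' Set.univ.pi s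
      = (Set.univ.pi (Function.update s p Set.univ)) ×ˢ s p := by
    ext ⟨x, v⟩
    simp only [Set.mem_preimage, Set.mem_univ_pi, Set.mem_prod]
    constructor
    · intro h
      refine ⟨fun i => ?_, by simpa using h p⟩
      by_cases hi : i = p
      · subst hi; simp
      · simpa [Function.update_of_ne hi] using h i
    · rintro ⟨h1, h2⟩ i
      by_cases hi : i = p
      · subst hi; simpa using h2
      · simpa [Function.update_of_ne hi] using h1 i
  rw [e, Measure.prod_prod, Measure.pi_pi,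
    ← Finset.prod_erase_mul Finset.univ _ (Finset.mem_univ p),
    ← Finset.prod_erase_mul Finset.univ (fun i => μ (s i)) (Finset.mem_univ p),
    Function.update_self, measure_univ, mul_one]
  exact congrArg (· * μ (s p)) (Finset.prod_congr rfl fun i hi => by
    rw [Function.update_of_ne (Finset.ne_of_mem_erase hi)])

/-- The parameters clipped to the box of the averaging. -/
noncomputable def vclip (y : Fin R × Fin J → ℝ) (p : Fin R × Fin J) : ℝ := max 1 (min 2 (y p))

theorem vclip_mem (y : Fin R × Fin J → ℝ) (p : Fin R × Fin J) : vclip y p ∈ Icc (1 : ℝ) 2 :=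
  ⟨le_max_left _ _, max_le one_le_two (min_le_left _ _)⟩

theorem vclip_id {y : Fin R × Fin J → ℝ} (hy : ∀ p, y p ∈ Icc (1 : ℝ) 2) : vclip y = y :=
  funext fun p => by rw [vclip, min_eq_right (hy p).2, max_eq_right (hy p).1]

theorem continuous_vclip : Continuous (vclip : (Fin R × Fin J → ℝ) → Fin R × Fin J → ℝ) := by
  unfold vclip; fun_prop

theorem continuous_vsys :
    Continuous fun p : (VCIdx N M d R D K → ℝ) × (Fin R × Fin J → ℝ) => vsys p.1 p.2 := by
  refine continuous_pi fun i => ?_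
  simp only [vsys]
  refine ((continuous_apply i).comp' continuous_fst).add ?_
  rcases i with q | ⟨l, u | u | ⟨κ, k, i, t⟩⟩ <;> simp only [vpert]
  case inr.inr.inr =>
    by_cases hk : k.val < J
    · simp only [if_pos hk, vext, dif_pos hk]; fun_prop
    · simp only [if_neg hk]; exact continuous_const
  all_goals exact continuous_const

/-- A perturbed system has sizes of the order of `N`. -/
theorem vsys_sized (π : VPrior N d R D) (Φ : VFac N d K) {B : ℝ}
    {fld : VCIdx N M d R D K → ℝ} (hs : VSized π Φ B fld) (hN : 0 < N) (hD : N ≤ D)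
    {R0 : ℕ} (hR : R ≤ R0) {y : Fin R × Fin N → ℝ} (hy : ∀ p, y p ∈ Icc (0 : ℝ) 3) :
    VSized π Φ (B + 3 * R0) (vsys fld y) := by
  have hN1 : (1 : ℝ) ≤ N := by exact_mod_cast hN
  refine ⟨fun i => add_nonneg (hs.1 i) (vpert_nonneg _ _ i), fun σ => ⟨?_, ?_⟩⟩
  · refine le_trans (le_of_eq_of_le ?_ (hs.2 σ).1) (by
      have : (0 : ℝ) ≤ R0 * N := by positivity
      linarith)
    refine Finset.sum_congr rfl fun a _ => Finset.sum_congr rfl fun k _ =>
      Finset.sum_congr rfl fun i _ => ?_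
    rcases i with q | ⟨o, u | u | u⟩ <;> simp [vpull, vsys, vpert, vbpat, treeDir, rowL]
  · have hsplit : ∀ i : VGIdx N M d R D K 1,
        vpull (vsys fld y) i = vpull fld i + vpull (vpert N (vext y)) i := fun i => by
      rcases i with q | ⟨o, u⟩ <;> rfl
    simp only [hsplit, add_mul, Finset.sum_add_distrib]
    refine (add_le_add (hs.2 σ).2 (?_ : _ ≤ 3 * (R0 : ℝ) * N)).trans_eq (by ring)
    simp only [sq (vbspin _ _ _ _)]
    rw [cov_vbspin]
    have h0 : ∀ l u, (vpert N (vext y) : VCIdx N M d R D K → ℝ)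
        (Sum.inr (l, Sum.inr (Sum.inl u))) = 0 := fun l u => rfl
    simp only [h0, zero_mul, Finset.sum_const_zero, zero_add]
    have e := fun κ => cov_vpert (M := M) (d := d) π N (vext y) κ
      ((σ, fun _ => 0) : VState π K 1) (σ, fun _ => 0)
    simp only [vS_self, one_pow, mul_one] at e
    simp only [e]
    have hκ : ∀ κ : Fin R, ∑ j ∈ Finset.univ.filter (fun j : Fin D => j.val < N),
        (amp N j * vext y κ j) ^ 2 ≤ 3 * (N : ℝ) := fun κ => by
      rw [← Finset.sum_bij (s := (Finset.univ : Finset (Fin N)))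
        (f := fun j => (amp N j * vext y κ j) ^ 2) (fun j _ => Fin.castLE hD j)
        (fun j _ => by simp) (fun a _ b _ h => Fin.castLE_injective hD h)
        (fun b hb => ⟨⟨b.val, (Finset.mem_filter.1 hb).2⟩, Finset.mem_univ _, Fin.ext rfl⟩)
        (fun j _ => rfl)]
      refine (amp_sum_le (X := 3) fun i => ?_).trans ?_
      · unfold vext
        split_ifs with hi
        · exact abs_le.2 ⟨by linarith [(hy (κ, ⟨i, hi⟩)).1], (hy (κ, ⟨i, hi⟩)).2⟩
        · norm_num
      · have h3 : (N : ℝ) ^ ((3 : ℝ) / 4) ≤ N :=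
          (Real.rpow_le_rpow_of_exponent_le hN1 (by norm_num)).trans_eq (Real.rpow_one _)
        linarith
    refine (Finset.sum_le_sum fun κ _ => hκ κ).trans ?_
    rw [Finset.sum_const, Finset.card_univ, Fintype.card_fin, nsmul_eq_mul]
    have : (R : ℝ) ≤ R0 := by exact_mod_cast hR
    nlinarith

/-- The averaged identities of one degree, uniform over a compact set of unperturbed variances. -/
theorem vmodel_gg (P : VPot d) (B : ℝ) (R0 K j : ℕ) {ε : ℝ} (hε : 0 < ε) :
    ∃ Nmin : ℕ, ∀ N ≥ Nmin, j < N ∧ ∀ M R D : ℕ, R ≤ R0 → N ≤ D →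
      ∀ (π : VPrior N d R D) (Φ : VFac N d K) (s : Set (VCIdx N M d R D K → ℝ)), IsCompact s →
      (∀ fld ∈ s, PertZero fld ∧ VSized π Φ B fld) →
      ∃ n0, ∀ n ≥ n0, ∀ fld ∈ s, ∀ κ : Fin R,
        ∃ δ : (Fin R × Fin N → ℝ) → ℝ, Integrable δ (vxlaw R N) ∧ (∀ y, 0 ≤ δ y) ∧
          ∫ y, δ y ∂vxlaw R N ≤ ε ∧ ∀ y : Fin R × Fin N → ℝ, (∀ p, y p ∈ Icc (1 : ℝ) 2) →
            ∀ (r : ℕ) (F : (Node K n → ℝ) × (VGIdx N M d R D K n → ℝ) →
              (Fin (r + 1) → VState π K n) → ℝ), PertFree F →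
              |rdef (venv N M d R D K n) (vmbw P π Φ (vsys fld y))
                (fun s s' => vS π κ s s' ^ (j + 1)) r F| ≤ δ y := by
  obtain ⟨C, hC, hconc⟩ := vmodel_conc P (B + 3 * R0) K
  set A := (2 : ℝ) ^ (j + 2) * (7 + 3 * C)
  obtain ⟨N1, hN1⟩ := eventually_atTop.1 (((tendsto_rpow_atTop (by norm_num : (0 : ℝ) < 1 / 8)).comp
    tendsto_natCast_atTop_atTop).eventually_ge_atTop (max (A / ε) ((2 : ℝ) ^ (j + 2))))
  refine ⟨max N1 (j + 1), fun N hN => ⟨by omega, fun M R D hR hD π Φ s hs hfld => ?_⟩⟩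
  have hN0 : 0 < N := by omega
  have hjN : j < N := by omega
  have hNr : (0 : ℝ) < N := by exact_mod_cast hN0
  set box : Set (Fin R × Fin N → ℝ) := Set.univ.pi fun _ => Icc (0 : ℝ) 3
  set s' := (fun p : (VCIdx N M d R D K → ℝ) × (Fin R × Fin N → ℝ) => vsys p.1 p.2) '' (s ×ˢ box)
  have hs' : IsCompact s' :=
    (hs.prod (isCompact_univ_pi fun _ => isCompact_Icc)).image continuous_vsys
  obtain ⟨n0, hn0⟩ := hconc N M R D hN0 π Φ s' hs' (by
    rintro _ ⟨⟨fld, y⟩, ⟨hf, hy⟩, rfl⟩
    exact vsys_sized π Φ (hfld fld hf).2 hN0 hD hR fun p => hy p (mem_univ _))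
  obtain ⟨Bd, hBd⟩ := hs'.exists_bound_of_continuousOn continuousOn_id
  refine ⟨n0 + 1, fun n hn fld hf κ => ?_⟩
  have hn' : 0 < n := by omega
  set jj : Fin N := ⟨j, hjN⟩
  obtain ⟨hpz, -⟩ := hfld fld hf
  have := vstate_nonempty (K := K) π hn'
  set u := (N : ℝ) ^ ((1 : ℝ) / 8) with hu
  have hu0 : 0 < u := Real.rpow_pos_of_pos hNr _
  have hN1' : max (A / ε) ((2 : ℝ) ^ (j + 2)) ≤ u := hN1 N (le_of_max_le_left hN)
  obtain ⟨huA, hu2⟩ := max_le_iff.1 hN1'
  have e3 : (N : ℝ) ^ ((3 : ℝ) / 8) = u ^ 3 := by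
    rw [hu, ← Real.rpow_natCast, ← Real.rpow_mul hNr.le]; norm_num
  have e4 : √(N : ℝ) = u ^ 4 := by
    rw [hu, Real.sqrt_eq_rpow, ← Real.rpow_natCast, ← Real.rpow_mul hNr.le]; norm_num
  set a := amp N j with ha'
  have hamp : a = u ^ 3 / 2 ^ (j + 1) := by rw [ha', amp, e3]
  have ha : 0 < a := amp_pos hN0 j
  set h := u ^ 2 / a with hh
  have hah : a * h = u ^ 2 := by rw [hh]; field_simp
  have hh0 : 0 < h := by positivity
  have hh1 : h ≤ 1 / 2 := by
    rw [hh, hamp, div_div_eq_mul_div, div_le_iff₀ (by positivity)]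
    have := mul_le_mul_of_nonneg_left hu2 (sq_nonneg u)
    rw [pow_succ (2 : ℝ) (j + 1)] at this
    linarith
  set ρ := venv N M d R D K n
  set c : (Fin R × Fin N → ℝ) → ℝ → VCIdx N M d R D K → ℝ :=
    fun y v => vsys fld (Function.update y (κ, jj) v)
  set L : (Fin R × Fin N → ℝ) → ℝ → ℝ := fun y v =>
    ∫ p, Real.log (∑ st, vmbw P π Φ (c y v) p st) ∂ρ
  have hbox : ∀ (y : Fin R × Fin N → ℝ) (v : ℝ), v ∈ Icc (0 : ℝ) 3 →
      c (vclip y) v ∈ s' := fun y v hv => by
    refine ⟨(fld, Function.update (vclip y) (κ, jj) v), ⟨hf, fun p _ => ?_⟩, rfl⟩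
    dsimp only
    by_cases hp : p = (κ, jj)
    · rw [hp, Function.update_self]; exact hv
    · rw [Function.update_of_ne hp]
      exact ⟨zero_le_one.trans (vclip_mem y p).1, (vclip_mem y p).2.trans (by norm_num)⟩
  have hrl : ∀ (y : Fin R × Fin N → ℝ) (v : ℝ), 0 ≤ v →
      rlogz (casW (mlev K) n) (vdegW (M := M) P π Φ fld y κ jj) (vdegB π Φ κ jj) (a * v)
        = L y v + (a * v) ^ 2 / 2 :=
    fun y v hv => (rlogz_vline P π Φ hn' hD hpz y κ jj hv).2
  set G : (Fin R × Fin N → ℝ) → ℝ → ℝ := fun y v =>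
    ggErr (casW (mlev K) n) (vdegW (M := M) P π Φ fld y κ jj) (vdegB π Φ κ jj) a h
      (C * √(N : ℝ)) v
  set δ : (Fin R × Fin N → ℝ) → ℝ := fun y => G (vclip y) (vclip y (κ, jj))
  have hi0 : ∀ y : Fin R × Fin N → ℝ, Integrable (fun p => Real.log (∑ st,
      rtilt (vdegW (M := M) P π Φ fld y κ jj) (vdegB π Φ κ jj) 0 p st))
      ((casW (mlev K) n).prod (gaus (VGIdx N M d R D K n))) := fun y => by
    have := (rlogz_vline (n := n) P π Φ hn' hD hpz y κ jj (le_refl (0 : ℝ))).1
    simpa only [mul_zero, venv] using this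
  have hG0 : ∀ y v, 0 ≤ G y v := fun y v =>
    ggErr_nonneg (vdegW_hyp P π Φ hD hpz y κ jj) (hi0 y) ha hh0
      (mul_nonneg hC (Real.sqrt_nonneg _)) v
  have hLi : ∀ sh : ℝ, |sh| ≤ h →
      Integrable (fun y => L (vclip y) (vclip y (κ, jj) + sh)) (vxlaw R N) := fun sh hsh => by
    have hc : Continuous fun y : Fin R × Fin N → ℝ => c (vclip y) (vclip y (κ, jj) + sh) :=
      continuous_vsys.comp (f := fun y : Fin R × Fin N → ℝ =>
          (fld, Function.update (vclip y) (κ, jj) (vclip y (κ, jj) + sh)))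
        (continuous_const.prodMk (continuous_vclip.update (κ, jj)
          (((continuous_apply (κ, jj)).comp continuous_vclip).add_const sh)))
    have hv : ∀ y : Fin R × Fin N → ℝ, vclip y (κ, jj) + sh ∈ Icc (0 : ℝ) 3 := fun y => by
      obtain ⟨h1, h2⟩ := vclip_mem y (κ, jj)
      obtain ⟨h3, h4⟩ := abs_le.1 hsh
      constructor <;> linarith
    have := ((integrable_vfree_param P π Φ hn' (vxlaw R N)
      (c := fun y => c (vclip y) (vclip y (κ, jj) + sh))
      (fun i => ((continuous_apply i).comp hc).measurable) (B := Bd) fun y i =>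
        ((Real.norm_eq_abs _).symm.trans_le (norm_le_pi_norm _ i)).trans
          (hBd _ (hbox y _ (hv y)))).2).add (integrable_const (cst (mlev K) n))
    refine this.congr (ae_of_all _ fun y => ?_)
    simp [vmfree, L, ρ]
  have hδi : Integrable δ (vxlaw R N) := by
    have hsq : ∀ sh : ℝ, Integrable (fun y : Fin R × Fin N → ℝ =>
        (a * (vclip y (κ, jj) + sh)) ^ 2 / 2) (vxlaw R N) := fun sh => by
      refine Integrable.of_bound (C := (a * (2 + |sh|)) ^ 2 / 2) ?_ (ae_of_all _ fun y => ?_)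
      · have := continuous_vclip (R := R) (J := N)
        exact (Continuous.measurable (by fun_prop)).aestronglyMeasurable
      · rw [Real.norm_eq_abs, abs_div, abs_two, abs_pow, abs_mul, abs_of_pos ha]
        gcongr
        obtain ⟨h1, h2⟩ := vclip_mem y (κ, jj)
        exact (abs_add_le _ _).trans (add_le_add (abs_le.2 ⟨by linarith, h2⟩) le_rfl)
    have hz : ∀ sh : ℝ, |sh| ≤ h → Integrable (fun y =>
        rlogz (casW (mlev K) n) (vdegW (M := M) P π Φ fld (vclip y) κ jj) (vdegB π Φ κ jj)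
          (a * (vclip y (κ, jj) + sh))) (vxlaw R N) := fun sh hsh => by
      refine ((hLi sh hsh).add (hsq sh)).congr (ae_of_all _ fun y => ?_)
      obtain ⟨h1, -⟩ := vclip_mem y (κ, jj)
      exact (hrl _ _ (by linarith [(abs_le.1 hsh).1])).symm
    have z1 := hz h (abs_of_pos hh0).le
    have z2 := hz (-h) (by rw [abs_neg, abs_of_pos hh0])
    have z3 := hz 0 (by simpa using hh0.le)
    simp only [← sub_eq_add_neg, add_zero] at z2 z3
    exact (((integrable_const (Real.log 2)).add
      (((z1.add z2).sub (z3.const_mul 2)).div_const 2)).add (integrable_const _)).const_mul _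
  refine ⟨δ, hδi, fun y => hG0 _ _, ?_, fun y hy r F hF => ?_⟩
  · have : IsProbabilityMeasure (volume.restrict (Icc (1 : ℝ) 2)) := ⟨by norm_num⟩
    have mp := mp_update (volume.restrict (Icc (1 : ℝ) 2)) (κ, jj)
    have hδi' := mp.integrable_comp_of_integrable hδi
    rw [show vxlaw R N = Measure.pi (fun _ : Fin R × Fin N => volume.restrict (Icc (1 : ℝ) 2))
      from rfl, ← mp.map_eq, integral_map mp.measurable.aemeasurable
      (by rw [mp.map_eq]; exact hδi.aestronglyMeasurable)]
    rw [show (∫ q : (Fin R × Fin N → ℝ) × ℝ, δ (Function.update q.1 (κ, jj) q.2)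
        ∂(Measure.pi fun _ => volume.restrict (Icc (1 : ℝ) 2)).prod (volume.restrict (Icc (1 : ℝ) 2)))
      = _ from integral_prod _ hδi']
    refine (integral_mono_of_nonneg (ae_of_all _ fun y => integral_nonneg fun v => hG0 _ _)
      (integrable_const ε) (ae_of_all _ fun y => ?_)).trans_eq (by simp)
    show ∫ v in Icc (1 : ℝ) 2, δ (Function.update y (κ, jj) v) ≤ ε
    have e : ∀ v ∈ Icc (1 : ℝ) 2, δ (Function.update y (κ, jj) v) = G (vclip y) v := fun v hv => by
      have h1 : vclip (Function.update y (κ, jj) v) (κ, jj) = v := by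
        rw [vclip, Function.update_self, min_eq_right hv.2, max_eq_right hv.1]
      have h2 : Function.update (vclip (Function.update y (κ, jj) v)) (κ, jj) 0
          = Function.update (vclip y) (κ, jj) 0 := funext fun p => by
        by_cases hp : p = (κ, jj)
        · simp [hp]
        · simp [Function.update_of_ne hp, vclip]
      simp only [δ, G, h1]
      unfold vdegW
      rw [h2]
    rw [setIntegral_congr_fun measurableSet_Icc e]
    refine (integral_ggErr_le (vdegW_hyp P π Φ hD hpz _ κ jj) (hi0 _) ha hh0 (by linarith)).trans ?_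
    have hl : Real.log 2 ≤ 1 := by linarith [Real.log_le_sub_one_of_pos (two_pos (α := ℝ))]
    have hu1 : 1 ≤ u := (one_le_pow₀ (by norm_num)).trans hu2
    have hu4 : (1 : ℝ) ≤ u ^ 4 := one_le_pow₀ hu1
    have hsum : Real.log 2 + 6 * a ^ 2 * h ^ 2 + 3 * (C * √(N : ℝ)) ≤ (7 + 3 * C) * u ^ 4 := by
      rw [show 6 * a ^ 2 * h ^ 2 = 6 * (a * h) ^ 2 by ring, hah, e4]
      linarith
    refine (mul_le_mul_of_nonneg_left hsum (by positivity)).trans ?_
    rw [hah, show 2 / (a * u ^ 2) * ((7 + 3 * C) * u ^ 4) = A / u by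
      rw [hamp]; simp only [A]; field_simp; ring, div_le_iff₀ hu0]
    rw [div_le_iff₀ hε] at huA
    linarith
  · have h1 := vgg_point P π Φ hn' hD hpz y κ jj (v := y (κ, jj)) (C := C * √(N : ℝ)) hh0
      (by linarith) (hy _).1 (fun v hv => hn0 n (by omega) _ (by
        have := hbox y v (by
          obtain ⟨g1, g2⟩ := hy (κ, jj)
          rcases hv with rfl | rfl | rfl <;> constructor <;> linarith)
        rwa [vclip_id hy] at this)) r hF
    rw [Function.update_eq_self] at h1
    refine h1.trans (le_of_eq ?_)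
    simp only [δ, G, vclip_id hy]
    rfl

end Vale.Agent.P166.Casc
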