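import Vale.Agent.P166.Casc.VFluct
import Vale.Agent.P166.Casc.VSegment
import Vale.Agent.P166.Casc.VTriple

/-!
One degree of one perturbation kernel of the vector model as a compensated tilt, and the averaged
overlap identities for tests that do not depend on the perturbation coordinates.
-/

open MeasureTheory ProbabilityTheory Filter Topology Set

namespace Vale.Agent.P166.Casc

open Vale.Agent.P157.Casc

variable {N M d R D K n J : ℕ}

/-- Parameters of the perturbations of all kernels from those of the degrees below `J`. -/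
def vext (y : Fin R × Fin J → ℝ) (κ : Fin R) (j : ℕ) : ℝ := if h : j < J then y (κ, ⟨j, h⟩) else 0

/-- The law of the parameters. -/
noncomputable def vxlaw (R J : ℕ) : Measure (Fin R × Fin J → ℝ) :=
  Measure.pi fun _ => volume.restrict (Icc (1 : ℝ) 2)

instance vxlaw_prob (R J : ℕ) : IsProbabilityMeasure (vxlaw R J) := by
  have : IsProbabilityMeasure (volume.restrict (Icc (1 : ℝ) 2)) := ⟨by norm_num⟩
  unfold vxlaw; infer_instance

/-- Variances without perturbation. -/
def PertZero (fld : VCIdx N M d R D K → ℝ) : Prop :=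
  ∀ l u, fld (Sum.inr (l, Sum.inr (Sum.inr u))) = 0

/-- The perturbed variances. -/
noncomputable def vsys (fld : VCIdx N M d R D K → ℝ) (y : Fin R × Fin J → ℝ) :
    VCIdx N M d R D K → ℝ :=
  fun i => fld i + vpert J (vext y) i

/-- The coordinates of the perturbations. -/
def PertIdx : VGIdx N M d R D K n → Prop
  | Sum.inr (_, Sum.inr (Sum.inr _)) => True
  | _ => False

/-- Bounded tests that do not depend on the coordinates of the perturbations. -/
structure PertFree {T : Type*} {m : ℕ}
    (F : (Node K n → ℝ) × (VGIdx N M d R D K n → ℝ) → (Fin m → T) → ℝ) : Prop where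
  meas : ∀ x, Measurable fun p => F p x
  cont : ∀ W x, Continuous fun G => F (W, G) x
  indep : ∀ W G G', (∀ i, ¬PertIdx i → G i = G' i) → F (W, G) = F (W, G')
  bound : ∀ p x, |F p x| ≤ 1

/-- Variances of one degree of one kernel, with unit covariance. -/
noncomputable def vdegC (κ : Fin R) (j : Fin J) : VCIdx N M d R D K → ℝ :=
  vpert J fun κ' k => if κ' = κ ∧ k = j.val then (amp J j)⁻¹ else 0

/-- Directions of one degree of one kernel. -/
noncomputable def vdegB (π : VPrior N d R D) (Φ : VFac N d K) (κ : Fin R) (j : Fin J)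
    (st : VState π K n) (i : VGIdx N M d R D K n) : ℝ :=
  √(vpull (vdegC κ j) i) * vbspin π Φ st i

theorem amp_pos' (j : Fin J) : 0 < amp J j := amp_pos j.pos j

theorem vdegC_nonneg (κ : Fin R) (j : Fin J) (i : VCIdx N M d R D K) : 0 ≤ vdegC κ j i :=
  vpert_nonneg J _ i

theorem vpull_vdegC_nonneg (κ : Fin R) (j : Fin J) (i : VGIdx N M d R D K n) :
    0 ≤ vpull (vdegC κ j) i := by
  rcases i with q | ⟨o, i⟩ <;> exact vdegC_nonneg κ j _

theorem pertIdx_of_deg {κ : Fin R} {j : Fin J} {i : VGIdx N M d R D K n}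
    (h : vpull (vdegC κ j) i ≠ 0) : PertIdx i := by
  rcases i with q | ⟨o, u | u | u⟩ <;> simp_all [vpull, vdegC, vpert, PertIdx]

/-- The variances as those without the degree plus those of the degree. -/
theorem vsys_split {fld : VCIdx N M d R D K → ℝ} (hf : PertZero fld) (y : Fin R × Fin J → ℝ)
    (κ : Fin R) (j : Fin J) (v : ℝ) (i : VCIdx N M d R D K) :
    vsys fld (Function.update y (κ, j) v) i
        = vsys fld (Function.update y (κ, j) 0) i + (amp J j * v) ^ 2 * vdegC κ j i ∧
      (vdegC κ j i = 0 ∨ vsys fld (Function.update y (κ, j) 0) i = 0) := by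
  have ha := (amp_pos' j).ne'
  rcases i with p | ⟨l, u | u | ⟨κ', k, i, t⟩⟩ <;>
    simp only [vsys, vdegC, vpert, mul_zero, add_zero, true_or, and_true]
  rw [hf, zero_add, zero_add]
  by_cases hk : k.val < J
  swap
  · simp [hk]
  simp only [hk, if_true, vext, dite_true]
  by_cases hp : κ' = κ ∧ k.val = j.val
  · have e : (κ', (⟨k.val, hk⟩ : Fin J)) = (κ, j) := Prod.ext hp.1 (Fin.ext hp.2)
    rw [← hp.2] at ha
    rw [e, if_pos hp, Function.update_self, Function.update_self, ← hp.2, mul_inv_cancel₀ ha]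
    simp
    ring
  · have e : (κ', (⟨k.val, hk⟩ : Fin J)) ≠ (κ, j) := fun h =>
      hp ⟨congrArg Prod.fst h, congrArg (fun q => q.2.val) h⟩
    rw [if_neg hp, Function.update_of_ne e, Function.update_of_ne e]
    simp

/-- The covariance of one degree is a power of the kernel. -/
theorem vdegB_cov (π : VPrior N d R D) (Φ : VFac N d K) (hJ : J ≤ D) (κ : Fin R) (j : Fin J)
    (st st' : VState π K n) :
    rker (vdegB (M := M) π Φ κ j) st st' = vS π κ st st' ^ (j.val + 1) := by
  have ha := (amp_pos' j).ne'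
  have e : ∀ i : VGIdx N M d R D K n, vdegB π Φ κ j st i * vdegB π Φ κ j st' i =
      vpull (vdegC κ j) i * (vbspin π Φ st i * vbspin π Φ st' i) := fun i => by
    simp only [vdegB]
    rw [mul_mul_mul_comm, Real.mul_self_sqrt (vpull_vdegC_nonneg κ j i)]
  simp only [rker, e]
  rw [cov_vbspin]
  have h0 : ∀ l u, (vdegC κ j : VCIdx N M d R D K → ℝ) (Sum.inr (l, Sum.inr (Sum.inl u))) = 0 :=
    fun l u => rfl
  simp only [h0, zero_mul, Finset.sum_const_zero, zero_add]
  simp only [vdegC, cov_vpert]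
  rw [Finset.sum_eq_single κ (fun κ' _ hκ => by simp [hκ]) (fun h => absurd (Finset.mem_univ _) h),
    Finset.sum_eq_single_of_mem (⟨j.val, j.isLt.trans_le hJ⟩ : Fin D) (by simp [j.isLt])
      (fun k _ hk => by simp [show (k : ℕ) ≠ j from fun h => hk (Fin.ext h)])]
  simp [mul_inv_cancel₀ ha]

theorem vS_self (π : VPrior N d R D) (κ : Fin R) (st : VState π K n) : vS π κ st st = 1 := by
  have hk : ∑ u, π.ker κ st.1 u * π.ker κ st.1 u = 1 := by
    simpa [pow_two] using π.ker_unit κ st.1
  rw [vS, vlev, com_self, Fin.val_last, vkerov, hk, div_eq_one_iff_eq (by positivity)]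
  push_cast
  ring

theorem vdegB_unit (π : VPrior N d R D) (Φ : VFac N d K) (hJ : J ≤ D) (κ : Fin R) (j : Fin J)
    (st : VState π K n) : ∑ i, vdegB (M := M) π Φ κ j st i ^ 2 = 1 := by
  have h := vdegB_cov (M := M) π Φ hJ κ j st st
  simp only [rker, ← pow_two] at h
  rw [h, vS_self, one_pow]

theorem vdegC_vbpat (π : VPrior N d R D) (Φ : VFac N d K) (κ : Fin R) (j : Fin J) (a : Fin M)
    (k : Fin d) (st : VState π K n) (i : VGIdx N M d R D K n) :
    vpull (vdegC κ j) i * vbpat π Φ a k st i = 0 := by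
  rcases i with q | ⟨o, u | u | u⟩ <;> simp [vpull, vdegC, vpert, vbpat, treeDir, rowL]

theorem vdegC_vqd (π : VPrior N d R D) (Φ : VFac N d K) (κ : Fin R) (j : Fin J)
    (st : VState π K n) (i : VGIdx N M d R D K n) :
    vpull (vdegC κ j) i * vqd π Φ st i = 0 := by
  rcases i with q | ⟨o, u | u | u⟩ <;> simp [vpull, vdegC, vpert, vqd, treeDir]

/-- Weights of the system without one degree. -/
noncomputable def vdegW (P : VPot d) (π : VPrior N d R D) (Φ : VFac N d K)
    (fld : VCIdx N M d R D K → ℝ) (y : Fin R × Fin J → ℝ) (κ : Fin R) (j : Fin J)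
    (W : Node K n → ℝ) (G : VGIdx N M d R D K n → ℝ) : VState π K n → ℝ :=
  vbw P (vpwt π W) (vbpat π Φ) (vbspin π Φ) (vqd π Φ)
    (vpull (vsys fld (Function.update y (κ, j) 0))) G

theorem vdegW_hyp (P : VPot d) (π : VPrior N d R D) (Φ : VFac N d K) (hJ : J ≤ D)
    {fld : VCIdx N M d R D K → ℝ} (hf : PertZero fld) (y : Fin R × Fin J → ℝ) (κ : Fin R)
    (j : Fin J) :
    RGGHyp (casW (mlev K) n) (vdegW (M := M) P π Φ fld y κ j) (vdegB π Φ κ j)
      (Finset.univ.filter fun i => vpull (vdegC κ j) i ≠ 0) where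
  meas st := measurable_vmbw_env (Y := (Node K n → ℝ) × (VGIdx N M d R D K n → ℝ)) P π Φ
    measurable_fst (c := fun _ => vsys fld (Function.update y (κ, j) 0))
    (fun _ => measurable_const) (fun i => (measurable_pi_apply i).comp measurable_snd) st
  cont W st := by
    unfold vdegW vbw
    exact (Real.continuous_exp.comp (continuous_vham_comp P (vbpat π Φ) (vbspin π Φ) (vqd π Φ)
      continuous_const continuous_id st)).const_mul _
  pos W G st := mul_pos (vpwt_pos π W st) (Real.exp_pos _)
  indep W G G' h := by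
    set c0 : VCIdx N M d R D K → ℝ := vsys fld (Function.update y (κ, j) 0)
    have hl : ∀ b : VState π K n → VGIdx N M d R D K n → ℝ,
        lin b (vpull c0) G = lin b (vpull c0) G' := fun b => by
      funext st
      refine Finset.sum_congr rfl fun i _ => ?_
      by_cases hi : i ∈ Finset.univ.filter fun i =>
          vpull (vdegC (N := N) (M := M) (d := d) (D := D) (K := K) κ j) i ≠ 0
      · have h0 : vpull c0 i = 0 := by
          simp only [Finset.mem_filter, Finset.mem_univ, true_and] at hi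
          rcases i with p | ⟨o, l⟩ <;> exact ((vsys_split hf y κ j 0 _).2).resolve_left hi
        rw [h0]; simp
      · rw [h i hi]
    funext st
    have hfld : ∀ a, vfld (vbpat π Φ) (vpull c0) G st a = vfld (vbpat π Φ) (vpull c0) G' st a :=
      fun a => funext fun k => congrFun (hl (vbpat π Φ a k)) st
    simp only [vdegW, vbw, vham, c0] at hfld hl ⊢
    simp only [hfld, hl]
  supp st i hi := by
    simp only [Finset.mem_filter, Finset.mem_univ, true_and, not_not] at hi
    simp [vdegB, hi]
  unit st := vdegB_unit π Φ hJ κ j st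

/-- The system as the compensated tilt of the system without the degree. -/
theorem vmbw_line (P : VPot d) (π : VPrior N d R D) (Φ : VFac N d K) (hJ : J ≤ D)
    {fld : VCIdx N M d R D K → ℝ} (hf : PertZero fld) (y : Fin R × Fin J → ℝ) (κ : Fin R)
    (j : Fin J) {v : ℝ} (hv : 0 ≤ v) (p : (Node K n → ℝ) × (VGIdx N M d R D K n → ℝ))
    (st : VState π K n) :
    vbw P (vpwt π p.1) (vbpat π Φ) (vbspin π Φ) (vqd π Φ)
        (vpull (vsys fld (Function.update y (κ, j) v))) p.2 st
      = Real.exp (-((amp J j * v) ^ 2 / 2))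
        * rtilt (vdegW P π Φ fld y κ j) (vdegB π Φ κ j) (amp J j * v) p st := by
  set t := amp J j * v
  have ht : 0 ≤ t := mul_nonneg (amp_pos' j).le hv
  set c0 : VCIdx N M d R D K → ℝ := vsys fld (Function.update y (κ, j) 0)
  set dC : VGIdx N M d R D K n → ℝ := vpull (vdegC κ j)
  set c : VGIdx N M d R D K n → ℝ := vpull (vsys fld (Function.update y (κ, j) v))
  have hc : ∀ i, c i = vpull c0 i + t ^ 2 * dC i := fun i => by
    rcases i with q | ⟨o, l⟩ <;> exact (vsys_split hf y κ j v _).1
  have hdisj : ∀ i, dC i = 0 ∨ vpull c0 i = 0 := fun i => by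
    rcases i with q | ⟨o, l⟩ <;> exact (vsys_split hf y κ j v _).2
  have hsq : ∀ i, √(c i) = √(vpull c0 i) + t * √(dC i) := fun i => by
    rw [hc]
    rcases hdisj i with h | h <;> rw [h] <;>
      simp [Real.sqrt_mul (sq_nonneg t), Real.sqrt_sq ht]
  have hlinb : ∀ a k, lin (vbpat π Φ a k) c p.2 st = lin (vbpat π Φ a k) (vpull c0) p.2 st :=
    fun a k => Finset.sum_congr rfl fun i _ => by
      rw [hsq]
      rcases eq_or_ne (dC i) 0 with h | h
      · simp [h]
      · rw [(mul_eq_zero.1 (vdegC_vbpat π Φ κ j a k st i)).resolve_left h]; simp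
  have hlinz : lin (vbspin π Φ) c p.2 st
      = lin (vbspin π Φ) (vpull c0) p.2 st + t * ∑ i, vdegB π Φ κ j st i * p.2 i := by
    simp only [lin, Finset.mul_sum, vdegB, ← Finset.sum_add_distrib]
    refine Finset.sum_congr rfl fun i _ => ?_
    rw [hsq]
    ring
  have hcov : ∑ i, c i * vbspin π Φ st i ^ 2
      = (∑ i, vpull c0 i * vbspin π Φ st i ^ 2) + t ^ 2 := by
    have h := vdegB_unit (M := M) π Φ hJ κ j st
    simp only [hc, add_mul, Finset.sum_add_distrib, add_right_inj, mul_assoc, ← Finset.mul_sum]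
    rw [show ∑ i, dC i * vbspin π Φ st i ^ 2 = 1 from (Finset.sum_congr rfl fun i _ => by
      rw [vdegB, mul_pow, Real.sq_sqrt (vpull_vdegC_nonneg κ j i)]).trans h, mul_one]
  have hqd : ∑ i, c i * vqd π Φ st i = ∑ i, vpull c0 i * vqd π Φ st i :=
    Finset.sum_congr rfl fun i _ => by
      rw [hc, add_mul, mul_assoc, vdegC_vqd, mul_zero, add_zero]
  have hham : vham P (vbpat π Φ) (vbspin π Φ) (vqd π Φ) c p.2 st
      = vham P (vbpat π Φ) (vbspin π Φ) (vqd π Φ) (vpull c0) p.2 st
        + t * (∑ i, vdegB π Φ κ j st i * p.2 i) - t ^ 2 / 2 := by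
    simp only [vham, hlinz, hcov, hqd]
    have hfld : ∀ a, vfld (vbpat π Φ) c p.2 st a = vfld (vbpat π Φ) (vpull c0) p.2 st a :=
      fun a => funext fun k => hlinb a k
    simp only [hfld]
    ring
  simp only [rtilt, vdegW, vbw, c0] at hham ⊢
  rw [hham, sub_eq_add_neg, Real.exp_add, Real.exp_add]
  ring

/-- Replica averages of the system as those of the tilt. -/
theorem reavg_vline (P : VPot d) (π : VPrior N d R D) (Φ : VFac N d K) (hJ : J ≤ D)
    {fld : VCIdx N M d R D K → ℝ} (hf : PertZero fld) (y : Fin R × Fin J → ℝ) (κ : Fin R)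
    (j : Fin J) {v : ℝ} (hv : 0 ≤ v) (r : ℕ)
    (F : (Node K n → ℝ) × (VGIdx N M d R D K n → ℝ) → (Fin r → VState π K n) → ℝ) :
    reavg (venv N M d R D K n) (vmbw P π Φ (vsys fld (Function.update y (κ, j) v))) r F
      = ravg (casW (mlev K) n) (vdegW P π Φ fld y κ j) (vdegB π Φ κ j) (amp J j * v) r
          (fun W G => F (W, G)) := by
  refine integral_congr_ae ?_
  filter_upwards [Measure.quasiMeasurePreserving_fst.ae (ae_posV (mlev K))] with p hp
  have e : vmbw P π Φ (vsys fld (Function.update y (κ, j) v)) p = fun st =>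
      Real.exp (-((amp J j * v) ^ 2 / 2))
        * rtilt (vdegW P π Φ fld y κ j) (vdegB π Φ κ j) (amp J j * v) p st := funext fun st => by
    rw [← vmbw_line P π Φ hJ hf y κ j hv]
    simp only [vmbw, vpwt, hp]
  simp only [avg, gibbs, e, ← Finset.mul_sum, mul_div_mul_left _ _ (Real.exp_pos _).ne']

/-- The logarithm of the total weight is integrable. -/
theorem integrable_log_vmbw (P : VPot d) (π : VPrior N d R D) (Φ : VFac N d K) (hn : 0 < n)
    (c : VCIdx N M d R D K → ℝ) :
    Integrable (fun p => Real.log (∑ st, vmbw P π Φ c p st)) (venv N M d R D K n) := by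
  have := vstate_nonempty (K := K) π hn
  set B := ∑ i, |vpull (n := n) c i|
  have hB : ∀ i, |vpull (n := n) c i| ≤ B := fun i =>
    Finset.single_le_sum (f := fun i => |vpull (n := n) c i|) (fun _ _ => abs_nonneg _)
      (Finset.mem_univ i)
  have hg : Integrable (fun p : (Node K n → ℝ) × (VGIdx N M d R D K n → ℝ) =>
      |Real.log (∑ st, vpwt π p.1 st)| + VItp.vlenv P M (vbspin π Φ) (vqd π Φ) B p.2)
      ((casW (mlev K) n).prod (gaus (VGIdx N M d R D K n))) :=
    ((integrable_log_vpwt (K := K) (n := n) π hn).abs.comp_fst _).add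
      ((VItp.integrable_vlenv (M := M) P (vbspin (n := n) π Φ) (vqd π Φ) B).comp_snd _)
  refine hg.mono' (Finset.measurable_sum _ fun st _ =>
    (continuous_vmbw P π Φ c st).measurable).log.aestronglyMeasurable ?_
  filter_upwards [Measure.quasiMeasurePreserving_fst.ae (ae_posV (mlev K))] with p hp
  have h := VItp.abs_vlog_env P (vbpat π Φ) (vbspin π Φ) (vqd π Φ) (vpwt_pos π p.1) hB p.2
  rw [Real.norm_eq_abs]
  simp only [vpwt, hp] at h ⊢
  exact h

theorem vlog_line (P : VPot d) (π : VPrior N d R D) (Φ : VFac N d K) (hn : 0 < n) (hJ : J ≤ D)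
    {fld : VCIdx N M d R D K → ℝ} (hf : PertZero fld) (y : Fin R × Fin J → ℝ) (κ : Fin R)
    (j : Fin J) {v : ℝ} (hv : 0 ≤ v) :
    ∀ᵐ p ∂venv N M d R D K n,
      Real.log (∑ st, rtilt (vdegW P π Φ fld y κ j) (vdegB π Φ κ j) (amp J j * v) p st)
        = Real.log (∑ st, vmbw P π Φ (vsys fld (Function.update y (κ, j) v)) p st)
          + (amp J j * v) ^ 2 / 2 := by
  have := vstate_nonempty (K := K) π hn
  filter_upwards [Measure.quasiMeasurePreserving_fst.ae (ae_posV (mlev K))] with p hp
  have e : ∀ st, vmbw P π Φ (vsys fld (Function.update y (κ, j) v)) p st =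
      Real.exp (-((amp J j * v) ^ 2 / 2))
        * rtilt (vdegW P π Φ fld y κ j) (vdegB π Φ κ j) (amp J j * v) p st := fun st => by
    rw [← vmbw_line P π Φ hJ hf y κ j hv]
    simp only [vmbw, vpwt, hp]
  have hpos := Itp.sum_u_pos fun st =>
    rtilt_pos (vdegW_hyp P π Φ hJ hf y κ j) (amp J j * v) p st
  simp only [e, ← Finset.mul_sum]
  rw [Real.log_mul (Real.exp_pos _).ne' hpos.ne', Real.log_exp]
  ring

theorem rlogz_vline (P : VPot d) (π : VPrior N d R D) (Φ : VFac N d K) (hn : 0 < n) (hJ : J ≤ D)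
    {fld : VCIdx N M d R D K → ℝ} (hf : PertZero fld) (y : Fin R × Fin J → ℝ) (κ : Fin R)
    (j : Fin J) {v : ℝ} (hv : 0 ≤ v) :
    Integrable (fun p => Real.log (∑ st,
        rtilt (vdegW (M := M) P π Φ fld y κ j) (vdegB π Φ κ j) (amp J j * v) p st))
        (venv N M d R D K n) ∧
      rlogz (casW (mlev K) n) (vdegW (M := M) P π Φ fld y κ j) (vdegB π Φ κ j) (amp J j * v)
        = (∫ p, Real.log (∑ st, vmbw P π Φ (vsys fld (Function.update y (κ, j) v)) p st)
            ∂venv N M d R D K n) + (amp J j * v) ^ 2 / 2 := by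
  have he := vlog_line (n := n) P π Φ hn hJ hf y κ j hv
  have hi := integrable_log_vmbw (n := n) P π Φ hn (vsys fld (Function.update y (κ, j) v))
  have hi' := (hi.add (integrable_const ((amp J j * v) ^ 2 / 2))).congr (he.mono fun p h => h.symm)
  refine ⟨hi', ?_⟩
  rw [rlogz, show (casW (mlev K) n).prod (gaus (VGIdx N M d R D K n)) = venv N M d R D K n from rfl,
    integral_congr_ae he, integral_add hi (integrable_const _)]
  simp

/-- The identity of one degree at fixed parameters, from concentration at three points. -/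
theorem vgg_point (P : VPot d) (π : VPrior N d R D) (Φ : VFac N d K) (hn : 0 < n) (hJ : J ≤ D)
    {fld : VCIdx N M d R D K → ℝ} (hf : PertZero fld) (y : Fin R × Fin J → ℝ) (κ : Fin R)
    (j : Fin J) {v δ C : ℝ} (hδ : 0 < δ) (hδ1 : δ ≤ 1) (hv : 1 ≤ v)
    (hC : ∀ s, s = v - δ ∨ s = v ∨ s = v + δ →
      ∫ p, |Real.log (∑ st, vmbw P π Φ (vsys fld (Function.update y (κ, j) s)) p st)
        - ∫ q, Real.log (∑ st, vmbw P π Φ (vsys fld (Function.update y (κ, j) s)) q st)
          ∂venv N M d R D K n| ∂venv N M d R D K n ≤ C)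
    (r : ℕ) {F : (Node K n → ℝ) × (VGIdx N M d R D K n → ℝ) → (Fin (r + 1) → VState π K n) → ℝ}
    (hF : PertFree F) :
    |rdef (venv N M d R D K n) (vmbw P π Φ (vsys fld (Function.update y (κ, j) v)))
        (fun s s' => vS π κ s s' ^ (j.val + 1)) r F|
      ≤ ggErr (casW (mlev K) n) (vdegW (M := M) P π Φ fld y κ j) (vdegB π Φ κ j) (amp J j) δ C v := by
  have := vstate_nonempty (K := K) π hn
  have hH := vdegW_hyp (M := M) (n := n) P π Φ hJ hf y κ j
  have hv0 : 0 ≤ v := zero_le_one.trans hv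
  have hi0 : Integrable (fun p => Real.log (∑ st,
      rtilt (vdegW (M := M) P π Φ fld y κ j) (vdegB π Φ κ j) 0 p st))
      ((casW (mlev K) n).prod (gaus (VGIdx N M d R D K n))) := by
    have := (rlogz_vline (n := n) P π Φ hn hJ hf y κ j (le_refl (0 : ℝ))).1
    simpa only [mul_zero, venv] using this
  have hT : RTest (Finset.univ.filter fun i => vpull (vdegC κ j) i ≠ 0) (fun W G => F (W, G)) :=
    ⟨hF.meas, hF.cont, fun W G G' h => hF.indep W G G' fun i hi => h i fun hm =>
      hi (pertIdx_of_deg (Finset.mem_filter.1 hm).2), fun W G x => hF.bound _ x⟩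
  have h := rgg_point hH hi0 (amp_pos' j) hδ hv (D := C) (fun s hs => ?_) r hT
  · simp only [rdef, reavg_vline P π Φ hJ hf y κ j hv0]
    simp only [vdegB_cov π Φ hJ κ j] at h
    exact h
  · have hs0 : 0 ≤ s := by rcases hs with rfl | rfl | rfl <;> linarith
    refine (le_of_eq (integral_congr_ae ?_)).trans (hC s hs)
    filter_upwards [vlog_line (n := n) P π Φ hn hJ hf y κ j hs0] with p hp
    rw [hp, (rlogz_vline (n := n) P π Φ hn hJ hf y κ j hs0).2, add_sub_add_right_eq_sub]

end Vale.Agent.P166.Casc
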