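import Vale.Agent.P166.Casc.VGlueKer
import Vale.Agent.P166.Casc.BlockAtoms
import Vale.Agent.P166.Casc.VGGModel
import Vale.Agent.P166.Formula.Value

/-!
GLUE: the system of old spins and a confined block of new ones is dominated by the system of the
larger size, up to the price of the penalty on the shell and of the change of the kernels.
-/

open MeasureTheory ProbabilityTheory Filter Topology Set

namespace Vale.Agent.P166.Casc

open Vale.Agent.P157.Casc Vale.Agent.P166.Pen Vale.Agent.P166.Formula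

variable {N N' m M mr d R D K L : ℕ}

/-- A map with finitely many values gives atoms. -/
theorem atoms_of_map {E : Type*} [PseudoMetricSpace E] [MeasurableSpace E]
    [MeasurableSingletonClass E] (ν : Measure E) [IsFiniteMeasure ν] (hν : ν ≠ 0) {S : Set E}
    {ε : ℝ} {φ : E → E} (hm : Measurable φ) (hmem : ∀ y, φ y ∈ S) (hfin : (range φ).Finite)
    (hclose : ∀ y ∈ S, dist (φ y) y ≤ ε) : ∃ a : Atoms ν S ε, a.φ = φ := by
  classical
  have : Fintype (range φ) := hfin.fintype
  have hri : ∀ x : range φ, MeasurableSet (φ ⁻¹' {(x : E)}) := fun x =>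
    hm (measurableSet_singleton _)
  set i' : E → range φ := fun y => ⟨φ y, mem_range_self y⟩
  have hi' : Measurable i' := hm.subtype_mk
  have : IsFiniteMeasure (ν.map i') := Measure.isFiniteMeasure_map ν i'
  set ι := {x : range φ // 0 < ν.real (φ ⁻¹' {(x : E)})}
  set q := Fintype.equivFin ι
  have hrepr : ∀ h : E → ℝ, ∑ x : range φ, ν.real (φ ⁻¹' {(x : E)}) * h x = ∫ y, h (φ y) ∂ν :=
    fun h => by
      rw [show (fun y => h (φ y)) = fun y => (fun x : range φ => h x) (i' y) from rfl,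
        ← integral_map (φ := i') (f := fun x : range φ => h x) hi'.aemeasurable
          (measurable_of_finite _).aestronglyMeasurable, integral_fintype Integrable.of_finite]
      refine Finset.sum_congr rfl fun x _ => ?_
      rw [smul_eq_mul, map_measureReal_apply hi' (measurableSet_singleton _)]
      congr 2
      ext y
      simp [i', Subtype.ext_iff]
  have hsub : ∀ h : E → ℝ, ∑ σ : Fin (Fintype.card ι),
      ν.real (φ ⁻¹' {((q.symm σ).val : E)}) * h (q.symm σ).val = ∫ y, h (φ y) ∂ν := fun h => by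
    rw [← hrepr h,
      Equiv.sum_comp q.symm (fun x : ι => ν.real (φ ⁻¹' {(x.val : E)}) * h x.val),
      ← Finset.sum_subtype (Finset.univ.filter fun x : range φ => 0 < ν.real (φ ⁻¹' {(x : E)}))
        (by simp) fun x => ν.real (φ ⁻¹' {(x : E)}) * h x]
    refine Finset.sum_subset (Finset.subset_univ _) fun x _ hx => ?_
    simp only [Finset.mem_filter, Finset.mem_univ, true_and, not_lt] at hx
    rw [le_antisymm hx measureReal_nonneg, zero_mul]
  have hpos : 0 < Fintype.card ι := by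
    rw [Fintype.card_pos_iff]
    by_contra hno
    have h1 := hsub fun _ => 1
    rw [not_nonempty_iff] at hno
    have : IsEmpty (Fin (Fintype.card ι)) := q.symm.isEmpty
    simp at h1
    exact hν (Measure.measure_univ_eq_zero.1 ((measureReal_eq_zero_iff).1 (by simpa using h1.symm)))
  exact ⟨⟨Fintype.card ι, hpos, fun σ => ν.real (φ ⁻¹' {((q.symm σ).val : E)}),
    fun σ => (q.symm σ).val, φ, fun σ => (q.symm σ).2,
    fun σ => by obtain ⟨y, hy⟩ := (q.symm σ).val.2; rw [← hy]; exact hmem y,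
    hm, hmem, hfin, hclose, hsub⟩, rfl⟩

section Split

variable (e : Fin N ⊕ Fin m ≃ Fin N')

/-- The old and the new part of a configuration. -/
def splitCfg (ω : Fin d → Fin N' → ℝ) : (Fin d → Fin N → ℝ) × (Fin d → Fin m → ℝ) :=
  (fun k i => ω k (e (Sum.inl i)), fun k i => ω k (e (Sum.inr i)))

theorem split_glue (a : Fin d → Fin N → ℝ) (b : Fin d → Fin m → ℝ) :
    splitCfg e (glueCfg e a b) = (a, b) := by
  simp [splitCfg, glueCfg]

theorem glue_split (ω : Fin d → Fin N' → ℝ) :
    glueCfg e (splitCfg e ω).1 (splitCfg e ω).2 = ω := by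
  funext k j
  obtain ⟨s | s, rfl⟩ := e.surjective j <;> simp [glueCfg, splitCfg]

theorem measurable_glueCfg :
    Measurable fun p : (Fin d → Fin N → ℝ) × (Fin d → Fin m → ℝ) => glueCfg e p.1 p.2 := by
  refine measurable_pi_lambda _ fun k => measurable_pi_lambda _ fun j => ?_
  unfold glueCfg
  rcases e.symm j with i | i <;> simp only [Sum.elim_inl, Sum.elim_inr] <;> fun_prop

/-- Gaussian spins split into independent Gaussian parts. -/
theorem mp_splitCfg : MeasurePreserving (splitCfg (d := d) e) (spinLaw d N')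
    ((spinLaw d N).prod (spinLaw d m)) := by
  have h1 : MeasurePreserving (fun (ω : Fin d → Fin N' → ℝ) (p : Fin d × Fin N') => ω p.1 p.2)
      (spinLaw d N') (gaus (Fin d × Fin N')) := mp_uncurry d N'
  set f : (Fin d × Fin N) ⊕ (Fin d × Fin m) → Fin d × Fin N' :=
    Sum.elim (fun p => (p.1, e (Sum.inl p.2))) fun p => (p.1, e (Sum.inr p.2))
  have hf : Function.Injective f := fun p q h => by
    rcases p with p | p <;> rcases q with q | q <;> simp [f, Prod.ext_iff] at h ⊢ <;> exact h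
  have h2 : MeasurePreserving (fun (w : Fin d × Fin N' → ℝ) p => w (f p))
      (gaus (Fin d × Fin N')) (gaus ((Fin d × Fin N) ⊕ (Fin d × Fin m))) :=
    P157.mp_comp (gaussianReal 0 1) hf
  have h3 : MeasurePreserving
      (MeasurableEquiv.sumPiEquivProdPi fun _ : (Fin d × Fin N) ⊕ (Fin d × Fin m) => ℝ)
      (gaus ((Fin d × Fin N) ⊕ (Fin d × Fin m)))
      ((gaus (Fin d × Fin N)).prod (gaus (Fin d × Fin m))) :=
    measurePreserving_sumPiEquivProdPi fun _ => gaussianReal 0 1
  exact (((mp_curry_fin d N).prod (mp_curry_fin d m)).comp h3).comp (h2.comp h1)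

end Split

section Penalty

variable {τ B : ℝ} {γ : Fin d → ℝ} (e : Fin N ⊕ Fin m ≃ Fin N')

/-- The penalty of a glued configuration: that of the old part and the price of the shell. -/
theorem penalty_glue (hτ : 0 ≤ τ) (hN : 0 < N) (hm : 0 < m)
    (he : ∀ i, typ γ (e (Sum.inl i)) = typ γ i) {dd : OIdx d → ℝ} (hdd : Clean γ dd)
    {es e1 : ℝ} (hes : 0 ≤ es) (he1 : 0 ≤ e1) (Dt : Finset (Fin d) → Matrix (Fin d) (Fin d) ℝ)
    (hD : ∀ t, Occupied γ t → ∀ k ∈ t, ∀ l ∈ t,
      |Dt t k l * typSize (fun i => typ γ (e (Sum.inr i))) t / m - dd (t, k, l)| ≤ e1)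
    (a : Fin d → Fin N → ℝ) {b : Fin d → Fin m → ℝ}
    (hb : b ∈ shellSet (fun i => typ γ (e (Sum.inr i))) τ es B Dt) :
    (N' : ℝ) * ∑ i, (ovl τ γ (glueCfg e a b) i - dd i) ^ 2
      ≤ N * ∑ i, (ovl τ γ a i - dd i) ^ 2 + m * Fintype.card (OIdx d) * (es + e1) ^ 2 := by
  set T : Fin m → Finset (Fin d) := fun i => typ γ (e (Sum.inr i))
  have hN0 : (0 : ℝ) < N := Nat.cast_pos.2 hN
  have hm0 : (0 : ℝ) < m := Nat.cast_pos.2 hm
  have hN' : (N' : ℝ) = N + m := by
    have h := Fintype.card_congr e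
    simp only [Fintype.card_sum, Fintype.card_fin] at h
    exact_mod_cast h.symm
  have key : ∀ i : OIdx d, (N' : ℝ) * (ovl τ γ (glueCfg e a b) i - dd i) ^ 2
      ≤ N * (ovl τ γ a i - dd i) ^ 2 + m * (es + e1) ^ 2 := fun i => by
    obtain ⟨t, k, l⟩ := i
    have hnn : 0 ≤ (m : ℝ) * (es + e1) ^ 2 := by positivity
    by_cases hkl : k ∈ t ∧ l ∈ t
    swap
    · have hz : dd (t, k, l) = 0 := hdd.2 t k l fun h => hkl h.2
      simp only [ovl, hkl, if_false, hz, sub_zero, zero_pow two_ne_zero, mul_zero, zero_add]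
      exact hnn
    set c := τ / m * ∑ i ∈ typSet T t, b k i * b l i with hc
    have hsplit : (N' : ℝ) * ovl τ γ (glueCfg e a b) (t, k, l)
        = N * ovl τ γ a (t, k, l) + m * c := by
      simp only [ovl, hkl, if_true, hc, ← mul_assoc, and_self]
      rw [mul_div_cancel₀ _ (by rw [hN']; positivity : (N' : ℝ) ≠ 0), mul_div_cancel₀ _ hN0.ne',
        mul_div_cancel₀ _ hm0.ne', Finset.sum_filter, sum_glue e, mul_add, Finset.sum_filter,
        typSet, Finset.sum_filter]
      simp only [glueCfg_inl, glueCfg_inr, he, T]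
    have hcd : |c - dd (t, k, l)| ≤ es + e1 := by
      rcases Nat.eq_zero_or_pos (typSize T t) with h0 | h0
      · have hemp : typSet T t = ∅ := Finset.card_eq_zero.1 h0
        have hc0 : c = 0 := by rw [hc, hemp, Finset.sum_empty, mul_zero]
        rw [hc0, zero_sub, abs_neg]
        by_cases ho : Occupied γ t
        · have h := hD t ho k hkl.1 l hkl.2
          rw [h0, Nat.cast_zero, mul_zero, zero_div, zero_sub, abs_neg] at h
          linarith
        · rw [hdd.2 t k l fun h => ho h.1, abs_zero]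
          positivity
      · obtain ⟨i, hi⟩ := Finset.card_pos.1 h0
        have hTi : T i = t := (Finset.mem_filter.1 hi).2
        have ho : Occupied γ t := by
          rcases typ_nonocc γ (e (Sum.inr i)) with h | h
          · rw [show typ γ (e (Sum.inr i)) = t from hTi] at h
            rw [h] at hkl
            simp at hkl
          · rwa [show typ γ (e (Sum.inr i)) = t from hTi] at h
        have hs := hb.2 i k (hTi ▸ hkl.1) l (hTi ▸ hkl.2)
        rw [hTi] at hs
        have hsz : (0 : ℝ) < typSize T t := Nat.cast_pos.2 h0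
        have hle : (typSize T t : ℝ) / m ≤ 1 := by
          rw [div_le_one hm0]
          exact_mod_cast (Finset.card_le_univ (typSet T t)).trans_eq (Fintype.card_fin m)
        have hc' : c = typeOv T τ b t k l * (typSize T t / m) := by
          rw [typeOv, div_mul_div_cancel₀ hsz.ne', hc, div_mul_eq_mul_div, Finset.mul_sum]
          refine congrArg (· / (m : ℝ)) (Finset.sum_congr rfl fun j hj => ?_)
          have hTj : T j = t := (Finset.mem_filter.1 hj).2
          simp only [maskCfg, hTj, hkl.1, hkl.2, if_true]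
          linear_combination -(b k j * b l j) * Real.mul_self_sqrt hτ
        rw [show c - dd (t, k, l) = (typeOv T τ b t k l - Dt t k l) * (typSize T t / m)
          + (Dt t k l * typSize T t / m - dd (t, k, l)) by rw [hc']; ring]
        refine (abs_add_le _ _).trans (add_le_add ?_ (hD t ho k hkl.1 l hkl.2))
        rw [abs_mul, abs_of_nonneg (show 0 ≤ (typSize T t : ℝ) / m by positivity)]
        exact (mul_le_mul hs hle (by positivity) hes).trans_eq (mul_one es)
    set u := ovl τ γ a (t, k, l) - dd (t, k, l)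
    set v := c - dd (t, k, l)
    set x := ovl τ γ (glueCfg e a b) (t, k, l) - dd (t, k, l)
    have hx : (N' : ℝ) * x = N * u + m * v := by
      simp only [x, u, v, mul_sub, hsplit]
      rw [hN']
      ring
    have hv : v ^ 2 ≤ (es + e1) ^ 2 := sq_le_sq' (neg_le_of_abs_le hcd) (le_of_abs_le hcd)
    have h2 := mul_le_mul_of_nonneg_left hv hm0.le
    have hNp : (0 : ℝ) < N' := by rw [hN']; positivity
    refine le_trans (le_of_mul_le_mul_left ?_ hNp) (add_le_add le_rfl h2)
    calc (N' : ℝ) * (N' * x ^ 2) = (N * u + m * v) ^ 2 := by rw [← hx]; ring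
      _ ≤ _ := by
        rw [hN']
        nlinarith [mul_nonneg (mul_nonneg hN0.le hm0.le) (sq_nonneg (u - v))]
  rw [Finset.mul_sum, Finset.mul_sum]
  refine (Finset.sum_le_sum fun i _ => key i).trans (le_of_eq ?_)
  rw [Finset.sum_add_distrib, Finset.sum_const, Finset.card_univ, nsmul_eq_mul]
  ring

end Penalty

section Measure

variable {τ B lam : ℝ} {γ : Fin d → ℝ}

theorem integral_spinMeas' (d' : OIdx d → ℝ) (g : (Fin d → Fin N → ℝ) → ℝ) :
    ∫ ω, g ω ∂spinMeas τ γ B lam d' N
      = ∫ ω in cutSet B d N,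
          Real.exp (-(lam * N * ∑ i, (ovl τ γ ω i - d' i) ^ 2)) * g ω ∂spinLaw d N := by
  have hm : Measurable fun ω : Fin d → Fin N → ℝ =>
      Real.exp (-(lam * N * ∑ i, (ovl τ γ ω i - d' i) ^ 2)) := by
    have := fun i => measurable_ovl (N := N) τ γ i
    fun_prop
  rw [spinMeas, integral_withDensity_eq_integral_toReal_smul hm.ennreal_ofReal
    (ae_of_all _ fun ω => ENNReal.ofReal_lt_top)]
  refine integral_congr_ae (ae_of_all _ fun ω => ?_)
  dsimp only
  rw [ENNReal.toReal_ofReal (Real.exp_pos _).le, smul_eq_mul]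

/-- The glued measure is dominated by the measure of the larger system. -/
theorem glue_measure_le (hτ : 0 ≤ τ) (hlam : 0 ≤ lam) (hN : 0 < N) (hm : 0 < m)
    (e : Fin N ⊕ Fin m ≃ Fin N') (he : ∀ i, typ γ (e (Sum.inl i)) = typ γ i) {dd : OIdx d → ℝ}
    (hdd : Clean γ dd) {es e1 : ℝ} (hes : 0 ≤ es) (he1 : 0 ≤ e1)
    (Dt : Finset (Fin d) → Matrix (Fin d) (Fin d) ℝ)
    (hD : ∀ t, Occupied γ t → ∀ k ∈ t, ∀ l ∈ t,
      |Dt t k l * typSize (fun i => typ γ (e (Sum.inr i))) t / m - dd (t, k, l)| ≤ e1)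
    {H : (Fin d → Fin N' → ℝ) → ℝ} (hH : Measurable H) (hH0 : ∀ ω, 0 ≤ H ω) {CH : ℝ}
    (hHb : ∀ ω, |H ω| ≤ CH) :
    ∫ a, (∫ b, H (glueCfg e a b)
        ∂(spinLaw d m).restrict (shellSet (fun i => typ γ (e (Sum.inr i))) τ es B Dt))
          ∂spinMeas τ γ B lam dd N
      ≤ Real.exp (lam * m * Fintype.card (OIdx d) * (es + e1) ^ 2)
          * ∫ ω, H ω ∂spinMeas τ γ B lam dd N' := by
  set Sh := shellSet (fun i => typ γ (e (Sum.inr i))) τ es B Dt
  set c := lam * m * Fintype.card (OIdx d) * (es + e1) ^ 2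
  set pN : (Fin d → Fin N → ℝ) → ℝ := fun a =>
    Real.exp (-(lam * N * ∑ i, (ovl τ γ a i - dd i) ^ 2))
  set pN' : (Fin d → Fin N' → ℝ) → ℝ := fun ω =>
    Real.exp (-(lam * N' * ∑ i, (ovl τ γ ω i - dd i) ^ 2))
  set G : (Fin d → Fin N → ℝ) × (Fin d → Fin m → ℝ) → ℝ := fun p =>
    pN p.1 * H (glueCfg e p.1 p.2)
  have hpN : Measurable pN := by
    have := fun i => measurable_ovl (N := N) τ γ i
    fun_prop
  have hpN' : Measurable pN' := by
    have := fun i => measurable_ovl (N := N') τ γ i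
    fun_prop
  have hG : Measurable G := (hpN.comp measurable_fst).mul (hH.comp (measurable_glueCfg e))
  have hp1 : ∀ a, pN a ≤ 1 := fun a => Real.exp_le_one_iff.2 (neg_nonpos.2
    (mul_nonneg (mul_nonneg hlam (Nat.cast_nonneg N)) (Finset.sum_nonneg fun i _ => sq_nonneg _)))
  have hp1' : ∀ a, pN' a ≤ 1 := fun a => Real.exp_le_one_iff.2 (neg_nonpos.2
    (mul_nonneg (mul_nonneg hlam (Nat.cast_nonneg N')) (Finset.sum_nonneg fun i _ => sq_nonneg _)))
  have hGb : ∀ p, |G p| ≤ CH := fun p => by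
    simp only [G, abs_mul, abs_of_pos (Real.exp_pos _), pN]
    exact (mul_le_mul (hp1 p.1) (hHb _) (abs_nonneg _) zero_le_one).trans_eq (one_mul _)
  have hS : MeasurableSet (cutSet B d N ×ˢ Sh) :=
    (measurableSet_cut B d N).prod (isClosed_shellSet _ τ es B Dt).measurableSet
  have hGi : IntegrableOn G (cutSet B d N ×ˢ Sh) ((spinLaw d N).prod (spinLaw d m)) :=
    (integrable_of_bdd hG.aestronglyMeasurable hGb).integrableOn
  have e1' : ∫ a, (∫ b, H (glueCfg e a b) ∂(spinLaw d m).restrict Sh) ∂spinMeas τ γ B lam dd N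
      = ∫ ω, (cutSet B d N ×ˢ Sh).indicator G (splitCfg e ω) ∂spinLaw d N' := by
    rw [integral_spinMeas']
    simp only [← integral_const_mul]
    rw [← setIntegral_prod G hGi, ← integral_indicator hS, ← (mp_splitCfg e).map_eq,
      integral_map (mp_splitCfg e).measurable.aemeasurable
        (by rw [(mp_splitCfg e).map_eq]; exact (hG.indicator hS).aestronglyMeasurable)]
  rw [e1', integral_spinMeas', ← integral_const_mul, ← integral_indicator (measurableSet_cut B d N')]
  refine integral_mono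
    (integrable_of_bdd (C := CH) ((hG.indicator hS).comp (mp_splitCfg e).measurable).aestronglyMeasurable
      fun ω => ?_)
    (integrable_of_bdd (C := Real.exp c * CH)
      ((measurable_const.mul (hpN'.mul hH)).indicator (measurableSet_cut B d N')).aestronglyMeasurable
      fun ω => ?_) fun ω => ?_
  · by_cases h : splitCfg e ω ∈ cutSet B d N ×ˢ Sh
    · simpa [Set.indicator_of_mem h] using hGb _
    · simp [Set.indicator_of_notMem h]
      exact (abs_nonneg _).trans (hHb ω)
  · by_cases h : ω ∈ cutSet B d N'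
    · rw [Set.indicator_of_mem h]
      simp only [abs_mul, abs_of_pos (Real.exp_pos _)]
      exact mul_le_mul_of_nonneg_left ((mul_le_mul (hp1' ω) (hHb ω) (abs_nonneg _)
        zero_le_one).trans_eq (one_mul _)) (Real.exp_pos _).le
    · rw [Set.indicator_of_notMem h, abs_zero]
      exact mul_nonneg (Real.exp_pos _).le ((abs_nonneg _).trans (hHb ω))
  by_cases h : splitCfg e ω ∈ cutSet B d N ×ˢ Sh
  · obtain ⟨h1, h2⟩ := h
    have hcut : ω ∈ cutSet B d N' := glue_split e ω ▸ glueCfg_mem e h1 h2.1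
    rw [Set.indicator_of_mem (show splitCfg e ω ∈ cutSet B d N ×ˢ Sh from ⟨h1, h2⟩),
      Set.indicator_of_mem hcut]
    simp only [G, glue_split]
    rw [← mul_assoc]
    refine mul_le_mul_of_nonneg_right ?_ (hH0 ω)
    simp only [pN, ← Real.exp_add]
    refine Real.exp_le_exp.2 ?_
    have hp := penalty_glue e hτ hN hm he hdd hes he1 Dt hD (splitCfg e ω).1 h2
    rw [glue_split] at hp
    have := mul_le_mul_of_nonneg_left hp hlam
    simp only [c]
    linarith
  · rw [Set.indicator_of_notMem h]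
    exact Set.indicator_nonneg (fun ω _ => mul_nonneg (Real.exp_pos _).le
      (mul_nonneg (Real.exp_pos _).le (hH0 ω))) ω

/-- Atoms of the larger system that dominate glued atoms. -/
theorem glue_atoms (hτ : 0 ≤ τ) (hlam : 0 ≤ lam) (hN : 0 < N) (hm : 0 < m)
    (e : Fin N ⊕ Fin m ≃ Fin N') (he : ∀ i, typ γ (e (Sum.inl i)) = typ γ i) {dd : OIdx d → ℝ}
    (hdd : Clean γ dd) {es e1 : ℝ} (hes : 0 ≤ es) (he1 : 0 ≤ e1)
    (Dt : Finset (Fin d) → Matrix (Fin d) (Fin d) ℝ)
    (hD : ∀ t, Occupied γ t → ∀ k ∈ t, ∀ l ∈ t,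
      |Dt t k l * typSize (fun i => typ γ (e (Sum.inr i))) t / m - dd (t, k, l)| ≤ e1)
    {εa εb del : ℝ} (hdel : 0 < del)
    (a : Atoms (spinMeas τ γ B lam dd N) (cutSet B d N) εa)
    (b : Atoms ((spinLaw d m).restrict (shellSet (fun i => typ γ (e (Sum.inr i))) τ es B Dt))
      (shellSet (fun i => typ γ (e (Sum.inr i))) τ es B Dt) εb) :
    ∃ a' : Atoms (spinMeas τ γ B lam dd N') (cutSet B d N') (max (max εa εb) del),
      ∀ h : (Fin d → Fin N' → ℝ) → ℝ, (∀ ω, 0 ≤ h ω) →
        ∑ σ, a.w σ * ∑ ρ, b.w ρ * h (glueCfg e (a.x σ) (b.x ρ))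
          ≤ Real.exp (lam * m * Fintype.card (OIdx d) * (es + e1) ^ 2)
              * ∑ σ, a'.w σ * h (a'.x σ) := by
  classical
  have := spinMeas_finite (τ := τ) (γ := γ) (B := B) (N := N) hlam dd
  have := spinMeas_finite (τ := τ) (γ := γ) (B := B) (N := N') hlam dd
  set S : Set (Fin d → Fin N' → ℝ) := splitCfg e ⁻¹' (cutSet B d N ×ˢ (shellSet (fun i => typ γ (e (Sum.inr i))) τ es B Dt))
  have hS : MeasurableSet S := ((measurableSet_cut B d N).prod
    (isClosed_shellSet _ τ es B Dt).measurableSet).preimage (mp_splitCfg e).measurable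
  set ψ : (Fin d → Fin N' → ℝ) → Fin d → Fin N' → ℝ := fun ω =>
    glueCfg e (a.φ (splitCfg e ω).1) (b.φ (splitCfg e ω).2) with hψ
  have hψm : Measurable ψ :=
    (measurable_glueCfg e).comp
      (f := fun ω => (a.φ (splitCfg e ω).1, b.φ (splitCfg e ω).2))
      ((a.φ_meas.comp (measurable_fst.comp (mp_splitCfg e).measurable)).prodMk
        (b.φ_meas.comp (measurable_snd.comp (mp_splitCfg e).measurable)))
  have hψmem : ∀ ω, ψ ω ∈ cutSet B d N' := fun ω =>
    glueCfg_mem e (a.φ_mem _) (b.φ_mem _).1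
  have hψfin : (range ψ).Finite := by
    refine (a.φ_finite.image2 (fun x y => glueCfg e x y) b.φ_finite).subset ?_
    rintro _ ⟨ω, rfl⟩
    exact ⟨_, mem_range_self _, _, mem_range_self _, rfl⟩
  have hψclose : ∀ ω ∈ S, dist (ψ ω) ω ≤ max (max εa εb) del := fun ω hω => by
    have hε : 0 ≤ max (max εa εb) del := hdel.le.trans (le_max_right _ _)
    refine (dist_pi_le_iff hε).2 fun k => (dist_pi_le_iff hε).2 fun j => ?_
    conv_lhs => arg 2; rw [← glue_split e ω]
    obtain ⟨i | i, rfl⟩ := e.surjective j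
    · simp only [hψ, glueCfg_inl]
      refine le_trans ?_ ((a.close _ hω.1).trans ((le_max_left _ _).trans (le_max_left _ _)))
      exact (dist_le_pi_dist _ _ i).trans (dist_le_pi_dist _ _ k)
    · simp only [hψ, glueCfg_inr]
      refine le_trans ?_ ((b.close _ hω.2).trans ((le_max_right _ _).trans (le_max_left _ _)))
      exact (dist_le_pi_dist _ _ i).trans (dist_le_pi_dist _ _ k)
  have hνb : ∀ᵐ y ∂(spinLaw d m).restrict (shellSet (fun i => typ γ (e (Sum.inr i))) τ es B Dt), y ∈ (shellSet (fun i => typ γ (e (Sum.inr i))) τ es B Dt) :=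
    ae_restrict_mem (isClosed_shellSet _ τ es B Dt).measurableSet
  have hdom := fun (H : (Fin d → Fin N' → ℝ) → ℝ) (hH : Measurable H) (hH0 : ∀ ω, 0 ≤ H ω)
      (CH : ℝ) (hHb : ∀ ω, |H ω| ≤ CH) =>
    glue_measure_le (B := B) hτ hlam hN hm e he hdd hes he1 Dt hD hH hH0 hHb
  have hne : spinMeas τ γ B lam dd N' ≠ 0 := fun h0 => by
    have h1 := hdom (fun _ => 1) measurable_const (fun _ => zero_le_one) 1 (by simp)
    simp only [h0, integral_zero_measure, mul_zero] at h1
    have ha : ∫ _ : Fin d → Fin m → ℝ, (1 : ℝ) ∂(spinLaw d m).restrict (shellSet (fun i => typ γ (e (Sum.inr i))) τ es B Dt) = ∑ ρ, b.w ρ := by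
      rw [← b.repr fun _ => (1 : ℝ)]; simp
    rw [ha] at h1
    have hb : 0 < ∑ ρ, b.w ρ :=
      Finset.sum_pos (fun ρ _ => b.w_pos ρ) ⟨⟨0, b.c_pos⟩, Finset.mem_univ _⟩
    rw [← a.repr fun _ => ∑ ρ, b.w ρ, ← Finset.sum_mul] at h1
    have := mul_pos (Finset.sum_pos (s := Finset.univ) (fun σ _ => a.w_pos σ)
      ⟨⟨0, a.c_pos⟩, Finset.mem_univ _⟩) hb
    linarith
  obtain ⟨a0⟩ := exists_atoms (spinMeas τ γ B lam dd N') hne (isCompact_cut B d N')
    ⟨_, hψmem 0⟩ hdel
  obtain ⟨a', ha'⟩ := atoms_of_map (spinMeas τ γ B lam dd N') hne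
    (S := cutSet B d N') (ε := max (max εa εb) del) (φ := S.piecewise ψ a0.φ)
    (hψm.piecewise hS a0.φ_meas)
    (fun ω => by
      by_cases h : ω ∈ S
      · rw [Set.piecewise_eq_of_mem _ _ _ h]; exact hψmem ω
      · rw [Set.piecewise_eq_of_notMem _ _ _ h]; exact a0.φ_mem ω)
    ((hψfin.union a0.φ_finite).subset (by
      rintro _ ⟨ω, rfl⟩
      by_cases h : ω ∈ S
      · exact Or.inl ⟨ω, (Set.piecewise_eq_of_mem _ _ _ h).symm⟩
      · exact Or.inr ⟨ω, (Set.piecewise_eq_of_notMem _ _ _ h).symm⟩))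
    (fun ω hω => by
      by_cases h : ω ∈ S
      · rw [Set.piecewise_eq_of_mem _ _ _ h]; exact hψclose ω h
      · rw [Set.piecewise_eq_of_notMem _ _ _ h]
        exact (a0.close ω hω).trans (le_max_right _ _))
  refine ⟨a', fun h h0 => ?_⟩
  set H := fun ω => h (a'.φ ω) with hHdef
  let sf : SimpleFunc (Fin d → Fin N' → ℝ) (Fin d → Fin N' → ℝ) :=
    ⟨a'.φ, fun x => a'.φ_meas (measurableSet_singleton x), a'.φ_finite⟩
  have hHm : Measurable H := (sf.map h).measurable
  obtain ⟨CH, hCH⟩ := (a'.φ_finite.image fun y => |h y|).bddAbove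
  have h1 := hdom H hHm (fun ω => h0 _) CH fun ω => hCH ⟨a'.φ ω, mem_range_self ω, rfl⟩
  rw [hHdef] at h1
  simp only [← a'.repr] at h1
  refine le_trans (le_of_eq ?_) h1
  refine (a.repr fun x => ∑ ρ, b.w ρ * h (glueCfg e x (b.x ρ))).trans ?_
  refine integral_congr_ae ?_
  filter_upwards [ae_mem_cut (τ := τ) (γ := γ) (B := B) (lam := lam) dd] with x hx
  refine (b.repr fun y => h (glueCfg e (a.φ x) y)).trans ?_
  refine integral_congr_ae ?_
  filter_upwards [hνb] with y hy
  have hmem : glueCfg e x y ∈ S := by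
    show splitCfg e (glueCfg e x y)
      ∈ cutSet B d N ×ˢ shellSet (fun i => typ γ (e (Sum.inr i))) τ es B Dt
    rw [split_glue]
    exact ⟨hx, hy⟩
  rw [ha', Set.piecewise_eq_of_mem _ _ _ hmem]
  simp only [hψ, split_glue]

end Measure

section Count

/-- The new coordinates can carry the growth of every type. -/
theorem exists_glue {γ : Fin d → ℝ} (hγ : ∀ k, 0 < γ k ∧ γ k ≤ 1) :
    ∃ m0 : ℕ, ∀ m ≥ m0, ∀ N : ℕ, 0 < N → ∃ e : Fin N ⊕ Fin m ≃ Fin (N + m),
      (∀ i, typ γ (e (Sum.inl i)) = typ γ i) ∧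
      (∀ i, typ γ (e (Sum.inr i)) = ∅ ∨ Occupied γ (typ γ (e (Sum.inr i)))) ∧
      ∀ t, |(typSize (fun i => typ γ (e (Sum.inr i))) t : ℝ) - m * tfrac γ t| ≤ 2 := by
  classical
  choose w hw using fun t : Finset (Fin d) =>
    (⟨⌈2 / tfrac γ t⌉₊, Nat.le_ceil _⟩ : ∃ w : ℕ, 2 / tfrac γ t ≤ w)
  refine ⟨1 + ∑ t, w t, fun m hm N hN => ?_⟩
  set cnt : ∀ n : ℕ, Finset (Fin d) → ℕ := fun n t =>
    (Finset.univ.filter fun j : Fin n => typ γ j = t).card
  have hN' : 0 < N + m := by omega
  have hcount : ∀ n, 0 < n → ∀ t, |(cnt n t : ℝ) - n * tfrac γ t| ≤ 1 := fun n hn t => by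
    have hn' : (0 : ℝ) < n := Nat.cast_pos.2 hn
    have h := count_typ hγ hn t
    rw [div_sub' hn'.ne', abs_div, abs_of_pos hn', div_le_div_iff_of_pos_right hn'] at h
    exact h
  have hzero : ∀ n, ∀ t, tfrac γ t = 0 → cnt n t = 0 := fun n t h0 => by
    refine Finset.card_eq_zero.2 (Finset.filter_eq_empty_iff.2 fun j _ hj => ?_)
    rcases typ_nonocc γ j with h | h
    · rw [hj] at h
      subst h
      have h1 : (1 : ℝ) ≤ tLo γ ∅ := by
        have := le_max_right 0 (tHi γ ∅ - tLo γ ∅)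
        rw [tfrac] at h0
        simp only [tHi, Finset.fold_empty] at this h0
        linarith
      rw [tLo, Finset.le_fold_max] at h1
      rcases h1 with h1 | ⟨k, -, hk⟩
      · norm_num at h1
      have hk1 : γ k = 1 := le_antisymm (hγ k).2 hk
      have hmem : k ∈ typ γ j := (mem_typ j k).2 (by
        simp [blk, hk1, j.isLt])
      rw [hj] at hmem
      simp at hmem
    · exact (tfrac_pos hγ (hj ▸ h)).ne' h0
  have hle : ∀ t, cnt N t ≤ cnt (N + m) t := fun t => by
    rcases (tfrac_nonneg γ t).eq_or_lt with h0 | h0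
    · rw [hzero N t h0.symm]; exact Nat.zero_le _
    have h1 := (abs_le.1 (hcount N hN t)).2
    have h2 := (abs_le.1 (hcount (N + m) hN' t)).1
    have hmt : (2 : ℝ) ≤ m * tfrac γ t := by
      rw [← div_le_iff₀ h0]
      refine (hw t).trans ?_
      have := Finset.single_le_sum (f := w) (fun _ _ => Nat.zero_le _) (Finset.mem_univ t)
      exact_mod_cast (by omega : w t ≤ m)
    push_cast at h2
    exact_mod_cast (show (cnt N t : ℝ) ≤ cnt (N + m) t by linarith)
  have hemb : ∀ t, Nonempty ({j : Fin N // typ γ j = t} ↪ {j : Fin (N + m) // typ γ j = t}) :=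
    fun t => Function.Embedding.nonempty_of_card_le
      (by simpa [Fintype.card_subtype] using hle t)
  set emb := fun t => (hemb t).some
  set f : Fin N → Fin (N + m) := fun j => (emb (typ γ j) ⟨j, rfl⟩).1
  have hf : ∀ j, typ γ (f j) = typ γ j := fun j => (emb (typ γ j) ⟨j, rfl⟩).2
  have aux : ∀ t (j : Fin N) (h : typ γ j = t), f j = (emb t ⟨j, h⟩).1 := fun t j h => by
    subst h; rfl
  have hfi : Function.Injective f := fun i j h => by
    have ht : typ γ i = typ γ j := by rw [← hf i, ← hf j, h]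
    rw [aux _ i rfl, aux (typ γ i) j ht.symm] at h
    exact Subtype.ext_iff.1 ((emb (typ γ i)).injective (Subtype.ext h))
  set C := (Finset.univ.image f)ᶜ
  have hC : C.card = m := by
    rw [Finset.card_compl, Finset.card_image_of_injective _ hfi, Fintype.card_fin,
      Finset.card_univ, Fintype.card_fin, Nat.add_sub_cancel_left]
  set g := C.orderEmbOfFin hC
  have hbij : Function.Bijective (Sum.elim f g) := by
    rw [Fintype.bijective_iff_injective_and_card]
    refine ⟨hfi.sumElim g.injective fun i j h => ?_, by simp⟩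
    exact Finset.mem_compl.1 (C.orderEmbOfFin_mem hC j)
      (Finset.mem_image.2 ⟨i, Finset.mem_univ _, h⟩)
  refine ⟨Equiv.ofBijective _ hbij, fun i => hf i, fun i => typ_nonocc γ _, fun t => ?_⟩
  set e := Equiv.ofBijective _ hbij
  have hsum : cnt (N + m) t = cnt N t + typSize (fun i => typ γ (e (Sum.inr i))) t := by
    simp only [cnt, typSize, typSet, Finset.card_filter]
    rw [← e.sum_comp, Fintype.sum_sum_type]
    congr 1
    exact Finset.sum_congr rfl fun i _ => by rw [show e (Sum.inl i) = f i from rfl, hf]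
  rcases (tfrac_nonneg γ t).eq_or_lt with h0 | h0
  · have h1 : typSize (fun i => typ γ (e (Sum.inr i))) t = 0 := by
      rw [hzero (N + m) t h0.symm] at hsum; omega
    rw [h1, ← h0]
    simp
  have h1 := abs_le.1 (hcount N hN t)
  have h2 := abs_le.1 (hcount (N + m) hN' t)
  rw [hsum] at h2
  push_cast at h2
  exact abs_le.2 ⟨by linarith, by linarith⟩

/-- Parameters of the larger system give those of the old one. -/
theorem mp_restrict (R N m : ℕ) : MeasurePreserving
    (fun (y : Fin R × Fin (N + m) → ℝ) (p : Fin R × Fin N) => y (p.1, Fin.castAdd m p.2))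
    (vxlaw R (N + m)) (vxlaw R N) := by
  have : IsProbabilityMeasure (volume.restrict (Icc (1 : ℝ) 2)) := ⟨by norm_num⟩
  exact P157.mp_comp (volume.restrict (Icc (1 : ℝ) 2)) fun p q h => by
    simpa [Prod.ext_iff] using h

end Count

section Step

variable {τ B lam : ℝ} {γ : Fin d → ℝ} {nA : ℕ}

theorem ptFull_eq : (ptFull M mr : VCIdx N' (M + mr) d R D K → ℝ) = rowc 1 := by
  funext i
  rcases i with (⟨a, j⟩ | j) | ⟨l, u | u | u⟩ <;> simp [ptFull, segc, rowc, vfldc]

/-- The prior with one configuration of the cut and one label. -/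
noncomputable def featPrior (hτ : 0 ≤ τ) (A : Coeffs d nA) (J : ℕ) (ω : Fin d → Fin N → ℝ)
    (hω : ω ∈ cutSet B d N) (ξ : Fin L) : VPrior N d (nker d nA) (N + L + J) where
  c := 1
  c_pos := one_pos
  w := fun _ => 1
  cfg := fun _ => cfgOf τ γ ω
  ker := fun κ _ => kerFeat τ B γ J A ω ξ κ
  w_pos := fun _ => one_pos
  ker_unit := fun _ _ => kfeat_unit hτ hω _ _ (A.l1 _)

theorem abs_sum_mul_le_one {ι : Type*} [Fintype ι] {f g : ι → ℝ} (hf : ∑ i, f i ^ 2 = 1)
    (hg : ∑ i, g i ^ 2 = 1) : |∑ i, f i * g i| ≤ 1 := by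
  have h := Finset.sum_mul_sq_le_sq_mul_sq Finset.univ f g
  rw [hf, hg, mul_one] at h
  exact (sq_le_one_iff_abs_le_one _).1 h

/-- GLUE: the old system with a block on the left, the system of the larger size on the right. -/
theorem glue_step (P : VPot d) (hτ : 0 < τ) (hB : 0 < B) (hlam : 0 ≤ lam) (hN : 0 < N)
    (hm : 0 < m) (e : Fin N ⊕ Fin m ≃ Fin (N + m)) (he : ∀ i, typ γ (e (Sum.inl i)) = typ γ i)
    {dd : OIdx d → ℝ} (hdd : Clean γ dd) {es e1 : ℝ} (hes : 0 ≤ es) (he1 : 0 ≤ e1)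
    (Dt : Finset (Fin d) → Matrix (Fin d) (Fin d) ℝ)
    (hD : ∀ t, Occupied γ t → ∀ k ∈ t, ∀ l ∈ t,
      |Dt t k l * typSize (fun i => typ γ (e (Sum.inr i))) t / m - dd (t, k, l)| ≤ e1)
    {εa εb del : ℝ} (hdel : 0 < del)
    (a : Atoms (spinMeas τ γ B lam dd N) (cutSet B d N) εa)
    (b : Atoms ((spinLaw d m).restrict (shellSet (fun i => typ γ (e (Sum.inr i))) τ es B Dt))
      (shellSet (fun i => typ γ (e (Sum.inr i))) τ es B Dt) εb)
    (A : Coeffs d nA) (hL : 0 < L) :
    ∃ a' : Atoms (spinMeas τ γ B lam dd (N + m)) (cutSet B d (N + m)) (max (max εa εb) del),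
      ∀ (J J' M mr K : ℕ) (Φ Φ' : VFac (N + m) d K) (y : Fin (nker d nA) × Fin (N + m) → ℝ),
        (∀ p, y p ∈ Icc (1 : ℝ) 2) →
        vcasc P (prodPrior (penPrior (γ := γ) hτ.le A a hL J)
            (atomBlock (fun i => typ γ (e (Sum.inr i))) τ b) e) Φ
            (fun i => ptFull M mr i
              + vpert N (vext fun p : Fin (nker d nA) × Fin N => y (p.1, Fin.castAdd m p.2)) i)
          ≤ vcasc P (penPrior (γ := γ) hτ.le A a' hL J') Φ' (vsys (M := M + mr) (rowc 1) y)
            + lam * m * Fintype.card (OIdx d) * (es + e1) ^ 2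
            + 6 * nker d nA * m / (N : ℝ) ^ ((1 : ℝ) / 4) := by
  obtain ⟨a', ha'⟩ := glue_atoms hτ.le hlam hN hm e he hdd hes he1 Dt hD hdel a b
  refine ⟨a', fun J J' M mr K Φ Φ' y hy => ?_⟩
  set π := prodPrior (penPrior (γ := γ) hτ.le A a hL J) (atomBlock (fun i => typ γ (e (Sum.inr i))) τ b) e
  set old : Fin π.c → Fin a.c × Fin L := fun s =>
    (finProdFinEquiv (m := a.c) (n := L)).symm (oldCfg _ (atomBlock (fun i => typ γ (e (Sum.inr i))) τ b) e s)
  set new : Fin π.c → Fin b.c := fun s => newCfg (penPrior (γ := γ) hτ.le A a hL J) (atomBlock (fun i => typ γ (e (Sum.inr i))) τ b) e s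
  set x : Fin π.c → Fin d → Fin (N + m) → ℝ := fun s => glueCfg e (a.x (old s).1) (b.x (new s))
  have hx : ∀ s, x s ∈ cutSet B d (N + m) := fun s => glueCfg_mem e (a.mem _) (b.mem _).1
  set k : Fin (nker d nA) → Fin π.c → Fin (N + m + L + J') → ℝ := fun κ s =>
    kerFeat τ B γ J' A (x s) (old s).2 κ
  have hk : ∀ κ s, ∑ j, k κ s j ^ 2 = 1 := fun κ s => kfeat_unit hτ.le (hx s) _ _ (A.l1 _)
  have hcfg : ∀ s, π.cfg s = cfgOf τ γ (x s) := fun s => by
    funext j
    obtain ⟨i | i, rfl⟩ := e.surjective j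
    · simp only [x, cfgOf_glue_inl e he]
      exact prodPrior_cfg_inl _ _ e s i
    · funext l
      simp only [x, cfgOf_glue_inr]
      exact congrFun (prodPrior_cfg_inr _ _ e s i) l
  set x0 : Fin (nker d nA) → ℕ → ℝ :=
    vext fun p : Fin (nker d nA) × Fin N => y (p.1, Fin.castAdd m p.2)
  have hstep := vcasc_withKer (M := M + mr) (K := K) P π k hk Φ Φ' N (N + m) x0 (vext y)
    (η := 12 * nker d nA * m / (N : ℝ) ^ ((1 : ℝ) / 4)) fun s s' u => by
    refine pertCov_glue hN hm (by omega) (by omega) (fun κ j hj => ?_) (fun κ j => ?_)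
      (fun κ => ?_) (fun κ => ?_) (fun κ => ?_) (Nat.lt_succ_iff.1 u.isLt)
    · simp only [x0, vext, dif_pos hj, dif_pos (show j < N + m by omega)]
      rfl
    · unfold vext
      split_ifs with h
      · obtain ⟨h1, h2⟩ := hy (κ, ⟨j, h⟩)
        exact abs_le.2 ⟨by linarith, h2⟩
      · simp
    · exact abs_sum_mul_le_one (π.ker_unit κ s) (π.ker_unit κ s')
    · exact abs_sum_mul_le_one (hk κ s) (hk κ s')
    · exact kfeat_glue e hτ hB hN he (a.mem _) (a.mem _) (b.mem _).1 (b.mem _).1 _ _ _ (A.l1 _)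
  have hsums := vcasc_le_of_sums P (withKer π k hk) (penPrior (γ := γ) hτ.le A a' hL J') Φ'
    (vsys (M := M + mr) (rowc 1) y) (C := lam * m * Fintype.card (OIdx d) * (es + e1) ^ 2)
    fun n G α => by
    classical
    set hf : Fin L → (Fin d → Fin (N + m) → ℝ) → ℝ := fun ξ ω =>
      if hω : ω ∈ cutSet B d (N + m) then Real.exp (vham P
        (vbpat (featPrior (γ := γ) hτ.le A J' ω hω ξ) Φ')
        (vbspin (featPrior (γ := γ) hτ.le A J' ω hω ξ) Φ')
        (vqd (featPrior (γ := γ) hτ.le A J' ω hω ξ) Φ') (vpull (vsys (rowc 1) y)) G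
        (⟨0, one_pos⟩, α)) else 0 with hhf
    have hf0 : ∀ ξ ω, 0 ≤ hf ξ ω := fun ξ ω => by
      simp only [hhf]; split_ifs
      · exact (Real.exp_pos _).le
      · exact le_rfl
    have e1 : ∀ s, Real.exp (vham P (vbpat (withKer π k hk) Φ') (vbspin (withKer π k hk) Φ')
        (vqd (withKer π k hk) Φ') (vpull (vsys (rowc 1) y)) G (s, α)) = hf (old s).2 (x s) :=
      fun s => by
        simp only [hhf, dif_pos (hx s)]
        exact congrArg Real.exp
          (vham_congr_cfg P (withKer π k hk) (featPrior (γ := γ) hτ.le A J' (x s) (hx s) (old s).2)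
            Φ' _ G (σ' := ⟨0, one_pos⟩) (hcfg s) (fun κ => rfl) α)
    have e2 : ∀ σ, Real.exp (vham P (vbpat (penPrior (γ := γ) hτ.le A a' hL J') Φ')
        (vbspin (penPrior (γ := γ) hτ.le A a' hL J') Φ') (vqd (penPrior (γ := γ) hτ.le A a' hL J') Φ')
        (vpull (vsys (rowc 1) y)) G (σ, α))
        = hf ((finProdFinEquiv (m := a'.c) (n := L)).symm σ).2
            (a'.x ((finProdFinEquiv (m := a'.c) (n := L)).symm σ).1) := fun σ => by
      simp only [hhf, dif_pos (a'.mem _)]
      exact congrArg Real.exp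
        (vham_congr_cfg P (penPrior (γ := γ) hτ.le A a' hL J')
          (featPrior (γ := γ) hτ.le A J' _ (a'.mem _) _) Φ' _ G (σ' := ⟨0, one_pos⟩) rfl
          (fun κ => rfl) α)
    simp only [e1, e2]
    show ∑ s : Fin (a.c * L * b.c), π.w s * _ ≤ _ * ∑ σ : Fin (a'.c * L), _
    rw [← finProdFinEquiv.sum_comp, Fintype.sum_prod_type, ← finProdFinEquiv.sum_comp,
      Fintype.sum_prod_type, ← finProdFinEquiv.sum_comp, Fintype.sum_prod_type]
    simp only [π, x, old, new, prodPrior, oldCfg, newCfg, penPrior, atomBlock,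
      Equiv.symm_apply_apply]
    rw [Finset.sum_comm, Finset.sum_comm (s := (Finset.univ : Finset (Fin a'.c))), Finset.mul_sum]
    refine Finset.sum_le_sum fun ξ _ => ?_
    have h := mul_le_mul_of_nonneg_left (ha' (hf ξ) (hf0 ξ))
      (show (0 : ℝ) ≤ 1 / L by positivity)
    refine le_trans (le_of_eq ?_) (h.trans (le_of_eq ?_))
    · simp only [Finset.mul_sum]
      exact Finset.sum_congr rfl fun σ _ => Finset.sum_congr rfl fun ρ _ => by
        erw [Equiv.symm_apply_apply, Equiv.symm_apply_apply]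
        ring
    · simp only [Finset.mul_sum]
      exact Finset.sum_congr rfl fun σ _ => by ring
  rw [ptFull_eq]
  have h12 : 12 * (nker d nA : ℝ) * m / (N : ℝ) ^ ((1 : ℝ) / 4) / 2
      = 6 * nker d nA * m / (N : ℝ) ^ ((1 : ℝ) / 4) := by ring
  have := (abs_le.1 hstep).2
  have hsys : (vsys (M := M + mr) (rowc 1) y
      : VCIdx (N + m) (M + mr) d (nker d nA) (N + m + L + J') K → ℝ)
      = fun i => rowc 1 i + vpert (N + m) (vext y) i := rfl
  rw [hsys] at hsums ⊢
  linarith

end Step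

end Vale.Agent.P166.Casc
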