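import Vale.Agent.P166.Casc.VGlueCmp
import Vale.Agent.P166.Casc.VBlock

/-!
Kernels and perturbations of a glued system against those of its old part: the covariances of the
perturbations differ by the size of the block over the fourth root of the size of the old part.
-/

open MeasureTheory ProbabilityTheory Filter Topology Set

namespace Vale.Agent.P166.Casc

open Vale.Agent.P157.Casc Vale.Agent.P166.Pen

variable {N N' m d R D D' K L J J' : ℕ}

/-- Configurations of the old coordinates and of a block, as one configuration. -/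
def glueCfg (e : Fin N ⊕ Fin m ≃ Fin N') (a : Fin d → Fin N → ℝ) (b : Fin d → Fin m → ℝ)
    (k : Fin d) (j : Fin N') : ℝ :=
  Sum.elim (a k) (b k) (e.symm j)

theorem glueCfg_inl (e : Fin N ⊕ Fin m ≃ Fin N') (a : Fin d → Fin N → ℝ)
    (b : Fin d → Fin m → ℝ) (k : Fin d) (i : Fin N) :
    glueCfg e a b k (e (Sum.inl i)) = a k i := by
  simp [glueCfg]

theorem glueCfg_inr (e : Fin N ⊕ Fin m ≃ Fin N') (a : Fin d → Fin N → ℝ)
    (b : Fin d → Fin m → ℝ) (k : Fin d) (i : Fin m) :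
    glueCfg e a b k (e (Sum.inr i)) = b k i := by
  simp [glueCfg]

theorem glueCfg_mem {B : ℝ} (e : Fin N ⊕ Fin m ≃ Fin N') {a : Fin d → Fin N → ℝ}
    {b : Fin d → Fin m → ℝ} (ha : a ∈ cutSet B d N) (hb : b ∈ cutSet B d m) :
    glueCfg e a b ∈ cutSet B d N' := by
  have hN : (N' : ℝ) = N + m := by
    have h := Fintype.card_congr e
    simp only [Fintype.card_sum, Fintype.card_fin] at h
    exact_mod_cast h.symm
  show ∑ k, ∑ j, glueCfg e a b k j ^ 2 ≤ B * N'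
  simp only [sum_glue e, glueCfg_inl, glueCfg_inr, Finset.sum_add_distrib]
  rw [hN, mul_add]
  exact add_le_add ha hb

theorem mem_typ {γ : Fin d → ℝ} (j : Fin N) (k : Fin d) : k ∈ typ γ j ↔ j.val < blk γ N k := by
  simp [typ]

section Kernel

variable {τ B : ℝ} {γ : Fin d → ℝ} (e : Fin N ⊕ Fin m ≃ Fin N')

theorem cfgOf_glue_inl (he : ∀ i, typ γ (e (Sum.inl i)) = typ γ i) (a : Fin d → Fin N → ℝ)
    (b : Fin d → Fin m → ℝ) (i : Fin N) :
    cfgOf τ γ (glueCfg e a b) (e (Sum.inl i)) = cfgOf τ γ a i := by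
  funext k
  simp only [cfgOf, glueCfg_inl, ← mem_typ, he]

theorem cfgOf_glue_inr (a : Fin d → Fin N → ℝ) (b : Fin d → Fin m → ℝ) (i : Fin m) (k : Fin d) :
    cfgOf τ γ (glueCfg e a b) (e (Sum.inr i)) k
      = if k ∈ typ γ (e (Sum.inr i)) then √τ * b k i else 0 := by
  simp only [cfgOf, glueCfg_inr, ← mem_typ]

theorem sq_kvec_le (hτ : 0 < τ) (hB : 0 < B) (ω : Fin d → Fin N → ℝ) (t : Finset (Fin d))
    {v : Fin d → ℝ} (hv : ∑ k, |v k| ≤ 2) (j : Fin N) :
    kvec τ B γ ω t v j ^ 2 ≤ (∑ k, ω k j ^ 2) / (2 * B * N) := by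
  have hN : (0 : ℝ) < N := Nat.cast_pos.2 j.pos
  have h0 : 0 ≤ ∑ k, ω k j ^ 2 := Finset.sum_nonneg fun k _ => sq_nonneg _
  by_cases h : typ γ j = t
  swap
  · rw [kvec, if_neg h, zero_pow two_ne_zero]
    positivity
  have hc : ∀ k, cfgOf τ γ ω j k ^ 2 ≤ τ * ω k j ^ 2 := fun k => by
    unfold cfgOf
    split_ifs
    · rw [mul_pow, Real.sq_sqrt hτ.le]
    · rw [zero_pow two_ne_zero]; positivity
  have hv1 : ∀ k, |v k| ≤ 2 := fun k => (Finset.single_le_sum (f := fun k => |v k|)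
    (fun k _ => abs_nonneg _) (Finset.mem_univ k)).trans hv
  have hcs := Finset.sum_sq_le_sum_mul_sum_of_sq_le_mul (s := Finset.univ)
    (r := fun k => v k * cfgOf τ γ ω j k) (f := fun k => |v k|)
    (g := fun k => |v k| * cfgOf τ γ ω j k ^ 2) (fun k _ => abs_nonneg _)
    (fun k _ => mul_nonneg (abs_nonneg _) (sq_nonneg _))
    (fun k _ => (by rw [← mul_assoc, ← pow_two, sq_abs, mul_pow] :
      (v k * cfgOf τ γ ω j k) ^ 2 = |v k| * (|v k| * cfgOf τ γ ω j k ^ 2)).le)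
  have hsum : (∑ k, v k * cfgOf τ γ ω j k) ^ 2 ≤ 4 * τ * ∑ k, ω k j ^ 2 := by
    refine hcs.trans ((mul_le_mul hv (Finset.sum_le_sum fun k _ => mul_le_mul (hv1 k) (hc k)
      (sq_nonneg _) zero_le_two) (Finset.sum_nonneg fun k _ =>
        mul_nonneg (abs_nonneg _) (sq_nonneg _)) zero_le_two).trans_eq ?_)
    simp only [← Finset.mul_sum]
    ring
  rw [kvec, if_pos h, div_pow, Real.sq_sqrt (by positivity),
    div_le_div_iff₀ (by positivity) (by positivity)]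
  calc (∑ k, v k * cfgOf τ γ ω j k) ^ 2 * (2 * B * N)
      ≤ 4 * τ * (∑ k, ω k j ^ 2) * (2 * B * N) :=
        mul_le_mul_of_nonneg_right hsum (by positivity)
    _ = _ := by ring

theorem kvec_mul_inl (hτ : 0 < τ) (hB : 0 < B) (he : ∀ i, typ γ (e (Sum.inl i)) = typ γ i)
    (a a' : Fin d → Fin N → ℝ) (b b' : Fin d → Fin m → ℝ) (t : Finset (Fin d)) (v : Fin d → ℝ)
    (i : Fin N) :
    kvec τ B γ (glueCfg e a b) t v (e (Sum.inl i))
        * kvec τ B γ (glueCfg e a' b') t v (e (Sum.inl i))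
      = (N : ℝ) / N' * (kvec τ B γ a t v i * kvec τ B γ a' t v i) := by
  have hN : (0 : ℝ) < N := Nat.cast_pos.2 i.pos
  have hN' : (0 : ℝ) < N' := Nat.cast_pos.2 (e (Sum.inl i)).pos
  simp only [kvec, cfgOf_glue_inl e he, he]
  split_ifs
  · rw [div_mul_div_comm, div_mul_div_comm, Real.mul_self_sqrt (by positivity),
      Real.mul_self_sqrt (by positivity)]
    field_simp
  · simp

theorem sum_kvec_block_le (hτ : 0 < τ) (hB : 0 < B) (a : Fin d → Fin N → ℝ)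
    {b : Fin d → Fin m → ℝ} (hb : b ∈ cutSet B d m) (hN : 0 < N') (t : Finset (Fin d))
    {v : Fin d → ℝ} (hv : ∑ k, |v k| ≤ 2) :
    ∑ i, kvec τ B γ (glueCfg e a b) t v (e (Sum.inr i)) ^ 2 ≤ (m : ℝ) / (2 * N') := by
  have hN' : (0 : ℝ) < N' := Nat.cast_pos.2 hN
  refine (Finset.sum_le_sum fun i _ =>
    sq_kvec_le hτ hB (glueCfg e a b) t hv (e (Sum.inr i))).trans ?_
  simp only [glueCfg_inr, ← Finset.sum_div]
  rw [Finset.sum_comm, div_le_div_iff₀ (by positivity) (by positivity)]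
  calc (∑ k, ∑ i, b k i ^ 2) * (2 * N') ≤ B * m * (2 * N') :=
        mul_le_mul_of_nonneg_right hb (by positivity)
    _ = _ := by ring

theorem abs_sqrt_sub {a b : ℝ} (ha : 1 / 2 ≤ a) (ha1 : a ≤ 1) (hb : 1 / 2 ≤ b) (hb1 : b ≤ 1) :
    |√a - √b| ≤ |a - b| := by
  have h1 : a ≤ √a := Real.le_sqrt_of_sq_le (by nlinarith)
  have h2 : b ≤ √b := Real.le_sqrt_of_sq_le (by nlinarith)
  have h3 : (√a - √b) * (√a + √b) = a - b := by
    linear_combination Real.mul_self_sqrt (show 0 ≤ a by linarith)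
      - Real.mul_self_sqrt (show 0 ≤ b by linarith)
  rw [← h3, abs_mul, abs_of_nonneg (show 0 ≤ √a + √b by linarith)]
  exact le_mul_of_one_le_right (abs_nonneg _) (by linarith)

/-- A kernel of a glued configuration against that of its old part. -/
theorem kfeat_glue (hτ : 0 < τ) (hB : 0 < B) (hN : 0 < N)
    (he : ∀ i, typ γ (e (Sum.inl i)) = typ γ i)
    {a a' : Fin d → Fin N → ℝ} (ha : a ∈ cutSet B d N) (ha' : a' ∈ cutSet B d N)
    {b b' : Fin d → Fin m → ℝ} (hb : b ∈ cutSet B d m) (hb' : b' ∈ cutSet B d m)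
    (ξ ξ' : Fin L) (t : Finset (Fin d)) {v : Fin d → ℝ} (hv : ∑ k, |v k| ≤ 2) :
    |(∑ u, kfeat τ B γ J' (glueCfg e a b) ξ t v u * kfeat τ B γ J' (glueCfg e a' b') ξ' t v u)
      - ∑ u, kfeat τ B γ J a ξ t v u * kfeat τ B γ J a' ξ' t v u| ≤ 2 * m / N' := by
  have hcard : (N' : ℝ) = N + m := by
    have h := Fintype.card_congr e
    simp only [Fintype.card_sum, Fintype.card_fin] at h
    exact_mod_cast h.symm
  have hN0 : (0 : ℝ) < N := Nat.cast_pos.2 hN
  have hN' : (0 : ℝ) < N' := by rw [hcard]; positivity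
  have hN'n : 0 < N' := Nat.cast_pos.1 hN'
  have split : ∀ a a' b b', ∑ j, kvec τ B γ (glueCfg e a b) t v j
        * kvec τ B γ (glueCfg e a' b') t v j
      = (1 - m / N') * (∑ j, kvec τ B γ a t v j * kvec τ B γ a' t v j)
        + ∑ i, kvec τ B γ (glueCfg e a b) t v (e (Sum.inr i))
            * kvec τ B γ (glueCfg e a' b') t v (e (Sum.inr i)) := fun a a' b b' => by
    rw [sum_glue e, show (1 : ℝ) - m / N' = N / N' by
      rw [hcard]; field_simp; ring, Finset.mul_sum]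
    exact congrArg (· + _) (Finset.sum_congr rfl fun i _ => kvec_mul_inl e hτ hB he a a' b b' t v i)
  have hS : ∀ a ∈ cutSet B d N, 0 ≤ ∑ j, kvec τ B γ a t v j ^ 2 ∧
      ∑ j, kvec τ B γ a t v j ^ 2 ≤ 1 / 2 := fun a ha =>
    ⟨Finset.sum_nonneg fun j _ => sq_nonneg _, sum_kvec_sq_le hτ.le ha t hv⟩
  have hSb : ∀ a, ∀ b ∈ cutSet B d m,
      0 ≤ ∑ i, kvec τ B γ (glueCfg e a b) t v (e (Sum.inr i)) ^ 2 ∧
      ∑ i, kvec τ B γ (glueCfg e a b) t v (e (Sum.inr i)) ^ 2 ≤ (m : ℝ) / (2 * N') := fun a b hb =>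
    ⟨Finset.sum_nonneg fun j _ => sq_nonneg _, sum_kvec_block_le e hτ hB a hb hN'n t hv⟩
  have hab : ∀ {ι : Type} [Fintype ι] (f g : ι → ℝ) (c : ℝ), (∑ i, f i ^ 2) ≤ c →
      (∑ i, g i ^ 2) ≤ c → |∑ i, f i * g i| ≤ c := by
    intro ι _ f g c hf hg
    refine (Finset.abs_sum_le_sum_abs _ _).trans ((Finset.sum_le_sum (g := fun i =>
      (f i ^ 2 + g i ^ 2) / 2) fun i _ => ?_).trans ?_)
    · rw [abs_mul, ← sq_abs (f i), ← sq_abs (g i)]
      nlinarith [sq_nonneg (|f i| - |g i|)]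
    · rw [← Finset.sum_div, Finset.sum_add_distrib]
      linarith
  set μ := (m : ℝ) / N' with hμ
  have hμ0 : 0 ≤ μ := by positivity
  have hμ1 : μ ≤ 1 := (div_le_one hN').2 (by rw [hcard]; linarith)
  have hhalf : (m : ℝ) / (2 * N') = μ / 2 := by rw [hμ]; ring
  have hsq : ∀ a ∈ cutSet B d N, ∀ b ∈ cutSet B d m,
      |(∑ j, kvec τ B γ (glueCfg e a b) t v j ^ 2) - ∑ j, kvec τ B γ a t v j ^ 2| ≤ μ / 2 ∧
      ∑ j, kvec τ B γ (glueCfg e a b) t v j ^ 2 ≤ 1 / 2 := fun a ha b hb => by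
    have h := split a a b b
    obtain ⟨h1, h2⟩ := hS a ha
    obtain ⟨h3, h4⟩ := hSb a b hb
    simp only [← pow_two] at h
    have := mul_le_mul_of_nonneg_left h2 hμ0
    have := mul_nonneg hμ0 h1
    rw [hhalf] at h4
    refine ⟨abs_le.2 ⟨?_, ?_⟩, sum_kvec_sq_le hτ.le (glueCfg_mem e ha hb) t hv⟩ <;> linarith
  obtain ⟨q1, q1'⟩ := hsq a ha b hb
  obtain ⟨q2, q2'⟩ := hsq a' ha' b' hb'
  obtain ⟨p1, p1'⟩ := hS a ha
  obtain ⟨p2, p2'⟩ := hS a' ha'
  have r1 : 0 ≤ ∑ j, kvec τ B γ (glueCfg e a b) t v j ^ 2 :=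
    Finset.sum_nonneg fun j _ => sq_nonneg _
  have r2 : 0 ≤ ∑ j, kvec τ B γ (glueCfg e a' b') t v j ^ 2 :=
    Finset.sum_nonneg fun j _ => sq_nonneg _
  have hX := hab (fun j => kvec τ B γ a t v j) (fun j => kvec τ B γ a' t v j) _ p1' p2'
  have hY := hab (fun i => kvec τ B γ (glueCfg e a b) t v (e (Sum.inr i)))
    (fun i => kvec τ B γ (glueCfg e a' b') t v (e (Sum.inr i))) _ (hSb a b hb).2 (hSb a' b' hb').2
  rw [hhalf] at hY
  have hmain : |(∑ j, kvec τ B γ (glueCfg e a b) t v j * kvec τ B γ (glueCfg e a' b') t v j)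
      - ∑ j, kvec τ B γ a t v j * kvec τ B γ a' t v j| ≤ μ := by
    have h := mul_le_mul_of_nonneg_left hX hμ0
    rw [← abs_of_nonneg hμ0, ← abs_mul, abs_of_nonneg hμ0] at h
    rw [split a a' b b']
    obtain ⟨h1, h2⟩ := abs_le.1 h
    obtain ⟨h3, h4⟩ := abs_le.1 hY
    exact abs_le.2 ⟨by linarith, by linarith⟩
  rw [sum_kfeat_mul, sum_kfeat_mul, show 2 * (m : ℝ) / N' = μ + μ by rw [hμ]; ring,
    add_sub_add_comm]
  refine (abs_add_le _ _).trans (add_le_add hmain ?_)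
  split_ifs with h
  swap
  · simpa using hμ0
  set A1 := √(1 - ∑ j, kvec τ B γ (glueCfg e a b) t v j ^ 2)
  set A2 := √(1 - ∑ j, kvec τ B γ (glueCfg e a' b') t v j ^ 2)
  set B1 := √(1 - ∑ j, kvec τ B γ a t v j ^ 2)
  set B2 := √(1 - ∑ j, kvec τ B γ a' t v j ^ 2)
  have d1 : |A1 - B1| ≤ μ / 2 := (abs_sqrt_sub (by linarith) (by linarith) (by linarith)
    (by linarith)).trans (by rw [sub_sub_sub_cancel_left, abs_sub_comm]; exact q1)
  have d2 : |A2 - B2| ≤ μ / 2 := (abs_sqrt_sub (by linarith) (by linarith) (by linarith)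
    (by linarith)).trans (by rw [sub_sub_sub_cancel_left, abs_sub_comm]; exact q2)
  have e1 : |A1| ≤ 1 := by
    rw [abs_of_nonneg (Real.sqrt_nonneg _)]; exact Real.sqrt_le_one.2 (by linarith)
  have e2 : |B2| ≤ 1 := by
    rw [abs_of_nonneg (Real.sqrt_nonneg _)]; exact Real.sqrt_le_one.2 (by linarith)
  rw [show A1 * A2 - B1 * B2 = A1 * (A2 - B2) + (A1 - B1) * B2 by ring]
  refine (abs_add_le _ _).trans ?_
  rw [abs_mul, abs_mul]
  have := mul_le_mul e1 d2 (abs_nonneg _) zero_le_one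
  have := mul_le_mul d1 e2 (abs_nonneg _) (by linarith)
  linarith

end Kernel

section Pert

theorem amp_sq (N j : ℕ) : amp N j ^ 2 = (N : ℝ) ^ ((3 : ℝ) / 4) * ((1 : ℝ) / 4) ^ (j + 1) := by
  rw [amp, div_pow, one_div, inv_pow, ← Real.rpow_natCast ((N : ℝ) ^ ((3 : ℝ) / 8)) 2,
    ← Real.rpow_mul (Nat.cast_nonneg N), ← pow_mul, mul_comm (j + 1) 2, pow_mul]
  norm_num
  ring

/-- The covariance of one family of perturbations moves little with the kernel and the size. -/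
theorem pert_term_le {N m : ℕ} (hN : 0 < N) (hm : 0 < m) {g : ℕ → ℝ}
    (hg0 : ∀ j, 0 ≤ g j) (hg : ∀ j, g j ≤ 4) {s s' : ℝ} (hs : |s| ≤ 1) (hs' : |s'| ≤ 1)
    (hd : |s' - s| ≤ 2 * m / (N + m : ℕ)) :
    |(∑ j ∈ Finset.range N, (N : ℝ) ^ ((3 : ℝ) / 4) * ((1 : ℝ) / 4) ^ (j + 1) * g j * s ^ (j + 1))
      - ∑ j ∈ Finset.range (N + m),
          ((N + m : ℕ) : ℝ) ^ ((3 : ℝ) / 4) * ((1 : ℝ) / 4) ^ (j + 1) * g j * s' ^ (j + 1)|
      ≤ 12 * m / (N : ℝ) ^ ((1 : ℝ) / 4) := by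
  have hN0 : (0 : ℝ) < N := Nat.cast_pos.2 hN
  have hm1 : (1 : ℝ) ≤ m := by exact_mod_cast hm
  set a := (N : ℝ) ^ ((3 : ℝ) / 4) with ha
  set b := ((N + m : ℕ) : ℝ) ^ ((3 : ℝ) / 4) with hb
  set r := 1 / (N : ℝ) ^ ((1 : ℝ) / 4) with hr
  have hr0 : 0 ≤ r := by positivity
  have ha0 : 0 ≤ a := by positivity
  have haN : a = N * r := by
    rw [hr, mul_one_div, eq_div_iff (by positivity), ha, ← Real.rpow_add hN0]
    norm_num
  have hab : a ≤ b := Real.rpow_le_rpow hN0.le (by push_cast; linarith) (by norm_num)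
  have hba : b ≤ a + m * r := by
    have h1 : (1 : ℝ) ≤ 1 + m / N := le_add_of_nonneg_right (by positivity)
    have h2 : b = a * (1 + m / N) ^ ((3 : ℝ) / 4) := by
      rw [hb, ha, ← Real.mul_rpow hN0.le (by positivity)]
      congr 1
      push_cast
      field_simp
    rw [h2]
    refine (mul_le_mul_of_nonneg_left (Real.rpow_le_self_of_one_le h1 (by norm_num)) ha0).trans
      (le_of_eq ?_)
    rw [haN]
    field_simp
  have hgeo : ∀ n : ℕ, ∑ j ∈ Finset.range n, ((1 : ℝ) / 4) ^ (j + 1) ≤ 1 / 3 := fun n => by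
    have h := geom_sum_Ico_le_of_lt_one (x := (1 : ℝ) / 4) (m := 1) (n := n + 1) (by norm_num)
      (by norm_num)
    rw [Finset.sum_Ico_eq_sum_range] at h
    simp only [Nat.add_sub_cancel, add_comm 1] at h
    linarith
  have hgeo2 : ∀ n : ℕ,
      ∑ j ∈ Finset.range n, ((j : ℝ) + 1) * ((1 : ℝ) / 4) ^ (j + 1) ≤ 1 := fun n => by
    refine (Finset.sum_le_sum (g := fun j => ((1 : ℝ) / 2) ^ (j + 1)) fun j _ => ?_).trans ?_
    · rw [show ((1 : ℝ) / 2) ^ (j + 1) = 2 ^ (j + 1) * ((1 : ℝ) / 4) ^ (j + 1) by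
        rw [← mul_pow]; norm_num]
      refine mul_le_mul_of_nonneg_right ?_ (by positivity)
      exact_mod_cast (Nat.lt_two_pow_self (n := j + 1)).le
    · have h := geom_sum_Ico_le_of_lt_one (x := (1 : ℝ) / 2) (m := 1) (n := n + 1) (by norm_num)
        (by norm_num)
      rw [Finset.sum_Ico_eq_sum_range] at h
      simp only [Nat.add_sub_cancel, add_comm 1] at h
      linarith
  rw [Finset.sum_range_add, ← sub_sub, ← Finset.sum_sub_distrib]
  refine (abs_sub _ _).trans ?_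
  have hA : |∑ j ∈ Finset.range N, (a * ((1 : ℝ) / 4) ^ (j + 1) * g j * s ^ (j + 1)
      - b * ((1 : ℝ) / 4) ^ (j + 1) * g j * s' ^ (j + 1))|
      ≤ (b - a) * (4 / 3) + a * (2 * m / (N + m : ℕ)) * 4 := by
    refine (Finset.abs_sum_le_sum_abs _ _).trans ?_
    refine le_trans (Finset.sum_le_sum (g := fun j : ℕ =>
      (b - a) * 4 * ((1 : ℝ) / 4) ^ (j + 1)
        + a * (2 * (m : ℝ) / ((N + m : ℕ) : ℝ)) * 4 * (((j : ℝ) + 1) * ((1 : ℝ) / 4) ^ (j + 1)))
      fun j _ => ?_) ?_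
    · set q := ((1 : ℝ) / 4) ^ (j + 1)
      have hq0 : 0 ≤ q := by positivity
      have hp : |s' ^ (j + 1)| ≤ 1 := by rw [abs_pow]; exact pow_le_one₀ (abs_nonneg _) hs'
      have hpd : |s' ^ (j + 1) - s ^ (j + 1)| ≤ ((j : ℝ) + 1) * (2 * m / (N + m : ℕ)) := by
        refine (abs_pow_sub_pow_le _ _ _).trans ?_
        have hmax : max |s'| |s| ^ (j + 1 - 1) ≤ 1 :=
          pow_le_one₀ (le_max_of_le_left (abs_nonneg _)) (max_le hs' hs)
        have h1 := mul_le_mul hd hmax (by positivity) (by positivity)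
        have h2 := mul_le_mul_of_nonneg_left h1 (show (0 : ℝ) ≤ (j : ℝ) + 1 by positivity)
        simp only [Nat.add_sub_cancel] at h2
        push_cast at h2 ⊢
        refine le_trans (le_of_eq ?_) (h2.trans (le_of_eq ?_))
        · ring
        · ring
      rw [show a * q * g j * s ^ (j + 1) - b * q * g j * s' ^ (j + 1)
          = -(((b - a) * (q * g j)) * s' ^ (j + 1) + a * (q * g j) * (s' ^ (j + 1) - s ^ (j + 1)))
          by ring, abs_neg]
      refine (abs_add_le _ _).trans ?_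
      have hqg : q * g j ≤ 4 * q := by
        have := mul_le_mul_of_nonneg_left (hg j) hq0
        linarith
      have hqg0 : 0 ≤ q * g j := mul_nonneg hq0 (hg0 j)
      rw [abs_mul ((b - a) * (q * g j)), abs_mul (a * (q * g j)),
        abs_of_nonneg (mul_nonneg (sub_nonneg.2 hab) hqg0), abs_of_nonneg (mul_nonneg ha0 hqg0)]
      refine add_le_add ((mul_le_mul (mul_le_mul_of_nonneg_left hqg (sub_nonneg.2 hab)) hp
        (abs_nonneg _) (mul_nonneg (sub_nonneg.2 hab) (by positivity))).trans_eq (by ring)) ?_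
      exact (mul_le_mul (mul_le_mul_of_nonneg_left hqg ha0) hpd (abs_nonneg _)
        (mul_nonneg ha0 (by positivity))).trans_eq (by ring)
    · rw [Finset.sum_add_distrib, ← Finset.mul_sum, ← Finset.mul_sum]
      have h1 := mul_le_mul_of_nonneg_left (hgeo N)
        (show 0 ≤ (b - a) * 4 from mul_nonneg (sub_nonneg.2 hab) (by norm_num))
      have h2 := mul_le_mul_of_nonneg_left (hgeo2 N)
        (show 0 ≤ a * (2 * m / (N + m : ℕ)) * 4 by positivity)
      linarith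
  have hB : |∑ j ∈ Finset.range m,
      b * ((1 : ℝ) / 4) ^ (N + j + 1) * g (N + j) * s' ^ (N + j + 1)| ≤ 8 / 3 * (m * r) := by
    refine (Finset.abs_sum_le_sum_abs _ _).trans ((Finset.sum_le_sum (g := fun j =>
      b * ((1 : ℝ) / 4) ^ N * 4 * ((1 : ℝ) / 4) ^ (j + 1)) fun j _ => ?_).trans ?_)
    · have hp : |s' ^ (N + j + 1)| ≤ 1 := by rw [abs_pow]; exact pow_le_one₀ (abs_nonneg _) hs'
      have hb0 : 0 ≤ b := ha0.trans hab
      have hq0 : 0 ≤ b * ((1 : ℝ) / 4) ^ (N + j + 1) * g (N + j) :=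
        mul_nonneg (by positivity) (hg0 _)
      rw [abs_mul, abs_of_nonneg hq0]
      refine (mul_le_mul (mul_le_mul_of_nonneg_left (hg _) (by positivity)) hp (abs_nonneg _)
        (by positivity)).trans_eq ?_
      rw [add_assoc, pow_add]
      ring
    · rw [← Finset.mul_sum]
      have hb0 : 0 ≤ b := ha0.trans hab
      refine (mul_le_mul_of_nonneg_left (hgeo m) (by positivity)).trans ?_
      have h4 : ((1 : ℝ) / 4) ^ N * N ≤ 1 := by
        rw [one_div, inv_pow, inv_mul_le_iff₀ (by positivity), mul_one]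
        exact_mod_cast (Nat.lt_pow_self (a := 4) (by norm_num)).le
      have h41 : ((1 : ℝ) / 4) ^ N ≤ 1 := pow_le_one₀ (by norm_num) (by norm_num)
      have hNr : (N : ℝ) * r * ((1 : ℝ) / 4) ^ N ≤ m * r := by
        calc (N : ℝ) * r * ((1 : ℝ) / 4) ^ N = r * (((1 : ℝ) / 4) ^ N * N) := by ring
          _ ≤ r * 1 := mul_le_mul_of_nonneg_left h4 hr0
          _ ≤ _ := by rw [mul_one]; exact le_mul_of_one_le_left hr0 hm1
      have h5 := mul_le_mul_of_nonneg_right hba (show 0 ≤ ((1 : ℝ) / 4) ^ N by positivity)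
      have h6 := mul_le_mul_of_nonneg_left h41 (show 0 ≤ (m : ℝ) * r by positivity)
      rw [haN] at h5
      linarith
  have hN'le : a * (2 * m / (N + m : ℕ)) ≤ 2 * (m * r) := by
    rw [haN, mul_div_assoc', div_le_iff₀ (by positivity)]
    push_cast
    nlinarith [mul_nonneg (mul_nonneg (Nat.cast_nonneg (α := ℝ) m) hr0) (Nat.cast_nonneg (α := ℝ) m)]
  have hgoal : 12 * (m : ℝ) / (N : ℝ) ^ ((1 : ℝ) / 4) = 12 * (m * r) := by rw [hr]; ring
  rw [hgoal]
  refine (add_le_add hA hB).trans ?_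
  linarith

theorem pertCov_range {K D J : ℕ} (hJ : J ≤ D) (x : Fin R → ℕ → ℝ) (r : Fin R → ℝ) (u : ℕ) :
    pertCov K D J x r u = ∑ κ, ∑ j ∈ Finset.range J, (J : ℝ) ^ ((3 : ℝ) / 4)
      * ((1 : ℝ) / 4) ^ (j + 1) * x κ j ^ 2
      * ((r κ + 3 * (u : ℝ)) / ((3 * K + 1 : ℕ) : ℝ)) ^ (j + 1) := by
  refine Finset.sum_congr rfl fun κ _ => ?_
  rw [Finset.sum_filter, Fin.sum_univ_eq_sum_range (fun j => if j < J then (amp J j * x κ j) ^ 2
    * ((r κ + 3 * (u : ℝ)) / ((3 * K + 1 : ℕ) : ℝ)) ^ (j + 1) else 0) D, ← Finset.sum_filter,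
    show (Finset.range D).filter (fun j => j < J) = Finset.range J by
      ext j; simp only [Finset.mem_filter, Finset.mem_range]; omega]
  exact Finset.sum_congr rfl fun j _ => by rw [mul_pow, amp_sq]

/-- The covariances of the perturbations of two close families of kernels. -/
theorem pertCov_glue {K : ℕ} (hN : 0 < N) (hm : 0 < m) (hD : N ≤ D) (hD' : N + m ≤ D')
    {x x' : Fin R → ℕ → ℝ} (hx : ∀ κ j, j < N → x κ j = x' κ j) (hx' : ∀ κ j, |x' κ j| ≤ 2)
    {r r' : Fin R → ℝ} (hr : ∀ κ, |r κ| ≤ 1) (hr' : ∀ κ, |r' κ| ≤ 1)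
    (hd : ∀ κ, |r' κ - r κ| ≤ 2 * m / (N + m : ℕ)) {u : ℕ} (hu : u ≤ K) :
    |pertCov K D N x r u - pertCov K D' (N + m) x' r' u|
      ≤ 12 * R * m / (N : ℝ) ^ ((1 : ℝ) / 4) := by
  rw [pertCov_range hD, pertCov_range hD', ← Finset.sum_sub_distrib]
  refine (Finset.abs_sum_le_sum_abs _ _).trans ((Finset.sum_le_card_nsmul _ _
    (12 * m / (N : ℝ) ^ ((1 : ℝ) / 4)) fun κ _ => ?_).trans_eq ?_)
  · set Q := ((3 * K + 1 : ℕ) : ℝ) with hQ
    have hQ1 : 1 ≤ Q := by rw [hQ]; exact_mod_cast (by omega : 1 ≤ 3 * K + 1)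
    have hu' : (u : ℝ) ≤ K := by exact_mod_cast hu
    have hs : ∀ z : ℝ, |z| ≤ 1 → |(z + 3 * (u : ℝ)) / Q| ≤ 1 := fun z hz => by
      rw [abs_div, abs_of_nonneg (by linarith : 0 ≤ Q), div_le_one (by linarith)]
      refine (abs_add_le _ _).trans ?_
      rw [abs_of_nonneg (show (0 : ℝ) ≤ 3 * u by positivity), hQ]
      push_cast
      linarith
    rw [Finset.sum_congr rfl fun j hj => by rw [hx κ j (Finset.mem_range.1 hj)]]
    refine pert_term_le hN hm (g := fun j => x' κ j ^ 2) (fun j => sq_nonneg _) (fun j => ?_)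
      (hs _ (hr κ)) (hs _ (hr' κ)) ?_
    · rw [← sq_abs]; nlinarith [hx' κ j, abs_nonneg (x' κ j)]
    · rw [← sub_div, add_sub_add_right_eq_sub, abs_div, abs_of_nonneg (by linarith : 0 ≤ Q)]
      exact (div_le_self (abs_nonneg _) hQ1).trans (hd κ)
  · simp only [Finset.card_univ, Fintype.card_fin, nsmul_eq_mul]
    ring

end Pert

end Vale.Agent.P166.Casc
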