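import Vale.Agent.P166.Casc.VTransfer

/-!
Pair observables of the fields of one row along a segment of variances that only touches this row:
the change is bounded by the covariance of the row along the segment, averaged at the start.
-/

open MeasureTheory ProbabilityTheory Filter Topology Set

namespace Vale.Agent.P166.Casc

open Vale.Agent.P157.Casc Vale.Agent.P157.Casc.Itp

section Defs

variable {T I : Type*} [Fintype I] {M d : ℕ}

/-- The direction only touches one row. -/
structure OnRow (b : Fin M → Fin d → T → I → ℝ) (bz qd : T → I → ℝ) (δ : I → ℝ) (a0 : Fin M) :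
    Prop where
  row : ∀ i, δ i ≠ 0 → ∀ a, a ≠ a0 → ∀ k x, b a k x i = 0
  spin : ∀ i, δ i ≠ 0 → ∀ x, bz x i = 0
  det : ∀ i, δ i ≠ 0 → ∀ x, qd x i = 0

/-- Size of the covariance increment of one row. -/
def rowDev (b : Fin M → Fin d → T → I → ℝ) (δ : I → ℝ) (a0 : Fin M) (x y : T) : ℝ :=
  ∑ k, ∑ l, |bcov b δ a0 k l x y|

/-- Size of the covariance increment of a pair, with its first diagonal. -/
def rowF (b : Fin M → Fin d → T → I → ℝ) (δ : I → ℝ) (a0 : Fin M) (x y : T) : ℝ :=
  rowDev b δ a0 x y + rowDev b δ a0 x x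

/-- A gradient component, or one. -/
def gO (P : VPot d) : Option (Fin d) → (Fin d → ℝ) → ℝ
  | none => fun _ => 1
  | some k => P.g k

/-- Derivatives of a gradient component, or of one. -/
def hO (P : VPot d) : Option (Fin d) → Fin d → (Fin d → ℝ) → ℝ
  | none => fun _ _ => 0
  | some k => P.h k

/-- Second derivatives of a gradient component, or of one. -/
def eO (P : VPot d) : Option (Fin d) → Fin d → Fin d → (Fin d → ℝ) → ℝ
  | none => fun _ _ _ => 0
  | some k => P.e k

/-- Product of two gradient components (or ones) of one row at two states, with a coefficient. -/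
noncomputable def robs (P : VPot d) (b : Fin M → Fin d → T → I → ℝ) (a0 : Fin M) (A : T → T → ℝ)
    (k l : Option (Fin d)) (lam G : I → ℝ) (x y : T) : ℝ :=
  A x y * (gO P k (vfld b lam G x a0) * gO P l (vfld b lam G y a0))

/-- Bound on the derivatives of the potential. -/
def rowB (P : VPot d) : ℝ := 1 + |P.b1| + |P.b2| + |P.b3|

/-- Constant of the one-row comparison. -/
def rowC (P : VPot d) : ℝ := rowB P ^ 2 + 6 * rowB P ^ 3 + 8 * rowB P ^ 4

theorem rowDev_nonneg (b : Fin M → Fin d → T → I → ℝ) (δ : I → ℝ) (a0 : Fin M) (x y : T) :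
    0 ≤ rowDev b δ a0 x y :=
  Finset.sum_nonneg fun _ _ => Finset.sum_nonneg fun _ _ => abs_nonneg _

theorem rowB_nonneg (P : VPot d) : 0 ≤ rowB P := by unfold rowB; positivity

theorem rowC_nonneg (P : VPot d) : 0 ≤ rowC P := by
  have := rowB_nonneg P
  unfold rowC; positivity

theorem gO_spec (P : VPot d) (k : Option (Fin d)) :
    Continuous (gO P k) ∧ (∀ l, Continuous (hO P k l)) ∧ (∀ l j, Continuous (eO P k l j)) ∧
    (∀ l y, HasDerivAt (fun z => gO P k (Function.update y l z)) (hO P k l y) (y l)) ∧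
    ∀ l j y, HasDerivAt (fun z => hO P k l (Function.update y j z)) (eO P k l j y) (y j) := by
  cases k with
  | none =>
    exact ⟨continuous_const, fun _ => continuous_const, fun _ _ => continuous_const,
      fun _ y => hasDerivAt_const _ (1 : ℝ), fun _ _ y => hasDerivAt_const _ (0 : ℝ)⟩
  | some k => exact ⟨P.cg k, P.ch k, P.ce k, P.d2 k, P.d3 k⟩

theorem abs_gO_le (P : VPot d) (k : Option (Fin d)) (y : Fin d → ℝ) : |gO P k y| ≤ rowB P := by
  cases k with
  | none => unfold gO rowB; rw [abs_one]; linarith [abs_nonneg P.b1, abs_nonneg P.b2, abs_nonneg P.b3]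
  | some k => exact ((P.h1 k y).trans (le_abs_self _)).trans (by
      unfold rowB; linarith [abs_nonneg P.b2, abs_nonneg P.b3])

theorem abs_hO_le (P : VPot d) (k : Option (Fin d)) (l : Fin d) (y : Fin d → ℝ) :
    |hO P k l y| ≤ rowB P := by
  cases k with
  | none => simpa [hO] using rowB_nonneg P
  | some k => exact ((P.h2 k l y).trans (le_abs_self _)).trans (by
      unfold rowB; linarith [abs_nonneg P.b1, abs_nonneg P.b3])

theorem abs_eO_le (P : VPot d) (k : Option (Fin d)) (l j : Fin d) (y : Fin d → ℝ) :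
    |eO P k l j y| ≤ rowB P := by
  cases k with
  | none => simpa [eO] using rowB_nonneg P
  | some k => exact ((P.h3 k l j y).trans (le_abs_self _)).trans (by
      unfold rowB; linarith [abs_nonneg P.b1, abs_nonneg P.b2])

theorem abs_g_le (P : VPot d) (k : Fin d) (y : Fin d → ℝ) : |P.g k y| ≤ rowB P :=
  abs_gO_le P (some k) y

theorem abs_h_le (P : VPot d) (k l : Fin d) (y : Fin d → ℝ) : |P.h k l y| ≤ rowB P :=
  abs_hO_le P (some k) l y

theorem abs_robs_le (P : VPot d) (b : Fin M → Fin d → T → I → ℝ) (a0 : Fin M) {A : T → T → ℝ}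
    {CA : ℝ} (hA : ∀ x y, |A x y| ≤ CA) (k l : Option (Fin d)) (lam G : I → ℝ) (x y : T) :
    |robs P b a0 A k l lam G x y| ≤ CA * (rowB P * rowB P) := by
  rw [robs, abs_mul, abs_mul]
  exact mul_le_mul (hA x y) (mul_le_mul (abs_gO_le P _ _) (abs_gO_le P _ _) (abs_nonneg _)
    (rowB_nonneg P)) (mul_nonneg (abs_nonneg _) (abs_nonneg _)) ((abs_nonneg _).trans (hA x y))

theorem cont_robs2 (P : VPot d) (b : Fin M → Fin d → T → I → ℝ) (a0 : Fin M) (A : T → T → ℝ)
    (k l : Option (Fin d)) (x y : T) :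
    Continuous fun p : (I → ℝ) × (I → ℝ) => robs P b a0 A k l p.1 p.2 x y := by
  have h := fun z => VItp.cont_vfld2 b z a0
  unfold robs
  exact (((gO_spec P k).1.comp (h x)).mul ((gO_spec P l).1.comp (h y))).const_mul _

theorem cont_robs (P : VPot d) (b : Fin M → Fin d → T → I → ℝ) (a0 : Fin M) (A : T → T → ℝ)
    (k l : Option (Fin d)) (lam : I → ℝ) (x y : T) :
    Continuous fun G => robs P b a0 A k l lam G x y :=
  Continuous.comp (g := fun p : (I → ℝ) × (I → ℝ) => robs P b a0 A k l p.1 p.2 x y)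
    (f := fun G => (lam, G)) (cont_robs2 P b a0 A k l x y) (continuous_const.prodMk continuous_id)

end Defs

namespace VItp

section RowTerms

variable {T I : Type*} [Fintype T] [Fintype I] {M d : ℕ}

/-- Derivative of one gradient component of the row per unit move of a coordinate. -/
noncomputable def rdh (P : VPot d) (b : Fin M → Fin d → T → I → ℝ) (a0 : Fin M) (k : Option (Fin d))
    (lam G : I → ℝ) (x : T) (i : I) : ℝ :=
  ∑ j, hO P k j (vfld b lam G x a0) * b a0 j x i

/-- Its derivative per unit move of the same coordinate. -/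
noncomputable def rce (P : VPot d) (b : Fin M → Fin d → T → I → ℝ) (a0 : Fin M) (k : Option (Fin d))
    (lam G : I → ℝ) (x : T) (i : I) : ℝ :=
  ∑ j, ∑ j', eO P k j j' (vfld b lam G x a0) * (b a0 j x i * b a0 j' x i)

variable (P : VPot d) (w : T → ℝ) (b : Fin M → Fin d → T → I → ℝ) (bz qd : T → I → ℝ)
  (a0 : Fin M) (A : T → T → ℝ) (k l : Option (Fin d))

/-- First derivative of the observable, up to the amplitude. -/
noncomputable def rL (lam G : I → ℝ) (i : I) (xs : Fin 2 → T) : ℝ :=
  A (xs 0) (xs 1) * (gO P l (vfld b lam G (xs 1) a0) * rdh P b a0 k lam G (xs 0) i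
    + gO P k (vfld b lam G (xs 0) a0) * rdh P b a0 l lam G (xs 1) i)

/-- Second derivative of the observable, up to the amplitude. -/
noncomputable def rQ (lam G : I → ℝ) (i : I) (xs : Fin 2 → T) : ℝ :=
  A (xs 0) (xs 1) * (gO P l (vfld b lam G (xs 1) a0) * rce P b a0 k lam G (xs 0) i
    + 2 * (rdh P b a0 k lam G (xs 0) i * rdh P b a0 l lam G (xs 1) i)
    + gO P k (vfld b lam G (xs 0) a0) * rce P b a0 l lam G (xs 1) i)

/-- Sum over the two states of the centred derivative of the energy. -/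
noncomputable def rS (lam G : I → ℝ) (i : I) (xs : Fin 2 → T) : ℝ :=
  ∑ m, (vdir P b bz lam G (xs m) i - vfU P w b bz qd lam i G)

/-- Sum over the two states of the centred second derivative of the energy. -/
noncomputable def rS2 (lam G : I → ℝ) (i : I) (xs : Fin 2 → T) : ℝ :=
  ∑ m, (vcrv P b lam G (xs m) i - vfW P w b bz qd lam i G)

/-- Mean first derivative of the observable. -/
noncomputable def rU (lam : I → ℝ) (i : I) (G : I → ℝ) : ℝ :=
  avg (vbw P w b bz qd lam G) 2 fun xs =>
    rL P b a0 A k l lam G i xs + robs P b a0 A k l lam G (xs 0) (xs 1) * rS P w b bz qd lam G i xs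

/-- Mean second derivative of the observable. -/
noncomputable def rW (lam : I → ℝ) (i : I) (G : I → ℝ) : ℝ :=
  avg (vbw P w b bz qd lam G) 2 fun xs =>
    rQ P b a0 A k l lam G i xs + 2 * (rL P b a0 A k l lam G i xs * rS P w b bz qd lam G i xs)
      + robs P b a0 A k l lam G (xs 0) (xs 1) *
        (rS P w b bz qd lam G i xs * rS P w b bz qd lam G i xs + rS2 P w b bz qd lam G i xs)

omit [Fintype T] in
theorem deriv_rg_t {l0 δ : I → ℝ} (hpos : ∀ t ∈ Icc (0 : ℝ) 1, ∀ i, 0 ≤ l0 i + t * δ i)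
    {r : ℝ} (hr : r ∈ Ioo (0 : ℝ) 1) (G : I → ℝ) (x : T) :
    HasDerivAt (fun q => gO P k (vfld b (seg l0 δ q) G x a0))
      (∑ i, rate l0 δ r i * G i * rdh P b a0 k (seg l0 δ r) G x i) r := by
  refine (deriv_chain (F := gO P k) (F' := hO P k) (gO_spec P k).2.1 (gO_spec P k).2.2.2.1
    (h := fun q => vfld b (seg l0 δ q) G x a0)
    fun j => deriv_lin_t hpos hr (b a0 j) G x).congr_deriv ?_
  simp only [rdh, Finset.mul_sum]
  rw [Finset.sum_comm]
  exact Finset.sum_congr rfl fun i _ => Finset.sum_congr rfl fun j _ => by ring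

omit [Fintype T] in
theorem deriv_rg_G [DecidableEq I] (lam G : I → ℝ) (i : I) (x : T) :
    HasDerivAt (fun z => gO P k (vfld b lam (Function.update G i z) x a0))
      (√(lam i) * rdh P b a0 k lam G x i) (G i) := by
  refine (deriv_chain (F := gO P k) (F' := hO P k) (gO_spec P k).2.1 (gO_spec P k).2.2.2.1
    (h := fun z => vfld b lam (Function.update G i z) x a0)
    fun j => deriv_lin_G (b a0 j) lam G i (G i) x).congr_deriv ?_
  simp only [Function.update_eq_self, rdh, Finset.mul_sum]
  exact Finset.sum_congr rfl fun j _ => by ring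

omit [Fintype T] in
theorem deriv_rdh_G [DecidableEq I] (lam G : I → ℝ) (i : I) (x : T) :
    HasDerivAt (fun z => rdh P b a0 k lam (Function.update G i z) x i)
      (√(lam i) * rce P b a0 k lam G x i) (G i) := by
  refine (HasDerivAt.fun_sum (u := Finset.univ) fun j _ =>
    (deriv_chain (F := hO P k j) (F' := eO P k j) ((gO_spec P k).2.2.1 j) ((gO_spec P k).2.2.2.2 j)
      (h := fun z => vfld b lam (Function.update G i z) x a0)
      fun j' => deriv_lin_G (b a0 j') lam G i (G i) x).mul_const (b a0 j x i)).congr_deriv ?_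
  simp only [Function.update_eq_self, rce, Finset.mul_sum, Finset.sum_mul]
  exact Finset.sum_congr rfl fun j _ => Finset.sum_congr rfl fun j' _ => by ring

omit [Fintype T] in
theorem deriv_robs_G [DecidableEq I] (lam G : I → ℝ) (i : I) (xs : Fin 2 → T) :
    HasDerivAt (fun z => robs P b a0 A k l lam (Function.update G i z) (xs 0) (xs 1))
      (√(lam i) * rL P b a0 A k l lam G i xs) (G i) := by
  refine (((deriv_rg_G P b a0 k lam G i (xs 0)).mul
    (deriv_rg_G P b a0 l lam G i (xs 1))).const_mul (A (xs 0) (xs 1))).congr_deriv ?_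
  simp only [Function.update_eq_self, rL]
  ring

omit [Fintype T] in
theorem deriv_rL_G [DecidableEq I] (lam G : I → ℝ) (i : I) (xs : Fin 2 → T) :
    HasDerivAt (fun z => rL P b a0 A k l lam (Function.update G i z) i xs)
      (√(lam i) * rQ P b a0 A k l lam G i xs) (G i) := by
  refine ((((deriv_rg_G P b a0 l lam G i (xs 1)).mul (deriv_rdh_G P b a0 k lam G i (xs 0))).add
    ((deriv_rg_G P b a0 k lam G i (xs 0)).mul
      (deriv_rdh_G P b a0 l lam G i (xs 1)))).const_mul (A (xs 0) (xs 1))).congr_deriv ?_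
  simp only [Function.update_eq_self, rQ]
  ring

variable {w} (hw : ∀ x, 0 < w x) [Nonempty T]
include hw

theorem deriv_rS_G [DecidableEq I] (lam G : I → ℝ) (i : I) (xs : Fin 2 → T) :
    HasDerivAt (fun z => rS P w b bz qd lam (Function.update G i z) i xs)
      (√(lam i) * rS2 P w b bz qd lam G i xs) (G i) := by
  refine (HasDerivAt.fun_sum (u := Finset.univ) fun m _ =>
    (deriv_vdir_G P b bz lam G i (xs m)).sub (deriv_vfU_G P b bz qd hw lam i G)).congr_deriv ?_
  simp only [rS2, Finset.mul_sum]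
  exact Finset.sum_congr rfl fun m _ => by ring

theorem deriv_rU_G [DecidableEq I] (lam : I → ℝ) (i : I) (G : I → ℝ) :
    HasDerivAt (fun z => rU P w b bz qd a0 A k l lam i (Function.update G i z))
      (√(lam i) * rW P w b bz qd a0 A k l lam i G) (G i) := by
  refine (deriv_avg (v := fun z => vbw P w b bz qd lam (Function.update G i z))
    (dv := fun x => √(lam i) * vdir P b bz lam G x i) (s := G i)
    (fun x => vbw_pos P b bz qd hw _ _ x)
    (fun x => by simpa using deriv_vbw_G P b bz qd lam G i x)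
    (F := fun z xs => rL P b a0 A k l lam (Function.update G i z) i xs
      + robs P b a0 A k l lam (Function.update G i z) (xs 0) (xs 1) *
        rS P w b bz qd lam (Function.update G i z) i xs)
    (fun xs => (deriv_rL_G P b a0 A k l lam G i xs).add ((deriv_robs_G P b a0 A k l lam G i xs).mul
      (deriv_rS_G P b bz qd hw lam G i xs)))).congr_deriv ?_
  simp only [Function.update_eq_self, rW, ← avg_const_mul]
  refine congrArg _ (funext fun xs => ?_)
  have hm : ∑ y, gibbs (vbw P w b bz qd lam G) y * (√(lam i) * vdir P b bz lam G y i)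
      = √(lam i) * vfU P w b bz qd lam i G := by
    simp only [vfU, Finset.mul_sum]
    exact Finset.sum_congr rfl fun y _ => by ring
  have hs : ∑ m, (√(lam i) * vdir P b bz lam G (xs m) i - √(lam i) * vfU P w b bz qd lam i G)
      = √(lam i) * rS P w b bz qd lam G i xs := by
    simp only [rS, Finset.mul_sum, mul_sub]
  rw [hm, hs]
  ring

theorem deriv_rPhi_t {l0 δ : I → ℝ} (hδ : OnRow b bz qd δ a0)
    (hpos : ∀ t ∈ Icc (0 : ℝ) 1, ∀ i, 0 ≤ l0 i + t * δ i)
    {r : ℝ} (hr : r ∈ Ioo (0 : ℝ) 1) (G : I → ℝ) :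
    HasDerivAt
      (fun q => avg (vbw P w b bz qd (seg l0 δ q) G) 2
        fun xs => robs P b a0 A k l (seg l0 δ q) G (xs 0) (xs 1))
      (∑ i, rate l0 δ r i * G i * rU P w b bz qd a0 A k l (seg l0 δ r) i G) r := by
  have hc : ∀ x, vcst bz qd δ x = 0 := fun x => by
    have h1 : ∀ i, δ i * bz x i ^ 2 = 0 := fun i => by
      by_cases h : δ i = 0
      · simp [h]
      · simp [hδ.spin i h x]
    have h2 : ∀ i, δ i * qd x i = 0 := fun i => by
      by_cases h : δ i = 0
      · simp [h]
      · simp [hδ.det i h x]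
    simp [vcst, comp, h1, h2]
  refine (deriv_avg (v := fun q => vbw P w b bz qd (seg l0 δ q) G)
    (dv := fun x => (∑ i, rate l0 δ r i * G i * vdir P b bz (seg l0 δ r) G x i) + vcst bz qd δ x)
    (s := r) (fun x => vbw_pos P b bz qd hw _ _ x)
    (fun x => deriv_vbw_t P b bz qd hpos hr G x)
    (F := fun q xs => robs P b a0 A k l (seg l0 δ q) G (xs 0) (xs 1))
    (fun xs => ((deriv_rg_t P b a0 k hpos hr G (xs 0)).mul
      (deriv_rg_t P b a0 l hpos hr G (xs 1))).const_mul (A (xs 0) (xs 1)))).congr_deriv ?_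
  simp only [rU, ← avg_const_mul, ← avg_sum]
  refine congrArg _ (funext fun xs => ?_)
  have hm : ∑ y, gibbs (vbw P w b bz qd (seg l0 δ r) G) y *
      ((∑ i, rate l0 δ r i * G i * vdir P b bz (seg l0 δ r) G y i) + vcst bz qd δ y)
      = ∑ i, rate l0 δ r i * G i * vfU P w b bz qd (seg l0 δ r) i G := by
    simp only [hc, add_zero, vfU, Finset.mul_sum]
    rw [Finset.sum_comm]
    exact Finset.sum_congr rfl fun i _ => Finset.sum_congr rfl fun y _ => by ring
  rw [hm]
  simp only [hc, add_zero, rL, rS, robs, Fin.sum_univ_two, Finset.mul_sum, Finset.sum_mul,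
    ← Finset.sum_sub_distrib, ← Finset.sum_add_distrib]
  exact Finset.sum_congr rfl fun i _ => by ring

theorem cont_rU (lam : I → ℝ) (i : I) : Continuous (rU P w b bz qd a0 A k l lam i) := by
  have := cont_vgibbs P b bz qd hw lam
  have := fun x a => cont_vfld b lam x a
  have := fun j => P.cg j
  have := fun o => (gO_spec P o).1
  have := fun o j => (gO_spec P o).2.1 j
  have := fun x => cont_vdir P b bz lam x i
  have := cont_vfU P b bz qd hw lam i
  unfold rU rL rS rdh robs avg; fun_prop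

theorem cont_rW (lam : I → ℝ) (i : I) : Continuous (rW P w b bz qd a0 A k l lam i) := by
  have := cont_vgibbs P b bz qd hw lam
  have := fun x a => cont_vfld b lam x a
  have := fun j => P.cg j
  have := fun o => (gO_spec P o).1
  have := fun o j => (gO_spec P o).2.1 j
  have := fun o j j' => (gO_spec P o).2.2.1 j j'
  have := fun x => cont_vdir P b bz lam x i
  have := fun x => cont_vcrv P b lam x i
  have := cont_vfU P b bz qd hw lam i
  have := cont_vfW P b bz qd hw lam i
  unfold rW rQ rL rS rS2 rdh rce robs avg; fun_prop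

theorem bounded_rUW {CA : ℝ} (hA : ∀ x y, |A x y| ≤ CA) :
    ∃ C, ∀ lam i G, |rU P w b bz qd a0 A k l lam i G| ≤ C ∧
      |rW P w b bz qd a0 A k l lam i G| ≤ C := by
  set Bh := ∑ x, ∑ i, ∑ j, |b a0 j x i|
  set V := vbd P b bz
  set B := rowB P
  have hB := rowB_nonneg P
  have hV := vbd_nonneg P b bz
  have hbh : ∀ j x i, |b a0 j x i| ≤ Bh := fun j x i =>
    ((Finset.single_le_sum (f := fun j => |b a0 j x i|) (fun _ _ => abs_nonneg _)
      (Finset.mem_univ j)).trans (Finset.single_le_sum (f := fun i => ∑ j, |b a0 j x i|)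
      (fun _ _ => Finset.sum_nonneg fun _ _ => abs_nonneg _) (Finset.mem_univ i))).trans
      (Finset.single_le_sum (f := fun x => ∑ i, ∑ j, |b a0 j x i|)
      (fun _ _ => Finset.sum_nonneg fun _ _ => Finset.sum_nonneg fun _ _ => abs_nonneg _)
      (Finset.mem_univ x))
  have hBh : 0 ≤ Bh := Finset.sum_nonneg fun _ _ => Finset.sum_nonneg fun _ _ =>
    Finset.sum_nonneg fun _ _ => abs_nonneg _
  have hCA : 0 ≤ CA := (abs_nonneg _).trans (hA (Classical.arbitrary T) (Classical.arbitrary T))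
  have hdh : ∀ j lam G x i, |rdh P b a0 j lam G x i| ≤ d * (B * Bh) := fun j lam G x i => by
    refine ((Finset.abs_sum_le_sum_abs _ _).trans (Finset.sum_le_sum
      (g := fun _ => B * Bh) fun j' _ => ?_)).trans_eq (by simp)
    rw [abs_mul]
    exact mul_le_mul (abs_hO_le P _ _ _) (hbh _ _ _) (abs_nonneg _) hB
  have hce : ∀ j lam G x i, |rce P b a0 j lam G x i| ≤ d * (d * (B * (Bh * Bh))) :=
    fun j lam G x i => by
    refine ((Finset.abs_sum_le_sum_abs _ _).trans (Finset.sum_le_sum
      (g := fun _ => (d : ℝ) * (B * (Bh * Bh))) fun j' _ =>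
        ((Finset.abs_sum_le_sum_abs _ _).trans (Finset.sum_le_sum
          (g := fun _ => B * (Bh * Bh)) fun j'' _ => ?_)).trans_eq (by simp))).trans_eq (by simp)
    rw [abs_mul, abs_mul (b a0 j' x i)]
    exact mul_le_mul (abs_eO_le P _ _ _ _) (mul_le_mul (hbh _ _ _) (hbh _ _ _) (abs_nonneg _) hBh)
      (mul_nonneg (abs_nonneg _) (abs_nonneg _)) hB
  set L := CA * (B * (d * (B * Bh)) + B * (d * (B * Bh))) with hLd
  set Q := CA * (B * (d * (d * (B * (Bh * Bh)))) + 2 * (d * (B * Bh) * (d * (B * Bh)))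
    + B * (d * (d * (B * (Bh * Bh))))) with hQd
  have hL0 : 0 ≤ L := by positivity
  have hL : ∀ lam G i xs, |rL P b a0 A k l lam G i xs| ≤ L := fun lam G i xs => by
    rw [rL, abs_mul]
    refine mul_le_mul (hA _ _) ((abs_add_le _ _).trans ?_) (abs_nonneg _) hCA
    rw [abs_mul, abs_mul]
    exact add_le_add (mul_le_mul (abs_gO_le P _ _) (hdh _ _ _ _ _) (abs_nonneg _) hB)
      (mul_le_mul (abs_gO_le P _ _) (hdh _ _ _ _ _) (abs_nonneg _) hB)
  have hQ : ∀ lam G i xs, |rQ P b a0 A k l lam G i xs| ≤ Q := fun lam G i xs => by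
    rw [rQ, abs_mul]
    refine mul_le_mul (hA _ _) ((abs_add_le _ _).trans
      (add_le_add ((abs_add_le _ _).trans (add_le_add ?_ ?_)) ?_)) (abs_nonneg _) hCA
    · rw [abs_mul]; exact mul_le_mul (abs_gO_le P _ _) (hce _ _ _ _ _) (abs_nonneg _) hB
    · rw [abs_mul, abs_two, abs_mul]
      exact mul_le_mul_of_nonneg_left
        (mul_le_mul (hdh _ _ _ _ _) (hdh _ _ _ _ _) (abs_nonneg _) (by positivity)) zero_le_two
    · rw [abs_mul]; exact mul_le_mul (abs_gO_le P _ _) (hce _ _ _ _ _) (abs_nonneg _) hB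
  set S2 := 2 * (V + (V + V * (V + V)))
  have hS : ∀ lam G i xs, |rS P w b bz qd lam G i xs| ≤ 2 * (V + V) := fun lam G i xs =>
    ((Finset.abs_sum_le_sum_abs _ _).trans (Finset.sum_le_sum (g := fun _ => V + V) fun m _ =>
      (abs_sub _ _).trans (add_le_add (abs_vdir_le P b bz lam G _ i)
        (abs_vfU_le P b bz qd hw lam i G)))).trans_eq (by simp [two_mul])
  have hS2 : ∀ lam G i xs, |rS2 P w b bz qd lam G i xs| ≤ S2 := fun lam G i xs =>
    ((Finset.abs_sum_le_sum_abs _ _).trans (Finset.sum_le_sum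
      (g := fun _ => V + (V + V * (V + V))) fun m _ => (abs_sub _ _).trans
        (add_le_add (abs_vcrv_le P b bz lam G _ i)
          (abs_vfW_le P b bz qd hw lam i G)))).trans_eq (by simp [S2]; ring)
  set S := 2 * (V + V) with hSd
  set O := CA * (B * B) with hOd
  refine ⟨max (L + O * S) (Q + 2 * (L * S) + O * (S * S + S2)), fun lam i G =>
    ⟨le_trans ?_ (le_max_left _ _), le_trans ?_ (le_max_right _ _)⟩⟩
  · refine (abs_avg_le (vbw_pos P b bz qd hw lam G) (F' := fun _ => L + O * S) fun xs => ?_).trans_eq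
      (avg_const (vbw_pos P b bz qd hw lam G) 2 _)
    refine (abs_add_le _ _).trans (add_le_add (hL _ _ _ _) ?_)
    rw [abs_mul]
    exact mul_le_mul (abs_robs_le P b a0 hA k l lam G _ _) (hS _ _ _ _) (abs_nonneg _)
      (by positivity)
  · refine (abs_avg_le (vbw_pos P b bz qd hw lam G)
      (F' := fun _ => Q + 2 * (L * S) + O * (S * S + S2)) fun xs => ?_).trans_eq
      (avg_const (vbw_pos P b bz qd hw lam G) 2 _)
    refine (abs_add_le _ _).trans (add_le_add ((abs_add_le _ _).trans
      (add_le_add (hQ _ _ _ _) ?_)) ?_)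
    · rw [abs_mul, abs_two, abs_mul]
      exact mul_le_mul_of_nonneg_left
        (mul_le_mul (hL _ _ _ _) (hS _ _ _ _) (abs_nonneg _) hL0) zero_le_two
    · rw [abs_mul]
      refine mul_le_mul (abs_robs_le P b a0 hA k l lam G _ _) ((abs_add_le _ _).trans
        (add_le_add ?_ (hS2 _ _ _ _))) (abs_nonneg _) (by positivity)
      rw [abs_mul]
      exact mul_le_mul (hS _ _ _ _) (hS _ _ _ _) (abs_nonneg _) (by positivity)

end RowTerms

section RowBound

variable {T I : Type*} [Fintype T] [Fintype I] {M d : ℕ} (P : VPot d) {w : T → ℝ}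
  (b : Fin M → Fin d → T → I → ℝ) (bz qd : T → I → ℝ) (a0 : Fin M)

omit [Fintype T] in
theorem abs_row_bilin (δ : I → ℝ) {c c' : Fin d → ℝ} {C C' : ℝ} (hc : ∀ j, |c j| ≤ C)
    (hc' : ∀ j, |c' j| ≤ C') (hC : 0 ≤ C) (x y : T) :
    |∑ i, δ i * ((∑ j, c j * b a0 j x i) * ∑ j, c' j * b a0 j y i)|
      ≤ C * C' * rowDev b δ a0 x y := by
  have e : ∑ i, δ i * ((∑ j, c j * b a0 j x i) * ∑ j, c' j * b a0 j y i)
      = ∑ j, ∑ j', c j * c' j' * bcov b δ a0 j j' x y := by
    have h : ∀ i, δ i * ((∑ j, c j * b a0 j x i) * ∑ j, c' j * b a0 j y i)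
        = ∑ j, ∑ j', c j * c' j' * (δ i * (b a0 j x i * b a0 j' y i)) := fun i => by
      rw [Finset.sum_mul_sum, Finset.mul_sum]
      refine Finset.sum_congr rfl fun j _ => ?_
      rw [Finset.mul_sum]
      exact Finset.sum_congr rfl fun j' _ => by ring
    rw [Finset.sum_congr rfl fun i _ => h i]
    simp only [bcov, Finset.mul_sum]
    rw [Finset.sum_comm]
    exact Finset.sum_congr rfl fun j _ => Finset.sum_comm
  rw [e, rowDev, Finset.mul_sum]
  refine (Finset.abs_sum_le_sum_abs _ _).trans (Finset.sum_le_sum fun j _ => ?_)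
  rw [Finset.mul_sum]
  refine (Finset.abs_sum_le_sum_abs _ _).trans (Finset.sum_le_sum fun j' _ => ?_)
  rw [abs_mul, abs_mul]
  exact mul_le_mul_of_nonneg_right (mul_le_mul (hc j) (hc' j') (abs_nonneg _) hC) (abs_nonneg _)

omit [Fintype T] in
theorem abs_row_quad (δ : I → ℝ) {c : Fin d → Fin d → ℝ} {C : ℝ} (hc : ∀ j j', |c j j'| ≤ C)
    (x : T) :
    |∑ i, δ i * ∑ j, ∑ j', c j j' * (b a0 j x i * b a0 j' x i)| ≤ C * rowDev b δ a0 x x := by
  have e : ∑ i, δ i * ∑ j, ∑ j', c j j' * (b a0 j x i * b a0 j' x i)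
      = ∑ j, ∑ j', c j j' * bcov b δ a0 j j' x x := by
    simp only [bcov, Finset.mul_sum]
    rw [Finset.sum_comm]
    refine Finset.sum_congr rfl fun j _ => ?_
    rw [Finset.sum_comm]
    exact Finset.sum_congr rfl fun j' _ => Finset.sum_congr rfl fun i _ => by ring
  rw [e, rowDev, Finset.mul_sum]
  refine (Finset.abs_sum_le_sum_abs _ _).trans (Finset.sum_le_sum fun j _ => ?_)
  rw [Finset.mul_sum]
  refine (Finset.abs_sum_le_sum_abs _ _).trans (Finset.sum_le_sum fun j' _ => ?_)
  rw [abs_mul]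
  exact mul_le_mul_of_nonneg_right (hc j j') (abs_nonneg _)

variable {δ : I → ℝ} (hδ : OnRow b bz qd δ a0)
include hδ

omit [Fintype T] in
theorem row_vdir (lam G : I → ℝ) (x : T) (i : I) :
    δ i * vdir P b bz lam G x i = δ i * ∑ j, P.g j (vfld b lam G x a0) * b a0 j x i := by
  by_cases h : δ i = 0
  · simp [h]
  · rw [vdir, hδ.spin i h, add_zero, Finset.sum_eq_single a0
      (fun a _ ha => Finset.sum_eq_zero fun j _ => by rw [hδ.row i h a ha, mul_zero])
      (fun h' => absurd (Finset.mem_univ _) h')]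

omit [Fintype T] in
theorem row_vcrv (lam G : I → ℝ) (x : T) (i : I) :
    δ i * vcrv P b lam G x i
      = δ i * ∑ j, ∑ j', P.h j j' (vfld b lam G x a0) * (b a0 j x i * b a0 j' x i) := by
  by_cases h : δ i = 0
  · simp [h]
  · rw [vcrv, Finset.sum_eq_single a0
      (fun a _ ha => Finset.sum_eq_zero fun j _ => Finset.sum_eq_zero fun j' _ => by
        rw [hδ.row i h a ha, zero_mul, mul_zero])
      (fun h' => absurd (Finset.mem_univ _) h')]

variable (hw : ∀ x, 0 < w x) [Nonempty T] (A : T → T → ℝ) {CA : ℝ} (hA : ∀ x y, |A x y| ≤ CA)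
  (k l : Option (Fin d))
include hw hA

theorem abs_rW_sum_le (lam G : I → ℝ) :
    |∑ i, δ i * rW P w b bz qd a0 A k l lam i G|
      ≤ 2 * CA * rowC P * avg2 (vbw P w b bz qd lam G) (rowF b δ a0) := by
  set u := vbw P w b bz qd lam G
  have hu : ∀ x, 0 < u x := fun x => vbw_pos P b bz qd hw lam G x
  set γ := gibbs u
  have hγ : ∀ x, 0 ≤ γ x := gibbs_nonneg hu
  set B := rowB P
  have hB : 0 ≤ B := rowB_nonneg P
  have hCA : 0 ≤ CA := (abs_nonneg _).trans (hA (Classical.arbitrary T) (Classical.arbitrary T))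
  set H := rowDev b δ a0
  have hH : ∀ x y, 0 ≤ H x y := rowDev_nonneg b δ a0
  set g := fun x j => P.g j (vfld b lam G x a0)
  have hg : ∀ x j, |g x j| ≤ B := fun x j => abs_g_le P _ _
  set gg := fun (x : T) (o : Option (Fin d)) => gO P o (vfld b lam G x a0)
  have hgg : ∀ x o, |gg x o| ≤ B := fun x o => abs_gO_le P _ _
  set K := fun (p : T) (xs : Fin 2 → T) => H p (xs 0) + H p (xs 1) + 2 * ∑ z, γ z * H p z
  set D := ∑ z, γ z * H z z
  set Pp := avg2 u H
  have hu2 : ∀ c : Fin d → ℝ, (∀ j, |c j| ≤ B) → ∀ p y,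
      |∑ i, δ i * ((∑ j, c j * b a0 j p i) * vdir P b bz lam G y i)| ≤ B * B * H p y :=
    fun c hc p y => by
    refine le_of_eq_of_le ?_ (abs_row_bilin b a0 δ hc (hg y) hB p y)
    refine congrArg abs (Finset.sum_congr rfl fun i _ => ?_)
    rw [mul_left_comm (δ i), row_vdir P b bz qd a0 hδ lam G y i]
    ring
  have hmean : ∀ q : I → ℝ, ∀ (F : T → ℝ),
      (∀ y, |∑ i, δ i * (q i * vdir P b bz lam G y i)| ≤ F y) →
      |∑ i, δ i * (q i * vfU P w b bz qd lam i G)| ≤ ∑ y, γ y * F y := fun q F hF => by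
    have e : ∑ i, δ i * (q i * vfU P w b bz qd lam i G)
        = ∑ y, γ y * ∑ i, δ i * (q i * vdir P b bz lam G y i) := by
      simp only [vfU, Finset.mul_sum, γ, u]
      rw [Finset.sum_comm]
      exact Finset.sum_congr rfl fun y _ => Finset.sum_congr rfl fun i _ => by ring
    rw [e]
    refine (Finset.abs_sum_le_sum_abs _ _).trans (Finset.sum_le_sum fun y _ => ?_)
    rw [abs_mul, abs_of_nonneg (hγ y)]
    exact mul_le_mul_of_nonneg_left (hF y) (hγ y)
  have hvS : ∀ c : Fin d → ℝ, (∀ j, |c j| ≤ B) → ∀ p xs,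
      |∑ i, δ i * ((∑ j, c j * b a0 j p i) * rS P w b bz qd lam G i xs)| ≤ B * B * K p xs :=
    fun c hc p xs => by
    set q := fun i => ∑ j, c j * b a0 j p i
    have e : ∑ i, δ i * (q i * rS P w b bz qd lam G i xs)
        = (∑ i, δ i * (q i * vdir P b bz lam G (xs 0) i))
          + (∑ i, δ i * (q i * vdir P b bz lam G (xs 1) i))
          - 2 * ∑ i, δ i * (q i * vfU P w b bz qd lam i G) := by
      simp only [rS, Fin.sum_univ_two, Finset.mul_sum, ← Finset.sum_add_distrib,
        ← Finset.sum_sub_distrib]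
      exact Finset.sum_congr rfl fun i _ => by ring
    have h3 := hmean q (fun z => B * B * H p z) (hu2 c hc p)
    rw [e]
    refine (abs_sub _ _).trans ((add_le_add (abs_add_le _ _) (abs_mul _ _).le).trans ?_)
    have e3 : ∑ z, γ z * (B * B * H p z) = B * B * ∑ z, γ z * H p z := by
      rw [Finset.mul_sum]; exact Finset.sum_congr rfl fun z _ => by ring
    simp only [K, abs_two]
    linarith [hu2 c hc p (xs 0), hu2 c hc p (xs 1), h3.trans_eq e3]
  have hLS : ∀ xs, |∑ i, δ i * (rL P b a0 A k l lam G i xs * rS P w b bz qd lam G i xs)|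
      ≤ CA * (B ^ 3 * (K (xs 0) xs + K (xs 1) xs)) := fun xs => by
    have e : ∑ i, δ i * (rL P b a0 A k l lam G i xs * rS P w b bz qd lam G i xs)
        = A (xs 0) (xs 1) * (gg (xs 1) l * ∑ i, δ i *
            ((∑ j, hO P k j (vfld b lam G (xs 0) a0) * b a0 j (xs 0) i) * rS P w b bz qd lam G i xs)
          + gg (xs 0) k * ∑ i, δ i *
            ((∑ j, hO P l j (vfld b lam G (xs 1) a0) * b a0 j (xs 1) i)
              * rS P w b bz qd lam G i xs)) := by
      rw [Finset.mul_sum, Finset.mul_sum, ← Finset.sum_add_distrib, Finset.mul_sum]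
      exact Finset.sum_congr rfl fun i _ => by simp only [rL, rdh, gg]; ring
    rw [e, abs_mul]
    refine mul_le_mul (hA _ _) ((abs_add_le _ _).trans_eq' rfl |>.trans ?_) (abs_nonneg _) hCA
    rw [abs_mul, abs_mul]
    refine (add_le_add (mul_le_mul (hgg _ _) (hvS _ (fun j => abs_hO_le P _ _ _) _ _) (abs_nonneg _) hB)
      (mul_le_mul (hgg _ _) (hvS _ (fun j => abs_hO_le P _ _ _) _ _) (abs_nonneg _) hB)).trans_eq ?_
    ring
  have hSS : ∀ xs, |∑ i, δ i * (rS P w b bz qd lam G i xs * rS P w b bz qd lam G i xs)|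
      ≤ B ^ 2 * (K (xs 0) xs + K (xs 1) xs + 2 * ∑ z, γ z * K z xs) := fun xs => by
    have hz : ∀ y, |∑ i, δ i * (rS P w b bz qd lam G i xs * vdir P b bz lam G y i)|
        ≤ B * B * K y xs := fun y => by
      refine le_of_eq_of_le ?_ (hvS (g y) (hg y) y xs)
      refine congrArg abs (Finset.sum_congr rfl fun i _ => ?_)
      rw [mul_left_comm (δ i), row_vdir P b bz qd a0 hδ lam G y i]
      ring
    have e : ∑ i, δ i * (rS P w b bz qd lam G i xs * rS P w b bz qd lam G i xs)
        = (∑ i, δ i * (rS P w b bz qd lam G i xs * vdir P b bz lam G (xs 0) i))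
          + (∑ i, δ i * (rS P w b bz qd lam G i xs * vdir P b bz lam G (xs 1) i))
          - 2 * ∑ i, δ i * (rS P w b bz qd lam G i xs * vfU P w b bz qd lam i G) := by
      rw [Finset.mul_sum, ← Finset.sum_add_distrib, ← Finset.sum_sub_distrib]
      refine Finset.sum_congr rfl fun i _ => ?_
      conv_lhs => arg 2; arg 2; simp only [rS, Fin.sum_univ_two]
      ring
    rw [e]
    refine (abs_sub _ _).trans ((add_le_add (abs_add_le _ _) (abs_mul _ _).le).trans ?_)
    have e3 : ∑ z, γ z * (B * B * K z xs) = B * B * ∑ z, γ z * K z xs := by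
      rw [Finset.mul_sum]; exact Finset.sum_congr rfl fun z _ => by ring
    rw [abs_two, sq]
    linarith [hz (xs 0), hz (xs 1),
      (hmean (fun i => rS P w b bz qd lam G i xs) (fun z => B * B * K z xs) hz).trans_eq e3]
  have hcrv : ∀ y, |∑ i, δ i * vcrv P b lam G y i| ≤ B * H y y := fun y => by
    simp only [row_vcrv P b bz qd a0 hδ]
    exact abs_row_quad b a0 δ (fun j j' => abs_h_le P j j' _) y
  have hfW : |∑ i, δ i * vfW P w b bz qd lam i G| ≤ B * D + B ^ 2 * (D + Pp) := by
    have e : ∑ i, δ i * vfW P w b bz qd lam i G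
        = ∑ y, γ y * ((∑ i, δ i * vcrv P b lam G y i)
          + ((∑ i, δ i * (vdir P b bz lam G y i * vdir P b bz lam G y i))
            - ∑ i, δ i * (vdir P b bz lam G y i * vfU P w b bz qd lam i G))) := by
      simp only [vfW, Finset.mul_sum, mul_add, mul_sub, Finset.sum_add_distrib,
        Finset.sum_sub_distrib, γ, u]
      rw [Finset.sum_comm, Finset.sum_comm (f := fun i y => δ i *
        (gibbs (vbw P w b bz qd lam G) y * (vdir P b bz lam G y i * vdir P b bz lam G y i))),
        Finset.sum_comm (f := fun i y => δ i *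
        (gibbs (vbw P w b bz qd lam G) y * (vdir P b bz lam G y i * vfU P w b bz qd lam i G)))]
      simp only [mul_left_comm (δ _)]
    have hz : ∀ y z, |∑ i, δ i * (vdir P b bz lam G y i * vdir P b bz lam G z i)|
        ≤ B * B * H y z := fun y z => by
      refine le_of_eq_of_le ?_ (hu2 (g y) (hg y) y z)
      refine congrArg abs (Finset.sum_congr rfl fun i _ => ?_)
      rw [← mul_assoc, row_vdir P b bz qd a0 hδ lam G y i, mul_assoc]
    have eD : B * D + B ^ 2 * (D + Pp)
        = ∑ y, γ y * (B * H y y + (B * B * H y y + ∑ z, γ z * (B * B * H y z))) := by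
      simp only [D, Pp, avg2_eq, γ, mul_add, Finset.sum_add_distrib, Finset.mul_sum]
      congr 1
      · exact Finset.sum_congr rfl fun y _ => by ring
      · congr 1
        · exact Finset.sum_congr rfl fun y _ => by ring
        · exact Finset.sum_congr rfl fun y _ => Finset.sum_congr rfl fun z _ => by ring
    rw [e, eD]
    refine (Finset.abs_sum_le_sum_abs _ _).trans (Finset.sum_le_sum fun y _ => ?_)
    rw [abs_mul, abs_of_nonneg (hγ y)]
    refine mul_le_mul_of_nonneg_left ((abs_add_le _ _).trans (add_le_add (hcrv y)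
      ((abs_sub _ _).trans (add_le_add (hz y y) ?_)))) (hγ y)
    exact hmean (fun i => vdir P b bz lam G y i) (fun z => B * B * H y z) (hz y)
  have hQ : ∀ xs, |∑ i, δ i * rQ P b a0 A k l lam G i xs|
      ≤ CA * (B ^ 2 * (H (xs 0) (xs 0) + 2 * H (xs 0) (xs 1) + H (xs 1) (xs 1))) := fun xs => by
    have e : ∑ i, δ i * rQ P b a0 A k l lam G i xs
        = A (xs 0) (xs 1) * (gg (xs 1) l * (∑ i, δ i * rce P b a0 k lam G (xs 0) i)
          + 2 * (∑ i, δ i * (rdh P b a0 k lam G (xs 0) i * rdh P b a0 l lam G (xs 1) i))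
          + gg (xs 0) k * ∑ i, δ i * rce P b a0 l lam G (xs 1) i) := by
      rw [Finset.mul_sum, Finset.mul_sum, Finset.mul_sum, ← Finset.sum_add_distrib,
        ← Finset.sum_add_distrib, Finset.mul_sum]
      exact Finset.sum_congr rfl fun i _ => by simp only [rQ, gg]; ring
    rw [e, abs_mul]
    refine mul_le_mul (hA _ _) ((abs_add_le _ _).trans ((add_le_add (abs_add_le _ _) le_rfl).trans ?_))
      (abs_nonneg _) hCA
    rw [abs_mul, abs_mul, abs_mul, abs_two]
    have h1 := mul_le_mul (hgg (xs 1) l) (abs_row_quad b a0 δ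
      (c := fun j j' => eO P k j j' (vfld b lam G (xs 0) a0))
      (fun j j' => abs_eO_le P _ _ _ _) (xs 0)) (abs_nonneg _) hB
    have h2 := mul_le_mul (hgg (xs 0) k) (abs_row_quad b a0 δ
      (c := fun j j' => eO P l j j' (vfld b lam G (xs 1) a0))
      (fun j j' => abs_eO_le P _ _ _ _) (xs 1)) (abs_nonneg _) hB
    have h3 := abs_row_bilin b a0 δ (c := fun j => hO P k j (vfld b lam G (xs 0) a0))
      (c' := fun j => hO P l j (vfld b lam G (xs 1) a0))
      (fun j => abs_hO_le P _ _ _) (fun j => abs_hO_le P _ _ _) hB (xs 0) (xs 1)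
    simp only [rce, rdh, H, gg, sq] at h1 h2 h3 ⊢
    linarith
  have havg : ∀ F : (Fin 2 → T) → ℝ, |avg u 2 F| ≤ avg u 2 fun xs => |F xs| := fun F =>
    abs_avg_le hu fun xs => le_rfl
  have hsum : ∑ i, δ i * rW P w b bz qd a0 A k l lam i G
      = avg u 2 fun xs => (∑ i, δ i * rQ P b a0 A k l lam G i xs)
        + 2 * (∑ i, δ i * (rL P b a0 A k l lam G i xs * rS P w b bz qd lam G i xs))
        + robs P b a0 A k l lam G (xs 0) (xs 1) *
          ((∑ i, δ i * (rS P w b bz qd lam G i xs * rS P w b bz qd lam G i xs))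
            + ((∑ i, δ i * vcrv P b lam G (xs 0) i) + (∑ i, δ i * vcrv P b lam G (xs 1) i)
              - 2 * ∑ i, δ i * vfW P w b bz qd lam i G)) := by
    simp only [rW, ← avg_const_mul, ← avg_sum]
    refine congrArg _ (funext fun xs => ?_)
    simp only [rS2, Fin.sum_univ_two, mul_add, mul_sub, Finset.mul_sum, ← Finset.sum_add_distrib,
      ← Finset.sum_sub_distrib]
    exact Finset.sum_congr rfl fun i _ => by ring
  rw [hsum]
  refine (havg _).trans ((?_ : _ ≤ avg u 2 fun xs =>
      CA * (B ^ 2 * (H (xs 0) (xs 0) + 2 * H (xs 0) (xs 1) + H (xs 1) (xs 1))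
        + 2 * B ^ 3 * (K (xs 0) xs + K (xs 1) xs)
        + B ^ 4 * (K (xs 0) xs + K (xs 1) xs + 2 * ∑ z, γ z * K z xs)
        + B ^ 3 * (H (xs 0) (xs 0) + H (xs 1) (xs 1) + 2 * D)
        + 2 * B ^ 4 * (D + Pp))).trans ?_)
  · refine Finset.sum_le_sum fun xs _ => mul_le_mul_of_nonneg_left ?_
      (Finset.prod_nonneg fun i _ => hγ _)
    refine (abs_add_le _ _).trans ((add_le_add (abs_add_le _ _) le_rfl).trans ?_)
    rw [abs_mul (robs P b a0 A k l lam G (xs 0) (xs 1)), abs_mul 2, abs_two]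
    have h2 := mul_le_mul (abs_robs_le P b a0 hA k l lam G (xs 0) (xs 1))
      ((abs_add_le _ _).trans (add_le_add (hSS xs) ((abs_sub _ _).trans
        (add_le_add ((abs_add_le _ _).trans (add_le_add (hcrv (xs 0)) (hcrv (xs 1))))
          ((abs_mul _ _).trans_le (mul_le_mul (abs_two).le hfW (abs_nonneg _) zero_le_two))))))
      (abs_nonneg _) (by positivity)
    refine (add_le_add (add_le_add (hQ xs) (mul_le_mul_of_nonneg_left (hLS xs) zero_le_two))
      h2).trans_eq ?_
    ring
  · have n0 : (0 : Fin 2) ≠ 1 := by decide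
    have a00 : avg u 2 (fun xs => H (xs 0) (xs 0)) = D := avg_one hu 0 fun x => H x x
    have a11 : avg u 2 (fun xs => H (xs 1) (xs 1)) = D := avg_one hu 1 fun x => H x x
    have a01 : avg u 2 (fun xs => H (xs 0) (xs 1)) = Pp := avg_two hu n0 H
    have a10 : avg u 2 (fun xs => H (xs 1) (xs 0)) = Pp := avg_two hu n0.symm H
    have am : ∀ m : Fin 2, avg u 2 (fun xs => ∑ z, γ z * H (xs m) z) = Pp := fun m =>
      (avg_one hu m fun x => ∑ z, γ z * H x z).trans (avg2_eq u H).symm
    have am' : ∀ m : Fin 2, avg u 2 (fun xs => ∑ z, γ z * H z (xs m)) = Pp := fun m => by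
      refine (avg_one hu m fun x => ∑ z, γ z * H z x).trans ?_
      rw [show Pp = avg2 u H from rfl, avg2_eq]
      simp only [Finset.mul_sum]
      rw [Finset.sum_comm]
      exact Finset.sum_congr rfl fun x _ => Finset.sum_congr rfl fun y _ => by simp only [γ]; ring
    have eK : avg u 2 (fun xs => ∑ z, γ z * K z xs) = 4 * Pp := by
      have hcn : avg u 2 (fun _ => ∑ z, γ z * ∑ z', γ z' * H z z') = Pp :=
        (avg_const hu 2 _).trans (avg2_eq u H).symm
      have hp : ∀ xs, ∑ z, γ z * K z xs = (∑ z, γ z * H z (xs 0)) + (∑ z, γ z * H z (xs 1))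
          + 2 * ∑ z, γ z * ∑ z', γ z' * H z z' := fun xs => by
        simp only [K, mul_add, Finset.sum_add_distrib]
        congr 1
        rw [Finset.mul_sum]
        exact Finset.sum_congr rfl fun z _ => by ring
      simp only [hp, avg_add, avg_const_mul, am', hcn]
      ring
    have eF : avg2 u (rowF b δ a0) = Pp + D := by
      simp only [avg2_eq, Pp, D, rowF, mul_add, Finset.sum_add_distrib]
      congr 1
      refine Finset.sum_congr rfl fun x _ => ?_
      rw [← Finset.sum_mul, sum_gibbs hu, one_mul]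
    have hP0 : 0 ≤ Pp := by
      simp only [Pp, avg2_eq]
      exact Finset.sum_nonneg fun x _ => mul_nonneg (hγ x)
        (Finset.sum_nonneg fun y _ => mul_nonneg (hγ y) (hH x y))
    have hD0 : 0 ≤ D := Finset.sum_nonneg fun x _ => mul_nonneg (hγ x) (hH x x)
    simp only [K, avg_const_mul, avg_add, avg_const hu, a00, a11, a01, a10, am, eK, eF, rowC]
    have e3 := mul_nonneg (mul_nonneg hCA (pow_nonneg hB 3)) (add_nonneg hP0 hD0)
    have e3' := mul_nonneg (mul_nonneg hCA (pow_nonneg hB 3)) hP0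
    have e3'' := mul_nonneg (mul_nonneg hCA (pow_nonneg hB 3)) hD0
    have e4 := mul_nonneg (mul_nonneg hCA (pow_nonneg hB 4)) hP0
    have e4' := mul_nonneg (mul_nonneg hCA (pow_nonneg hB 4)) hD0
    linarith

end RowBound

end VItp

section RowSystem

variable {T I : Type*} [Fintype T] [Fintype I] [Nonempty T] {M d : ℕ} (P : VPot d) {w : T → ℝ}
  (b : Fin M → Fin d → T → I → ℝ) (bz qd : T → I → ℝ) (a0 : Fin M)

/-- The change of a pair observable of one row along a segment that only touches this row. -/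
theorem abs_vpair_row_sub (hw : ∀ x, 0 < w x) {l0 δ : I → ℝ}
    (hpos : ∀ t ∈ Icc (0 : ℝ) 1, ∀ i, 0 ≤ l0 i + t * δ i) (hδ : OnRow b bz qd δ a0)
    (A : T → T → ℝ) {CA : ℝ} (hA : ∀ x y, |A x y| ≤ CA) (k l : Option (Fin d)) :
    ∃ t ∈ Ioo (0 : ℝ) 1,
      |vpair P w b bz qd (fun i => l0 i + δ i) (robs P b a0 A k l fun i => l0 i + δ i)
        - vpair P w b bz qd l0 (robs P b a0 A k l l0)|
      ≤ CA * rowC P
        * vpair P w b bz qd (fun i => l0 i + t * δ i) fun _ => rowF b δ a0 := by
  classical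
  set f := fun r => vpair P w b bz qd (seg l0 δ r) (robs P b a0 A k l (seg l0 δ r))
  have hf : ∀ r, f r = ∫ G, avg (vbw P w b bz qd (seg l0 δ r) G) 2
      (fun xs => robs P b a0 A k l (seg l0 δ r) G (xs 0) (xs 1)) ∂gaus I := fun r =>
    integral_congr_ae (ae_of_all _ fun G => (avg_two (VItp.vbw_pos P b bz qd hw _ G)
      (by decide : (0 : Fin 2) ≠ 1) (robs P b a0 A k l (seg l0 δ r) G)).symm)
  obtain ⟨C, hC⟩ := VItp.bounded_rUW P b bz qd a0 A k l hw hA
  have hd : ∀ r ∈ Ioo (0 : ℝ) 1, ∃ f', HasDerivAt f f' r ∧ |f'|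
      ≤ CA * rowC P * vpair P w b bz qd (seg l0 δ r) fun _ => rowF b δ a0 := fun r hr => by
    have hb : ∀ q G, |avg (vbw P w b bz qd (seg l0 δ q) G) 2
        (fun xs => robs P b a0 A k l (seg l0 δ q) G (xs 0) (xs 1))| ≤ CA * (rowB P * rowB P) :=
      fun q G => (abs_avg_le (VItp.vbw_pos P b bz qd hw _ G)
        fun xs => abs_robs_le P b a0 hA k l _ G _ _).trans_eq
          (avg_const (VItp.vbw_pos P b bz qd hw _ G) 2 _)
    have hΦ : ∀ q, Continuous fun G => avg (vbw P w b bz qd (seg l0 δ q) G) 2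
        (fun xs => robs P b a0 A k l (seg l0 δ q) G (xs 0) (xs 1)) := fun q => by
      have := VItp.cont_vgibbs P b bz qd hw (seg l0 δ q)
      have := cont_robs P b a0 A k l (seg l0 δ q)
      unfold avg; fun_prop
    have hg := deriv_gauss hpos hr
      (Φ := fun q G => avg (vbw P w b bz qd (seg l0 δ q) G) 2
        fun xs => robs P b a0 A k l (seg l0 δ q) G (xs 0) (xs 1))
      (U := fun q => VItp.rU P w b bz qd a0 A k l (seg l0 δ q)) (V := fun _ _ => 0)
      (W := VItp.rW P w b bz qd a0 A k l (seg l0 δ r)) (C := max C 0)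
      hΦ (integrable_bdd (hΦ r) (hb r)) (fun q i => VItp.cont_rU P b bz qd a0 A k l hw _ i)
      (fun _ => continuous_const) (fun q i G => (hC _ i G).1.trans (le_max_left _ _))
      (fun q G => (abs_zero (α := ℝ)).le.trans (le_max_right _ _))
      (fun q hq G => by
        simpa using VItp.deriv_rPhi_t P b bz qd a0 A k l hw hδ hpos hq G)
      (fun i G => VItp.deriv_rU_G P b bz qd a0 A k l hw _ i G)
      (fun i => VItp.cont_rW P b bz qd a0 A k l hw _ i) (fun i G => (hC _ i G).2)
    refine ⟨_, hg.congr_of_eventuallyEq (Eventually.of_forall hf), ?_⟩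
    rw [vpair, ← integral_const_mul]
    have hFc : Continuous fun G =>
        CA * rowC P * avg2 (vbw P w b bz qd (seg l0 δ r) G) (rowF b δ a0) := by
      have := VItp.cont_vgibbs P b bz qd hw (seg l0 δ r)
      unfold avg2; fun_prop
    obtain ⟨Mx, hMx⟩ : ∃ Mx, ∀ x y, |rowF b δ a0 x y| ≤ Mx :=
      ⟨∑ x, ∑ y, |rowF b δ a0 x y|, fun x y => (Finset.single_le_sum
        (f := fun y => |rowF b δ a0 x y|) (fun _ _ => abs_nonneg _) (Finset.mem_univ y)).trans
        (Finset.single_le_sum (f := fun x => ∑ y, |rowF b δ a0 x y|)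
          (fun _ _ => Finset.sum_nonneg fun _ _ => abs_nonneg _) (Finset.mem_univ x))⟩
    refine abs_integral_le_integral_abs.trans (integral_mono_of_nonneg
      (ae_of_all _ fun G => abs_nonneg _)
      (integrable_bdd hFc (C := |CA * rowC P| * Mx) fun G => ?_) (ae_of_all _ fun G => ?_))
    · rw [abs_mul]
      exact mul_le_mul_of_nonneg_left (abs_avg2_le (VItp.vbw_pos P b bz qd hw _ G) hMx)
        (abs_nonneg _)
    · have h := VItp.abs_rW_sum_le P b bz qd a0 hδ hw A hA k l (seg l0 δ r) G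
      have e : ∑ i, δ i / 2 * VItp.rW P w b bz qd a0 A k l (seg l0 δ r) i G
          = 1 / 2 * ∑ i, δ i * VItp.rW P w b bz qd a0 A k l (seg l0 δ r) i G := by
        rw [Finset.mul_sum]; exact Finset.sum_congr rfl fun i _ => by ring
      simp only [add_zero, e, abs_mul, abs_of_pos (by norm_num : (0 : ℝ) < 1 / 2)]
      linarith
  choose! f' hf' hle using hd
  have hc : Continuous f := by
    have h := continuous_vpair P b bz qd hw (O := fun lam => robs P b a0 A k l lam)
      (C := CA * (rowB P * rowB P)) (fun x y => cont_robs2 P b a0 A k l x y)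
      (fun lam G x y => abs_robs_le P b a0 hA k l lam G x y)
    exact h.comp' (by unfold seg; fun_prop : Continuous fun r : ℝ => seg l0 δ r)
  obtain ⟨t, ht, he⟩ := exists_hasDerivAt_eq_slope f f' zero_lt_one hc.continuousOn hf'
  refine ⟨t, ht, ?_⟩
  have h0 : seg l0 δ 0 = l0 := funext fun i => by simp [seg]
  have h1 : seg l0 δ 1 = fun i => l0 i + δ i := funext fun i => by simp [seg]
  have := hle t ht
  rw [he] at this
  simp only [f, h0, h1, sub_zero, div_one] at this
  exact this

end RowSystem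

/-- The variances only touch one row. -/
structure VRow {N M d R D K : ℕ} (a0 : Fin M) (e : VCIdx N M d R D K → ℝ) : Prop where
  pat : ∀ a j, a ≠ a0 → e (Sum.inl (Sum.inl (a, j))) = 0
  tilt : ∀ j, e (Sum.inl (Sum.inr j)) = 0
  slot : ∀ l s a r, a ≠ a0 → e (Sum.inr (l, Sum.inl (s, a, r))) = 0
  spin : ∀ l u, e (Sum.inr (l, Sum.inr u)) = 0

theorem onRow_vpull {N M d R D K n : ℕ} (π : VPrior N d R D) (Φ : VFac N d K) {a0 : Fin M}
    {e : VCIdx N M d R D K → ℝ} (he : VRow a0 e) :
    OnRow (vbpat (n := n) π Φ) (vbspin π Φ) (vqd π Φ) (vpull e) a0 := by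
  refine ⟨fun i hi a ha k x => ?_, fun i hi x => ?_, fun i hi x => ?_⟩ <;>
    rcases i with (⟨a', j⟩ | j) | ⟨o, ⟨s, a', r⟩ | u⟩ <;>
    simp only [vpull, ne_eq] at hi <;>
    first
      | exact absurd (he.tilt _) hi
      | exact absurd (he.spin _ _) hi
      | skip
  all_goals
    by_cases h : a' = a0
    · subst h; simp [vbpat, vbspin, vqd, treeDir, rowZ, rowL, spinL, tiltQ, Ne.symm, *]
    · first
        | exact absurd (he.pat _ _ h) hi
        | exact absurd (he.slot _ _ _ _ h) hi

/-- Environment averages of bounded continuous pair observables are integrable. -/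
theorem integrable_vpair_env {N M d R D K n : ℕ} (P : VPot d) (π : VPrior N d R D)
    (Φ : VFac N d K) (hn : 0 < n) (c : VCIdx N M d R D K → ℝ)
    {O : (VGIdx N M d R D K n → ℝ) → VState π K n → VState π K n → ℝ}
    (hO : ∀ x y, Continuous fun G => O G x y) {C : ℝ} (hC : ∀ G x y, |O G x y| ≤ C) :
    Integrable (fun W => vpair P (vpwt π W) (vbpat π Φ) (vbspin π Φ) (vqd π Φ) (vpull c) O)
      (casW (mlev K) n) := by
  have := vstate_nonempty (K := K) π hn
  have hm : Measurable fun p : (Node K n → ℝ) × (VGIdx N M d R D K n → ℝ) =>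
      avg2 (vbw P (vpwt π p.1) (vbpat π Φ) (vbspin π Φ) (vqd π Φ) (vpull c) p.2) (O p.2) := by
    have := fun st => measurable_vmbw_env P π Φ (W := fun p : (Node K n → ℝ) ×
      (VGIdx N M d R D K n → ℝ) => p.1) measurable_fst (c := fun _ => c)
      (fun _ => measurable_const) (G := fun p => p.2)
      (fun i => (measurable_pi_apply i).comp measurable_snd) st
    have : ∀ x y, Measurable fun p : (Node K n → ℝ) × (VGIdx N M d R D K n → ℝ) => O p.2 x y :=
      fun x y => (hO x y).measurable.comp measurable_snd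
    unfold avg2 gibbs; fun_prop
  refine integrable_of_bdd hm.stronglyMeasurable.integral_prod_right'.aestronglyMeasurable
    (C := C) fun W => ?_
  rw [← Real.norm_eq_abs]
  refine (norm_integral_le_of_norm_le_const (ae_of_all _ fun G => (Real.norm_eq_abs _).trans_le
    (abs_avg2_le (VItp.vbw_pos P (vbpat π Φ) (vbspin π Φ) (vqd π Φ) (vpwt_pos π W) _ G)
      (hC G)))).trans_eq ?_
  simp

/-- The change of a pair observable of one row, by the covariance of the row at the start. -/
theorem abs_vmpair_row_sub {N M d R D K n : ℕ} (P : VPot d) (π : VPrior N d R D)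
    (Φ : VFac N d K) (hn : 0 < n) (a0 : Fin M) {c e : VCIdx N M d R D K → ℝ}
    (hpos : ∀ t ∈ Icc (0 : ℝ) 1, ∀ i, 0 ≤ c i + t * e i) (he : VRow a0 e)
    (A : VState π K n → VState π K n → ℝ) {CA : ℝ} (hA : ∀ x y, |A x y| ≤ CA) (k l : Option (Fin d))
    {H : ℝ} (hH0 : 0 ≤ H) (hH : ∀ k' l' (x y : VState π K n),
      |bcov (vbpat π Φ) (vpull e) a0 k' l' x y| ≤ H) :
    |vmpair n P π Φ (fun i => c i + e i)
        (robs P (vbpat π Φ) a0 A k l (vpull fun i => c i + e i))
      - vmpair n P π Φ c (robs P (vbpat π Φ) a0 A k l (vpull c))|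
    ≤ CA * rowC P * (3 * Real.exp (6 * (4 * (d : ℝ) ^ 2 * H
        * (2 * max P.b1 0 ^ 2 + max P.b2 0))))
      * vmpair n P π Φ c fun _ => rowF (vbpat π Φ) (vpull e) a0 := by
  have := vstate_nonempty (K := K) π hn
  set b := vbpat (M := M) (n := n) π Φ
  have hδ := onRow_vpull (n := n) π Φ he
  have hCA : 0 ≤ CA := (abs_nonneg _).trans (hA (Classical.arbitrary _) (Classical.arbitrary _))
  set Mx := 2 * ((d : ℝ) * (d * H))
  have hF0 : ∀ x y, 0 ≤ rowF b (vpull e) a0 x y := fun x y =>
    add_nonneg (rowDev_nonneg _ _ _ _ _) (rowDev_nonneg _ _ _ _ _)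
  have hF1 : ∀ x y, rowF b (vpull e) a0 x y ≤ Mx := fun x y => by
    have h : ∀ x y, rowDev b (vpull e) a0 x y ≤ d * (d * H) := fun x y =>
      (Finset.sum_le_sum (g := fun _ => (d : ℝ) * H) fun k' _ =>
        (Finset.sum_le_sum (g := fun _ => H) fun l' _ => hH k' l' x y).trans_eq
          (by simp)).trans_eq (by simp)
    unfold rowF
    linarith [h x y, h x x]
  have hFa : ∀ (G : VGIdx N M d R D K n → ℝ) x y, |rowF b (vpull e) a0 x y| ≤ Mx := fun G x y =>
    (abs_of_nonneg (hF0 x y)).trans_le (hF1 x y)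
  have hAa : ∀ a k' l' (x y : VState π K n),
      |bcov b (vpull e) a k' l' x y| ≤ if a = a0 then H else 0 := fun a k' l' x y => by
    split_ifs with ha
    · subst ha; exact hH k' l' x y
    · refine (le_of_eq ?_)
      rw [abs_eq_zero, bcov]
      refine Finset.sum_eq_zero fun i _ => ?_
      by_cases hi : vpull (n := n) e i = 0
      · simp [hi]
      · simp [b, hδ.row i hi a ha]
  have hz0 : ∀ x y : VState π K n,
      |∑ i, vpull e i * (vbspin π Φ x i * vbspin π Φ y i)| ≤ 0 := fun x y => by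
    refine le_of_eq (abs_eq_zero.2 (Finset.sum_eq_zero fun i _ => ?_))
    by_cases hi : vpull (n := n) e i = 0
    · simp [hi]
    · simp [hδ.spin i hi]
  have hq0 : ∀ x : VState π K n, |∑ i, vpull e i * vqd (M := M) π Φ x i| ≤ 0 := fun x => by
    refine le_of_eq (abs_eq_zero.2 (Finset.sum_eq_zero fun i _ => ?_))
    by_cases hi : vpull (n := n) e i = 0
    · simp [hi]
    · simp [hδ.det i hi]
  have e1 : (fun i => vpull (n := n) c i + vpull e i) = vpull fun i => c i + e i :=
    funext fun i => by rcases i with q | ⟨o, i⟩ <;> rfl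
  have hR : ∀ lam (G : VGIdx N M d R D K n → ℝ) x y,
      |robs P b a0 A k l lam G x y| ≤ CA * (rowB P * rowB P) := abs_robs_le P b a0 hA k l
  have hRc : ∀ lam x y, Continuous fun G => robs P b a0 A k l lam G x y :=
    cont_robs P b a0 A k l
  have hi := fun c' : VCIdx N M d R D K → ℝ =>
    integrable_vpair_env P π Φ hn c' (O := robs P b a0 A k l (vpull c')) (hRc _) (hR _)
  rw [vmpair_eq P π Φ hn _ (hRc _) (hR _), vmpair_eq P π Φ hn _ (hRc _) (hR _),
    vmpair_eq P π Φ hn c (O := fun _ => rowF b (vpull e) a0) (fun _ _ => continuous_const) hFa,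
    ← integral_sub (hi _) (hi _), ← integral_const_mul]
  refine abs_integral_le_integral_abs.trans (integral_mono ((hi _).sub (hi _)).abs
    ((integrable_vpair_env P π Φ hn c (O := fun _ => rowF b (vpull e) a0)
      (fun _ _ => continuous_const) hFa).const_mul _) fun W => ?_)
  dsimp only
  have hp : ∀ t ∈ Icc (0 : ℝ) 1, ∀ i, 0 ≤ vpull (n := n) c i + t * vpull e i := fun t ht i => by
    rw [← vpull_add]; rcases i with q | ⟨o, i⟩ <;> exact hpos t ht _
  obtain ⟨t, ht, h⟩ := abs_vpair_row_sub P b (vbspin π Φ) (vqd π Φ) a0 (vpwt_pos π W) hp hδ A hA k l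
  rw [e1] at h
  refine h.trans ?_
  rw [mul_assoc (CA * rowC P)]
  refine mul_le_mul_of_nonneg_left ?_ (mul_nonneg hCA (rowC_nonneg P))
  refine (vpair_transfer P b _ _ (vdisj π Φ) (vpwt_pos π W) hp hAa hz0 hq0 hF0 hF1
    (Ioo_subset_Icc_self ht)).trans_eq ?_
  simp [Dbl.kb, b]

end Vale.Agent.P166.Casc
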