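import Vale.Agent.P166.Casc.VBlock
import Vale.Agent.P166.Casc.VRowDer

/-!
The cavity increment at a finite degree of the tree: the full system against the split one, through
pair averages at points where one row only sees its own fields.
-/

open MeasureTheory ProbabilityTheory Filter Topology Set

namespace Vale.Agent.P166.Casc

open Vale.Agent.P157.Casc Vale.Agent.P157.Casc.Itp

section Obs

variable {N M d R D K n : ℕ}

/-- A continuous bounded pair observable. -/
def GoodObs {π : VPrior N d R D}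
    (O : (VGIdx N M d R D K n → ℝ) → VState π K n → VState π K n → ℝ) : Prop :=
  (∀ x y, Continuous fun G => O G x y) ∧ ∃ C, ∀ G x y, |O G x y| ≤ C

variable {π : VPrior N d R D} {O O' : (VGIdx N M d R D K n → ℝ) → VState π K n → VState π K n → ℝ}

theorem goodObs_const (F : VState π K n → VState π K n → ℝ) :
    GoodObs (M := M) fun (_ : VGIdx N M d R D K n → ℝ) x y => F x y :=
  ⟨fun _ _ => continuous_const, ∑ x, ∑ y, |F x y|, fun _ x y =>
    (Finset.single_le_sum (f := fun y => |F x y|) (fun _ _ => abs_nonneg _)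
      (Finset.mem_univ y)).trans (Finset.single_le_sum (f := fun x => ∑ y, |F x y|)
      (fun _ _ => Finset.sum_nonneg fun _ _ => abs_nonneg _) (Finset.mem_univ x))⟩

theorem GoodObs.add (h : GoodObs O) (h' : GoodObs O') :
    GoodObs fun G x y => O G x y + O' G x y := by
  obtain ⟨h1, C, hC⟩ := h
  obtain ⟨h2, C', hC'⟩ := h'
  exact ⟨fun x y => (h1 x y).add (h2 x y), C + C', fun G x y =>
    (abs_add_le _ _).trans (add_le_add (hC G x y) (hC' G x y))⟩

theorem GoodObs.smul (h : GoodObs O) (c : ℝ) : GoodObs fun G x y => c * O G x y := by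
  obtain ⟨h1, C, hC⟩ := h
  exact ⟨fun x y => (h1 x y).const_mul c, |c| * C, fun G x y => by
    rw [abs_mul]; exact mul_le_mul_of_nonneg_left (hC G x y) (abs_nonneg _)⟩

theorem GoodObs.sum {ι : Type*} (s : Finset ι)
    {F : ι → (VGIdx N M d R D K n → ℝ) → VState π K n → VState π K n → ℝ}
    (h : ∀ i ∈ s, GoodObs (F i)) : GoodObs fun G x y => ∑ i ∈ s, F i G x y := by
  classical
  induction s using Finset.induction with
  | empty => simpa using goodObs_const (π := π) (M := M) fun _ _ => (0 : ℝ)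
  | insert a s ha ih =>
    simp only [Finset.sum_insert ha]
    exact (h a (Finset.mem_insert_self a s)).add (ih fun i hi => h i (Finset.mem_insert_of_mem hi))

theorem goodObs_robs (P : VPot d) (Φ : VFac N d K) (a : Fin M)
    (A : VState π K n → VState π K n → ℝ) (k l : Option (Fin d))
    (c : VCIdx N M d R D K → ℝ) :
    GoodObs (robs P (vbpat π Φ) a A k l (vpull c)) := by
  obtain ⟨-, C, hC⟩ := goodObs_const (M := M) A
  exact ⟨fun x y => cont_robs P _ a A k l _ x y, C * (rowB P * rowB P), fun G x y =>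
    abs_robs_le P _ a (fun x y => hC G x y) k l _ G x y⟩

variable (P : VPot d) (Φ : VFac N d K) (c : VCIdx N M d R D K → ℝ) (hn : 0 < n)
include hn

theorem vmpair_mono (h : GoodObs O) (h' : GoodObs O') (hle : ∀ G x y, O G x y ≤ O' G x y) :
    vmpair n P π Φ c O ≤ vmpair n P π Φ c O' := by
  have := vstate_nonempty (K := K) π hn
  obtain ⟨h1, C, hC⟩ := h
  obtain ⟨h2, C', hC'⟩ := h'
  rw [vmpair_eq P π Φ hn c h1 hC, vmpair_eq P π Φ hn c h2 hC']
  refine integral_mono (integrable_vpair_env P π Φ hn c h1 hC)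
    (integrable_vpair_env P π Φ hn c h2 hC') fun W => ?_
  have hg := VItp.cont_vgibbs P (vbpat π Φ) (vbspin π Φ) (vqd π Φ) (vpwt_pos π W) (vpull c)
  have hu := fun G => VItp.vbw_pos P (vbpat π Φ) (vbspin π Φ) (vqd π Φ) (vpwt_pos π W) (vpull c) G
  refine integral_mono (integrable_bdd (by unfold avg2; fun_prop) fun G => abs_avg2_le (hu G) (hC G))
    (integrable_bdd (by unfold avg2; fun_prop) fun G => abs_avg2_le (hu G) (hC' G)) fun G => ?_
  exact Finset.sum_le_sum fun x _ => Finset.sum_le_sum fun y _ => mul_le_mul_of_nonneg_left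
    (hle G x y) (mul_nonneg (gibbs_nonneg (hu G) x) (gibbs_nonneg (hu G) y))

theorem vmpair_add (h : GoodObs O) (h' : GoodObs O') :
    vmpair n P π Φ c (fun G x y => O G x y + O' G x y)
      = vmpair n P π Φ c O + vmpair n P π Φ c O' := by
  have := vstate_nonempty (K := K) π hn
  obtain ⟨h12, C2, hC2⟩ := h.add h'
  obtain ⟨h1, C, hC⟩ := h
  obtain ⟨h2, C', hC'⟩ := h'
  rw [vmpair_eq P π Φ hn c h1 hC, vmpair_eq P π Φ hn c h2 hC',
    vmpair_eq P π Φ hn c (O := fun G x y => O G x y + O' G x y) h12 hC2,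
    ← integral_add (integrable_vpair_env P π Φ hn c h1 hC)
      (integrable_vpair_env P π Φ hn c h2 hC')]
  refine integral_congr_ae (ae_of_all _ fun W => ?_)
  have hg := VItp.cont_vgibbs P (vbpat π Φ) (vbspin π Φ) (vqd π Φ) (vpwt_pos π W) (vpull c)
  have hu := fun G => VItp.vbw_pos P (vbpat π Φ) (vbspin π Φ) (vqd π Φ) (vpwt_pos π W) (vpull c) G
  simp only [vpair]
  rw [← integral_add (integrable_bdd (by unfold avg2; fun_prop) fun G => abs_avg2_le (hu G) (hC G))
    (integrable_bdd (by unfold avg2; fun_prop) fun G => abs_avg2_le (hu G) (hC' G))]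
  refine integral_congr_ae (ae_of_all _ fun G => ?_)
  simp only [avg2, mul_add, Finset.sum_add_distrib]

theorem vmpair_smul (h : GoodObs O) (r : ℝ) :
    vmpair n P π Φ c (fun G x y => r * O G x y) = r * vmpair n P π Φ c O := by
  have := vstate_nonempty (K := K) π hn
  obtain ⟨h12, C2, hC2⟩ := h.smul r
  obtain ⟨h1, C, hC⟩ := h
  rw [vmpair_eq P π Φ hn c h1 hC, vmpair_eq P π Φ hn c (O := fun G x y => r * O G x y) h12 hC2,
    ← integral_const_mul]
  refine integral_congr_ae (ae_of_all _ fun W => ?_)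
  simp only [vpair, ← integral_const_mul]
  refine integral_congr_ae (ae_of_all _ fun G => ?_)
  simp only [avg2, Finset.mul_sum]
  exact Finset.sum_congr rfl fun x _ => Finset.sum_congr rfl fun y _ => by ring

omit hn in
theorem vmpair_zero :
    vmpair n P π Φ c (fun _ _ _ => (0 : ℝ)) = 0 := by
  simp [vmpair, avg2]

theorem vmpair_one :
    vmpair n P π Φ c (fun _ _ _ => (1 : ℝ)) = 1 := by
  have := vstate_nonempty (K := K) π hn
  rw [vmpair_eq P π Φ hn c (O := fun _ _ _ => (1 : ℝ)) (fun _ _ => continuous_const) (C := 1)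
    fun _ _ _ => by simp]
  have h : ∀ (W : Node K n → ℝ) (G : VGIdx N M d R D K n → ℝ), avg2 (vbw P (vpwt π W) (vbpat π Φ) (vbspin π Φ) (vqd π Φ) (vpull c) G)
      (fun _ _ => (1 : ℝ)) = 1 := fun W G => by
    have hu := VItp.vbw_pos P (vbpat π Φ) (vbspin π Φ) (vqd π Φ) (vpwt_pos π W) (vpull c) G
    simp [avg2, ← Finset.mul_sum, sum_gibbs hu]
  simp [vpair, h]

theorem vmpair_sum {ι : Type*} (s : Finset ι)
    {F : ι → (VGIdx N M d R D K n → ℝ) → VState π K n → VState π K n → ℝ}
    (h : ∀ i ∈ s, GoodObs (F i)) :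
    vmpair n P π Φ c (fun G x y => ∑ i ∈ s, F i G x y) = ∑ i ∈ s, vmpair n P π Φ c (F i) := by
  classical
  induction s using Finset.induction with
  | empty => simpa using vmpair_zero P Φ c
  | insert a s ha ih =>
    have hs : ∀ i ∈ s, GoodObs (F i) := fun i hi => h i (Finset.mem_insert_of_mem hi)
    simp only [Finset.sum_insert ha]
    rw [vmpair_add P Φ c hn (h a (Finset.mem_insert_self a s)) (GoodObs.sum s hs), ih hs]

end Obs

variable {N N' m M mr d R D K n : ℕ}

section Inc

variable (π : VPrior N d R D) (β : Block m d) (e : Fin N ⊕ Fin m ≃ Fin N') (Φ : VFac N' d K)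
  (J : ℕ) (x : Fin R → ℕ → ℝ)

/-- The covariance of the fields of the block, summed. -/
noncomputable def spinPair (u : Fin (K + 1)) (τ τ' : Fin β.c) : ℝ :=
  ∑ i, ∑ k, ∑ l, β.cfg τ i k * β.cfg τ' i l * spinCum Φ (e (Sum.inr i)) u k l

/-- Bounds of the overlaps and sizes of a cavity step. -/
structure CavB (M mr : ℕ) (B A0 : ℝ) : Prop where
  B_nonneg : 0 ≤ B
  A0_nonneg : 0 ≤ A0
  ov : ∀ k l σ σ', |oldOv π k l σ σ'| ≤ B
  nov : ∀ k l τ τ', |newOv β k l τ τ'| ≤ B
  row : ∀ u k l, |rowCum Φ u k l| ≤ B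
  spin : ∀ u τ τ', |spinPair β e Φ u τ τ'| ≤ m * B
  rows : ((M + mr : ℕ) : ℝ) ≤ A0 * N'
  new : (mr : ℝ) ≤ A0 * m

/-- Distance of an old overlap from the path of the rows. -/
noncomputable def syncF (st st' : VState π K n) : ℝ :=
  ∑ k, ∑ l, |oldOv π k l st.1 st'.1 - rowCum Φ (com st.2 st'.2) k l|

/-- Distance of an old self-overlap from the end of the path. -/
noncomputable def devS (σ : Fin π.c) : ℝ :=
  ∑ k, ∑ l, |oldOv π k l σ σ - rowCum Φ (Fin.last K) k l|

/-- Distance of a self-overlap of the block from the end of the path. -/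
noncomputable def devT (τ : Fin β.c) : ℝ :=
  ∑ k, ∑ l, |newOv β k l τ τ - rowCum Φ (Fin.last K) k l|

variable (M mr)

/-- The segment from all coordinates to the old ones. -/
noncomputable def seg1C (t : ℝ) : VCIdx N' (M + mr) d R D K → ℝ := fun i =>
  segc (fun _ j => 1 + t * (oldS e j - 1)) (fun _ => 0) (fun j => t * newI e j) i + vpert J x i

/-- The segment from old coordinates in the new rows to their fields. -/
noncomputable def seg2C (t : ℝ) : VCIdx N' (M + mr) d R D K → ℝ := fun i =>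
  segc (fun a j => oldS e j * (1 - t * newR M mr a)) (fun a => t * newR M mr a) (newI e) i
    + vpert J x i

/-- A point of the first segment with one row on its fields. -/
noncomputable def decC (t : ℝ) (a : Fin (M + mr)) : VCIdx N' (M + mr) d R D K → ℝ := fun i =>
  segc (fun b j => if b = a then 0 else 1 + t * (oldS e j - 1))
    (fun b => if b = a then 1 else 0) (fun j => t * newI e j) i + vpert J x i

/-- The difference of the path and the block overlap, at two states. -/
noncomputable def decA (k l : Fin d) (st st' : VState (prodPrior π β e) K n) : ℝ :=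
  rowCum Φ (com st.2 st'.2) k l - newOv β k l (newCfg π β e st.1) (newCfg π β e st'.1)

/-- The fields of the block at two states. -/
noncomputable def decB (st st' : VState (prodPrior π β e) K n) : ℝ :=
  spinPair β e Φ (com st.2 st'.2) (newCfg π β e st.1) (newCfg π β e st'.1)

/-- The main part of the increment: pair averages with one row decoupled. -/
noncomputable def decVal (n : ℕ) (P : VPot d) (t : ℝ) : ℝ :=
  1 / 2 * ∑ a, ((m : ℝ) / N' * ∑ k, ∑ l, vmpair n P (prodPrior π β e) Φ (decC M mr e J x t a)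
      (robs P (vbpat (prodPrior π β e) Φ) a (decA π β e Φ k l) (some k) (some l)
        (vpull (decC M mr e J x t a)))
    + 1 / ((M + mr : ℕ) : ℝ) * vmpair n P (prodPrior π β e) Φ (decC M mr e J x t a)
      (robs P (vbpat (prodPrior π β e) Φ) a (decB π β e Φ) none none
        (vpull (decC M mr e J x t a))))

theorem pert_zero_ends :
    seg1C M mr e J x 0 = (fun i => ptFull M mr i + vpert J x i : VCIdx N' (M + mr) d R D K → ℝ) ∧
    seg1C M mr e J x 1 = (fun i => ptOld M mr e i + vpert J x i : VCIdx N' (M + mr) d R D K → ℝ) ∧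
    seg2C M mr e J x 0 = (fun i => ptOld M mr e i + vpert J x i : VCIdx N' (M + mr) d R D K → ℝ) ∧
    seg2C M mr e J x 1
      = (fun i => ptSplit M mr e i + vpert J x i : VCIdx N' (M + mr) d R D K → ℝ) := by
  refine ⟨?_, ?_, ?_, ?_⟩ <;> funext i <;>
    simp [seg1C, seg2C, ptFull, ptOld, ptSplit, mul_comm]

variable {M mr}

theorem cast_glue (e : Fin N ⊕ Fin m ≃ Fin N') : (N' : ℝ) = N + m := by
  have h := Fintype.card_congr e
  simp only [Fintype.card_sum, Fintype.card_fin] at h
  exact_mod_cast h.symm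

/-- Covariance of a row with strengths affine in the glue. -/
theorem sum_aff_glue (hN : 0 < N) (r t : ℝ) (k l : Fin d) (st st' : VState (prodPrior π β e) K n) :
    (∑ j, (r + t * oldS e j) *
        ((prodPrior π β e).cfg st.1 j k * (prodPrior π β e).cfg st'.1 j l)) / N'
      = (r * N / N' + t) * oldOv π k l (oldCfg π β e st.1) (oldCfg π β e st'.1)
        + r * m / N' * newOv β k l (newCfg π β e st.1) (newCfg π β e st'.1) := by
  rw [sum_glue e]
  simp only [prodPrior_cfg_inl, prodPrior_cfg_inr, oldS, Equiv.symm_apply_apply, Sum.elim_inl,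
    Sum.elim_inr, mul_zero, add_zero, ← Finset.mul_sum, oldOv, newOv]
  have hN' : (N' : ℝ) ≠ 0 := by
    rw [cast_glue e]; positivity
  rcases Nat.eq_zero_or_pos m with hm | hm
  · subst hm
    simp
    field_simp
  · field_simp

/-- The block fields in the linear field. -/
theorem sum_newI_glue (t : ℝ) (st st' : VState (prodPrior π β e) K n) :
    ∑ j, t * newI e j * ∑ k, ∑ l, (prodPrior π β e).cfg st.1 j k * (prodPrior π β e).cfg st'.1 j l
        * spinCum Φ j (com st.2 st'.2) k l = t * decB π β e Φ st st' := by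
  rw [sum_glue e]
  simp [newI, decB, spinPair, prodPrior_cfg_inr, Finset.mul_sum]

theorem newR_bounds (a : Fin (M + mr)) : 0 ≤ newR M mr a ∧ newR M mr a ≤ 1 := by
  rcases newR_mem (M := M) (mr := mr) a with h | h <;> simp [h]

theorem sum_newR : ∑ a, newR M mr a = mr := by
  simp [Fin.sum_univ_add, newR]

variable {B A0 : ℝ} (hB : CavB π β e Φ M mr B A0) (P : VPot d)
include hB

/-- The rate of growth of the transfer from the base point. -/
noncomputable def transG (P : VPot d) (B A0 : ℝ) : ℝ :=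
  4 * (d : ℝ) ^ 2 * (5 * B * A0) * (2 * max P.b1 0 ^ 2 + max P.b2 0) + 6 * B

/-- Averages of nonnegative functions of the old part, from the old system. -/
theorem vmpair_from_base (Φ0 : VFac N d K) (hn : 0 < n) (hN : 0 < N)
    {s : Fin (M + mr) → Fin N' → ℝ} {ρ : Fin (M + mr) → ℝ} {ν : Fin N' → ℝ}
    (hs : ∀ a j, 0 ≤ s a j) (hρ : ∀ a, 0 ≤ ρ a) (hν : ∀ j, 0 ≤ ν j)
    (hA : ∀ a k l (st st' : VState (prodPrior π β e) K n),
      |(∑ j, (s a j - (1 - newR M mr a) * oldS e j) *
          ((prodPrior π β e).cfg st.1 j k * (prodPrior π β e).cfg st'.1 j l)) / N'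
        + ρ a * rowCum Φ (com st.2 st'.2) k l|
      ≤ 2 * B * m / N' + newR M mr a * (3 * B))
    (hZ : ∀ st st' : VState (prodPrior π β e) K n, |∑ j, ν j * ∑ k, ∑ l,
      (prodPrior π β e).cfg st.1 j k * (prodPrior π β e).cfg st'.1 j l
        * spinCum Φ j (com st.2 st'.2) k l| ≤ m * B)
    {F : VState π K n → VState π K n → ℝ} {Mx : ℝ} (h0 : ∀ x y, 0 ≤ F x y)
    (h1 : ∀ x y, F x y ≤ Mx) :
    vmpair n P (prodPrior π β e) Φ (fun i => segc s ρ ν i + vpert J x i)
        (fun _ st st' => F (oldSt π β e st) (oldSt π β e st'))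
      ≤ 3 * Real.exp (6 * (transG P B A0 * m))
        * vmpair n P π Φ0 (oldC (M := M) J x) fun _ => F := by
  rw [← vmpair_ptBase π β e Φ Φ0 J x P hn hN F]
  set c := baseC (M := M) (d := d) (R := R) (D := D) (K := K) e J x mr
  set e' : VCIdx N' (M + mr) d R D K → ℝ :=
    segc (fun a j => s a j - (1 - newR M mr a) * oldS e j) ρ ν with he'
  have hsum : ∀ r, (fun i => c i + r * e' i) = fun i => segc
      (fun a j => (1 - newR M mr a) * oldS e j + r * (s a j - (1 - newR M mr a) * oldS e j))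
      (fun a => 0 + r * ρ a) (fun j => 0 + r * ν j) i + vpert J x i := fun r => by
    rw [← segc_add]
    funext i
    simp only [c, e', baseC, ptBase]
    ring
  have hpos : ∀ r ∈ Icc (0 : ℝ) 1, ∀ i, 0 ≤ c i + r * e' i := fun r hr i => by
    rw [show c i + r * e' i = _ from congrFun (hsum r) i]
    refine add_nonneg (segc_nonneg (fun a j => ?_) (fun a => ?_) (fun j => ?_) i) (vpert_nonneg J x i)
    · have h1 := mul_nonneg (sub_nonneg.2 hr.2)
        (mul_nonneg (sub_nonneg.2 (newR_bounds (M := M) (mr := mr) a).2) (oldS_nonneg e j))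
      have h2 := mul_nonneg hr.1 (hs a j)
      linarith
    · rw [zero_add]; exact mul_nonneg hr.1 (hρ a)
    · rw [zero_add]; exact mul_nonneg hr.1 (hν j)
  have hone : (fun i => segc s ρ ν i + vpert J x i) = fun i => c i + (1 : ℝ) * e' i := by
    rw [hsum]
    funext i
    simp
  rw [hone]
  refine (vmpair_transfer P (prodPrior π β e) Φ hn hpos
    (A := fun a => 2 * B * m / N' + newR M mr a * (3 * B)) (Z := m * B) (Q := 0)
    (fun a k l st st' => by rw [he', bcov_segc]; exact hA a k l st st')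
    (fun st st' => by rw [he', bz_segc]; exact hZ st st')
    (fun st => by rw [he', qd_segc]; simp) (fun _ _ => h0 _ _) (fun _ _ => h1 _ _)
    (right_mem_Icc.2 zero_le_one)).trans ?_
  refine mul_le_mul_of_nonneg_right (mul_le_mul_of_nonneg_left (Real.exp_le_exp.2 ?_) zero_le_three) ?_
  · refine mul_le_mul_of_nonneg_left ?_ (by norm_num)
    have hsA : ∑ a, (2 * B * m / N' + newR M mr a * (3 * B)) ≤ 5 * B * A0 * m := by
      rw [Finset.sum_add_distrib, ← Finset.sum_mul, sum_newR]
      simp only [Finset.sum_const, Finset.card_univ, Fintype.card_fin, nsmul_eq_mul]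
      have h1 := mul_le_mul_of_nonneg_right hB.new (mul_nonneg zero_le_three hB.B_nonneg)
      have h2 : ((M + mr : ℕ) : ℝ) * (2 * B * m / N') ≤ A0 * (2 * B * m) := by
        rcases Nat.eq_zero_or_pos N' with h | h
        · subst h
          simp only [Nat.cast_zero, div_zero, mul_zero]
          exact mul_nonneg hB.A0_nonneg (mul_nonneg (mul_nonneg zero_le_two hB.B_nonneg)
            (Nat.cast_nonneg m))
        · have hp : (0 : ℝ) < N' := Nat.cast_pos.2 h
          rw [← mul_div_assoc, div_le_iff₀ hp]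
          have := mul_le_mul_of_nonneg_right hB.rows (mul_nonneg (mul_nonneg zero_le_two hB.B_nonneg)
            (Nat.cast_nonneg (α := ℝ) m))
          linarith
      linarith
    simp only [Dbl.kb, transG]
    have := mul_le_mul_of_nonneg_left hsA (by positivity :
      (0 : ℝ) ≤ 4 * (d : ℝ) ^ 2 * (2 * max P.b1 0 ^ 2 + max P.b2 0))
    linarith
  · refine le_trans (le_of_eq (vmpair_zero (π := prodPrior π β e) (n := n) P Φ c).symm) ?_
    exact vmpair_mono P Φ c hn (goodObs_const fun _ _ => 0) (goodObs_const _)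
      fun _ _ _ => h0 _ _

end Inc

/-- The free energy along a segment of variances. -/
theorem vmfree_step (P : VPot d) (π : VPrior N d R D) (Φ : VFac N d K) (hn : 0 < n)
    {c e c' : VCIdx N M d R D K → ℝ} (hc' : ∀ i, c' i = c i + e i)
    (hpos : ∀ t ∈ Icc (0 : ℝ) 1, ∀ i, 0 ≤ c i + t * e i) :
    ∃ t ∈ Icc (0 : ℝ) 1, vmfree n P π Φ c - vmfree n P π Φ c'
      = 1 / 2 * vmpair n P π Φ (fun i => c i + t * e i)
          (vkern P (vbpat π Φ) (vbspin π Φ) (vqd π Φ) (vpull fun i => c i + t * e i) (vpull e)) := by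
  obtain ⟨t, ht, h⟩ := vmfree_mvt P π Φ hn (Measure.dirac ()) (c := fun _ => c)
    (fun _ => measurable_const) (B := ∑ i, |c i|)
    (fun _ i => Finset.single_le_sum (f := fun i => |c i|) (fun _ _ => abs_nonneg _)
      (Finset.mem_univ i)) (e := e) (fun _ => hpos)
  simp only [integral_dirac] at h
  refine ⟨t, Ioo_subset_Icc_self ht, ?_⟩
  rw [funext hc']
  linarith

theorem glue_frac (e : Fin N ⊕ Fin m ≃ Fin N') (hN : 0 < N) :
    (N : ℝ) / N' = 1 - m / N' ∧ (m : ℝ) / N' ≤ 1 ∧ (0 : ℝ) < N' := by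
  have h := cast_glue e
  have hp : (0 : ℝ) < N' := by rw [h]; positivity
  refine ⟨?_, (div_le_one hp).2 (by rw [h]; simp), hp⟩
  rw [eq_sub_iff_add_eq, ← add_div, ← h, div_self hp.ne']

section Main

variable (π : VPrior N d R D) (β : Block m d) (e : Fin N ⊕ Fin m ≃ Fin N') (Φ : VFac N' d K)
  (Φ0 : VFac N d K) (J : ℕ) (x : Fin R → ℕ → ℝ) {B A0 : ℝ} (hB : CavB π β e Φ M mr B A0)
  (P : VPot d) (hn : 0 < n) (hN : 0 < N)
include hB hn hN

/-- The constant of the decoupling of one row. -/
noncomputable def decK (P : VPot d) (B : ℝ) : ℝ :=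
  rowC P * (3 * Real.exp (6 * (4 * (d : ℝ) ^ 2 * (4 * B) * (2 * max P.b1 0 ^ 2 + max P.b2 0))))

/-- The error of the cavity step. -/
noncomputable def incX (d : ℕ) (P : VPot d) (B A0 σ εd : ℝ) (m N' : ℕ) : ℝ :=
  3 * Real.exp (6 * (transG P B A0 * m)) * σ + εd + 4 * (d : ℝ) ^ 2 * B * (m / N')

omit hn hN in
theorem syncF_nonneg (st st' : VState π K n) : 0 ≤ syncF π Φ st st' ∧
    syncF π Φ st st' ≤ 2 * ((d : ℝ) * (d * B)) :=
  ⟨Finset.sum_nonneg fun _ _ => Finset.sum_nonneg fun _ _ => abs_nonneg _,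
    ((Finset.sum_le_sum (g := fun _ => (d : ℝ) * (B + B)) fun k _ =>
      (Finset.sum_le_sum (g := fun _ => B + B) fun l _ => (abs_sub _ _).trans
        (add_le_add (hB.ov _ _ _ _) (hB.row _ _ _))).trans_eq (by simp; ring))).trans_eq
      (by simp; ring)⟩

omit hn hN in
/-- The covariance of a row on the first segment, at two states. -/
theorem abs_seg1_cov (hN : 0 < N) {t : ℝ} (ht : t ∈ Icc (0 : ℝ) 1) (k l : Fin d)
    (st st' : VState (prodPrior π β e) K n) :
    |(1 - t) * (m / N') * (oldOv π k l (oldCfg π β e st.1) (oldCfg π β e st'.1)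
        - newOv β k l (newCfg π β e st.1) (newCfg π β e st'.1))| ≤ 2 * B * m / N' := by
  have hp := (glue_frac e hN).2.2
  rw [abs_mul, abs_of_nonneg (mul_nonneg (sub_nonneg.2 ht.2) (by positivity : (0 : ℝ) ≤ m / N'))]
  have h1 := (abs_sub (oldOv π k l (oldCfg π β e st.1) (oldCfg π β e st'.1))
    (newOv β k l (newCfg π β e st.1) (newCfg π β e st'.1))).trans
      (add_le_add (hB.ov _ _ _ _) (hB.nov _ _ _ _))
  calc (1 - t) * ((m : ℝ) / N') * |_| ≤ 1 * ((m : ℝ) / N') * (B + B) :=
        mul_le_mul (mul_le_mul_of_nonneg_right (by linarith [ht.1]) (by positivity)) h1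
          (abs_nonneg _) (by positivity)
    _ = _ := by ring

/-- Averages of the distance to the path on the first segment. -/
theorem sync_seg1 {t σ : ℝ} (ht : t ∈ Icc (0 : ℝ) 1)
    (hσ : vmpair n P π Φ0 (oldC (M := M) J x) (fun _ => syncF π Φ) ≤ σ) :
    vmpair n P (prodPrior π β e) Φ (seg1C M mr e J x t)
        (fun _ st st' => syncF π Φ (oldSt π β e st) (oldSt π β e st'))
      ≤ 3 * Real.exp (6 * (transG P B A0 * m)) * σ := by
  obtain ⟨hfr, hm1, hp⟩ := glue_frac e hN
  refine (vmpair_from_base π β e Φ J x hB P Φ0 hn hN (fun a j => ?_) (fun _ => le_rfl)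
    (fun j => mul_nonneg ht.1 (newI_nonneg e j)) (fun a k l st st' => ?_) (fun st st' => ?_)
    (F := syncF π Φ) (fun st st' => (syncF_nonneg π β e Φ hB st st').1)
    (fun st st' => (syncF_nonneg π β e Φ hB st st').2)).trans
    (mul_le_mul_of_nonneg_left hσ (by positivity))
  · have h1 := mul_nonneg ht.1 (oldS_nonneg e j)
    linarith [ht.2]
  · rw [zero_mul, add_zero]
    have e1 : ∀ j, 1 + t * (oldS e j - 1) - (1 - newR M mr a) * oldS e j
        = (1 - t) + (t - (1 - newR M mr a)) * oldS e j := fun j => by ring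
    simp only [e1]
    rw [sum_aff_glue π β e hN, mul_div_assoc (1 - t), hfr]
    have hc := abs_seg1_cov π β e Φ hB hN ht k l st st'
    have ho := hB.ov k l (oldCfg π β e st.1) (oldCfg π β e st'.1)
    rcases newR_mem (M := M) (mr := mr) a with h | h <;> rw [h]
    · refine le_of_eq_of_le ?_ (hc.trans (by linarith : (2 * B * m / N' : ℝ) ≤ _))
      rw [← abs_neg]
      congr 1
      ring
    · refine le_of_eq_of_le (b := |oldOv π k l (oldCfg π β e st.1) (oldCfg π β e st'.1)
        - (1 - t) * (m / N') * (oldOv π k l (oldCfg π β e st.1) (oldCfg π β e st'.1)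
          - newOv β k l (newCfg π β e st.1) (newCfg π β e st'.1))|) (by congr 1; ring) ?_
      refine (abs_sub _ _).trans ?_
      linarith [hB.B_nonneg]
  · rw [sum_newI_glue π β e Φ, abs_mul, abs_of_nonneg ht.1]
    exact (mul_le_of_le_one_left (abs_nonneg _) ht.2).trans (hB.spin _ _ _)

/-- Averages of the distance to the path on the second segment. -/
theorem sync_seg2 {t σ : ℝ} (ht : t ∈ Icc (0 : ℝ) 1)
    (hσ : vmpair n P π Φ0 (oldC (M := M) J x) (fun _ => syncF π Φ) ≤ σ) :
    vmpair n P (prodPrior π β e) Φ (seg2C M mr e J x t)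
        (fun _ st st' => syncF π Φ (oldSt π β e st) (oldSt π β e st'))
      ≤ 3 * Real.exp (6 * (transG P B A0 * m)) * σ := by
  obtain ⟨hfr, hm1, hp⟩ := glue_frac e hN
  refine (vmpair_from_base π β e Φ J x hB P Φ0 hn hN (fun a j => ?_) (fun a => ?_)
    (newI_nonneg e) (fun a k l st st' => ?_) (fun st st' => ?_)
    (F := syncF π Φ) (fun st st' => (syncF_nonneg π β e Φ hB st st').1)
    (fun st st' => (syncF_nonneg π β e Φ hB st st').2)).trans
    (mul_le_mul_of_nonneg_left hσ (by positivity))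
  · exact mul_nonneg (oldS_nonneg e j) (sub_nonneg.2
      (mul_le_one₀ ht.2 (newR_bounds a).1 (newR_bounds a).2))
  · exact mul_nonneg ht.1 (newR_bounds a).1
  · have e1 : ∀ j, oldS e j * (1 - t * newR M mr a) - (1 - newR M mr a) * oldS e j
        = 0 + ((1 - t) * newR M mr a) * oldS e j := fun j => by ring
    simp only [e1]
    rw [sum_aff_glue π β e hN]
    have h2 : 0 ≤ 2 * B * m / N' := div_nonneg
      (mul_nonneg (mul_nonneg zero_le_two hB.B_nonneg) (Nat.cast_nonneg m)) hp.le
    rcases newR_mem (M := M) (mr := mr) a with h | h <;> rw [h]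
    · simpa using h2
    · refine le_of_eq_of_le (b := |(1 - t) * oldOv π k l (oldCfg π β e st.1) (oldCfg π β e st'.1)
        + t * rowCum Φ (com st.2 st'.2) k l|) (by congr 1; ring) ?_
      refine (abs_add_le _ _).trans ?_
      rw [abs_mul, abs_mul, abs_of_nonneg (sub_nonneg.2 ht.2), abs_of_nonneg ht.1]
      have h3 := mul_le_mul_of_nonneg_left (hB.ov k l (oldCfg π β e st.1) (oldCfg π β e st'.1))
        (sub_nonneg.2 ht.2)
      have h4 := mul_le_mul_of_nonneg_left (hB.row (com st.2 st'.2) k l) ht.1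
      linarith [hB.B_nonneg]
  · have h := sum_newI_glue π β e Φ 1 st st'
    simp only [one_mul] at h
    rw [h]
    exact hB.spin _ _ _

/-- Decoupling one row on the first segment. -/
theorem abs_dec_sub {t σ εd : ℝ} (ht : t ∈ Icc (0 : ℝ) 1)
    (hσ : vmpair n P π Φ0 (oldC (M := M) J x) (fun _ => syncF π Φ) ≤ σ)
    (hdev : vmpair n P (prodPrior π β e) Φ (seg1C M mr e J x t)
      (fun _ st _ => devS π Φ (oldCfg π β e st.1)) ≤ εd)
    (a : Fin (M + mr)) (A : VState (prodPrior π β e) K n → VState (prodPrior π β e) K n → ℝ)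
    {CA : ℝ} (hCA : 0 ≤ CA) (hA : ∀ st st', |A st st'| ≤ CA) (k l : Option (Fin d)) :
    |vmpair n P (prodPrior π β e) Φ (decC M mr e J x t a)
        (robs P (vbpat (prodPrior π β e) Φ) a A k l (vpull (decC M mr e J x t a)))
      - vmpair n P (prodPrior π β e) Φ (seg1C M mr e J x t)
        (robs P (vbpat (prodPrior π β e) Φ) a A k l (vpull (seg1C M mr e J x t)))|
      ≤ CA * decK P B * incX d P B A0 σ εd m N' := by
  obtain ⟨hfr, hm1, hp⟩ := glue_frac e hN
  have := vstate_nonempty (K := K) (prodPrior π β e) hn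
  set c := seg1C (d := d) (R := R) (D := D) (K := K) M mr e J x t
  set ea : VCIdx N' (M + mr) d R D K → ℝ :=
    segc (fun b j => if b = a then -(1 + t * (oldS e j - 1)) else 0)
      (fun b => if b = a then 1 else 0) (fun _ => 0) with hea
  have hsum : ∀ r, (fun i => c i + r * ea i) = fun i => segc
      (fun b j => 1 + t * (oldS e j - 1) + r * (if b = a then -(1 + t * (oldS e j - 1)) else 0))
      (fun b => 0 + r * if b = a then 1 else 0) (fun j => t * newI e j + r * 0) i
        + vpert J x i := fun r => by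
    rw [← segc_add]
    funext i
    simp only [c, ea, seg1C]
    ring
  have h1s : ∀ j, 0 ≤ 1 + t * (oldS e j - 1) := fun j => by
    linarith [mul_nonneg ht.1 (oldS_nonneg e j), ht.2]
  have hpos : ∀ r ∈ Icc (0 : ℝ) 1, ∀ i, 0 ≤ c i + r * ea i := fun r hr i => by
    rw [show c i + r * ea i = _ from congrFun (hsum r) i]
    refine add_nonneg (segc_nonneg (fun b j => ?_) (fun b => ?_) (fun j => ?_) i) (vpert_nonneg J x i)
    · split_ifs
      · linarith [mul_nonneg (sub_nonneg.2 hr.2) (h1s j)]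
      · linarith [h1s j]
    · split_ifs
      · linarith [hr.1]
      · simp
    · simpa using mul_nonneg ht.1 (newI_nonneg e j)
  have hrow : VRow a ea := by
    refine ⟨fun b j hb => ?_, fun j => ?_, fun l' z b r hb => ?_, fun l' u => ?_⟩
    · simp [ea, segc, vfldc, hb]
    · simp [ea, segc, vfldc]
    · simp [ea, segc, vfldc, hb]
    · rcases u with ⟨z, j, r⟩ | v <;> simp [ea, segc, vfldc]
  have hcov : ∀ k' l' (st st' : VState (prodPrior π β e) K n), bcov (vbpat (prodPrior π β e) Φ) (vpull ea) a k' l' st st'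
      = (rowCum Φ (com st.2 st'.2) k' l' - oldOv π k' l' (oldCfg π β e st.1) (oldCfg π β e st'.1))
        + (1 - t) * (m / N') * (oldOv π k' l' (oldCfg π β e st.1) (oldCfg π β e st'.1)
          - newOv β k' l' (newCfg π β e st.1) (newCfg π β e st'.1)) := fun k' l' st st' => by
    rw [hea, bcov_segc]
    simp only [if_true, one_mul]
    have e1 : ∀ j, -(1 + t * (oldS e j - 1)) = -(1 - t) + -t * oldS e j := fun j => by ring
    simp only [e1]
    rw [sum_aff_glue π β e hN, mul_div_assoc (-(1 - t)), hfr]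
    ring
  have h4B : ∀ k' l' (st st' : VState (prodPrior π β e) K n),
      |bcov (vbpat (prodPrior π β e) Φ) (vpull ea) a k' l' st st'| ≤ 4 * B := fun k' l' st st' => by
    rw [hcov]
    refine (abs_add_le _ _).trans ((add_le_add ((abs_sub _ _).trans
      (add_le_add (hB.row _ _ _) (hB.ov _ _ _ _)))
      (abs_seg1_cov π β e Φ hB hN ht k' l' st st')).trans ?_)
    have := mul_le_mul_of_nonneg_left hm1 (mul_nonneg zero_le_two hB.B_nonneg)
    rw [← mul_div_assoc] at this
    linarith
  have hdec : (fun i => c i + ea i) = decC M mr e J x t a := by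
    have h := hsum 1
    simp only [one_mul, mul_zero, add_zero, zero_add] at h
    rw [h]
    funext i
    simp only [decC]
    congr 2
    funext b j
    split_ifs <;> ring
  have h := abs_vmpair_row_sub P (prodPrior π β e) Φ hn a hpos hrow A hA k l (mul_nonneg (by norm_num) hB.B_nonneg)
    h4B
  rw [hdec] at h
  refine h.trans ?_
  simp only [decK, mul_assoc]
  refine mul_le_mul_of_nonneg_left (mul_le_mul_of_nonneg_left (mul_le_mul_of_nonneg_left
    (mul_le_mul_of_nonneg_left ?_ (Real.exp_pos _).le) zero_le_three) (rowC_nonneg P)) hCA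
  set E := (d : ℝ) * (d * (2 * B * m / N'))
  have hH : ∀ st st' : VState (prodPrior π β e) K n, rowDev (vbpat (prodPrior π β e) Φ) (vpull ea) a st st'
      ≤ syncF π Φ (oldSt π β e st) (oldSt π β e st') + E := fun st st' => by
    refine (Finset.sum_le_sum (g := fun k' => ∑ l', (|oldOv π k' l' (oldCfg π β e st.1)
      (oldCfg π β e st'.1) - rowCum Φ (com st.2 st'.2) k' l'| + 2 * B * m / N'))
      fun k' _ => Finset.sum_le_sum fun l' _ => ?_).trans_eq ?_
    · rw [hcov, abs_sub_comm]
      exact (abs_add_le _ _).trans (add_le_add le_rfl (abs_seg1_cov π β e Φ hB hN ht k' l' st st'))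
    · simp [syncF, oldSt, Finset.sum_add_distrib, E]
  have hD : ∀ st : VState (prodPrior π β e) K n, syncF π Φ (oldSt π β e st) (oldSt π β e st)
      = devS π Φ (oldCfg π β e st.1) := fun st => by
    simp [syncF, devS, oldSt, com_self]
  refine (vmpair_mono P Φ c hn (goodObs_const _)
    (((goodObs_const fun st st' => syncF π Φ (oldSt π β e st) (oldSt π β e st')).add
      (goodObs_const fun st _ => devS π Φ (oldCfg π β e st.1))).add (goodObs_const fun _ _ => 2 * E))
    fun G st st' => ?_).trans ?_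
  · have := hH st st'
    have := hH st st
    rw [hD] at this
    simp only [rowF]
    linarith
  · rw [vmpair_add P Φ c hn ((goodObs_const _).add (goodObs_const _)) (goodObs_const _),
      vmpair_add P Φ c hn (goodObs_const _) (goodObs_const _)]
    have h1 : vmpair n P (prodPrior π β e) Φ c (fun _ _ _ => 2 * E) = 2 * E := by
      have := vmpair_smul P Φ c hn (goodObs_const (π := (prodPrior π β e)) fun _ _ => (1 : ℝ)) (2 * E)
      simpa [vmpair_one P Φ c hn] using this
    rw [h1, incX]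
    refine add_le_add (add_le_add (sync_seg1 π β e Φ Φ0 J x hB P hn hN ht hσ) hdev) (le_of_eq ?_)
    simp only [E]
    ring

/-- The full system against the split one, at a finite degree. -/
theorem inc_finite {σ εd εT : ℝ} (hM : 0 < M + mr)
    (hσ : vmpair n P π Φ0 (oldC (M := M) J x) (fun _ => syncF π Φ) ≤ σ)
    (hd1 : ∀ t ∈ Icc (0 : ℝ) 1, vmpair n P (prodPrior π β e) Φ (seg1C M mr e J x t)
      (fun _ st _ => devS π Φ (oldCfg π β e st.1)) ≤ εd)
    (hd2 : ∀ t ∈ Icc (0 : ℝ) 1, vmpair n P (prodPrior π β e) Φ (seg2C M mr e J x t)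
      (fun _ st _ => devS π Φ (oldCfg π β e st.1)) ≤ εd)
    (hT : ∀ τ, devT β Φ τ ≤ εT) :
    ∃ t ∈ Icc (0 : ℝ) 1,
      vmfree n P (prodPrior π β e) Φ (fun i => ptSplit M mr e i + vpert J x i)
          + decVal M mr π β e Φ J x n P t
        - m * ((4 * A0 * rowB P ^ 2 + (2 * A0 * (d : ℝ) ^ 2 * B + B) * decK P B)
            * (incX d P B A0 σ εd m N' + εT))
      ≤ vmfree n P (prodPrior π β e) Φ (fun i => ptFull M mr i + vpert J x i) := by
  obtain ⟨hfr, hm1, hp⟩ := glue_frac e hN
  have := vstate_nonempty (K := K) (prodPrior π β e) hn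
  set π' := prodPrior π β e
  obtain ⟨z1, z2, z3, z4⟩ := pert_zero_ends (d := d) (R := R) (D := D) (K := K) M mr e J x
  rw [← z1, ← z4]
  set b := rowB P
  have hb0 : 0 ≤ b := rowB_nonneg P
  have hb1 : ∀ k y, |P.g k y| ≤ b := abs_g_le P
  have hgg : ∀ k l (y y' : Fin d → ℝ), |P.g k y * P.g l y'| ≤ b ^ 2 := fun k l y y' => by
    rw [abs_mul, sq]; exact mul_le_mul (hb1 k y) (hb1 l y') (abs_nonneg _) hb0
  have hhg : ∀ k l (y : Fin d → ℝ), |P.h k l y + P.g k y * P.g l y| ≤ 2 * b ^ 2 := fun k l y => by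
    refine (abs_add_le _ _).trans ((add_le_add (abs_h_le P k l y) (hgg k l y y)).trans ?_)
    have : 1 ≤ b := by simp only [b, rowB]; linarith [abs_nonneg P.b1, abs_nonneg P.b2, abs_nonneg P.b3]
    nlinarith
  -- first segment
  set e1 : VCIdx N' (M + mr) d R D K → ℝ :=
    segc (fun _ j => oldS e j - 1) (fun _ => 0) (newI e) with he1
  have hs1 : ∀ r, (fun i => seg1C M mr e J x 0 i + r * e1 i) = seg1C M mr e J x r := fun r => by
    funext i
    have := congrFun (segc_add (d := d) (R := R) (D := D) (K := K) (fun (_ : Fin (M + mr)) _ => (1 : ℝ))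
      (fun _ j => oldS e j - 1) (fun _ => 0) (fun _ => 0) (fun _ => 0) (newI e) r) i
    simp only [seg1C, e1, zero_mul, add_zero, mul_zero, zero_add] at this ⊢
    rw [← this]
    ring
  have hp1 : ∀ r ∈ Icc (0 : ℝ) 1, ∀ i, 0 ≤ seg1C M mr e J x 0 i + r * e1 i := fun r hr i => by
    rw [show seg1C M mr e J x 0 i + r * e1 i = _ from congrFun (hs1 r) i]
    refine add_nonneg (segc_nonneg (fun a j => ?_) (fun _ => le_rfl)
      (fun j => mul_nonneg hr.1 (newI_nonneg e j)) i) (vpert_nonneg J x i)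
    linarith [mul_nonneg hr.1 (oldS_nonneg e j), hr.2]
  obtain ⟨t, ht, hF1⟩ := vmfree_step P π' Φ hn (c := seg1C M mr e J x 0)
    (c' := seg1C M mr e J x 1) (e := e1) (fun i => by
      have := congrFun (hs1 1) i; simp only [one_mul] at this; exact this.symm) hp1
  rw [hs1] at hF1
  -- second segment
  set e2 : VCIdx N' (M + mr) d R D K → ℝ :=
    segc (fun a j => -(oldS e j * newR M mr a)) (newR M mr) (fun _ => 0) with he2
  have hs2 : ∀ r, (fun i => seg2C M mr e J x 0 i + r * e2 i) = seg2C M mr e J x r := fun r => by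
    funext i
    have := congrFun (segc_add (d := d) (R := R) (D := D) (K := K)
      (fun (_ : Fin (M + mr)) j => oldS e j)
      (fun a j => -(oldS e j * newR M mr a)) (fun _ => 0) (newR M mr) (newI e) (fun _ => 0) r) i
    simp only [seg2C, e2, zero_mul, add_zero, mul_zero, zero_add, sub_zero, mul_one] at this ⊢
    rw [show (fun a j => oldS e j * (1 - r * newR M mr a))
      = fun a j => oldS e j + r * -(oldS e j * newR M mr a) from
        funext fun a => funext fun j => by ring, ← this]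
    ring
  have hp2 : ∀ r ∈ Icc (0 : ℝ) 1, ∀ i, 0 ≤ seg2C M mr e J x 0 i + r * e2 i := fun r hr i => by
    rw [show seg2C M mr e J x 0 i + r * e2 i = _ from congrFun (hs2 r) i]
    exact add_nonneg (segc_nonneg (fun a j => mul_nonneg (oldS_nonneg e j) (sub_nonneg.2
      (mul_le_one₀ hr.2 (newR_bounds a).1 (newR_bounds a).2)))
      (fun a => mul_nonneg hr.1 (newR_bounds a).1) (newI_nonneg e) i) (vpert_nonneg J x i)
  obtain ⟨t2, ht2, hF2⟩ := vmfree_step P π' Φ hn (c := seg2C M mr e J x 0)
    (c' := seg2C M mr e J x 1) (e := e2) (fun i => by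
      have := congrFun (hs2 1) i; simp only [one_mul] at this; exact this.symm) hp2
  rw [hs2] at hF2
  have hmid : seg1C M mr e J x 1 = (seg2C M mr e J x 0 : VCIdx N' (M + mr) d R D K → ℝ) := z2.trans z3.symm
  rw [hmid] at hF1
  refine ⟨t, ht, ?_⟩
  set c := seg1C (d := d) (R := R) (D := D) (K := K) M mr e J x t
  set c2 := seg2C (d := d) (R := R) (D := D) (K := K) M mr e J x t2
  set SF : VState π' K n → VState π' K n → ℝ :=
    fun st st' => syncF π Φ (oldSt π β e st) (oldSt π β e st')
  set DS : VState π' K n → VState π' K n → ℝ := fun st _ => devS π Φ (oldCfg π β e st.1)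
  set Mr := ((M + mr : ℕ) : ℝ) with hMr
  have hM' : 0 < Mr := Nat.cast_pos.2 hM
  have hdiag : ∀ (st : VState π' K n) k l,
      |oldOv π k l (oldCfg π β e st.1) (oldCfg π β e st.1)
        - newOv β k l (newCfg π β e st.1) (newCfg π β e st.1)|
      ≤ |oldOv π k l (oldCfg π β e st.1) (oldCfg π β e st.1) - rowCum Φ (Fin.last K) k l|
        + |newOv β k l (newCfg π β e st.1) (newCfg π β e st.1) - rowCum Φ (Fin.last K) k l| :=
    fun st k l => (abs_sub_le _ _ _).trans_eq (by rw [abs_sub_comm (rowCum Φ (Fin.last K) k l)])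
  -- first derivative
  have hk1 : ∀ G st st', (m : ℝ) / N' * (∑ a, ∑ k, ∑ l,
        robs P (vbpat π' Φ) a (decA π β e Φ k l) (some k) (some l) (vpull c) G st st')
      + decB π β e Φ st st'
      + -((m : ℝ) / N' * Mr * b ^ 2) * (SF st st' + 2 * DS st st' + 2 * εT)
      ≤ vkern P (vbpat π' Φ) (vbspin π' Φ) (vqd π' Φ) (vpull c) (vpull e1) G st st' := fun G st st' => by
    have hc : ∀ (a : Fin (M + mr)) k l (u u' : VState π' K n), bcov (vbpat π' Φ) (vpull e1) a k l u u'
        = (m : ℝ) / N' * (oldOv π k l (oldCfg π β e u.1) (oldCfg π β e u'.1)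
          - newOv β k l (newCfg π β e u.1) (newCfg π β e u'.1)) := fun a k l u u' => by
      rw [he1, bcov_segc]
      have e' : ∀ j, oldS e j - 1 = -1 + 1 * oldS e j := fun j => by ring
      simp only [e', zero_mul, add_zero]
      rw [sum_aff_glue π β e hN, mul_div_assoc (-1 : ℝ), hfr]
      ring
    have hz : ∑ i, vpull e1 i * (vbspin π' Φ st i * vbspin π' Φ st' i) = decB π β e Φ st st' := by
      rw [he1, bz_segc]
      simpa using sum_newI_glue π β e Φ 1 st st'
    have hq : ∑ i, vpull e1 i * vqd π' Φ st i = 0 := by rw [he1, qd_segc]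
    simp only [vkern, vgrad, vdiag, hq, hc, hz]
    have hg1 : (∑ a, ∑ k, ∑ l, robs P (vbpat π' Φ) a (decA π β e Φ k l) (some k) (some l) (vpull c) G st st')
        - Mr * b ^ 2 * SF st st'
        ≤ ∑ a, ∑ k, ∑ l, (oldOv π k l (oldCfg π β e st.1) (oldCfg π β e st'.1)
            - newOv β k l (newCfg π β e st.1) (newCfg π β e st'.1))
          * (P.g k (vfld (vbpat π' Φ) (vpull c) G st a) * P.g l (vfld (vbpat π' Φ) (vpull c) G st' a)) := by
      have e' : Mr * b ^ 2 * SF st st' = ∑ _a : Fin (M + mr), ∑ k, ∑ l, b ^ 2 *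
          |oldOv π k l (oldCfg π β e st.1) (oldCfg π β e st'.1) - rowCum Φ (com st.2 st'.2) k l| := by
        simp [SF, syncF, oldSt, Mr, ← Finset.mul_sum]
        ring
      rw [e', ← Finset.sum_sub_distrib]
      refine Finset.sum_le_sum fun a _ => ?_
      rw [← Finset.sum_sub_distrib]
      refine Finset.sum_le_sum fun k _ => ?_
      rw [← Finset.sum_sub_distrib]
      refine Finset.sum_le_sum fun l _ => ?_
      simp only [robs, decA, gO]
      have h1 := (neg_abs_le ((oldOv π k l (oldCfg π β e st.1) (oldCfg π β e st'.1)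
        - rowCum Φ (com st.2 st'.2) k l) * (P.g k (vfld (vbpat π' Φ) (vpull c) G st a) *
          P.g l (vfld (vbpat π' Φ) (vpull c) G st' a))))
      rw [abs_mul] at h1
      have h2 := mul_le_mul_of_nonneg_left (hgg k l (vfld (vbpat π' Φ) (vpull c) G st a)
        (vfld (vbpat π' Φ) (vpull c) G st' a)) (abs_nonneg
        (oldOv π k l (oldCfg π β e st.1) (oldCfg π β e st'.1) - rowCum Φ (com st.2 st'.2) k l))
      linarith
    have hg2 : ∑ a, ∑ k, ∑ l, (oldOv π k l (oldCfg π β e st.1) (oldCfg π β e st.1)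
            - newOv β k l (newCfg π β e st.1) (newCfg π β e st.1))
          * (P.h k l (vfld (vbpat π' Φ) (vpull c) G st a)
            + P.g k (vfld (vbpat π' Φ) (vpull c) G st a) * P.g l (vfld (vbpat π' Φ) (vpull c) G st a))
        ≤ Mr * (2 * b ^ 2) * (DS st st' + εT) := by
      have e' : Mr * (2 * b ^ 2) * (DS st st' + devT β Φ (newCfg π β e st.1))
          = ∑ _a : Fin (M + mr), ∑ k, ∑ l, (2 * b ^ 2) *
            (|oldOv π k l (oldCfg π β e st.1) (oldCfg π β e st.1) - rowCum Φ (Fin.last K) k l|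
            + |newOv β k l (newCfg π β e st.1) (newCfg π β e st.1) - rowCum Φ (Fin.last K) k l|) := by
        simp [DS, devS, devT, Mr, ← Finset.mul_sum, Finset.sum_add_distrib]
        ring
      refine le_trans ?_ (mul_le_mul_of_nonneg_left (add_le_add le_rfl (hT (newCfg π β e st.1)))
        (mul_nonneg hM'.le (mul_nonneg zero_le_two (sq_nonneg b))))
      rw [e']
      refine Finset.sum_le_sum fun a _ => Finset.sum_le_sum fun k _ => Finset.sum_le_sum fun l _ => ?_
      refine (le_abs_self _).trans ?_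
      rw [abs_mul, mul_comm (2 * b ^ 2)]
      exact mul_le_mul (hdiag st k l) (hhg k l _) (abs_nonneg _)
        (add_nonneg (abs_nonneg _) (abs_nonneg _))
    have h1 := mul_le_mul_of_nonneg_left hg1 (by positivity : (0 : ℝ) ≤ (m : ℝ) / N')
    have h2 := mul_le_mul_of_nonneg_left hg2 (by positivity : (0 : ℝ) ≤ (m : ℝ) / N')
    simp only [mul_assoc ((m : ℝ) / N'), ← Finset.mul_sum]
    linarith
  -- second derivative
  have hk2 : ∀ G st st', -((mr : ℝ) * b ^ 2) * (SF st st' + 2 * DS st st')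
      ≤ vkern P (vbpat π' Φ) (vbspin π' Φ) (vqd π' Φ) (vpull c2) (vpull e2) G st st' := fun G st st' => by
    have hc : ∀ (a : Fin (M + mr)) k l (u u' : VState π' K n), bcov (vbpat π' Φ) (vpull e2) a k l u u'
        = newR M mr a * (rowCum Φ (com u.2 u'.2) k l
          - oldOv π k l (oldCfg π β e u.1) (oldCfg π β e u'.1)) := fun a k l u u' => by
      rw [he2, bcov_segc]
      have e' : ∀ j, -(oldS e j * newR M mr a) = 0 + -newR M mr a * oldS e j := fun j => by ring
      simp only [e']
      rw [sum_aff_glue π β e hN]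
      ring
    have hz : ∑ i, vpull e2 i * (vbspin π' Φ st i * vbspin π' Φ st' i) = 0 := by
      rw [he2, bz_segc]; simp
    have hq : ∑ i, vpull e2 i * vqd π' Φ st i = 0 := by rw [he2, qd_segc]
    simp only [vkern, vgrad, vdiag, hq, hc, hz, com_self]
    have e' : (mr : ℝ) * b ^ 2 * (SF st st' + 2 * DS st st')
        = ∑ a, newR M mr a * ∑ k, ∑ l, (b ^ 2 *
            |oldOv π k l (oldCfg π β e st.1) (oldCfg π β e st'.1) - rowCum Φ (com st.2 st'.2) k l|
          + 2 * b ^ 2 * |oldOv π k l (oldCfg π β e st.1) (oldCfg π β e st.1)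
              - rowCum Φ (Fin.last K) k l|) := by
      rw [← Finset.sum_mul, sum_newR]
      simp [SF, DS, syncF, devS, oldSt, ← Finset.mul_sum, Finset.sum_add_distrib]
      ring
    rw [neg_mul, e', add_zero, mul_zero, sub_zero, ← Finset.sum_neg_distrib,
      ← Finset.sum_sub_distrib]
    refine Finset.sum_le_sum fun a _ => ?_
    rw [Finset.mul_sum, ← Finset.sum_neg_distrib, ← Finset.sum_sub_distrib]
    refine Finset.sum_le_sum fun k _ => ?_
    rw [Finset.mul_sum, ← Finset.sum_neg_distrib, ← Finset.sum_sub_distrib]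
    refine Finset.sum_le_sum fun l _ => ?_
    have hν := (newR_bounds (M := M) (mr := mr) a).1
    have key : ∀ A g' C : ℝ, |g'| ≤ C → -(|A| * C) ≤ A * g' := fun A g' C h => by
      refine le_trans (neg_le_neg ?_) (neg_abs_le _)
      rw [abs_mul]
      exact mul_le_mul_of_nonneg_left h (abs_nonneg _)
    have k1 := key (rowCum Φ (com st.2 st'.2) k l
      - oldOv π k l (oldCfg π β e st.1) (oldCfg π β e st'.1)) _ _
      (hgg k l (vfld (vbpat π' Φ) (vpull c2) G st a) (vfld (vbpat π' Φ) (vpull c2) G st' a))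
    have k2 := key (-(rowCum Φ (Fin.last K) k l
      - oldOv π k l (oldCfg π β e st.1) (oldCfg π β e st.1))) _ _
      (hhg k l (vfld (vbpat π' Φ) (vpull c2) G st a))
    rw [abs_neg] at k2
    rw [abs_sub_comm] at k1 k2
    have := mul_le_mul_of_nonneg_left (add_le_add k1 k2) hν
    linarith
  have hgood : ∀ c0 (e0 : VCIdx N' (M + mr) d R D K → ℝ),
      GoodObs (vkern P (vbpat π' Φ) (vbspin π' Φ) (vqd π' Φ) (vpull c0) (vpull (n := n) e0)) :=
    fun c0 e0 => ⟨fun u u' => continuous_vkern P π' Φ _ _ u u', _,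
      fun G u u' => VItp.abs_vkern_le P (vbpat π' Φ) (vbspin π' Φ) (vqd π' Φ) _ _ G u u'⟩
  have gR : ∀ a k l, GoodObs (n := n)
      (robs P (vbpat π' Φ) a (decA π β e Φ k l) (some k) (some l) (vpull c)) := fun a k l =>
    goodObs_robs P Φ a _ _ _ c
  have gRa : ∀ a, GoodObs (n := n) fun G u u' => ∑ k, ∑ l,
      robs P (vbpat π' Φ) a (decA π β e Φ k l) (some k) (some l) (vpull c) G u u' := fun a =>
    GoodObs.sum _ fun k _ => GoodObs.sum _ fun l _ => gR a k l
  have gS : GoodObs (M := M + mr) fun (_ : VGIdx N' (M + mr) d R D K n → ℝ) u u' =>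
      SF u u' + 2 * DS u u' + 2 * εT := goodObs_const _
  have gS' : GoodObs (M := M + mr) fun (_ : VGIdx N' (M + mr) d R D K n → ℝ) u u' =>
      SF u u' + 2 * DS u u' := goodObs_const _
  have L1 := vmpair_mono P Φ c hn (((GoodObs.sum Finset.univ fun a _ => gRa a).smul ((m : ℝ) / N')).add
    (goodObs_const (decB π β e Φ)) |>.add (gS.smul (-((m : ℝ) / N' * Mr * b ^ 2)))) (hgood c e1) hk1
  have L2 := vmpair_mono P Φ c2 hn (gS'.smul (-((mr : ℝ) * b ^ 2))) (hgood c2 e2) hk2
  rw [vmpair_add P Φ c hn (((GoodObs.sum Finset.univ fun a _ => gRa a).smul _).add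
      (goodObs_const _)) (gS.smul _),
    vmpair_add P Φ c hn ((GoodObs.sum Finset.univ fun a _ => gRa a).smul _) (goodObs_const _),
    vmpair_smul P Φ c hn (GoodObs.sum Finset.univ fun a _ => gRa a),
    vmpair_smul P Φ c hn gS, vmpair_sum P Φ c hn _ fun a _ => gRa a] at L1
  rw [vmpair_smul P Φ c2 hn gS'] at L2
  have hsplit : ∀ c0 : VCIdx N' (M + mr) d R D K → ℝ, vmpair n P π' Φ c0 (fun _ u u' => SF u u' + 2 * DS u u')
      = vmpair n P π' Φ c0 (fun _ => SF) + 2 * vmpair n P π' Φ c0 (fun _ => DS) := fun c0 => by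
    rw [vmpair_add P Φ c0 hn (goodObs_const SF) (goodObs_const fun u u' => 2 * DS u u'),
      vmpair_smul P Φ c0 hn (goodObs_const DS)]
  have hsplit1 : vmpair n P π' Φ c (fun _ u u' => SF u u' + 2 * DS u u' + 2 * εT)
      = vmpair n P π' Φ c (fun _ => SF) + 2 * vmpair n P π' Φ c (fun _ => DS) + 2 * εT := by
    rw [vmpair_add P Φ c hn gS' (goodObs_const fun _ _ => 2 * εT), hsplit c]
    have := vmpair_smul P Φ c hn (goodObs_const (π := π') fun _ _ => (1 : ℝ)) (2 * εT)
    simp only [mul_one, vmpair_one P Φ c hn] at this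
    rw [this]
  rw [hsplit1] at L1
  rw [hsplit] at L2
  set Xi := incX d P B A0 σ εd m N'
  have hσ1 := sync_seg1 π β e Φ Φ0 J x hB P hn hN ht hσ
  have hσ2 := sync_seg2 π β e Φ Φ0 J x hB P hn hN ht2 hσ
  have hεd : 0 ≤ εd := le_trans (le_of_eq_of_le (vmpair_zero (π := π') (n := n) P Φ c).symm
    (vmpair_mono P Φ c hn (goodObs_const fun _ _ => 0) (goodObs_const DS) fun _ u _ =>
      Finset.sum_nonneg fun _ _ => Finset.sum_nonneg fun _ _ => abs_nonneg _)) (hd1 t ht)
  have hsyn0 : 0 ≤ vmpair n P π' Φ c (fun _ => SF) :=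
    le_of_eq_of_le (vmpair_zero (π := π') (n := n) P Φ c).symm
      (vmpair_mono P Φ c hn (goodObs_const fun _ _ => 0) (goodObs_const SF) fun _ u u' =>
        (syncF_nonneg π β e Φ hB _ _).1)
  have hεT : 0 ≤ εT := (Finset.sum_nonneg fun _ _ => Finset.sum_nonneg fun _ _ => abs_nonneg _).trans
    (hT ⟨0, β.c_pos⟩)
  have hX0 : 0 ≤ 4 * (d : ℝ) ^ 2 * B * (m / N') :=
    mul_nonneg (mul_nonneg (by positivity) hB.B_nonneg) (by positivity)
  have hXσ : 3 * Real.exp (6 * (transG P B A0 * m)) * σ ≤ Xi := by simp only [Xi, incX]; linarith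
  have hXd : εd ≤ Xi := by
    simp only [Xi, incX]
    linarith [hsyn0.trans hσ1]
  have hXn : 0 ≤ Xi := hεd.trans hXd
  have hA2 : ∀ k l (u u' : VState π' K n), |decA π β e Φ k l u u'| ≤ 2 * B := fun k l u u' =>
    ((abs_sub _ _).trans (add_le_add (hB.row _ _ _) (hB.nov _ _ _ _))).trans_eq (two_mul B).symm
  set VA := fun a => ∑ k, ∑ l, vmpair n P π' Φ (decC M mr e J x t a)
    (robs P (vbpat π' Φ) a (decA π β e Φ k l) (some k) (some l) (vpull (decC M mr e J x t a)))
  set VB := fun a => vmpair n P π' Φ (decC M mr e J x t a)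
    (robs P (vbpat π' Φ) a (decB π β e Φ) none none (vpull (decC M mr e J x t a)))
  have hRA : ∀ a, VA a - (d : ℝ) ^ 2 * (2 * B * decK P B * Xi)
      ≤ vmpair n P π' Φ c (fun G u u' => ∑ k, ∑ l,
        robs P (vbpat π' Φ) a (decA π β e Φ k l) (some k) (some l) (vpull c) G u u') := fun a => by
    rw [vmpair_sum P Φ c hn _ fun k _ => GoodObs.sum _ fun l _ => gR a k l]
    have h : ∀ k, (∑ l, vmpair n P π' Φ (decC M mr e J x t a)
        (robs P (vbpat π' Φ) a (decA π β e Φ k l) (some k) (some l) (vpull (decC M mr e J x t a))))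
        - (d : ℝ) * (2 * B * decK P B * Xi)
        ≤ vmpair n P π' Φ c (fun G u u' => ∑ l,
          robs P (vbpat π' Φ) a (decA π β e Φ k l) (some k) (some l) (vpull c) G u u') := fun k => by
      rw [vmpair_sum P Φ c hn _ fun l _ => gR a k l]
      have h' := Finset.sum_le_sum (s := Finset.univ) fun l (_ : l ∈ Finset.univ) => le_of_abs_le
        (abs_dec_sub π β e Φ Φ0 J x hB P hn hN ht hσ (hd1 t ht) a (decA π β e Φ k l)
          (mul_nonneg zero_le_two hB.B_nonneg) (hA2 k l) (some k) (some l))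
      simp only [Finset.sum_sub_distrib, Finset.sum_const, Finset.card_univ, Fintype.card_fin,
        nsmul_eq_mul] at h'
      linarith
    have h' := Finset.sum_le_sum (s := Finset.univ) fun k (_ : k ∈ Finset.univ) => h k
    simp only [Finset.sum_sub_distrib, Finset.sum_const, Finset.card_univ, Fintype.card_fin,
      nsmul_eq_mul] at h'
    simp only [VA]
    linarith
  have hRB : ∀ a, VB a - m * B * decK P B * Xi ≤ vmpair n P π' Φ c fun _ => decB π β e Φ := fun a => by
    have h := le_of_abs_le (abs_dec_sub π β e Φ Φ0 J x hB P hn hN ht hσ (hd1 t ht) a (decB π β e Φ)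
      (mul_nonneg (Nat.cast_nonneg m) hB.B_nonneg) (fun u u' => hB.spin _ _ _) none none)
    have e' : robs P (vbpat (n := n) π' Φ) a (decB π β e Φ) none none (vpull c)
        = fun _ => decB π β e Φ := by
      funext G u u'; simp [robs, gO]
    rw [e'] at h
    simp only [VB]
    linarith
  have hA := Finset.sum_le_sum (s := Finset.univ) fun a (_ : a ∈ Finset.univ) => hRA a
  have hBs := Finset.sum_le_sum (s := Finset.univ) fun a (_ : a ∈ Finset.univ) => hRB a
  simp only [Finset.sum_sub_distrib, Finset.sum_const, Finset.card_univ, Fintype.card_fin,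
    nsmul_eq_mul, ← hMr] at hA hBs
  have hdv : decVal M mr π β e Φ J x n P t
      = 1 / 2 * ((m : ℝ) / N' * ∑ a, VA a + 1 / Mr * ∑ a, VB a) := by
    simp only [decVal, VA, VB, Finset.sum_add_distrib, ← Finset.mul_sum, Mr, π']
  have hBs' : 1 / Mr * ∑ a, VB a - m * B * decK P B * Xi
      ≤ vmpair n P π' Φ c fun _ => decB π β e Φ := by
    have h := div_le_div_of_nonneg_right hBs hM'.le
    field_simp at h ⊢
    linarith
  have hfac : (m : ℝ) / N' * Mr ≤ A0 * m := by
    rw [div_mul_eq_mul_div, div_le_iff₀ hp, hMr]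
    have := mul_le_mul_of_nonneg_left hB.rows (Nat.cast_nonneg (α := ℝ) m)
    linarith
  have hfac0 : 0 ≤ (m : ℝ) / N' * Mr := by positivity
  have hK0 : 0 ≤ decK P B := mul_nonneg (rowC_nonneg P) (by positivity)
  have hB0 := hB.B_nonneg
  have b1 : (m : ℝ) / N' * Mr * b ^ 2 *
      (vmpair n P π' Φ c (fun _ => SF) + 2 * vmpair n P π' Φ c (fun _ => DS) + 2 * εT)
      ≤ A0 * m * b ^ 2 * (3 * Xi + 2 * εT) :=
    (mul_le_mul_of_nonneg_left (by linarith [hd1 t ht] : _ ≤ 3 * Xi + 2 * εT)
      (mul_nonneg hfac0 (sq_nonneg b))).trans (mul_le_mul_of_nonneg_right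
      (mul_le_mul_of_nonneg_right hfac (sq_nonneg b)) (by linarith))
  have b2 : (mr : ℝ) * b ^ 2 * (vmpair n P π' Φ c2 (fun _ => SF) + 2 * vmpair n P π' Φ c2 (fun _ => DS))
      ≤ A0 * m * b ^ 2 * (3 * Xi) :=
    (mul_le_mul_of_nonneg_left (by linarith [hd2 t2 ht2] : _ ≤ 3 * Xi) (by positivity)).trans
      (mul_le_mul_of_nonneg_right (mul_le_mul_of_nonneg_right hB.new (sq_nonneg b)) (by linarith))
  have b3 : (m : ℝ) / N' * Mr * ((d : ℝ) ^ 2 * (2 * B * decK P B * Xi))
      ≤ A0 * m * ((d : ℝ) ^ 2 * (2 * B * decK P B * Xi)) :=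
    mul_le_mul_of_nonneg_right hfac (by positivity)
  have b4 := mul_le_mul_of_nonneg_left hA (by positivity : (0 : ℝ) ≤ (m : ℝ) / N')
  have hC1 : 0 ≤ A0 * m * b ^ 2 * Xi := by have := hB.A0_nonneg; positivity
  have hC2 : 0 ≤ (m : ℝ) * A0 * (d : ℝ) ^ 2 * B * decK P B * Xi := by have := hB.A0_nonneg; positivity
  have hC3 : 0 ≤ (m : ℝ) * B * decK P B * Xi := by positivity
  have hC4 : 0 ≤ A0 * m * b ^ 2 * εT := by have := hB.A0_nonneg; positivity
  have hC5 : 0 ≤ (m : ℝ) * (2 * A0 * (d : ℝ) ^ 2 * B + B) * decK P B * εT := by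
    have := hB.A0_nonneg; positivity
  rw [hdv]
  linarith

end Main

end Vale.Agent.P166.Casc
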