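import Vale.Agent.P166.Casc.VAtom
import Vale.Agent.P166.Casc.VFree

/-!
The split system: the old system, the new rows in their fields and the new spins in theirs. Its
limit free energy is the sum of the three values.
-/

open MeasureTheory ProbabilityTheory Filter Topology Matrix

namespace Vale.Agent.P166.Casc

open Vale.Agent.P157.Casc Vale.Agent.P166.Formula
open Vale.Agent.P150.Fast.Dom (arrMap arrMap_apply)

variable {N N' m M mr d R D K : ℕ}

/-- Variances of the split system, with perturbations. -/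
noncomputable def splitC (M mr : ℕ) (e : Fin N ⊕ Fin m ≃ Fin N') (J : ℕ) (x : Fin R → ℕ → ℝ) :
    VCIdx N' (M + mr) d R D K → ℝ :=
  fun i => ptSplit M mr e i + vpert J x i

/-- What the split system has on top of the base point. -/
noncomputable def extC (M mr : ℕ) (e : Fin N ⊕ Fin m ≃ Fin N') :
    VCIdx N' (M + mr) d R D K → ℝ :=
  segc (fun _ _ => 0) (newR M mr) (newI e)

/-- The label coordinates of the old system among those of the large one. -/
def oldLab (M mr : ℕ) (e : Fin N ⊕ Fin m ≃ Fin N') :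
    VLIdx N M d R D → VLIdx N' (M + mr) d R D
  | Sum.inl (z, a, r) => Sum.inl (z, Fin.castAdd mr a, r)
  | Sum.inr (Sum.inl (z, j, r)) => Sum.inr (Sum.inl (z, e (Sum.inl j), r))
  | Sum.inr (Sum.inr u) => Sum.inr (Sum.inr u)

/-- The root coordinates of the old system among those of the large one. -/
def oldRoot (M mr : ℕ) (e : Fin N ⊕ Fin m ≃ Fin N') :
    VRIdx N M d R D → VRIdx N' (M + mr) d R D
  | Sum.inl (Sum.inl (a, j)) => Sum.inl (Sum.inl (Fin.castAdd mr a, e (Sum.inl j)))
  | Sum.inl (Sum.inr j) => Sum.inl (Sum.inr (e (Sum.inl j)))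
  | Sum.inr u => Sum.inr (oldLab M mr e u)

/-- The label coordinates of the fields of the block. -/
def newLab (M : ℕ) (e : Fin N ⊕ Fin m ≃ Fin N') (p : Fin m × Fin d) : VLIdx N' M d R D :=
  Sum.inr (Sum.inl (0, e (Sum.inr p.1), p.2))

/-- The factors of the fields of the block. -/
def blkS (Φ : VFac N' d K) (e : Fin N ⊕ Fin m ≃ Fin N') (i : Fin m) :
    Fin (K + 1) → Fin d → Fin d → ℝ :=
  fun l => Φ.2.1 0 (e (Sum.inr i)) l

theorem oldLab_inj (e : Fin N ⊕ Fin m ≃ Fin N') :
    Function.Injective (oldLab (d := d) (R := R) (D := D) M mr e) := by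
  intro u v h
  rcases u with ⟨z, a, r⟩ | ⟨z, j, r⟩ | u <;> rcases v with ⟨z', a', r'⟩ | ⟨z', j', r'⟩ | v <;>
    simp [oldLab, Prod.ext_iff] at h ⊢ <;> exact h

theorem oldRoot_inj (e : Fin N ⊕ Fin m ≃ Fin N') :
    Function.Injective (oldRoot (d := d) (R := R) (D := D) M mr e) := by
  intro u v h
  rcases u with (⟨a, j⟩ | j) | u <;> rcases v with (⟨a', j'⟩ | j') | v <;>
    simp [oldRoot, Prod.ext_iff, (oldLab_inj e).eq_iff] at h ⊢ <;> exact h

theorem newLab_inj (e : Fin N ⊕ Fin m ≃ Fin N') :
    Function.Injective (newLab (d := d) (R := R) (D := D) M e) := by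
  intro p q h
  simpa [newLab, Prod.ext_iff] using h

theorem newLab_notMem (e : Fin N ⊕ Fin m ≃ Fin N') (u : VLIdx N M d R D) :
    oldLab M mr e u ∉ Set.range (newLab (d := d) (R := R) (D := D) (M + mr) e) := by
  rintro ⟨p, hp⟩
  rcases u with ⟨z, a, r⟩ | ⟨z, j, r⟩ | u <;> simp [oldLab, newLab] at hp

theorem splitC_eq (e : Fin N ⊕ Fin m ≃ Fin N') (J : ℕ) (x : Fin R → ℕ → ℝ)
    (i : VCIdx N' (M + mr) d R D K) :
    splitC M mr e J x i = baseC (M := M) e J x mr i + extC M mr e i := by
  rcases i with (⟨a, j⟩ | j) | ⟨l, ⟨z, a, r⟩ | ⟨z, j, r⟩ | u⟩ <;>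
    simp [splitC, baseC, extC, ptSplit, ptBase, segc, vfldc, add_comm]

theorem disjoint_ext (e : Fin N ⊕ Fin m ≃ Fin N') (J : ℕ) (x : Fin R → ℕ → ℝ)
    (i : VCIdx N' (M + mr) d R D K) :
    baseC (M := M) e J x mr i = 0 ∨ extC M mr e i = 0 := by
  rcases i with (⟨a, j⟩ | j) | ⟨l, ⟨z, a, r⟩ | ⟨z, j, r⟩ | u⟩
  · exact Or.inr (by simp [extC, segc, vfldc])
  · exact Or.inr (by simp [extC, segc, vfldc])
  · exact Or.inl (by simp [baseC, ptBase, segc, vfldc, vpert])
  · exact Or.inl (by simp [baseC, ptBase, segc, vfldc, vpert])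
  · exact Or.inr (by simp [extC, segc, vfldc])

/-- Fields along disjointly supported variances add up. -/
theorem lin_add_disjoint {T I : Type*} [Fintype I] (b : T → I → ℝ) {u v w : I → ℝ}
    (hw : ∀ i, w i = u i + v i) (hd : ∀ i, u i = 0 ∨ v i = 0) (G : I → ℝ) (x : T) :
    lin b w G x = lin b u G x + lin b v G x := by
  simp only [lin, ← Finset.sum_add_distrib]
  refine Finset.sum_congr rfl fun i _ => ?_
  rcases hd i with h | h <;> simp [hw, h]

theorem measurable_log_vleafY_right (P : VPot d) (π : VPrior N d R D) (Φ : VFac N d K)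
    (c : VCIdx N M d R D K → ℝ) (z : VRIdx N M d R D → ℝ) :
    Measurable fun y : Fin K → VLIdx N M d R D → ℝ => Real.log (vleafY P π Φ c z y) := by
  obtain ⟨A, hA⟩ := vleafY_conv_const P π Φ c
  exact Measurable.comp (g := fun p => Real.log (Function.uncurry (vleafY P π Φ c) p))
    (f := fun y : Fin K → VLIdx N M d R D → ℝ => (z, y)) (Measurable.log hA.measl)
    (measurable_const.prodMk measurable_id)

/-- Functions of two disjoint families of coordinates separate, each on its own coordinates. -/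
theorem casc_pair_split {I A B : Type} [Fintype I] [Fintype A] [Fintype B] {f : A → I}
    {g : B → I} (hf : Function.Injective f) (hg : Function.Injective g)
    (hd : ∀ a, f a ∉ Set.range g) {mm : Fin K → ℝ} (hm : Grid mm)
    {H : (Fin K → A → ℝ) → ℝ} {H' : (Fin K → B → ℝ) → ℝ} (hH : Measurable H)
    (hH' : Measurable H') (hG : Grow H) (hG' : Grow H') :
    casc (gaus I) K mm (fun y => H' (fun l b => y l (g b)) + H (fun l a => y l (f a)))
      = casc (gaus A) K mm H + casc (gaus B) K mm H' := by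
  classical
  have h1 : MeasurePreserving (fun (w : I → ℝ) (a : A) => w (f a)) (gaus I) (gaus A) :=
    P157.mp_comp (gaussianReal 0 1) hf
  have h2 : MeasurePreserving (fun (w : I → ℝ) (b : B) => w (g b)) (gaus I) (gaus B) :=
    P157.mp_comp (gaussianReal 0 1) hg
  obtain ⟨ho, -, -⟩ := casc_map h1 K mm (H := H) (a := fun _ => (1 : ℝ)) hH measurable_const
  obtain ⟨hn, -, -⟩ := casc_map h2 K mm (H := H') (a := fun _ => (1 : ℝ)) hH' measurable_const
  have hp1 := measurePreserving_pi (fun _ : Fin K => gaus I) (fun _ : Fin K => gaus A) fun _ => h1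
  have hp2 := measurePreserving_pi (fun _ : Fin K => gaus I) (fun _ : Fin K => gaus B) fun _ => h2
  obtain ⟨hs, -⟩ := casc_sep (fun i => i ∈ Set.range g) hm
    (H := fun y => H' fun l b => y l (g b)) (H' := fun y => H fun l a => y l (f a))
    (a := fun _ => (1 : ℝ)) (a' := fun _ => (1 : ℝ))
    (hH'.comp hp2.measurable) (hH.comp hp1.measurable) measurable_const measurable_const
    (fun y y' hy => ⟨congrArg H' (funext fun l => funext fun b => hy l _ ⟨b, rfl⟩), rfl⟩)
    (fun y y' hy => ⟨congrArg H (funext fun l => funext fun a => hy l _ (hd a)), rfl⟩)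
    (hp2.integrable_comp_of_integrable (hG'.integrable_exp hH'))
    (hp1.integrable_comp_of_integrable (hG.integrable_exp hH))
  rw [hs, ho, hn, add_comm]

variable (π : VPrior N d R D) (β : Block m d) (e : Fin N ⊕ Fin m ≃ Fin N')
  (Φ : VFac N' d K) (Φ0 : VFac N d K) (J : ℕ) (x : Fin R → ℕ → ℝ)

theorem lin_split (b : VState (prodPrior π β e) K 1 → VGIdx N' (M + mr) d R D K 1 → ℝ)
    (G : VGIdx N' (M + mr) d R D K 1 → ℝ) (st : VState (prodPrior π β e) K 1) :
    lin b (vpull (splitC M mr e J x)) G st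
      = lin b (vpull (baseC e J x mr)) G st + lin b (vpull (extC M mr e)) G st :=
  lin_add_disjoint b
    (fun i => by rcases i with p | ⟨o, p⟩ <;> exact splitC_eq e J x _)
    (fun i => by rcases i with p | ⟨o, p⟩ <;> exact disjoint_ext e J x _) G st

theorem freeRows_split :
    FreeRows (splitC (d := d) (D := D) (K := K) M mr e J x)
      (Finset.univ.map (Fin.natAddEmb M)) := by
  intro a ha j
  obtain ⟨b, -, rfl⟩ := Finset.mem_map.1 ha
  simp [splitC, ptSplit, segc, vfldc, vpert, newR]

variable (z : VRIdx N' (M + mr) d R D → ℝ) (y : Fin K → VLIdx N' (M + mr) d R D → ℝ)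

theorem vbranch_old :
    (fun i => vbranch z y (oldCoord M mr e i))
      = vbranch (fun i => z (oldRoot M mr e i)) fun l i => y l (oldLab M mr e i) := by
  funext i
  rcases i with (⟨a, j⟩ | j) | ⟨_ | u, ⟨z', a, r⟩ | ⟨z', j, r⟩ | v⟩ <;> rfl

theorem split_fld (hN : 0 < N) (hN' : 0 < N') (st : VState (prodPrior π β e) K 1) (a : Fin M) :
    vfld (vbpat (prodPrior π β e) Φ) (vpull (splitC M mr e J x)) (vbranch z y) st
        (Fin.castAdd mr a)
      = vfld (vbpat π Φ0) (vpull (oldC J x))
          (vbranch (fun i => z (oldRoot M mr e i)) fun l i => y l (oldLab M mr e i))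
          (oldSt π β e st) a := by
  rw [← vbranch_old e z y, ← base_fld π β e Φ Φ0 J x hN hN']
  funext k
  simp only [vfld, lin_split π β e J x]
  refine add_eq_left.2 (Finset.sum_eq_zero fun i _ => ?_)
  rcases i with (⟨a', j⟩ | j) | ⟨o, ⟨z', a', r⟩ | ⟨z', j, r⟩ | v⟩
  · simp [vpull, extC, segc, vfldc]
  · simp [vpull, extC, segc, vfldc]
  · by_cases h : a' = Fin.castAdd mr a
    · subst h; simp [vpull, extC, segc, vfldc, newR]
    · simp [vbpat, treeDir, rowL, h]
  · simp [vbpat, treeDir, rowL]
  · simp [vpull, extC, segc, vfldc]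

/-- The linear field of the block. -/
theorem lin_ext (σ : Fin (prodPrior π β e).c) :
    lin (vbspin (prodPrior π β e) Φ) (vpull (extC M mr e)) (vbranch z y)
        ((σ, fun _ => 0) : VState (prodPrior π β e) K 1)
      = ∑ i, atomFld (blkS Φ e) (fun p => z (Sum.inr (newLab (M + mr) e p)))
          (fun l p => y l (newLab (M + mr) e p)) i ⬝ᵥ β.cfg (newCfg π β e σ) i := by
  simp only [lin, vbranch_eq_joinT, vbspin]
  rw [lin_treeDir _ (fun l i => extC M mr e (Sum.inr (l, i))) _ _ z (fun u : Node K 1 => y u.1)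
    (fun _ => 0) (treeDir_eq _ _ _) (vpull_eq _)]
  have hrow : ∀ (l : Fin (K + 1)) (w : VLIdx N' (M + mr) d R D → ℝ),
      ∑ i, √(extC M mr e (Sum.inr (l, i))) * spinL (prodPrior π β e) Φ σ l i * w i
        = ∑ i, (arrMap (blkS Φ e i l) fun r => w (newLab (M + mr) e (i, r)))
            ⬝ᵥ β.cfg (newCfg π β e σ) i := fun l w => by
    simp only [Fintype.sum_sum_type, Fintype.sum_prod_type, extC, segc, vfldc, spinL,
      Real.sqrt_zero, zero_mul, mul_zero, Finset.sum_const_zero, zero_add, add_zero,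
      Fin.sum_univ_two, if_pos, Fin.isValue, one_ne_zero, if_false]
    rw [sum_glue e]
    simp only [newI, Equiv.symm_apply_apply, Sum.elim_inl, Sum.elim_inr, Real.sqrt_zero,
      Real.sqrt_one, zero_mul, one_mul, Finset.sum_const_zero, zero_add, prodPrior_cfg_inr]
    refine Finset.sum_congr rfl fun i _ => ?_
    simp only [dotProduct, arrMap_apply, blkS, newLab, Finset.sum_mul]
    rw [Finset.sum_comm]
    exact Finset.sum_congr rfl fun k _ => Finset.sum_congr rfl fun r _ => by ring
  simp only [mul_zero, zero_mul, Finset.sum_const_zero, hrow, zero_add]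
  simp only [atomFld, rowFld, add_dotProduct, sum_dotProduct, Finset.sum_add_distrib]
  exact congrArg _ Finset.sum_comm

theorem comp_ext (σ : Fin (prodPrior π β e).c) :
    ∑ i, vpull (extC M mr e) i *
        vbspin (prodPrior π β e) Φ ((σ, fun _ => 0) : VState (prodPrior π β e) K 1) i ^ 2
      = ∑ i, β.cfg (newCfg π β e σ) i ⬝ᵥ atomCum (blkS Φ e) i *ᵥ β.cfg (newCfg π β e σ) i := by
  simp only [pow_two, extC]
  rw [bz_segc, com_self, sum_glue e]
  simp only [newI, Equiv.symm_apply_apply, Sum.elim_inl, Sum.elim_inr, zero_mul, one_mul,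
    Finset.sum_const_zero, zero_add, prodPrior_cfg_inr]
  refine Finset.sum_congr rfl fun i _ => ?_
  simp only [dotProduct, Matrix.mulVec, atomCum, Matrix.of_apply, spinCum, blkS,
    show Finset.Iic (Fin.last K) = Finset.univ from by ext; simp [Fin.le_last], Finset.mul_sum,
    Finset.sum_mul]
  exact Finset.sum_congr rfl fun k _ => Finset.sum_congr rfl fun l _ =>
    Finset.sum_congr rfl fun u _ => Finset.sum_congr rfl fun r _ => by ring

/-- The remaining energy of the split system. -/
theorem split_rest (P : VPot d) (hN : 0 < N) (hN' : 0 < N') (σ : Fin (prodPrior π β e).c) :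
    vrestH P (prodPrior π β e) Φ (splitC M mr e J x) (Finset.univ.map (Fin.natAddEmb M)) σ
        (vbranch z y)
      = vbham P π Φ0 (oldC J x) (oldCfg π β e σ)
          (vbranch (fun i => z (oldRoot M mr e i)) fun l i => y l (oldLab M mr e i))
        + atomH β (blkS Φ e) (newCfg π β e σ) (fun p => z (Sum.inr (newLab (M + mr) e p)))
            fun l p => y l (newLab (M + mr) e p) := by
  obtain ⟨hl, hc⟩ := base_spin π β e Φ Φ0 J x (mr := mr) (M := M) (vbranch z y) ((σ, fun _ => 0) : VState (prodPrior π β e) K 1)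
  have hq : ∀ i : VGIdx N' (M + mr) d R D K 1,
      vpull (splitC M mr e J x) i * vqd (prodPrior π β e) Φ ((σ, fun _ => 0) : VState (prodPrior π β e) K 1) i = 0 := fun i => by
    rcases i with (⟨a, j⟩ | j) | ⟨o, u⟩
    · simp [vqd, treeDir, tiltQ]
    · simp [vpull, splitC, ptSplit, segc, vfldc, vpert]
    · simp [vqd, treeDir]
  have hq0 : ∀ i : VGIdx N M d R D K 1,
      vpull (oldC J x) i * vqd π Φ0 (oldSt π β e ((σ, fun _ => 0) : VState (prodPrior π β e) K 1)) i = 0 := fun i => by
    rcases i with (⟨a, j⟩ | j) | ⟨o, u⟩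
    · simp [vqd, treeDir, tiltQ]
    · simp [oldC_tilt]
    · simp [vqd, treeDir]
  have hsq : ∑ i, vpull (splitC M mr e J x) i * vbspin (prodPrior π β e) Φ ((σ, fun _ => 0) : VState (prodPrior π β e) K 1) i ^ 2
      = (∑ i, vpull (baseC (M := M) e J x mr) i * vbspin (prodPrior π β e) Φ ((σ, fun _ => 0) : VState (prodPrior π β e) K 1) i ^ 2)
        + ∑ i, vpull (extC M mr e) i * vbspin (prodPrior π β e) Φ ((σ, fun _ => 0) : VState (prodPrior π β e) K 1) i ^ 2 := by
    rw [← Finset.sum_add_distrib]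
    refine Finset.sum_congr rfl fun i _ => ?_
    rw [← add_mul]
    congr 1
    rcases i with p | ⟨o, p⟩ <;> exact splitC_eq e J x _
  simp only [vrestH, vbham, vham, Fin.sum_univ_add, Finset.sum_map, Fin.natAddEmb_apply,
    split_fld π β e Φ Φ0 J x z y hN hN', lin_split π β e J x, hl, hsq, hc, vbranch_old e z y,
    hq, Finset.sum_const_zero, atomH, Finset.sum_sub_distrib, ← Finset.sum_div]
  rw [lin_ext π β e Φ z y, comp_ext π β e Φ]
  have he : oldSt π β e ((σ, fun _ => 0) : VState (prodPrior π β e) K 1) = ((oldCfg π β e σ, fun _ => 0) : VState π K 1) := rfl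
  simp only [he] at hq0 ⊢
  simp only [hq0, Finset.sum_const_zero]
  ring

theorem split_restY (P : VPot d) (hN : 0 < N) (hN' : 0 < N') :
    vrestY P (prodPrior π β e) Φ (splitC M mr e J x) (Finset.univ.map (Fin.natAddEmb M)) z y
      = vleafY P π Φ0 (oldC J x) (fun i => z (oldRoot M mr e i))
          (fun l i => y l (oldLab M mr e i))
        * atomY β (blkS Φ e) (fun p => z (Sum.inr (newLab (M + mr) e p)))
            fun l p => y l (newLab (M + mr) e p) := by
  simp only [vrestY, split_rest π β e Φ Φ0 J x z y P hN hN', vleafY, atomY, Finset.sum_mul_sum]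
  show ∑ s : Fin (π.c * β.c), _ = _
  rw [← finProdFinEquiv.sum_comp, Fintype.sum_prod_type]
  refine Finset.sum_congr rfl fun σ _ => Finset.sum_congr rfl fun τ _ => ?_
  simp only [prodPrior, oldCfg, newCfg, Equiv.symm_apply_apply, Real.exp_add]
  ring

/-- The split system separates in the recursion. -/
theorem casc_split (P : VPot d) (hN : 0 < N) (hN' : 0 < N') :
    casc (gaus (VLIdx N' (M + mr) d R D)) K (mlev K) (fun y => Real.log (vrestY P
        (prodPrior π β e) Φ (splitC M mr e J x) (Finset.univ.map (Fin.natAddEmb M)) z y))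
      = casc (gaus (VLIdx N M d R D)) K (mlev K)
          (fun u => Real.log (vleafY P π Φ0 (oldC J x) (fun i => z (oldRoot M mr e i)) u))
        + casc (gaus (Fin m × Fin d)) K (mlev K)
            (fun u => Real.log (atomY β (blkS Φ e)
              (fun p => z (Sum.inr (newLab (M + mr) e p))) u)) := by
  simp only [split_restY π β e Φ Φ0 J x z _ P hN hN',
    Real.log_mul (vleafY_pos P π Φ0 _ _ _).ne' (atomY_pos β _ _ _).ne', add_comm (Real.log
      (vleafY P π Φ0 _ _ _))]
  exact casc_pair_split (oldLab_inj e) (newLab_inj e) (newLab_notMem e) (grid_mlev K)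
    (measurable_log_vleafY_right P π Φ0 _ _) (measurable_log_atomY β _ _)
    (grow_log_vleafY P π Φ0 _ _) (grow_log_atomY β _ _)

omit z y in
/-- The limit free energy of the split system: old system, new rows and block. -/
theorem vcasc_split (P : VPot d) (hN : 0 < N) :
    vcasc P (prodPrior π β e) Φ (splitC M mr e J x)
      = vcasc P π Φ0 (oldC (M := M) J x) + mr * rowCasc P.f (Φ.1 0 0) (fun l => Φ.1 0 l.succ)
        + atomVal β (blkS Φ e) := by
  have hN' : 0 < N' := by
    have h := Fintype.card_congr e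
    simp only [Fintype.card_sum, Fintype.card_fin] at h
    omega
  obtain ⟨hI, hv⟩ := vcasc_free_rows P (prodPrior π β e) Φ
    (freeRows_split (M := M) (mr := mr) (D := D) (K := K) e J x)
  have hrow : ∀ b : Fin mr, rowCasc P.f
        (rowA Φ (splitC (d := d) (D := D) M mr e J x) (Fin.natAdd M b) 0)
        (fun l => rowA Φ (splitC (d := d) (D := D) M mr e J x) (Fin.natAdd M b) l.succ)
      = rowCasc P.f (Φ.1 0 0) fun l => Φ.1 0 l.succ := fun b => by
    have h : ∀ l u, cq (rowA Φ (splitC (d := d) (D := D) M mr e J x) (Fin.natAdd M b) l) u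
        = cq (Φ.1 0 l) u := fun l u => by
      simp [cq, rowA, rowEmb, Fintype.sum_prod_type, Fin.sum_univ_two, splitC, ptSplit, segc,
        vfldc, vpert, newR]
    exact rowCasc_congr (h 0) (fun l => h _) P.cf.measurable
  rw [hv]
  simp only [Finset.sum_map, Fin.natAddEmb_apply, hrow, Finset.sum_const, Finset.card_univ,
    Fintype.card_fin, nsmul_eq_mul, casc_split π β e Φ Φ0 J x _ P hN hN'] at hI ⊢
  have hp1 : MeasurePreserving
      (fun (z : VRIdx N' (M + mr) d R D → ℝ) (i : VRIdx N M d R D) => z (oldRoot M mr e i))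
      (gaus (VRIdx N' (M + mr) d R D)) (gaus (VRIdx N M d R D)) :=
    P157.mp_comp (gaussianReal 0 1) (oldRoot_inj e)
  have hp2 : MeasurePreserving
      (fun (z : VRIdx N' (M + mr) d R D → ℝ) (p : Fin m × Fin d) =>
        z (Sum.inr (newLab (M + mr) e p)))
      (gaus (VRIdx N' (M + mr) d R D)) (gaus (Fin m × Fin d)) :=
    P157.mp_comp (gaussianReal 0 1) (Sum.inr_injective.comp (newLab_inj e))
  have hio := integrable_casc_vleafY P π Φ0 (oldC (M := M) J x)
  have hno : Measurable fun w : Fin m × Fin d → ℝ =>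
      casc (gaus (Fin m × Fin d)) K (mlev K) fun u => Real.log (atomY β (blkS Φ e) w u) :=
    measurable_casc_param (α := Fin m × Fin d → ℝ) K (mlev K)
      (H := fun w u => Real.log (atomY β (blkS Φ e) w u)) (measurable_atomY β (blkS Φ e))
  have i1 := hp1.integrable_comp_of_integrable hio
  simp only [Function.comp_def] at i1
  have i2 : Integrable (fun z : VRIdx N' (M + mr) d R D → ℝ =>
      casc (gaus (Fin m × Fin d)) K (mlev K) fun u => Real.log (atomY β (blkS Φ e)
        (fun p => z (Sum.inr (newLab (M + mr) e p))) u)) (gaus (VRIdx N' (M + mr) d R D)) :=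
    (hI.sub i1).congr (ae_of_all _ fun z => by simp)
  have e1 := integral_map (μ := gaus (VRIdx N' (M + mr) d R D)) hp1.measurable.aemeasurable
    (f := fun w => casc (gaus (VLIdx N M d R D)) K (mlev K)
      fun u => Real.log (vleafY P π Φ0 (oldC (M := M) J x) w u))
    (by rw [hp1.map_eq]; exact hio.aestronglyMeasurable)
  have e2 := integral_map (μ := gaus (VRIdx N' (M + mr) d R D)) hp2.measurable.aemeasurable
    (f := fun w => casc (gaus (Fin m × Fin d)) K (mlev K)
      fun u => Real.log (atomY β (blkS Φ e) w u)) hno.aestronglyMeasurable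
  rw [hp1.map_eq] at e1
  rw [hp2.map_eq] at e2
  rw [integral_add i1 i2, vcasc, atomVal, e1, e2]
  ring

end Vale.Agent.P166.Casc
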