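import Vale.Agent.P166.Casc.VInc
import Vale.Agent.P166.Casc.VSplit
import Vale.Agent.P166.Casc.VFreeLev
import Vale.Agent.P166.Casc.VLevelU

/-!
The cavity increment as the degree of the tree grows: the decoupled row gives the value of the
pairing of the path with the means of the gradient of the row, and the limit free energies compare.
-/

open MeasureTheory ProbabilityTheory Filter Topology Set

namespace Vale.Agent.P166.Casc

open Vale.Agent.P157.Casc Vale.Agent.P166.Formula

variable {N N' m M mr d R D K n : ℕ}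

/-- Factors of the field of a row that only sees its slot. -/
noncomputable def slotA (Φ : VFac N d K) (l : Fin (K + 1)) (k : Fin d) (i : RowIdx d) : ℝ :=
  if i.1 = 0 then Φ.1 0 l k i.2 else 0

/-- Means of products of the gradient of a row on its slot, at the levels. -/
noncomputable def slotLev (P : VPot d) (Φ : VFac N d K) (u : Fin (K + 1)) (k l : Fin d) : ℝ :=
  rowLev P.f (P.g k) (P.g l) (slotA Φ 0) (fun j => slotA Φ j.succ) u

/-- A product of two functions of the configurations, on one level. -/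
def levA (π : VPrior N d R D) (u : Fin (K + 1)) (φ ψ : Fin π.c → ℝ) (st st' : VState π K n) : ℝ :=
  onLev u (vlev π st st') (φ st.1 * ψ st'.1)

theorem sum_onLev (u : Fin (K + 1)) (f : Fin (K + 1) → ℝ) : f u = ∑ v, onLev v u (f v) := by
  simp [onLev, Finset.sum_ite_eq]

/-- A pair average through one row is a level average. -/
theorem vmpair_robs_lev (P : VPot d) (π : VPrior N d R D) (Φ : VFac N d K)
    (c : VCIdx N M d R D K → ℝ) (a : Fin M) (u : Fin (K + 1)) (φ ψ : Fin π.c → ℝ)
    (k l : Option (Fin d)) :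
    vmpair n P π Φ c (robs P (vbpat π Φ) a (levA π u φ ψ) k l (vpull c))
      = fldLev n P π Φ c a (fun σ h => φ σ * gO P k h) (fun σ h => ψ σ * gO P l h) u := by
  rw [fldLev]
  congr 1
  funext G st st'
  simp only [robs, levA, onLev, fldObs]
  split_ifs <;> ring

theorem vmpair_robs_none (P : VPot d) (π : VPrior N d R D) (Φ : VFac N d K)
    (c : VCIdx N M d R D K → ℝ) (a : Fin M) (A : VState π K n → VState π K n → ℝ) :
    vmpair n P π Φ c (robs P (vbpat π Φ) a A none none (vpull c))
      = vmpair n P π Φ c fun _ => A := by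
  congr 1
  funext G st st'
  simp [robs, gO]

section Lim

variable (π : VPrior N d R D) (β : Block m d) (e : Fin N ⊕ Fin m ≃ Fin N') (Φ : VFac N' d K)
  (J : ℕ) (x : Fin R → ℕ → ℝ)

theorem decC_row (t : ℝ) (a : Fin (M + mr)) (l : Fin (K + 1)) :
    rowA Φ (decC (d := d) (R := R) (D := D) (K := K) M mr e J x t a) a l = slotA Φ l := by
  funext k i
  obtain ⟨z, r⟩ := i
  by_cases hz : z = 0
  · subst hz
    simp [rowA, rowEmb, decC, segc, vfldc, vpert, slotA]
  · simp [rowA, rowEmb, decC, segc, vfldc, vpert, slotA, hz]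

theorem freeRows_decC (t : ℝ) (a : Fin (M + mr)) :
    FreeRows (decC (d := d) (R := R) (D := D) (K := K) M mr e J x t a) {a} := by
  intro b hb j
  rw [Finset.mem_singleton] at hb
  subst hb
  simp [decC, segc, vfldc, vpert]

theorem continuous_decC (a : Fin (M + mr)) :
    Continuous fun t => decC (d := d) (R := R) (D := D) (K := K) M mr e J x t a := by
  refine continuous_pi fun i => ?_
  rcases i with (⟨b, j⟩ | j) | ⟨l, ⟨z, b, r⟩ | ⟨z, j, r⟩ | v⟩ <;>
    simp only [decC, segc, vfldc] <;> first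
      | exact continuous_const
      | (split_ifs <;> fun_prop)

/-- The decoupled part of one row, by levels. -/
theorem dec_levels (P : VPot d) (hn : 0 < n) (c : VCIdx N' (M + mr) d R D K → ℝ)
    (a : Fin (M + mr)) (k l : Fin d) :
    vmpair n P (prodPrior π β e) Φ c
        (robs P (vbpat (prodPrior π β e) Φ) a (decA π β e Φ k l) (some k) (some l) (vpull c))
      = ∑ u, (rowCum Φ u k l * fldLev n P (prodPrior π β e) Φ c a
            (fun _ h => 1 * gO P (some k) h) (fun _ h => 1 * gO P (some l) h) u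
          - 1 / (m : ℝ) * ∑ i, fldLev n P (prodPrior π β e) Φ c a
            (fun σ h => β.cfg (newCfg π β e σ) i k * gO P (some k) h)
            (fun σ h => β.cfg (newCfg π β e σ) i l * gO P (some l) h) u) := by
  set π' := prodPrior π β e
  set φ : Fin m → Fin d → Fin π'.c → ℝ := fun i k σ => β.cfg (newCfg π β e σ) i k
  have hA : decA (n := n) π β e Φ k l = fun st st' => ∑ u, (rowCum Φ u k l *
      levA π' u (fun _ => 1) (fun _ => 1) st st'
        + -(1 / (m : ℝ)) * ∑ i, levA π' u (φ i k) (φ i l) st st') := by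
    funext st st'
    simp only [decA, newOv, levA, vlev, φ, mul_one]
    rw [sum_onLev (com st.2 st'.2) fun u => rowCum Φ u k l
      - (∑ j, β.cfg (newCfg π β e st.1) j k * β.cfg (newCfg π β e st'.1) j l) / m]
    refine Finset.sum_congr rfl fun u _ => ?_
    unfold onLev
    split_ifs
    · ring
    · simp
  have hg : ∀ u (f f' : Fin π'.c → ℝ), GoodObs (n := n)
      (robs P (vbpat π' Φ) a (levA π' u f f') (some k) (some l) (vpull c)) := fun u f f' =>
    goodObs_robs P Φ a _ _ _ c
  have hgs : ∀ u, GoodObs (n := n) fun G st st' =>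
      ∑ i, robs P (vbpat π' Φ) a (levA π' u (φ i k) (φ i l)) (some k) (some l) (vpull c) G st st' :=
    fun u => GoodObs.sum _ fun i _ => hg u _ _
  have e' : robs P (vbpat π' Φ) a (decA π β e Φ k l) (some k) (some l) (vpull c)
      = fun G (st st' : VState π' K n) => ∑ u, (rowCum Φ u k l *
          robs P (vbpat π' Φ) a (levA π' u (fun _ => 1) (fun _ => 1)) (some k) (some l) (vpull c) G st st'
        + -(1 / (m : ℝ)) * ∑ i,
          robs P (vbpat π' Φ) a (levA π' u (φ i k) (φ i l)) (some k) (some l) (vpull c) G st st') := by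
    funext G st st'
    simp only [robs, hA, Finset.sum_mul, add_mul, mul_assoc]
  rw [e', vmpair_sum P Φ c hn _ fun u _ => ((hg u _ _).smul _).add ((hgs u).smul _)]
  refine Finset.sum_congr rfl fun u _ => ?_
  rw [vmpair_add P Φ c hn ((hg u _ _).smul _) ((hgs u).smul _), vmpair_smul P Φ c hn (hg u _ _),
    vmpair_smul P Φ c hn (hgs u), vmpair_sum P Φ c hn _ fun i _ => hg u _ _]
  simp only [vmpair_robs_lev, φ]
  ring

/-- The block fields, by levels. -/
theorem block_levels (P : VPot d) (hn : 0 < n) (c : VCIdx N' (M + mr) d R D K → ℝ)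
    (a : Fin (M + mr)) (T : Fin (K + 1) → Fin m → Fin d → Fin d → ℝ) :
    vmpair n P (prodPrior π β e) Φ c (fun _ st st' => ∑ i, ∑ k, ∑ l,
        β.cfg (newCfg π β e st.1) i k * β.cfg (newCfg π β e st'.1) i l * T (com st.2 st'.2) i k l)
      = ∑ u, ∑ i, ∑ k, ∑ l, T u i k l * fldLev n P (prodPrior π β e) Φ c a
            (fun σ _ => β.cfg (newCfg π β e σ) i k) (fun σ _ => β.cfg (newCfg π β e σ) i l) u := by
  set π' := prodPrior π β e
  set φ : Fin m → Fin d → Fin π'.c → ℝ := fun i k σ => β.cfg (newCfg π β e σ) i k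
  have e' : (fun (_ : VGIdx N' (M + mr) d R D K n → ℝ) (st st' : VState π' K n) => ∑ i, ∑ k, ∑ l,
        β.cfg (newCfg π β e st.1) i k * β.cfg (newCfg π β e st'.1) i l * T (com st.2 st'.2) i k l)
      = fun _ st st' => ∑ u, ∑ i, ∑ k, ∑ l, T u i k l * levA π' u (φ i k) (φ i l) st st' := by
    funext _ st st'
    rw [sum_onLev (com st.2 st'.2) fun u => ∑ i, ∑ k, ∑ l,
      β.cfg (newCfg π β e st.1) i k * β.cfg (newCfg π β e st'.1) i l * T u i k l]
    refine Finset.sum_congr rfl fun u _ => ?_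
    by_cases hu : com st.2 st'.2 = u
    · have hv : vlev π' st st' = u := hu
      simp only [levA, φ, onLev, hu, hv, if_true]
      exact Finset.sum_congr rfl fun i _ => Finset.sum_congr rfl fun k _ =>
        Finset.sum_congr rfl fun l _ => mul_comm _ _
    · have hv : ¬vlev π' st st' = u := hu
      simp [levA, onLev, hu, hv]
  have hc : ∀ u i k l, GoodObs (M := M + mr) (K := K) fun _ (st st' : VState π' K n) =>
      T u i k l * levA π' u (φ i k) (φ i l) st st' := fun u i k l => goodObs_const _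
  have h1 := fun u i k => GoodObs.sum Finset.univ fun l _ => hc u i k l
  have h2 := fun u i => GoodObs.sum Finset.univ fun k _ => h1 u i k
  have h3 := fun u => GoodObs.sum Finset.univ fun i _ => h2 u i
  rw [e', vmpair_sum P Φ c hn _ fun u _ => h3 u]
  refine Finset.sum_congr rfl fun u _ => ?_
  rw [vmpair_sum P Φ c hn _ fun i _ => h2 u i]
  refine Finset.sum_congr rfl fun i _ => ?_
  rw [vmpair_sum P Φ c hn _ fun k _ => h1 u i k]
  refine Finset.sum_congr rfl fun k _ => ?_
  rw [vmpair_sum P Φ c hn _ fun l _ => hc u i k l]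
  refine Finset.sum_congr rfl fun l _ => ?_
  rw [vmpair_smul P Φ c hn (goodObs_const (levA π' u (φ i k) (φ i l))),
    ← vmpair_robs_none P π' Φ c a, vmpair_robs_lev]
  simp only [gO, φ, mul_one]
  rfl

/-- The pairing of the path with the means of the gradient, less the defect. -/
noncomputable def incGain (M mr : ℕ) (P : VPot d) (dp : Fin (K + 1) → ℝ) : ℝ :=
  m / 2 * (pi0 K * (((M + mr : ℕ) : ℝ) / N' * ∑ u, ∑ k, ∑ l, rowCum Φ u k l * slotLev P Φ u k l
    - ∑ u, dp u))

/-- The decoupled increment is at least the pairing, for large degree. -/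
theorem decVal_ge (P : VPot d) (hM : 0 < M + mr) {dp : Fin (K + 1) → ℝ}
    (hdp : ∀ u τ τ', |spinPair β e Φ u τ τ' - ((M + mr : ℕ) : ℝ) / N' * (m * ∑ k, ∑ l,
      slotLev P Φ u k l * newOv β k l τ τ')| ≤ m * dp u)
    {ε : ℝ} (hε : 0 < ε) :
    ∃ n0, ∀ n ≥ n0, ∀ t ∈ Icc (0 : ℝ) 1,
      incGain (m := m) Φ M mr P dp - ε ≤ decVal M mr π β e Φ J x n P t := by
  set π' := prodPrior π β e
  set L := incGain (m := m) Φ M mr P dp with hL
  suffices h : ∃ n0, ∀ n ≥ n0, ∀ t ∈ Icc (0 : ℝ) 1,
      L - decVal M mr π β e Φ J x n P t ≤ ε by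
    obtain ⟨n0, h⟩ := h
    exact ⟨n0, fun n hn t ht => by linarith [h n hn t ht]⟩
  refine uniform_of_seq isCompact_Icc (D := fun n t => L - decVal M mr π β e Φ J x n P t)
    (fun t tl nn _ _ hlim hnn ε' hε' => ?_) hε
  set Mr := ((M + mr : ℕ) : ℝ) with hMr
  have hM' : 0 < Mr := Nat.cast_pos.2 hM
  set φ : Fin m → Fin d → Fin π'.c → ℝ := fun i k σ => β.cfg (newCfg π β e σ) i k
  set c := fun (a : Fin (M + mr)) (j : ℕ) => decC (d := d) (R := R) (D := D) (K := K) M mr e J x (t j) a
  have hc : ∀ a, Tendsto (c a) atTop (𝓝 (decC M mr e J x tl a)) := fun a =>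
    ((continuous_decC e J x a).tendsto tl).comp hlim
  set E1 := fun (a : Fin (M + mr)) j (u : Fin (K + 1)) =>
    fldLev (nn j) P π' Φ (c a j) a (fun _ _ => (1 : ℝ)) (fun _ _ => 1) u
  set T0 := fun (a : Fin (M + mr)) j (u : Fin (K + 1)) (i : Fin m) k l =>
    fldLev (nn j) P π' Φ (c a j) a (fun σ _ => φ i k σ) (fun σ _ => φ i l σ) u
  set T1 := fun (a : Fin (M + mr)) j (u : Fin (K + 1)) k l =>
    fldLev (nn j) P π' Φ (c a j) a (fun _ h => 1 * gO P (some k) h)
      (fun _ h => 1 * gO P (some l) h) u - slotLev P Φ u k l * E1 a j u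
  set T2 := fun (a : Fin (M + mr)) j (u : Fin (K + 1)) (i : Fin m) k l =>
    fldLev (nn j) P π' Φ (c a j) a (fun σ h => φ i k σ * gO P (some k) h)
      (fun σ h => φ i l σ * gO P (some l) h) u - slotLev P Φ u k l * T0 a j u i k l
  have hfree : ∀ (a : Fin (M + mr)) u k l (f f' : Fin π'.c → ℝ), Tendsto (fun j =>
      fldLev (nn j) P π' Φ (c a j) a (fun σ h => f σ * gO P (some k) h)
        (fun σ h => f' σ * gO P (some l) h) u
      - slotLev P Φ u k l * fldLev (nn j) P π' Φ (c a j) a (fun σ _ => f σ) (fun σ _ => f' σ) u)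
      atTop (𝓝 0) := fun a u k l f f' => by
    have h := tendsto_fldLev_free P π' Φ (a := a) f f' (P.cg k) (P.cg l) (b := rowB P)
      (abs_g_le P k) (abs_g_le P l) (hc a) (freeRows_decC e J x tl a) hnn u
    simp only [decC_row] at h
    exact h
  have h1 : ∀ a u k l, Tendsto (fun j => T1 a j u k l) atTop (𝓝 0) := fun a u k l =>
    hfree a u k l (fun _ => 1) (fun _ => 1)
  have h2 : ∀ a u i k l, Tendsto (fun j => T2 a j u i k l) atTop (𝓝 0) := fun a u i k l =>
    hfree a u k l (φ i k) (φ i l)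
  have hE : ∀ a u, Tendsto (fun j => E1 a j u) atTop (𝓝 (pi0 K)) := fun a u => by
    have h := tendsto_pairLev_sq P π' Φ (hc a) (φ := fun _ _ => (1 : ℝ)) tendsto_const_nhds hnn u
    simp only [sqLim_one, mul_one] at h
    refine h.congr fun j => ?_
    simp only [E1, fldLev, pairLev, fldObs, one_mul]
  set Z := fun j => 1 / 2 * ∑ a, ((m : ℝ) / N' * ∑ k, ∑ l, ∑ u,
        (rowCum Φ u k l * T1 a j u k l - 1 / (m : ℝ) * ∑ i, T2 a j u i k l)
      + ((m : ℝ) / N' * ∑ u, (∑ k, ∑ l, rowCum Φ u k l * slotLev P Φ u k l) * E1 a j u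
        - (m : ℝ) / Mr * ∑ u, dp u * E1 a j u))
  have hZ : Tendsto Z atTop (𝓝 L) := by
    have h := (tendsto_finsetSum Finset.univ fun a _ =>
      ((tendsto_finsetSum Finset.univ fun k _ => tendsto_finsetSum Finset.univ fun l _ =>
        tendsto_finsetSum Finset.univ fun u _ => ((h1 a u k l).const_mul (rowCum Φ u k l)).sub
          ((tendsto_finsetSum Finset.univ fun i _ => h2 a u i k l).const_mul (1 / (m : ℝ)))).const_mul
        ((m : ℝ) / N')).add
      (((tendsto_finsetSum Finset.univ fun u _ => (hE a u).const_mul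
          (∑ k, ∑ l, rowCum Φ u k l * slotLev P Φ u k l)).const_mul ((m : ℝ) / N')).sub
        ((tendsto_finsetSum Finset.univ fun u _ => (hE a u).const_mul (dp u)).const_mul
          ((m : ℝ) / Mr)))).const_mul (1 / 2 : ℝ)
    refine (Tendsto.congr' (Eventually.of_forall fun j => ?_) h).trans (le_of_eq (congrArg 𝓝 ?_))
    · simp only [Z]
    · simp only [mul_zero, Finset.sum_const_zero, sub_zero, zero_add, ← Finset.sum_mul,
        Finset.sum_const, Finset.card_univ, Fintype.card_fin, nsmul_eq_mul, hL, incGain, ← hMr]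
      field_simp
  filter_upwards [hnn.eventually (eventually_gt_atTop 0),
    hZ.eventually (eventually_ge_nhds (sub_lt_self L hε'))] with j hj hZj
  have hle : Z j ≤ decVal M mr π β e Φ J x (nn j) P (t j) := by
    refine mul_le_mul_of_nonneg_left (Finset.sum_le_sum fun a _ => ?_) (by norm_num)
    have := vstate_nonempty (K := K) π' hj
    set B0 := vmpair (nn j) P π' Φ (c a j) fun _ => decB π β e Φ
    set O := fun (st st' : VState π' K (nn j)) => ∑ i, ∑ k, ∑ l,
      β.cfg (newCfg π β e st.1) i k * β.cfg (newCfg π β e st'.1) i l *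
        (spinCum Φ (e (Sum.inr i)) (com st.2 st'.2) k l
          - Mr / N' * slotLev P Φ (com st.2 st'.2) k l)
    have hO : vmpair (nn j) P π' Φ (c a j) (fun _ => O) = ∑ u, ∑ i, ∑ k, ∑ l,
        (spinCum Φ (e (Sum.inr i)) u k l - Mr / N' * slotLev P Φ u k l) * T0 a j u i k l :=
      block_levels π β e Φ P hj (c a j) a
        fun u i k l => spinCum Φ (e (Sum.inr i)) u k l - Mr / N' * slotLev P Φ u k l
    have hOb : -((m : ℝ) * ∑ u, dp u * E1 a j u) ≤ vmpair (nn j) P π' Φ (c a j) (fun _ => O) := by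
      have e1 : vmpair (nn j) P π' Φ (c a j) (fun _ (st st' : VState π' K (nn j)) =>
          ∑ u, -((m : ℝ) * dp u) * levA π' u (fun _ => 1) (fun _ => 1) st st')
          = -((m : ℝ) * ∑ u, dp u * E1 a j u) := by
        rw [vmpair_sum P Φ (c a j) hj _ fun u _ => goodObs_const _, Finset.mul_sum,
          ← Finset.sum_neg_distrib]
        refine Finset.sum_congr rfl fun u _ => ?_
        rw [vmpair_smul P Φ (c a j) hj (goodObs_const (levA π' u (fun _ => 1) (fun _ => 1))),
          ← vmpair_robs_none P π' Φ (c a j) a, vmpair_robs_lev]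
        simp only [E1, gO, one_mul, neg_mul, mul_assoc]
      rw [← e1]
      refine vmpair_mono P Φ (c a j) hj (goodObs_const _) (goodObs_const _) fun G st st' => ?_
      have eO : O st st' = spinPair β e Φ (com st.2 st'.2) (newCfg π β e st.1) (newCfg π β e st'.1)
          - Mr / N' * (m * ∑ k, ∑ l, slotLev P Φ (com st.2 st'.2) k l
              * newOv β k l (newCfg π β e st.1) (newCfg π β e st'.1)) := by
        simp only [O, spinPair, mul_sub, Finset.sum_sub_distrib]
        congr 1
        rw [Finset.sum_comm, Finset.mul_sum, Finset.mul_sum]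
        refine Finset.sum_congr rfl fun k _ => ?_
        rw [Finset.sum_comm, Finset.mul_sum, Finset.mul_sum]
        refine Finset.sum_congr rfl fun l _ => ?_
        simp only [newOv]
        rcases Nat.eq_zero_or_pos m with hm | hm
        · subst hm; simp
        · rw [Finset.sum_div, Finset.mul_sum, Finset.mul_sum, Finset.mul_sum]
          refine Finset.sum_congr rfl fun i _ => ?_
          field_simp
      have e2 : ∑ u, -((m : ℝ) * dp u) * levA π' u (fun _ => 1) (fun _ => 1) st st'
          = -((m : ℝ) * dp (com st.2 st'.2)) := by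
        simp [levA, vlev, onLev, Finset.sum_ite_eq]
      rw [e2, eO]
      exact (abs_le.1 (hdp _ _ _)).1
    have hB0 : B0 = ∑ u, ∑ i, ∑ k, ∑ l, spinCum Φ (e (Sum.inr i)) u k l * T0 a j u i k l :=
      block_levels π β e Φ P hj (c a j) a fun u i k l => spinCum Φ (e (Sum.inr i)) u k l
    rw [vmpair_robs_none]
    simp only [dec_levels π β e Φ P hj]
    show _ ≤ (m : ℝ) / N' * _ + 1 / Mr * B0
    have key : (m : ℝ) / N' * ∑ k, ∑ l, ∑ u,
          (rowCum Φ u k l * fldLev (nn j) P π' Φ (c a j) a (fun _ h => 1 * gO P (some k) h)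
              (fun _ h => 1 * gO P (some l) h) u
            - 1 / (m : ℝ) * ∑ i, fldLev (nn j) P π' Φ (c a j) a
              (fun σ h => φ i k σ * gO P (some k) h) (fun σ h => φ i l σ * gO P (some l) h) u)
          + 1 / Mr * B0
        = (m : ℝ) / N' * ∑ k, ∑ l, ∑ u,
            (rowCum Φ u k l * T1 a j u k l - 1 / (m : ℝ) * ∑ i, T2 a j u i k l)
          + (m : ℝ) / N' * ∑ u, (∑ k, ∑ l, rowCum Φ u k l * slotLev P Φ u k l) * E1 a j u
          + 1 / Mr * vmpair (nn j) P π' Φ (c a j) (fun _ => O) := by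
      rw [hO, hB0]
      simp only [T1, T2, mul_sub, sub_mul, Finset.sum_sub_distrib, Finset.mul_sum, Finset.sum_mul]
      have c1 : ∑ k, ∑ l, ∑ u, (m : ℝ) / N' * (rowCum Φ u k l * (slotLev P Φ u k l * E1 a j u))
          = ∑ u, ∑ k, ∑ l, (m : ℝ) / N' * (rowCum Φ u k l * slotLev P Φ u k l * E1 a j u) := by
        rw [Finset.sum_congr rfl fun k _ => Finset.sum_comm, Finset.sum_comm]
        simp only [mul_assoc]
      have c2 : ∑ k, ∑ l, ∑ u, ∑ i,
            (m : ℝ) / N' * (1 / (m : ℝ) * (slotLev P Φ u k l * T0 a j u i k l))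
          = ∑ u, ∑ i, ∑ k, ∑ l, 1 / Mr * (Mr / N' * slotLev P Φ u k l * T0 a j u i k l) := by
        rw [Finset.sum_congr rfl fun k _ => Finset.sum_comm, Finset.sum_comm]
        refine Finset.sum_congr rfl fun u _ => ?_
        rw [Finset.sum_congr rfl fun k _ => Finset.sum_comm, Finset.sum_comm]
        refine Finset.sum_congr rfl fun i _ => Finset.sum_congr rfl fun k _ =>
          Finset.sum_congr rfl fun l _ => ?_
        rcases Nat.eq_zero_or_pos m with hm | hm
        · subst hm; exact i.elim0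
        · field_simp
      linarith
    rw [key]
    have h3 := mul_le_mul_of_nonneg_left hOb (one_div_nonneg.2 hM'.le)
    have h4 : 1 / Mr * -((m : ℝ) * ∑ u, dp u * E1 a j u)
        = -((m : ℝ) / Mr * ∑ u, dp u * E1 a j u) := by ring
    linarith
  linarith

/-- The limit free energies of the full system and of the old one, from bounds along any filter of
large degrees. -/
theorem vcasc_inc (Φ0 : VFac N d K) (P : VPot d) {B A0 : ℝ} (hB : CavB π β e Φ M mr B A0)
    (hN : 0 < N) (hM : 0 < M + mr) {dp : Fin (K + 1) → ℝ}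
    (hdp : ∀ u τ τ', |spinPair β e Φ u τ τ' - ((M + mr : ℕ) : ℝ) / N' * (m * ∑ k, ∑ l,
      slotLev P Φ u k l * newOv β k l τ τ')| ≤ m * dp u)
    {σ εd εT : ℝ} {F : Filter ℕ} [F.NeBot] (hF : F ≤ atTop)
    (hσ : ∀ᶠ n in F, vmpair n P π Φ0 (oldC (M := M) J x) (fun _ => syncF π Φ) ≤ σ)
    (hd1 : ∀ᶠ n in F, ∀ t ∈ Icc (0 : ℝ) 1, vmpair n P (prodPrior π β e) Φ
      (seg1C M mr e J x t) (fun _ st _ => devS π Φ (oldCfg π β e st.1)) ≤ εd)
    (hd2 : ∀ᶠ n in F, ∀ t ∈ Icc (0 : ℝ) 1, vmpair n P (prodPrior π β e) Φ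
      (seg2C M mr e J x t) (fun _ st _ => devS π Φ (oldCfg π β e st.1)) ≤ εd)
    (hT : ∀ τ, devT β Φ τ ≤ εT) :
    vcasc P π Φ0 (oldC (M := M) J x) + mr * rowCasc P.f (Φ.1 0 0) (fun l => Φ.1 0 l.succ)
        + atomVal β (blkS Φ e) + incGain (m := m) Φ M mr P dp
        - m * ((4 * A0 * rowB P ^ 2 + (2 * A0 * (d : ℝ) ^ 2 * B + B) * decK P B)
            * (incX d P B A0 σ εd m N' + εT))
      ≤ vcasc P (prodPrior π β e) Φ (fun i => ptFull M mr i + vpert J x i) := by
  rw [← vcasc_split π β e Φ Φ0 J x P hN]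
  refine le_of_forall_pos_le_add fun ε hε => ?_
  obtain ⟨n0, hn0⟩ := decVal_ge π β e Φ J x P hM hdp hε
  have l1 := tendsto_vmfree P (prodPrior π β e) Φ
    (tendsto_const_nhds (x := splitC (d := d) (R := R) (D := D) (K := K) M mr e J x) (f := atTop))
    (nn := id) tendsto_id
  have l2 := tendsto_vmfree P (prodPrior π β e) Φ
    (tendsto_const_nhds (x := fun i : VCIdx N' (M + mr) d R D K => ptFull M mr i + vpert J x i)
      (f := atTop)) (nn := id) tendsto_id
  refine le_of_tendsto_of_tendsto (((l1.mono_left hF).add_const _).sub_const _)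
    ((l2.mono_left hF).add_const ε) ?_
  filter_upwards [hσ, hd1, hd2, hF (eventually_gt_atTop 0), hF (eventually_ge_atTop n0)]
    with n h1 h2 h3 hn hn'
  obtain ⟨t, ht, hinc⟩ := inc_finite π β e Φ Φ0 J x hB P hn hN hM h1 h2 h3 hT
  have := hn0 n hn' t ht
  simp only [id]
  unfold splitC
  linarith

end Lim

end Vale.Agent.P166.Casc
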