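import Vale.Agent.P157.Casc.Interp
import Vale.Agent.P166.Casc.Defs

/-!
Derivatives of the weights of a system with vector fields along segments of variances and in the
Gaussian coordinates.
-/

open MeasureTheory ProbabilityTheory Filter Topology Set

namespace Vale.Agent.P166.Casc.VItp

open Vale.Agent.P157.Casc Vale.Agent.P157.Casc.Itp

theorem bF_nonneg {d : ℕ} (P : VPot d) : 0 ≤ P.bF := (abs_nonneg _).trans (P.hF fun _ => 0)

variable {T I : Type*} [Fintype T] [Fintype I] {M d : ℕ}

/-- Derivative of the Hamiltonian per unit move of a coordinate. -/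
noncomputable def vdir (P : VPot d) (b : Fin M → Fin d → T → I → ℝ) (bz : T → I → ℝ)
    (lam : I → ℝ) (G : I → ℝ) (x : T) (i : I) : ℝ :=
  (∑ a, ∑ k, P.g k (vfld b lam G x a) * b a k x i) + bz x i

/-- Its derivative per unit move of the same coordinate. -/
noncomputable def vcrv (P : VPot d) (b : Fin M → Fin d → T → I → ℝ) (lam : I → ℝ) (G : I → ℝ)
    (x : T) (i : I) : ℝ :=
  ∑ a, ∑ k, ∑ l, P.h k l (vfld b lam G x a) * (b a k x i * b a l x i)

/-- Change of the Hamiltonian that does not involve the Gaussian coordinates. -/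
noncomputable def vcst (bz qd : T → I → ℝ) (δ : I → ℝ) (x : T) : ℝ :=
  -(1 / 2) * comp bz δ x + ∑ i, δ i * qd x i

/-- Bound on `vdir` and `vcrv`. -/
noncomputable def vbd (P : VPot d) (b : Fin M → Fin d → T → I → ℝ) (bz : T → I → ℝ) : ℝ :=
  ∑ x, ∑ i, ((∑ a, ∑ k, |P.b1| * |b a k x i|)
    + (∑ a, ∑ k, ∑ l, |P.b2| * (|b a k x i| * |b a l x i|)) + |bz x i|)

variable (P : VPot d) {w : T → ℝ} (b : Fin M → Fin d → T → I → ℝ) (bz : T → I → ℝ)
  (qd : T → I → ℝ)

theorem vbd_term_nonneg (x : T) (i : I) :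
    0 ≤ (∑ a, ∑ k, |P.b1| * |b a k x i|)
      + (∑ a, ∑ k, ∑ l, |P.b2| * (|b a k x i| * |b a l x i|)) + |bz x i| :=
  add_nonneg (add_nonneg
    (Finset.sum_nonneg fun a _ => Finset.sum_nonneg fun k _ => by positivity)
    (Finset.sum_nonneg fun a _ => Finset.sum_nonneg fun k _ =>
      Finset.sum_nonneg fun l _ => by positivity)) (abs_nonneg _)

theorem vbd_nonneg : 0 ≤ vbd P b bz :=
  Finset.sum_nonneg fun x _ => Finset.sum_nonneg fun i _ => vbd_term_nonneg P b bz x i

theorem vbd_ge (x : T) (i : I) :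
    (∑ a, ∑ k, |P.b1| * |b a k x i|)
      + (∑ a, ∑ k, ∑ l, |P.b2| * (|b a k x i| * |b a l x i|)) + |bz x i| ≤ vbd P b bz :=
  (Finset.single_le_sum (fun j _ => vbd_term_nonneg P b bz x j) (Finset.mem_univ i)).trans
    (Finset.single_le_sum
      (f := fun x => ∑ i, ((∑ a, ∑ k, |P.b1| * |b a k x i|)
        + (∑ a, ∑ k, ∑ l, |P.b2| * (|b a k x i| * |b a l x i|)) + |bz x i|))
      (fun y _ => Finset.sum_nonneg fun j _ => vbd_term_nonneg P b bz y j) (Finset.mem_univ x))

theorem abs_vdir_le (lam G : I → ℝ) (x : T) (i : I) : |vdir P b bz lam G x i| ≤ vbd P b bz := by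
  refine le_trans ?_ (vbd_ge P b bz x i)
  refine (abs_add_le _ _).trans (add_le_add ?_ le_rfl)
  refine le_add_of_le_of_nonneg ((Finset.abs_sum_le_sum_abs _ _).trans
    (Finset.sum_le_sum fun a _ => (Finset.abs_sum_le_sum_abs _ _).trans
      (Finset.sum_le_sum fun k _ => ?_))) (Finset.sum_nonneg fun a _ =>
        Finset.sum_nonneg fun k _ => Finset.sum_nonneg fun l _ => by positivity)
  rw [abs_mul]
  exact mul_le_mul_of_nonneg_right ((P.h1 _ _).trans (le_abs_self _)) (abs_nonneg _)

theorem abs_vcrv_le (lam G : I → ℝ) (x : T) (i : I) : |vcrv P b lam G x i| ≤ vbd P b bz := by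
  refine le_trans ?_ (vbd_ge P b bz x i)
  refine le_add_of_le_of_nonneg ?_ (abs_nonneg _)
  refine le_add_of_nonneg_of_le (Finset.sum_nonneg fun a _ =>
    Finset.sum_nonneg fun k _ => by positivity) ?_
  refine (Finset.abs_sum_le_sum_abs _ _).trans (Finset.sum_le_sum fun a _ =>
    (Finset.abs_sum_le_sum_abs _ _).trans (Finset.sum_le_sum fun k _ =>
      (Finset.abs_sum_le_sum_abs _ _).trans (Finset.sum_le_sum fun l _ => ?_)))
  rw [abs_mul, abs_mul]
  exact mul_le_mul_of_nonneg_right ((P.h2 _ _ _).trans (le_abs_self _)) (by positivity)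

omit [Fintype T] in
theorem cont_vfld (lam : I → ℝ) (x : T) (a : Fin M) :
    Continuous fun G => vfld b lam G x a :=
  continuous_pi fun k => cont_lin (b a k) lam x

omit [Fintype T] in
theorem cont_vfld2 (x : T) (a : Fin M) :
    Continuous fun p : (I → ℝ) × (I → ℝ) => vfld b p.1 p.2 x a :=
  continuous_pi fun k => cont_lin2 (b a k) x

omit [Fintype T] in
theorem cont_vdir (lam : I → ℝ) (x : T) (i : I) :
    Continuous fun G => vdir P b bz lam G x i := by
  unfold vdir
  exact ((continuous_finsetSum _ fun a _ => continuous_finsetSum _ fun k _ =>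
    ((P.cg k).comp (cont_vfld b lam x a)).mul_const _)).add continuous_const

omit [Fintype T] in
theorem cont_vcrv (lam : I → ℝ) (x : T) (i : I) :
    Continuous fun G => vcrv P b lam G x i := by
  unfold vcrv
  exact continuous_finsetSum _ fun a _ => continuous_finsetSum _ fun k _ =>
    continuous_finsetSum _ fun l _ => ((P.ch k l).comp (cont_vfld b lam x a)).mul_const _

omit [Fintype T] in
theorem cont_vham (x : T) :
    Continuous fun p : (I → ℝ) × (I → ℝ) => vham P b bz qd p.1 p.2 x := by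
  have h1 : Continuous fun p : (I → ℝ) × (I → ℝ) => ∑ a, P.f (vfld b p.1 p.2 x a) :=
    continuous_finsetSum _ fun a _ => P.cf.comp (cont_vfld2 b x a)
  have h2 := cont_lin2 bz x
  unfold vham
  exact ((h1.add h2).sub (by fun_prop)).add (by fun_prop)

variable (hw : ∀ x, 0 < w x)
include hw

omit [Fintype T] in
theorem vbw_pos (lam G : I → ℝ) (x : T) : 0 < vbw P w b bz qd lam G x :=
  mul_pos (hw x) (Real.exp_pos _)

theorem cont_vlogsum2 [Nonempty T] :
    Continuous fun p : (I → ℝ) × (I → ℝ) => Real.log (∑ x, vbw P w b bz qd p.1 p.2 x) := by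
  have := fun x => cont_vham P b bz qd x
  refine Continuous.log ?_ fun p => (sum_u_pos (vbw_pos P b bz qd hw p.1 p.2)).ne'
  unfold vbw; fun_prop

theorem cont_vgibbs2 [Nonempty T] (x : T) :
    Continuous fun p : (I → ℝ) × (I → ℝ) => gibbs (vbw P w b bz qd p.1 p.2) x := by
  have := fun x => cont_vham P b bz qd x
  refine Continuous.div ?_ ?_ fun p => (sum_u_pos (vbw_pos P b bz qd hw p.1 p.2)).ne'
  · unfold vbw; fun_prop
  · unfold vbw; fun_prop

theorem cont_vgibbs [Nonempty T] (lam : I → ℝ) (x : T) :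
    Continuous fun G => gibbs (vbw P w b bz qd lam G) x :=
  Continuous.comp (g := fun p : (I → ℝ) × (I → ℝ) => gibbs (vbw P w b bz qd p.1 p.2) x)
    (f := fun G => (lam, G)) (cont_vgibbs2 P b bz qd hw x) (continuous_const.prodMk continuous_id)

theorem cont_vlogsum [Nonempty T] (lam : I → ℝ) :
    Continuous fun G => Real.log (∑ x, vbw P w b bz qd lam G x) :=
  Continuous.comp (g := fun p : (I → ℝ) × (I → ℝ) => Real.log (∑ x, vbw P w b bz qd p.1 p.2 x))
    (f := fun G => (lam, G)) (cont_vlogsum2 P b bz qd hw) (continuous_const.prodMk continuous_id)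

omit hw [Fintype T] in
theorem deriv_vham_t {l0 δ : I → ℝ} (hpos : ∀ t ∈ Icc (0 : ℝ) 1, ∀ i, 0 ≤ l0 i + t * δ i)
    {r : ℝ} (hr : r ∈ Ioo (0 : ℝ) 1) (G : I → ℝ) (x : T) :
    HasDerivAt (fun q => vham P b bz qd (seg l0 δ q) G x)
      ((∑ i, rate l0 δ r i * G i * vdir P b bz (seg l0 δ r) G x i) + vcst bz qd δ x) r := by
  have h4 : HasDerivAt (fun q => ∑ i, seg l0 δ q i * qd x i) (∑ i, δ i * qd x i) r :=
    HasDerivAt.fun_sum (u := Finset.univ) fun i _ => by
      simpa [seg] using (((hasDerivAt_id r).mul_const (δ i)).const_add (l0 i)).mul_const (qd x i)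
  have h3 : HasDerivAt (fun q => 1 / 2 * ∑ i, seg l0 δ q i * bz x i ^ 2)
      (1 / 2 * comp bz δ x) r :=
    (HasDerivAt.fun_sum (u := Finset.univ) fun i _ => by
      simpa [seg] using (((hasDerivAt_id r).mul_const (δ i)).const_add (l0 i)).mul_const
        (bz x i ^ 2)).const_mul _
  refine ((((HasDerivAt.fun_sum (u := Finset.univ) fun a _ =>
    deriv_chain (F := P.f) (F' := P.g) P.cg P.d1
      (h := fun q => vfld b (seg l0 δ q) G x a) fun k => deriv_lin_t hpos hr (b a k) G x).add
      (deriv_lin_t hpos hr bz G x)).sub h3).add h4).congr_deriv ?_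
  rw [vcst, ← add_assoc, neg_mul, ← sub_eq_add_neg]
  simp only [vdir, mul_add, Finset.sum_add_distrib, Finset.mul_sum]
  congr 3
  rw [Finset.sum_comm (s := (Finset.univ : Finset I))]
  refine Finset.sum_congr rfl fun a _ => ?_
  rw [Finset.sum_comm]
  exact Finset.sum_congr rfl fun i _ => Finset.sum_congr rfl fun k _ => by ring

omit hw [Fintype T] in
theorem deriv_vham_G [DecidableEq I] (lam G : I → ℝ) (j : I) (x : T) :
    HasDerivAt (fun z => vham P b bz qd lam (Function.update G j z) x)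
      (√(lam j) * vdir P b bz lam G x j) (G j) := by
  refine ((((HasDerivAt.fun_sum (u := Finset.univ) fun a _ =>
    deriv_chain (F := P.f) (F' := P.g) P.cg P.d1
      (h := fun z => vfld b lam (Function.update G j z) x a)
      fun k => deriv_lin_G (b a k) lam G j (G j) x).add
      (deriv_lin_G bz lam G j (G j) x)).sub_const _).add_const _).congr_deriv ?_
  simp only [Function.update_eq_self, vdir, mul_add, Finset.mul_sum]
  congr 1
  exact Finset.sum_congr rfl fun a _ => Finset.sum_congr rfl fun k _ => by ring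

omit hw [Fintype T] in
theorem deriv_vbw_t {l0 δ : I → ℝ} (hpos : ∀ t ∈ Icc (0 : ℝ) 1, ∀ i, 0 ≤ l0 i + t * δ i)
    {r : ℝ} (hr : r ∈ Ioo (0 : ℝ) 1) (G : I → ℝ) (x : T) :
    HasDerivAt (fun q => vbw P w b bz qd (seg l0 δ q) G x)
      (vbw P w b bz qd (seg l0 δ r) G x *
        ((∑ i, rate l0 δ r i * G i * vdir P b bz (seg l0 δ r) G x i) + vcst bz qd δ x)) r :=
  ((deriv_vham_t P b bz qd hpos hr G x).exp.const_mul (w x)).congr_deriv (by simp only [vbw]; ring)

omit hw [Fintype T] in
theorem deriv_vbw_G [DecidableEq I] (lam G : I → ℝ) (j : I) (x : T) :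
    HasDerivAt (fun z => vbw P w b bz qd lam (Function.update G j z) x)
      (vbw P w b bz qd lam G x * (√(lam j) * vdir P b bz lam G x j)) (G j) :=
  ((deriv_vham_G P b bz qd lam G j x).exp.const_mul (w x)).congr_deriv
    (by simp only [Function.update_eq_self, vbw]; ring)

omit hw [Fintype T] in
theorem deriv_vdir_G [DecidableEq I] (lam G : I → ℝ) (j : I) (x : T) :
    HasDerivAt (fun z => vdir P b bz lam (Function.update G j z) x j)
      (√(lam j) * vcrv P b lam G x j) (G j) := by
  refine ((HasDerivAt.fun_sum (u := Finset.univ) fun a _ =>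
    HasDerivAt.fun_sum (u := Finset.univ) fun k _ =>
      (deriv_chain (F := P.g k) (F' := P.h k) (P.ch k) (P.d2 k)
        (h := fun z => vfld b lam (Function.update G j z) x a)
        fun l => deriv_lin_G (b a l) lam G j (G j) x).mul_const (b a k x j)).add_const
      _).congr_deriv ?_
  simp only [Function.update_eq_self, vcrv, Finset.mul_sum, Finset.sum_mul]
  exact Finset.sum_congr rfl fun a _ => Finset.sum_congr rfl fun k _ =>
    Finset.sum_congr rfl fun l _ => by ring

end Vale.Agent.P166.Casc.VItp
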