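import Vale.Agent.P166.Casc.VSegment

/-!
The perturbations change the free energy of the vector model by less than the order of the system.
-/

open MeasureTheory ProbabilityTheory Filter Topology Set

namespace Vale.Agent.P166.Casc

open Vale.Agent.P157.Casc

variable {N M d R D K n : ℕ}

theorem abs_vS_le (π : VPrior N d R D) (κ : Fin R) (st st' : VState π K n) :
    |vS π κ st st'| ≤ 1 := by
  have hR : |vkerov π κ st st'| ≤ 1 := by
    have h := Finset.sum_mul_sq_le_sq_mul_sq Finset.univ (π.ker κ st.1) (π.ker κ st'.1)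
    rw [π.ker_unit, π.ker_unit, mul_one] at h
    exact (sq_le_one_iff_abs_le_one _).1 h
  have hu : ((vlev π st st' : ℕ) : ℝ) ≤ K := by
    exact_mod_cast Nat.lt_succ_iff.1 (vlev π st st').isLt
  rw [vS, abs_div, Nat.abs_cast, div_le_one (by positivity)]
  refine (abs_add_le _ _).trans ?_
  rw [abs_of_nonneg (show (0 : ℝ) ≤ 3 * ((vlev π st st' : ℕ) : ℝ) by positivity)]
  push_cast
  linarith

/-- The amplitudes of one family. -/
theorem vamp_sum_le (J : ℕ) {x : ℕ → ℝ} {X : ℝ} (hx : ∀ i, |x i| ≤ X) :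
    ∑ j ∈ Finset.univ.filter (fun j : Fin D => j.val < J), (amp J j * x j) ^ 2
      ≤ X ^ 2 * (J : ℝ) ^ ((3 : ℝ) / 4) / 3 := by
  refine le_trans ?_ (amp_sum_le (N := J) hx)
  rw [Fin.sum_univ_eq_sum_range (fun j => (amp J j * x j) ^ 2) J]
  refine le_of_eq_of_le (Finset.sum_map (Finset.univ.filter fun j : Fin D => j.val < J)
    Fin.valEmbedding (fun j => (amp J j * x j) ^ 2)).symm ?_
  exact Finset.sum_le_sum_of_subset_of_nonneg (fun a ha => by
    simp only [Finset.mem_map, Finset.mem_filter, Finset.mem_univ, true_and,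
      Fin.valEmbedding_apply] at ha
    obtain ⟨j, hj, rfl⟩ := ha
    exact Finset.mem_range.2 hj) fun j _ _ => sq_nonneg _

/-- Total size of all perturbations. -/
noncomputable def vpertBd (R J : ℕ) (X : ℝ) : ℝ := R * (X ^ 2 * (J : ℝ) ^ ((3 : ℝ) / 4) / 3)

theorem abs_vkern_pert_le (P : VPot d) (π : VPrior N d R D) (Φ : VFac N d K) (J : ℕ)
    {x : Fin R → ℕ → ℝ} {X : ℝ} (hx : ∀ κ i, |x κ i| ≤ X) (lam G : VGIdx N M d R D K n → ℝ)
    (st st' : VState π K n) :
    |vkern P (vbpat π Φ) (vbspin π Φ) (vqd π Φ) lam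
        (vpull (vpert J x : VCIdx N M d R D K → ℝ)) G st st'| ≤ vpertBd R J X := by
  have h0 : ∀ a j, (vpert J x : VCIdx N M d R D K → ℝ) (Sum.inl (Sum.inl (a, j))) = 0 :=
    fun a j => rfl
  have h1 : ∀ l p, (vpert J x : VCIdx N M d R D K → ℝ) (Sum.inr (l, Sum.inl p)) = 0 :=
    fun l p => rfl
  have h2 : ∀ l p, (vpert J x : VCIdx N M d R D K → ℝ) (Sum.inr (l, Sum.inr (Sum.inl p))) = 0 :=
    fun l p => rfl
  have hq : ∀ i, vpull (vpert J x : VCIdx N M d R D K → ℝ) i * vqd π Φ st i = 0 := fun i => by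
    rcases i with (p | p) | ⟨o, q⟩
    · simp [vpull, vpert]
    · simp [vpull, vpert]
    · simp [vqd, treeDir]
  simp only [vkern, vgrad, vdiag, bcov, cov_vbpat, cov_vbspin, cov_vpert, hq, h0, h1, h2, zero_mul,
    Finset.sum_const_zero, zero_div, add_zero, zero_add, mul_zero, sub_zero]
  refine (Finset.abs_sum_le_sum_abs _ _).trans ((Finset.sum_le_card_nsmul _ _ _ fun κ _ =>
    (Finset.abs_sum_le_sum_abs _ _).trans (le_trans (Finset.sum_le_sum fun j _ => ?_)
      (vamp_sum_le (D := D) J (hx κ)))).trans_eq (by simp [vpertBd]))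
  rw [abs_mul, abs_of_nonneg (sq_nonneg _), abs_pow]
  exact mul_le_of_le_one_right (sq_nonneg _) (pow_le_one₀ (abs_nonneg _) (abs_vS_le π κ _ _))

/-- The perturbations change the free energy by at most their total size. -/
theorem vmfree_pert (P : VPot d) (π : VPrior N d R D) (Φ : VFac N d K) (hn : 0 < n)
    {c : VCIdx N M d R D K → ℝ} (hc : ∀ i, 0 ≤ c i) (J : ℕ) {x : Fin R → ℕ → ℝ} {X : ℝ}
    (hx : ∀ κ i, |x κ i| ≤ X) :
    |vmfree n P π Φ (fun i => c i + vpert J x i) - vmfree n P π Φ c|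
      ≤ 1 / 2 * vpertBd R J X := by
  have := vstate_nonempty (K := K) π hn
  obtain ⟨t, -, ht⟩ := vmfree_mvt P π Φ hn (Measure.dirac ()) (c := fun _ => c)
    (fun _ => measurable_const) (B := ∑ i, |c i|)
    (fun _ i => Finset.single_le_sum (f := fun i => |c i|) (fun _ _ => abs_nonneg _)
      (Finset.mem_univ i))
    (e := vpert J x) (fun _ t ht i => add_nonneg (hc i) (mul_nonneg ht.1 (vpert_nonneg J x i)))
  simp only [integral_dirac] at ht
  rw [ht, abs_mul, abs_neg, abs_of_nonneg (by norm_num : (0 : ℝ) ≤ 1 / 2)]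
  refine mul_le_mul_of_nonneg_left ?_ (by norm_num)
  rw [vmpair, ← Real.norm_eq_abs]
  refine (norm_integral_le_of_norm_le_const (C := vpertBd R J X) ?_).trans (by simp)
  filter_upwards [ae_vmbw_pos P π Φ (fun i => c i + t * vpert J x i)] with p hp
  exact Itp.abs_avg2_le hp fun st st' => abs_vkern_pert_le P π Φ J hx _ _ st st'

end Vale.Agent.P166.Casc
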