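import Vale.Agent.P166.Casc.VTransfer
import Vale.Agent.P166.Casc.VPertCost
import Vale.Agent.P166.Casc.VGGModel
import Vale.Agent.P166.Casc.Prior

/-!
Two replicas of the prior of atoms and labels share their label with probability of order one over
the number of labels, whatever the perturbation parameters.
-/

open MeasureTheory ProbabilityTheory Filter Topology Set

namespace Vale.Agent.P166.Casc

open Vale.Agent.P157.Casc Vale.Agent.P166.Pen

variable {N M d R D K n : ℕ}

/-- Without perturbations the weight sees only the spins of a configuration. -/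
theorem vmbw_congr_cfg (P : VPot d) (π : VPrior N d R D) (Φ : VFac N d K)
    {fld : VCIdx N M d R D K → ℝ} (hf : PertZero fld) {σ σ' : Fin π.c} (hw : π.w σ = π.w σ')
    (hcfg : π.cfg σ = π.cfg σ') (α : Leaf K n)
    (p : (Node K n → ℝ) × (VGIdx N M d R D K n → ℝ)) :
    vmbw P π Φ fld p (σ, α) = vmbw P π Φ fld p (σ', α) := by
  have hb : ∀ a k, vbpat (M := M) π Φ a k (σ, α) = vbpat π Φ a k (σ', α) := fun a k => by
    funext i
    rcases i with (q | q) | ⟨o, u⟩ <;> simp [vbpat, treeDir, rowZ, hcfg]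
  have hz : ∀ i, vpull fld i = 0 ∨ vbspin (M := M) π Φ (σ, α) i = vbspin π Φ (σ', α) i := fun i => by
    rcases i with q | ⟨o, u | u | u⟩
    · exact Or.inr (by simp [vbspin, treeDir])
    · exact Or.inr (by simp [vbspin, treeDir, spinL])
    · obtain ⟨s, j, r⟩ := u
      exact Or.inr (by simp [vbspin, treeDir, spinL, hcfg])
    · exact Or.inl (hf (lev o) u)
  have hq : vqd (M := M) π Φ (σ, α) = vqd π Φ (σ', α) := by
    funext i
    rcases i with (q | q) | ⟨o, u⟩ <;> simp [vqd, treeDir, tiltQ, hcfg]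
  have hl : lin (vbspin π Φ) (vpull fld) p.2 (σ, α) = lin (vbspin π Φ) (vpull fld) p.2 (σ', α) :=
    Finset.sum_congr rfl fun i _ => by rcases hz i with h | h <;> simp [h]
  have hs : ∑ i, vpull fld i * vbspin π Φ (σ, α) i ^ 2
      = ∑ i, vpull fld i * vbspin π Φ (σ', α) i ^ 2 :=
    Finset.sum_congr rfl fun i _ => by rcases hz i with h | h <;> simp [h]
  have hfl : ∀ a, vfld (vbpat π Φ) (vpull fld) p.2 (σ, α) a
      = vfld (vbpat π Φ) (vpull fld) p.2 (σ', α) a := fun a => funext fun k => by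
    simp only [vfld, lin, hb]
  simp only [vmbw, vbw, vham, vstw, hw, hl, hs, hq, hfl]

/-- The label of a configuration of the prior of atoms and labels. -/
noncomputable def labOf {c L : ℕ} (σ : Fin (c * L)) : Fin L := (finProdFinEquiv.symm σ).2

section Pen

variable {τ B ε : ℝ} {γ : Fin d → ℝ} {ν : Measure (Fin d → Fin N → ℝ)} {nA L J : ℕ}

/-- Indicator of a common label. -/
noncomputable def labEq (hτ : 0 ≤ τ) (A : Coeffs d nA) (a : Atoms ν (cutSet B d N) ε) (hL : 0 < L)
    (J : ℕ) (σ σ' : Fin (penPrior (γ := γ) hτ A a hL J).c) : ℝ :=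
  if labOf (c := a.c) (L := L) σ = labOf (c := a.c) (L := L) σ' then 1 else 0

/-- Without perturbations the labels are independent and uniform. -/
theorem vmpair_labEq_base (P : VPot d) (hτ : 0 ≤ τ) (A : Coeffs d nA)
    (a : Atoms ν (cutSet B d N) ε) (hL : 0 < L) (Φ : VFac N d K) (hn : 0 < n)
    {fld : VCIdx N M d (nker d nA) (N + L + J) K → ℝ} (hf : PertZero fld) :
    vmpair n P (penPrior (γ := γ) hτ A a hL J) Φ fld
        (fun _ st st' => labEq hτ A a hL J st.1 st'.1) = 1 / (L : ℝ) := by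
  set π := penPrior (γ := γ) hτ A a hL J
  have : Nonempty (Leaf K n) := ⟨fun _ => ⟨0, hn⟩⟩
  rw [vmpair, show (1 : ℝ) / L = ∫ _, (1 : ℝ) / L ∂venv N M d (nker d nA) (N + L + J) K n by simp]
  refine integral_congr_ae ?_
  filter_upwards [ae_vmbw_pos P π Φ fld] with p hp
  set u := vmbw P π Φ fld p
  set e : Fin a.c × Fin L ≃ Fin π.c := finProdFinEquiv
  set v : Fin a.c → Leaf K n → ℝ := fun i α => u (e (i, ⟨0, hL⟩), α)
  have hsymm : ∀ x, (finProdFinEquiv (m := a.c) (n := L)).symm (e x) = x := fun x =>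
    Equiv.symm_apply_apply finProdFinEquiv x
  have hu : ∀ i ξ α, u (e (i, ξ), α) = v i α := fun i ξ α =>
    vmbw_congr_cfg P π Φ hf (by
      show (penPrior (γ := γ) hτ A a hL J).w _ = (penPrior (γ := γ) hτ A a hL J).w _
      simp only [penPrior]; rw [hsymm, hsymm]) (by
      show (penPrior (γ := γ) hτ A a hL J).cfg _ = (penPrior (γ := γ) hτ A a hL J).cfg _
      simp only [penPrior]; rw [hsymm, hsymm]) α p
  set V := ∑ i, ∑ α, v i α
  have hsum : ∀ g : VState π K n → ℝ, ∑ x, g x = ∑ i, ∑ ξ, ∑ α, g (e (i, ξ), α) := fun g => by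
    rw [Fintype.sum_prod_type, ← e.sum_comp, Fintype.sum_prod_type]
  have hS : ∑ y, u y = L * V := by
    rw [hsum]
    simp only [hu, Finset.sum_const, Finset.card_univ, Fintype.card_fin, nsmul_eq_mul,
      V, Finset.mul_sum]
  have hlab : ∀ i ξ j ξ', labEq hτ A a hL J (e (i, ξ)) (e (j, ξ')) = if ξ = ξ' then 1 else 0 :=
    fun i ξ j ξ' => by
      have h : ∀ i ξ, labOf (c := a.c) (L := L) (e (i, ξ)) = ξ := fun i ξ =>
        congrArg Prod.snd (hsymm (i, ξ))
      simp only [labEq, h]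
  have hin : ∀ i ξ, ∑ y : VState π K n, u y * labEq hτ A a hL J (e (i, ξ)) y.1 = V := fun i ξ => by
    rw [hsum]
    simp only [hu, hlab, mul_ite, mul_one, mul_zero, V]
    refine Finset.sum_congr rfl fun j _ => ?_
    rw [Finset.sum_comm]
    exact Finset.sum_congr rfl fun α _ => by simp
  have hV : L * V ≠ 0 := hS ▸ (Finset.sum_pos (fun y _ => hp y)
    ⟨(e (⟨0, a.c_pos⟩, ⟨0, hL⟩), Classical.arbitrary _), Finset.mem_univ _⟩).ne'
  have e1 : avg2 u (fun st st' => labEq hτ A a hL J st.1 st'.1)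
      = (∑ x, u x * ∑ y, u y * labEq hτ A a hL J x.1 y.1) / ((∑ y, u y) * ∑ y, u y) := by
    simp only [avg2, gibbs]
    rw [Finset.sum_div]
    refine Finset.sum_congr rfl fun x _ => ?_
    rw [Finset.mul_sum, Finset.sum_div]
    exact Finset.sum_congr rfl fun y _ => by ring
  rw [e1, hS, hsum]
  simp only [hu, hin]
  rw [show ∑ i, ∑ _ξ : Fin L, ∑ α, v i α * V = L * V * V by
    simp only [← Finset.sum_mul, Finset.sum_const, Finset.card_univ, Fintype.card_fin,
      nsmul_eq_mul, ← Finset.mul_sum]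
    simp only [V]]
  obtain ⟨hL0, hV0⟩ := mul_ne_zero_iff.1 hV
  field_simp

/-- With perturbations a common label has probability of order one over their number. -/
theorem vmpair_labEq_le (P : VPot d) (hτ : 0 ≤ τ) (A : Coeffs d nA)
    (a : Atoms ν (cutSet B d N) ε) (hL : 0 < L) (Φ : VFac N d K) (hn : 0 < n)
    {fld : VCIdx N M d (nker d nA) (N + L + J) K → ℝ} (hf : PertZero fld) (hf0 : ∀ i, 0 ≤ fld i)
    (J' : ℕ) {x : Fin (nker d nA) → ℕ → ℝ} {X : ℝ} (hx : ∀ κ i, |x κ i| ≤ X) :
    vmpair n P (penPrior (γ := γ) hτ A a hL J) Φ (fun i => fld i + vpert J' x i)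
        (fun _ st st' => labEq hτ A a hL J st.1 st'.1)
      ≤ 3 * Real.exp (36 * vpertBd (nker d nA) J' X) / L := by
  set π := penPrior (γ := γ) hτ A a hL J
  set e : VCIdx N M d (nker d nA) (N + L + J) K → ℝ := vpert J' x
  have h := vmpair_transfer (t := 1) P π Φ hn (c := fld) (e := e)
    (fun t ht i => add_nonneg (hf0 i) (mul_nonneg ht.1 (vpert_nonneg J' x i))) (A := fun _ => 0)
    (Z := vpertBd (nker d nA) J' X) (Q := 0) (fun a k l st st' => ?_) (fun st st' => ?_)
    (fun st => ?_) (F := fun st st' => labEq hτ A a hL J st.1 st'.1) (Mx := 1)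
    (fun _ _ => by unfold labEq; split_ifs <;> norm_num)
    (fun _ _ => by unfold labEq; split_ifs <;> norm_num) (right_mem_Icc.2 zero_le_one)
  · simp only [one_mul, Dbl.kb, Finset.sum_const_zero, mul_zero, zero_mul, zero_add, add_zero, e] at h
    have hbase : vmpair n P π Φ fld (fun _ st st' => labEq hτ A a hL J st.1 st'.1) = 1 / (L : ℝ) :=
      vmpair_labEq_base P hτ A a hL Φ hn hf
    rw [hbase] at h
    refine h.trans_eq ?_
    rw [show (6 : ℝ) * (6 * vpertBd (nker d nA) J' X) = 36 * vpertBd (nker d nA) J' X by ring]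
    ring
  · refine le_of_eq ?_
    simp only [bcov]
    rw [abs_eq_zero]
    refine Finset.sum_eq_zero fun i _ => ?_
    rcases i with (q | q) | ⟨o, u | u | u⟩ <;> simp [vpull, e, vpert, vbpat, treeDir, rowL]
  · have h2 : ∀ l p, (e : VCIdx N M d (nker d nA) (N + L + J) K → ℝ)
        (Sum.inr (l, Sum.inr (Sum.inl p))) = 0 := fun l p => rfl
    rw [cov_vbspin]
    simp only [h2, zero_mul, Finset.sum_const_zero, zero_add, e, cov_vpert]
    refine (Finset.abs_sum_le_sum_abs _ _).trans ((Finset.sum_le_card_nsmul _ _ _ fun κ _ =>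
      (Finset.abs_sum_le_sum_abs _ _).trans (le_trans (Finset.sum_le_sum fun j _ => ?_)
        (vamp_sum_le (D := N + L + J) J' (hx κ)))).trans_eq (by simp [vpertBd]))
    rw [abs_mul, abs_of_nonneg (sq_nonneg _), abs_pow]
    exact mul_le_of_le_one_right (sq_nonneg _) (pow_le_one₀ (abs_nonneg _) (abs_vS_le π κ _ _))
  · refine le_of_eq ?_
    rw [abs_eq_zero]
    refine Finset.sum_eq_zero fun i _ => ?_
    rcases i with (q | q) | ⟨o, u⟩
    · simp [vpull, e, vpert]
    · simp [vpull, e, vpert]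
    · simp [vqd, treeDir]

end Pen

end Vale.Agent.P166.Casc
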