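import Vale.Agent.P166.Casc.PenMass
import Vale.Agent.P166.Casc.VBlock
import Vale.Agent.P166.Casc.VDev

/-!
A priori bound on the distance of the self-overlaps from the centre of the penalty, at rate one
over the square root of its strength, for the penalised prior and its products with blocks.
-/

open MeasureTheory ProbabilityTheory Filter Topology

namespace Vale.Agent.P166.Casc

open Vale.Agent.P157.Casc Vale.Agent.P166.Pen

variable {N K : ℕ}

/-- Distance of the self-overlaps from a table. -/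
noncomputable def ovlDev (τ : ℝ) (γ : Fin K → ℝ) (d : OIdx K → ℝ) (ω : Fin K → Fin N → ℝ) : ℝ :=
  ∑ i, |ovl τ γ ω i - d i|

theorem continuous_ovlDev (τ : ℝ) (γ : Fin K → ℝ) (d : OIdx K → ℝ) :
    Continuous (ovlDev (N := N) τ γ d) := by
  refine continuous_finsetSum _ fun i _ => Continuous.abs (Continuous.sub ?_ continuous_const)
  unfold ovl
  split_ifs <;> fun_prop

/-- The exponential moment of the distance under the penalised weight, on fine atoms. -/
theorem dev_moment {τ B lam : ℝ} (γ : Fin K → ℝ) (d : OIdx K → ℝ) (hlam : 1 ≤ lam) (N : ℕ) :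
    ∃ del : ℝ, 0 < del ∧ ∀ {ε : ℝ} (a : Atoms (spinMeas τ γ B lam d N) (cutSet B K N) ε),
      ε ≤ del → ∑ σ, a.w σ * Real.exp (N * √lam * ovlDev τ γ d (a.x σ))
        ≤ Real.exp (N * ((Fintype.card (OIdx K) : ℝ) / 4 + 1)) := by
  have hlam0 : 0 ≤ lam := zero_le_one.trans hlam
  have hs : 0 < √lam := Real.sqrt_pos.2 (by linarith)
  obtain ⟨del, hdel, hclose⟩ := Metric.uniformContinuousOn_iff_le.1
    ((isCompact_cut B K N).uniformContinuousOn_of_continuous
      (continuous_ovlDev τ γ d).continuousOn) (1 / √lam) (div_pos one_pos hs)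
  refine ⟨del, hdel, fun {ε} a hε => ?_⟩
  set g : (Fin K → Fin N → ℝ) → ℝ := fun ω => N * √lam * ovlDev τ γ d ω
  have hfin : IsFiniteMeasure (spinMeas τ γ B lam d N) := spinMeas_finite hlam0 d
  have hgm : Measurable g := ((continuous_ovlDev τ γ d).const_mul _).measurable
  obtain ⟨Cg, hCg⟩ := (isCompact_cut B K N).exists_bound_of_continuousOn
    ((continuous_ovlDev τ γ d).const_mul ((N : ℝ) * √lam)).continuousOn
  have hR : Integrable (fun ω => Real.exp (g ω + N)) (spinMeas τ γ B lam d N) :=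
    (integrable_const (Real.exp (Cg + N))).mono'
      ((hgm.add_const _).exp.aestronglyMeasurable) (by
        filter_upwards [ae_mem_cut d] with ω hω
        rw [Real.norm_eq_abs, abs_of_pos (Real.exp_pos _), Real.exp_le_exp]
        have h1 := hCg ω hω
        rw [Real.norm_eq_abs] at h1
        exact add_le_add ((le_abs_self _).trans h1) le_rfl)
  have h1 : ∑ σ, a.w σ * Real.exp (g (a.x σ)) ≤ ∫ ω, Real.exp (g ω + N) ∂spinMeas τ γ B lam d N := by
    rw [a.repr fun ω => Real.exp (g ω)]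
    refine integral_mono_of_nonneg (ae_of_all _ fun ω => (Real.exp_pos _).le) hR ?_
    filter_upwards [ae_mem_cut d] with ω hω
    rw [Real.exp_le_exp]
    have h := hclose _ (a.φ_mem ω) _ hω ((a.close ω hω).trans hε)
    rw [Real.dist_eq] at h
    have h2 := mul_le_mul_of_nonneg_left (abs_le.1 h).2
      (mul_nonneg (Nat.cast_nonneg (α := ℝ) N) hs.le)
    have h3 : (N : ℝ) * √lam * (1 / √lam) = N := by field_simp
    simp only [g]
    linarith
  refine h1.trans ?_
  rw [integral_spinMeas (τ := τ) (γ := γ) (B := B) (lam := lam) d fun ω => g ω + N, zpen]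
  set Cst := Real.exp ((N : ℝ) * ((Fintype.card (OIdx K) : ℝ) / 4 + 1))
  refine (integral_mono_of_nonneg (ae_of_all _ fun ω => (Real.exp_pos _).le)
    (integrable_const Cst) (ae_of_all _ fun ω => Real.exp_le_exp.2 ?_)).trans ?_
  · have h : ∀ i, (N : ℝ) * √lam * |ovl τ γ ω i - d i|
        ≤ lam * N * (ovl τ γ ω i - d i) ^ 2 + N / 4 := fun i => by
      have h0 : 0 ≤ (N : ℝ) * (√lam * |ovl τ γ ω i - d i| - 1 / 2) ^ 2 :=
        mul_nonneg (Nat.cast_nonneg N) (sq_nonneg _)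
      have h2 : (N : ℝ) * (√lam * |ovl τ γ ω i - d i| - 1 / 2) ^ 2
          = lam * N * (ovl τ γ ω i - d i) ^ 2 - (N : ℝ) * √lam * |ovl τ γ ω i - d i| + N / 4 := by
        rw [← sq_abs (ovl τ γ ω i - d i)]
        linear_combination ((N : ℝ) * |ovl τ γ ω i - d i| ^ 2) * Real.mul_self_sqrt hlam0
      linarith
    have h' := Finset.sum_le_sum (s := Finset.univ) fun i _ => h i
    rw [Finset.sum_add_distrib, Finset.sum_const, Finset.card_univ, nsmul_eq_mul,
      ← Finset.mul_sum, ← Finset.mul_sum] at h'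
    simp only [g, ovlDev]
    linarith
  · rw [integral_const, smul_eq_mul]
    exact mul_le_of_le_one_left (Real.exp_pos _).le (by
      rw [measureReal_restrict_apply_univ]; exact measureReal_le_one)

/-- A priori bound on the distance to the centre of the penalty, for every prior whose weights
come from fine atoms of the penalised cut. -/
theorem dev_bound_gen {τ κ L B a0 : ℝ} (hτ : 0 < τ) {γ : Fin K → ℝ}
    (hγ : ∀ k, 0 < γ k ∧ γ k ≤ 1) (hκ : 0 < κ) (P : VPot K) :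
    ∃ C : ℝ, ∀ d, GoodCentre γ κ L d →
      ((∑ t, ∑ k, d (t, k, k)) + K) / τ + 2 * K ≤ B → ∀ lam : ℝ, 1 ≤ lam →
      ∀ᶠ N : ℕ in atTop, ∃ del : ℝ, 0 < del ∧
        ∀ {ε : ℝ} (a : Atoms (spinMeas τ γ B lam d N) (cutSet B K N) ε), ε ≤ del →
        ∀ {N' M R D K' n : ℕ} (π : VPrior N' K R D) (Φ : VFac N' K K') (p : Fin π.c → Fin a.c)
          (b : ℝ), 0 < b → (∀ F : Fin a.c → ℝ, ∑ σ, π.w σ * F (p σ) = b * ∑ s, a.w s * F s) →
        ∀ (c : VCIdx N' M K R D K' → ℝ), (∀ i, 0 ≤ c i) → (∀ j, c (Sum.inl (Sum.inr j)) = 0) →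
          0 < n → (M : ℝ) ≤ a0 * N → ∀ Z : ℝ, Z ≤ N →
          (∀ x : VState π K' n, ∑ i, vpull c i * vbspin π Φ x i ^ 2 ≤ Z) →
          vmpair n P π Φ c (fun _ x _ => ovlDev τ γ d (a.x (p x.1))) ≤ C / √lam := by
  obtain ⟨C0, hC0⟩ := pen_mass (L := L) (B := B) hτ hγ hκ
  refine ⟨(Fintype.card (OIdx K) : ℝ) / 4 + 1 + C0 + 2 * |a0| * |P.bF| + 1 / 2,
    fun d hd hB lam hlam => ?_⟩
  filter_upwards [hC0 d hd hB lam (zero_le_one.trans hlam), eventually_gt_atTop 0] with N hmass hN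
  obtain ⟨del, hdel, hmom⟩ := dev_moment (τ := τ) (B := B) γ d hlam N
  refine ⟨del, hdel, fun {ε} a hε {N' M R D K' n} π Φ p b hb hfib c hc htilt hn hM Z hZN hZ => ?_⟩
  have hfin : IsFiniteMeasure (spinMeas τ γ B lam d N) := spinMeas_finite (zero_le_one.trans hlam) d
  have hNR : (0 : ℝ) < N := Nat.cast_pos.2 hN
  have hs : 0 < √lam := Real.sqrt_pos.2 (by linarith)
  set X : Fin π.c → ℝ := fun σ => ovlDev τ γ d (a.x (p σ))
  have hq : ∀ x : VState π K' n, ∑ i, vpull c i * vqd π Φ x i = 0 := fun x => by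
    rw [sum_vqd]; simp [htilt]
  have h := vmpair_dev P π Φ hn hc hq hZ X (N * √lam)
  have e1 := hfib fun s => Real.exp (N * √lam * ovlDev τ γ d (a.x s))
  have e2 := hfib fun _ => 1
  simp only [mul_one] at e2
  have : Nonempty (Fin a.c) := ⟨⟨0, a.c_pos⟩⟩
  have p1 : 0 < ∑ s, a.w s := Finset.sum_pos (fun s _ => a.w_pos s) Finset.univ_nonempty
  have p2 : 0 < ∑ s, a.w s * Real.exp (N * √lam * ovlDev τ γ d (a.x s)) :=
    Finset.sum_pos (fun s _ => mul_pos (a.w_pos s) (Real.exp_pos _)) Finset.univ_nonempty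
  simp only [X] at h
  rw [e1, e2, Real.log_mul hb.ne' p2.ne', Real.log_mul hb.ne' p1.ne'] at h
  have l1 := Real.log_le_log p2 (hmom a hε)
  rw [Real.log_exp] at l1
  have hsum : ∑ s, a.w s = (spinMeas τ γ B lam d N).real Set.univ := by
    simpa using a.repr fun _ => 1
  have l2 := Real.log_le_log (Real.exp_pos _) (hmass.trans_eq hsum.symm)
  rw [Real.log_exp] at l2
  have h5 : (M : ℝ) * P.bF ≤ |a0| * |P.bF| * N := by
    refine (mul_le_mul_of_nonneg_left (le_abs_self _) (Nat.cast_nonneg M)).trans ?_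
    have := mul_le_mul_of_nonneg_right (hM.trans (mul_le_mul_of_nonneg_right (le_abs_self a0)
      hNR.le)) (abs_nonneg P.bF)
    linarith
  rw [le_div_iff₀ hs]
  refine le_of_mul_le_mul_left ?_ hNR
  linarith

variable {τ κ L B a0 : ℝ}

/-- The bound for the penalised prior. -/
theorem dev_bound (hτ : 0 < τ) {γ : Fin K → ℝ}
    (hγ : ∀ k, 0 < γ k ∧ γ k ≤ 1) (hκ : 0 < κ) (P : VPot K) :
    ∃ C : ℝ, ∀ d, GoodCentre γ κ L d →
      ((∑ t, ∑ k, d (t, k, k)) + K) / τ + 2 * K ≤ B → ∀ lam : ℝ, 1 ≤ lam →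
      ∀ᶠ N : ℕ in atTop, ∃ del : ℝ, 0 < del ∧
        ∀ {ε : ℝ} (a : Atoms (spinMeas τ γ B lam d N) (cutSet B K N) ε), ε ≤ del →
        ∀ {nA nL J : ℕ} (A : Coeffs K nA) (hL : 0 < nL),
        (∀ {M K' n : ℕ} (Φ : VFac N K K')
          (c : VCIdx N M K (nker K nA) (N + nL + J) K' → ℝ),
          (∀ i, 0 ≤ c i) → (∀ j, c (Sum.inl (Sum.inr j)) = 0) → 0 < n → (M : ℝ) ≤ a0 * N →
          ∀ Z : ℝ, Z ≤ N → (∀ x : VState (penPrior (γ := γ) hτ.le A a hL J) K' n,
            ∑ i, vpull c i * vbspin (penPrior (γ := γ) hτ.le A a hL J) Φ x i ^ 2 ≤ Z) →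
          vmpair n P (penPrior (γ := γ) hτ.le A a hL J) Φ c
            (fun _ x _ => ovlDev τ γ d (a.x (finProdFinEquiv.symm x.1).1)) ≤ C / √lam) ∧
        (∀ {N' m M K' n : ℕ} (β : Block m K) (e : Fin N ⊕ Fin m ≃ Fin N') (Φ : VFac N' K K')
          (c : VCIdx N' M K (nker K nA) (N + nL + J) K' → ℝ),
          (∀ i, 0 ≤ c i) → (∀ j, c (Sum.inl (Sum.inr j)) = 0) → 0 < n → (M : ℝ) ≤ a0 * N →
          ∀ Z : ℝ, Z ≤ N → (∀ x : VState (prodPrior (penPrior (γ := γ) hτ.le A a hL J) β e) K' n,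
            ∑ i, vpull c i *
              vbspin (prodPrior (penPrior (γ := γ) hτ.le A a hL J) β e) Φ x i ^ 2 ≤ Z) →
          vmpair n P (prodPrior (penPrior (γ := γ) hτ.le A a hL J) β e) Φ c
            (fun _ x _ => ovlDev τ γ d (a.x (finProdFinEquiv.symm
              (oldCfg (penPrior (γ := γ) hτ.le A a hL J) β e x.1)).1)) ≤ C / √lam) := by
  obtain ⟨C, hC⟩ := dev_bound_gen (L := L) (B := B) (a0 := a0) hτ hγ hκ P
  refine ⟨C, fun d hd hB lam hlam => ?_⟩
  filter_upwards [hC d hd hB lam hlam] with N ⟨del, hdel, h⟩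
  refine ⟨del, hdel, fun {ε} a hε {nA nL J} A hL => ?_⟩
  set π := penPrior (γ := γ) hτ.le A a hL J
  have hfib : ∀ F : Fin a.c → ℝ,
      ∑ σ, π.w σ * F (finProdFinEquiv.symm σ).1 = ∑ s, a.w s * F s := fun F => by
    show ∑ σ : Fin (a.c * nL), _ = _
    rw [← finProdFinEquiv.sum_comp, Fintype.sum_prod_type]
    refine Finset.sum_congr rfl fun s _ => ?_
    simp only [π, penPrior, Equiv.symm_apply_apply, Finset.sum_const, Finset.card_univ,
      Fintype.card_fin, nsmul_eq_mul]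
    have : (nL : ℝ) ≠ 0 := (Nat.cast_pos.2 hL).ne'
    field_simp
  refine ⟨fun Φ c => h a hε π Φ (fun σ => (finProdFinEquiv.symm σ).1) 1 one_pos
    (fun F => by rw [one_mul, hfib F]) c, fun {N' m M K' n} β e Φ c => ?_⟩
  have : Nonempty (Fin β.c) := ⟨⟨0, β.c_pos⟩⟩
  refine h a hε (prodPrior π β e) Φ (fun σ => (finProdFinEquiv.symm (oldCfg π β e σ)).1)
    (∑ τ', β.w τ') (Finset.sum_pos (fun τ' _ => β.w_pos τ') Finset.univ_nonempty)
    (fun F => ?_) c
  show ∑ σ : Fin (π.c * β.c), _ = _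
  rw [← finProdFinEquiv.sum_comp, Fintype.sum_prod_type, ← hfib F, Finset.mul_sum]
  refine Finset.sum_congr rfl fun σ _ => ?_
  rw [Finset.sum_mul]
  refine Finset.sum_congr rfl fun τ' _ => ?_
  simp only [prodPrior, oldCfg, Equiv.symm_apply_apply]
  ring

end Vale.Agent.P166.Casc
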