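import Vale.Agent.P166.Casc.VTangent
import Vale.Agent.P166.Casc.VGlue

/-!
Rotations of two spins of one type: the derivative of the energy, after integration by parts and
summed over the pairs against a product of two spins, in terms of the overlaps.
-/

open MeasureTheory ProbabilityTheory Filter Topology

namespace Vale.Agent.P166.Casc

open Vale.Agent.P157.Casc Vale.Agent.P157.Casc.Itp VItp

section Mixed

variable {T I : Type*} [Fintype I] {M d : ℕ}

/-- Mixed supports: the moved directions meet only the directions of the same row. -/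
structure TDisj (b db : Fin M → Fin d → T → I → ℝ) (bz dbz : T → I → ℝ) : Prop where
  orth : ∀ a a', a ≠ a' → ∀ k l x y i, db a k x i * b a' l y i = 0
  orthz : ∀ a k x y i, db a k x i * bz y i = 0
  orthz' : ∀ a k x y i, dbz x i * b a k y i = 0

theorem tcov_eq (P : VPot d) {b db : Fin M → Fin d → T → I → ℝ} {bz dbz : T → I → ℝ}
    (h : TDisj b db bz dbz) (lam G : I → ℝ) (x z : T) :
    tcov P b db bz dbz lam G x z
      = (∑ a, ∑ k, ∑ l, (∑ i, lam i * (db a k x i * b a l z i)) *
          (P.g k (vfld b lam G x a) * P.g l (vfld b lam G z a)))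
        + ∑ i, lam i * (dbz x i * bz z i) := by
  have e : ∀ i, lam i * (tdir P b db dbz lam G x i * vdir P b bz lam G z i)
      = (∑ a, ∑ k, ∑ l, lam i * (db a k x i * b a l z i) *
          (P.g k (vfld b lam G x a) * P.g l (vfld b lam G z a)))
        + lam i * (dbz x i * bz z i) := fun i => by
    have h1 : ∀ a, (∑ k, P.g k (vfld b lam G x a) * db a k x i) *
        (∑ a', ∑ l, P.g l (vfld b lam G z a') * b a' l z i)
        = ∑ k, ∑ l, (db a k x i * b a l z i) *
            (P.g k (vfld b lam G x a) * P.g l (vfld b lam G z a)) := fun a => by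
      rw [Finset.mul_sum, Finset.sum_eq_single a]
      · rw [Finset.sum_mul_sum]
        exact Finset.sum_congr rfl fun k _ => Finset.sum_congr rfl fun l _ => by ring
      · intro a' _ ha
        rw [Finset.sum_mul_sum]
        refine Finset.sum_eq_zero fun k _ => Finset.sum_eq_zero fun l _ => ?_
        linear_combination (P.g k (vfld b lam G x a) * P.g l (vfld b lam G z a')) *
          h.orth a a' (Ne.symm ha) k l x z i
      · simp
    have h2 : (∑ a, ∑ k, P.g k (vfld b lam G x a) * db a k x i) * bz z i = 0 := by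
      simp only [Finset.sum_mul]
      exact Finset.sum_eq_zero fun a _ => Finset.sum_eq_zero fun k _ => by
        linear_combination P.g k (vfld b lam G x a) * h.orthz a k x z i
    have h3 : dbz x i * (∑ a', ∑ l, P.g l (vfld b lam G z a') * b a' l z i) = 0 := by
      simp only [Finset.mul_sum]
      exact Finset.sum_eq_zero fun a _ => Finset.sum_eq_zero fun k _ => by
        linear_combination P.g k (vfld b lam G z a) * h.orthz' a k x z i
    simp only [tdir, vdir, add_mul, mul_add, h2, h3, add_zero, zero_add]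
    rw [Finset.sum_mul]
    simp only [h1, Finset.mul_sum, mul_assoc]
  simp only [tcov, e, Finset.sum_add_distrib, Finset.sum_mul]
  congr 1
  rw [Finset.sum_comm]
  refine Finset.sum_congr rfl fun a _ => ?_
  rw [Finset.sum_comm]
  exact Finset.sum_congr rfl fun k _ => Finset.sum_comm

end Mixed

section Sums

variable {α β γ : Type*}

theorem sum3_comm (s : Finset α) (t : Finset β) (u : Finset γ) (f : α → β → γ → ℝ) :
    ∑ i ∈ s, ∑ j ∈ t, ∑ z ∈ u, f i j z = ∑ z ∈ u, ∑ i ∈ s, ∑ j ∈ t, f i j z := by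
  rw [Finset.sum_congr rfl fun i _ => Finset.sum_comm (s := t) (t := u), Finset.sum_comm]

theorem sum2_lin {d : ℕ} (s : Finset α) (t : Finset β) (f : α → β → ℝ) (C : Fin d → Fin d → ℝ)
    (g : α → β → Fin d → Fin d → ℝ) :
    ∑ i ∈ s, ∑ j ∈ t, f i j * (∑ k, ∑ k', C k k' * g i j k k')
      = ∑ k, ∑ k', C k k' * ∑ i ∈ s, ∑ j ∈ t, f i j * g i j k k' := by
  simp only [Finset.mul_sum]
  rw [sum3_comm]
  refine Finset.sum_congr rfl fun k _ => ?_
  rw [sum3_comm]
  exact Finset.sum_congr rfl fun k' _ => Finset.sum_congr rfl fun i _ =>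
    Finset.sum_congr rfl fun j _ => by ring

theorem sum2_scal (s : Finset α) (t : Finset β) (E Q V : ℝ) (f g : α → β → ℝ) :
    ∑ i ∈ s, ∑ j ∈ t, f i j * (E * (Q * (g i j * V)))
      = E * (Q * ((∑ i ∈ s, ∑ j ∈ t, f i j * g i j) * V)) := by
  simp only [Finset.mul_sum, Finset.sum_mul]
  exact Finset.sum_congr rfl fun i _ => Finset.sum_congr rfl fun j _ => by ring

theorem quad_expand {d : ℕ} {s : Finset α} {t : Finset β} {u : Finset γ} (w : α → β → γ → ℝ)
    (a b : Fin d → ℝ) (φ : α → β → γ → Fin d → ℝ) :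
    ∑ i ∈ s, ∑ j ∈ t, ∑ z ∈ u,
        w i j z * ((∑ k, a k * φ i j z k) * ∑ k, b k * φ i j z k)
      = ∑ k, ∑ k', (∑ i ∈ s, ∑ j ∈ t, ∑ z ∈ u, w i j z * (φ i j z k * φ i j z k'))
          * (a k * b k') := by
  simp only [Finset.mul_sum, Finset.sum_mul]
  conv_rhs => rw [Finset.sum_comm]
  rw [Finset.sum_congr rfl fun i _ => sum3_comm t u Finset.univ _, Finset.sum_comm]
  refine Finset.sum_congr rfl fun k _ => ?_
  rw [Finset.sum_congr rfl fun i _ => sum3_comm t u Finset.univ _, Finset.sum_comm]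
  exact Finset.sum_congr rfl fun k' _ => Finset.sum_congr rfl fun i _ =>
    Finset.sum_congr rfl fun j _ => Finset.sum_congr rfl fun z _ => by ring

end Sums

section Model

variable {N M d R D K n : ℕ}

/-- Velocity of a configuration rotated in the coordinates `i`, `j`. -/
def dcfg (i j : Fin N) (x : Fin N → Fin d → ℝ) (u : Fin N) (k : Fin d) : ℝ :=
  (if u = j then x i k else 0) - if u = i then x j k else 0

/-- Velocity of the root part of a row field. -/
noncomputable def drowZ (π : VPrior N d R D) (i j : Fin N) (a : Fin M) (k : Fin d) (σ : Fin π.c) :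
    ZIdx N M → ℝ
  | Sum.inl (a', u) => if a' = a then dcfg i j (π.cfg σ) u k / √(N : ℝ) else 0
  | Sum.inr _ => 0

/-- Velocity of the directions of the row fields. -/
noncomputable def dvbpat (π : VPrior N d R D) (i j : Fin N) (a : Fin M) (k : Fin d)
    (st : VState π K n) : VGIdx N M d R D K n → ℝ :=
  treeDir (drowZ π i j a k st.1) (fun _ _ => 0) st.2

/-- Velocity of the label part of the linear field, with kernel velocities `dk`. -/
def dspinL (π : VPrior N d R D) (Φ : VFac N d K)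
    (dk : Fin N → Fin N → Fin R → Fin π.c → Fin D → ℝ) (i j : Fin N) (σ : Fin π.c)
    (l : Fin (K + 1)) : VLIdx N M d R D → ℝ
  | Sum.inl _ => 0
  | Sum.inr (Sum.inl (s, u, r)) => ∑ k, dcfg i j (π.cfg σ) u k * Φ.2.1 s u l k r
  | Sum.inr (Sum.inr (κ, t)) =>
      ∑ q, dk i j κ σ (t.2.2 q) * ∏ q' ∈ Finset.univ.erase q, π.ker κ σ (t.2.2 q')

/-- Velocity of the directions of the linear field. -/
noncomputable def dvbspin (π : VPrior N d R D) (Φ : VFac N d K)
    (dk : Fin N → Fin N → Fin R → Fin π.c → Fin D → ℝ) (i j : Fin N) (st : VState π K n) :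
    VGIdx N M d R D K n → ℝ :=
  treeDir (fun _ => 0) (dspinL π Φ dk i j st.1) st.2

/-- The product of two spins against which the pairs are summed: one of a replica chosen by `sel`,
one of the rotated replica, weighted by a function `ω` of the two replicas. -/
noncomputable def rtest (π : VPrior N d R D) (ω : VState π K n → VState π K n → ℝ) (sel : VState π K n → VState π K n → VState π K n)
    (l m : Fin d) (i j : Fin N) (x y : VState π K n) : ℝ :=
  ω x y * (π.cfg (sel x y).1 i l * π.cfg x.1 j m)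

/-- The quadratic form of the overlaps left by the sum over the pairs. -/
noncomputable def rphi (π : VPrior N d R D) (S : Finset (Fin N)) (l m k k' : Fin d)
    (x y z : VState π K n) : ℝ :=
  vov π S l k y x * vov π S m k' x z - vov π S m k x x * vov π S l k' y z

/-- The same form with the weight and the choice of the second replica. -/
noncomputable def rpha (π : VPrior N d R D) (S : Finset (Fin N))
    (ω : VState π K n → VState π K n → ℝ) (sel : VState π K n → VState π K n → VState π K n)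
    (l m k k' : Fin d) (x y z : VState π K n) : ℝ :=
  ω x y * rphi π S l m k k' x (sel x y) z

theorem tdisj_model (π : VPrior N d R D) (Φ : VFac N d K)
    (dk : Fin N → Fin N → Fin R → Fin π.c → Fin D → ℝ) (i j : Fin N) :
    TDisj (vbpat (M := M) (n := n) π Φ) (dvbpat π i j) (vbspin π Φ) (dvbspin π Φ dk i j) := by
  refine ⟨fun a a' h k l x y q => ?_, fun a k x y q => ?_, fun a k x y q => ?_⟩
  · rcases q with (⟨a'', u⟩ | u) | ⟨o, p⟩
    · simp only [dvbpat, vbpat, treeDir, drowZ, rowZ]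
      split_ifs with h1 h2 <;> simp
      exact absurd (h1.symm.trans h2) h
    · simp [dvbpat, treeDir, drowZ]
    · simp [dvbpat, treeDir]
  · rcases q with p | ⟨o, p⟩ <;> simp [dvbpat, vbspin, treeDir]
  · rcases q with p | ⟨o, p | p⟩ <;> simp [dvbspin, vbpat, treeDir, dspinL, rowL]

theorem sum_pairs (π : VPrior N d R D) (S : Finset (Fin N)) (hN : 0 < N)
    (ω : VState π K n → VState π K n → ℝ) (sel : VState π K n → VState π K n → VState π K n) (l m k k' : Fin d)
    (x y z : VState π K n) :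
    ∑ i ∈ S, ∑ j ∈ S, rtest π ω sel l m i j x y *
        ∑ u ∈ S, dcfg i j (π.cfg x.1) u k * π.cfg z.1 u k'
      = (N : ℝ) ^ 2 * rpha π S ω sel l m k k' x y z := by
  have e : ∀ i ∈ S, ∀ j ∈ S, ∑ u ∈ S, dcfg i j (π.cfg x.1) u k * π.cfg z.1 u k'
      = π.cfg x.1 i k * π.cfg z.1 j k' - π.cfg x.1 j k * π.cfg z.1 i k' := fun i hi j hj => by
    simp only [dcfg, sub_mul, ite_mul, zero_mul, Finset.sum_sub_distrib, Finset.sum_ite_eq', hi, hj,
      if_true]
  have hN' : (N : ℝ) ≠ 0 := by exact_mod_cast hN.ne'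
  rw [Finset.sum_congr rfl fun i hi => Finset.sum_congr rfl fun j hj =>
    (show _ = ω x y * ((π.cfg (sel x y).1 i l * π.cfg x.1 i k) * (π.cfg x.1 j m * π.cfg z.1 j k')
        - (π.cfg (sel x y).1 i l * π.cfg z.1 i k') * (π.cfg x.1 j m * π.cfg x.1 j k)) by
      rw [e i hi j hj, rtest]; ring)]
  simp only [Finset.sum_sub_distrib, ← Finset.mul_sum, ← Finset.sum_mul, rpha, rphi, vov]
  field_simp

/-- Two states pair the velocity of a tensor through one velocity and the kernel. -/
theorem sum_tensor (v v' dv : Fin D → ℝ) (i : ℕ) :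
    ∑ t : Fin i → Fin D, (∑ q, dv (t q) * ∏ q' ∈ Finset.univ.erase q, v (t q')) * ∏ q, v' (t q)
      = i * ((∑ u, dv u * v' u) * (∑ u, v u * v' u) ^ (i - 1)) := by
  classical
  have e : ∀ (t : Fin i → Fin D) q, (dv (t q) * ∏ q' ∈ Finset.univ.erase q, v (t q')) *
      ∏ q', v' (t q') = ∏ q', (if q' = q then dv (t q') else v (t q')) * v' (t q') := fun t q => by
    rw [Finset.prod_mul_distrib]
    congr 1
    conv_rhs => rw [← Finset.mul_prod_erase _ _ (Finset.mem_univ q)]
    rw [if_pos rfl]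
    congr 1
    exact Finset.prod_congr rfl fun q' hq' => by rw [if_neg (Finset.ne_of_mem_erase hq')]
  rw [Finset.sum_congr rfl fun t _ => Finset.sum_mul _ _ _]
  simp only [e]
  rw [Finset.sum_comm]
  have f : ∀ q : Fin i, ∑ t : Fin i → Fin D, ∏ q', (if q' = q then dv (t q') else v (t q')) * v' (t q')
      = (∑ u, dv u * v' u) * (∑ u, v u * v' u) ^ (i - 1) := fun q => by
    rw [← Fintype.prod_sum fun q' u => (if q' = q then dv u else v u) * v' u]
    conv_lhs => rw [← Finset.mul_prod_erase _ _ (Finset.mem_univ q)]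
    simp only [reduceIte]
    congr 1
    rw [Finset.prod_congr rfl (g := fun _ => ∑ u, v u * v' u) fun q' hq' => by
        simp [Finset.ne_of_mem_erase hq'],
      Finset.prod_const]
    simp
  simp only [f, Finset.sum_const, Finset.card_univ, Fintype.card_fin, nsmul_eq_mul]

/-- What the variances must be on a type: a common matrix strength, a common field covariance
`pF`, and perturbations that do not depend on the tensor index. -/
structure TypeVar (Φ : VFac N d K) (c : VCIdx N M d R D K → ℝ) (S : Finset (Fin N)) (θ : ℝ)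
    (pF : Fin (K + 1) → Fin d → Fin d → ℝ)
    (e : Fin (K + 1) → Fin R → (j : Fin D) → Fin (j.val + 2) → ℝ) : Prop where
  row : ∀ a, ∀ u ∈ S, c (Sum.inl (Sum.inl (a, u))) = θ
  fld : ∀ u ∈ S, ∀ l k k', ∑ l' ∈ Finset.Iic l, ∑ s, ∑ r,
    c (Sum.inr (l', Sum.inr (Sum.inl (s, u, r)))) * (Φ.2.1 s u l' k r * Φ.2.1 s u l' k' r)
      = pF l k k'
  pert : ∀ l κ j i t, c (Sum.inr (l, Sum.inr (Sum.inr (κ, (⟨j, i, t⟩ : PIdx D))))) = e l κ j i

/-- Total size of the perturbations. -/
noncomputable def pertSize (e : Fin (K + 1) → Fin R → (j : Fin D) → Fin (j.val + 2) → ℝ) : ℝ :=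
  ∑ κ, ∑ j, ∑ i : Fin (j.val + 2), (i.val : ℝ) * ∑ l, |e l κ j i|

/-- The perturbation part of the covariance of a move. -/
noncomputable def pcov (π : VPrior N d R D)
    (dk : Fin N → Fin N → Fin R → Fin π.c → Fin D → ℝ)
    (e : Fin (K + 1) → Fin R → (j : Fin D) → Fin (j.val + 2) → ℝ) (i j : Fin N)
    (x z : VState π K n) : ℝ :=
  ∑ κ, ∑ p : Fin D, ∑ q : Fin (p.val + 2), (∑ l ∈ Finset.Iic (com x.2 z.2), e l κ p q) *
    (q.val * ((∑ u, dk i j κ x.1 u * π.ker κ z.1 u) * vkerov π κ x z ^ (q.val - 1)))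

/-- The covariance matrix of the moves of a state with another. -/
noncomputable def rC (P : VPot d) (π : VPrior N d R D) (Φ : VFac N d K)
    (c : VCIdx N M d R D K → ℝ) (θ : ℝ) (pF : Fin (K + 1) → Fin d → Fin d → ℝ) (k k' : Fin d)
    (G : VGIdx N M d R D K n → ℝ) (x z : VState π K n) : ℝ :=
  θ * vovP P π Φ c k k' G x z + pF (com x.2 z.2) k k'

/-- The same matrix of one state, curvature included. -/
noncomputable def rH (P : VPot d) (π : VPrior N d R D) (Φ : VFac N d K)
    (c : VCIdx N M d R D K → ℝ) (θ : ℝ) (pF : Fin (K + 1) → Fin d → Fin d → ℝ) (k k' : Fin d)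
    (G : VGIdx N M d R D K n → ℝ) (x : VState π K n) : ℝ :=
  θ * vovH P π Φ c k k' G x + pF (Fin.last K) k k'

/-- The kernel left by the sum over the pairs. -/
noncomputable def rmain (P : VPot d) (π : VPrior N d R D) (Φ : VFac N d K) (w : VState π K n → ℝ)
    (c : VCIdx N M d R D K → ℝ) (S : Finset (Fin N)) (θ : ℝ)
    (pF : Fin (K + 1) → Fin d → Fin d → ℝ)
    (ω : VState π K n → VState π K n → ℝ) (sel : VState π K n → VState π K n → VState π K n)
    (l m : Fin d) (G : VGIdx N M d R D K n → ℝ)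
    (x y : VState π K n) : ℝ :=
  ∑ k, ∑ k', (rH P π Φ c θ pF k k' G x * rpha π S ω sel l m k k' x y x
    + rC P π Φ c θ pF k k' G x y * rpha π S ω sel l m k k' x y y
    - 2 * ∑ z, gibbs (vbw P w (vbpat π Φ) (vbspin π Φ) (vqd π Φ) (vpull c) G) z *
        (rC P π Φ c θ pF k k' G x z * rpha π S ω sel l m k k' x y z))

variable (P : VPot d) (π : VPrior N d R D) (Φ : VFac N d K)
  (dk : Fin N → Fin N → Fin R → Fin π.c → Fin D → ℝ) {c : VCIdx N M d R D K → ℝ}
  {S : Finset (Fin N)} {θ : ℝ} {pF : Fin (K + 1) → Fin d → Fin d → ℝ}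
  {e : Fin (K + 1) → Fin R → (j : Fin D) → Fin (j.val + 2) → ℝ}

theorem cov_dvbpat (h : TypeVar Φ c S θ pF e) {i j : Fin N} (hi : i ∈ S) (hj : j ∈ S) (a : Fin M)
    (k k' : Fin d) (x z : VState π K n) :
    ∑ q, vpull c q * (dvbpat π i j a k x q * vbpat π Φ a k' z q)
      = θ * (∑ u ∈ S, dcfg i j (π.cfg x.1) u k * π.cfg z.1 u k') / N := by
  simp only [dvbpat, vbpat]
  rw [sum_treeDir _ (fun l i => c (Sum.inr (l, i))) _ _ _ x.2 z.2 (treeDir_eq _ _ _)
    (treeDir_eq _ _ _) (vpull_eq c)]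
  simp only [zero_mul, mul_zero, Finset.sum_const_zero, add_zero, Fintype.sum_sum_type,
    Fintype.sum_prod_type, drowZ, rowZ, ite_mul, mul_ite]
  rw [Finset.sum_comm, Finset.mul_sum, Finset.sum_div]
  simp only [Finset.sum_ite_eq', Finset.mem_univ, if_true]
  rw [← Finset.sum_subset (Finset.subset_univ S) (fun u _ hu => by
    have h1 : u ≠ i := fun e => hu (e ▸ hi)
    have h2 : u ≠ j := fun e => hu (e ▸ hj)
    simp [dcfg, h1, h2])]
  refine Finset.sum_congr rfl fun u hu => ?_
  rw [h.row a u hu, div_mul_div_comm, Real.mul_self_sqrt (Nat.cast_nonneg N)]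
  ring

theorem cov_dvbspin (h : TypeVar Φ c S θ pF e) {i j : Fin N} (hi : i ∈ S) (hj : j ∈ S)
    (x z : VState π K n) :
    ∑ q, vpull c q * (dvbspin (M := M) π Φ dk i j x q * vbspin π Φ z q)
      = (∑ k, ∑ k', pF (com x.2 z.2) k k' * ∑ u ∈ S, dcfg i j (π.cfg x.1) u k * π.cfg z.1 u k')
        + pcov π dk e i j x z := by
  simp only [dvbspin, vbspin]
  rw [sum_treeDir _ (fun l i => c (Sum.inr (l, i))) _ _ _ x.2 z.2 (treeDir_eq _ _ _)
    (treeDir_eq _ _ _) (vpull_eq c)]
  simp only [zero_mul, mul_zero, Finset.sum_const_zero, zero_add, Fintype.sum_sum_type,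
    Fintype.sum_prod_type, dspinL, spinL, Finset.sum_add_distrib]
  congr 1
  · rw [sum3_comm,
      ← Finset.sum_subset (Finset.subset_univ S) (fun u _ hu => by
        have h1 : u ≠ i := fun e => hu (e ▸ hi)
        have h2 : u ≠ j := fun e => hu (e ▸ hj)
        simp [dcfg, h1, h2])]
    simp only [Finset.mul_sum (s := S)]
    conv_rhs => rw [sum3_comm]
    refine Finset.sum_congr rfl fun u hu => ?_
    refine Eq.trans ?_ (Finset.sum_congr rfl fun k _ => Finset.sum_congr rfl fun k' _ => by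
      rw [← h.fld u hu (com x.2 z.2) k k'])
    exact quad_expand (fun l' s r => c (Sum.inr (l', Sum.inr (Sum.inl (s, u, r)))))
      (fun k => dcfg i j (π.cfg x.1) u k) (fun k => π.cfg z.1 u k)
      (fun l' s r k => Φ.2.1 s u l' k r)
  · rw [Finset.sum_comm, pcov]
    refine Finset.sum_congr rfl fun κ _ => ?_
    simp only [Fintype.sum_sigma, Finset.sum_mul, vkerov]
    rw [Finset.sum_comm]
    refine Finset.sum_congr rfl fun p _ => ?_
    rw [Finset.sum_comm]
    refine Finset.sum_congr rfl fun q _ => Finset.sum_congr rfl fun l' _ => ?_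
    simp only [h.pert, ← Finset.mul_sum, ← Finset.sum_mul]
    rw [sum_tensor]

theorem tcov_model (h : TypeVar Φ c S θ pF e) {i j : Fin N} (hi : i ∈ S) (hj : j ∈ S)
    (G : VGIdx N M d R D K n → ℝ) (x z : VState π K n) :
    tcov P (vbpat π Φ) (dvbpat π i j) (vbspin π Φ) (dvbspin π Φ dk i j) (vpull c) G x z
      = (∑ k, ∑ k', rC P π Φ c θ pF k k' G x z *
          ∑ u ∈ S, dcfg i j (π.cfg x.1) u k * π.cfg z.1 u k') + pcov π dk e i j x z := by
  rw [tcov_eq P (tdisj_model π Φ dk i j), cov_dvbspin π Φ dk h hi hj, ← add_assoc]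
  congr 1
  simp only [cov_dvbpat π Φ h hi hj, rC, vovP, add_mul, Finset.sum_add_distrib]
  congr 1
  rw [Finset.sum_comm]
  refine Finset.sum_congr rfl fun k _ => ?_
  rw [Finset.sum_comm]
  refine Finset.sum_congr rfl fun k' _ => ?_
  simp only [Finset.mul_sum, Finset.sum_mul, Finset.sum_div]
  rw [Finset.sum_comm]
  exact Finset.sum_congr rfl fun u _ => Finset.sum_congr rfl fun a _ => by ring

theorem tcrv_model (h : TypeVar Φ c S θ pF e) {i j : Fin N} (hi : i ∈ S) (hj : j ∈ S)
    (G : VGIdx N M d R D K n → ℝ) (x : VState π K n) :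
    (∑ q, vpull c q * tcrv P (vbpat π Φ) (dvbpat π i j) (vpull c) G x q)
      + tcov P (vbpat π Φ) (dvbpat π i j) (vbspin π Φ) (dvbspin π Φ dk i j) (vpull c) G x x
      = (∑ k, ∑ k', rH P π Φ c θ pF k k' G x *
          ∑ u ∈ S, dcfg i j (π.cfg x.1) u k * π.cfg x.1 u k') + pcov π dk e i j x x := by
  have hcrv : ∑ q, vpull c q * tcrv P (vbpat π Φ) (dvbpat π i j) (vpull c) G x q
      = ∑ a, ∑ k, ∑ k', (θ * (∑ u ∈ S, dcfg i j (π.cfg x.1) u k * π.cfg x.1 u k') / N) *
          P.h k k' (vfld (vbpat π Φ) (vpull c) G x a) := by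
    conv_lhs => simp only [tcrv, Finset.mul_sum]
    rw [Finset.sum_comm]
    refine Finset.sum_congr rfl fun a _ => ?_
    rw [Finset.sum_comm]
    refine Finset.sum_congr rfl fun k _ => ?_
    rw [Finset.sum_comm]
    refine Finset.sum_congr rfl fun k' _ => ?_
    rw [← cov_dvbpat π Φ h hi hj a k k' x x, Finset.sum_mul]
    exact Finset.sum_congr rfl fun q _ => by ring
  rw [tcov_model P π Φ dk h hi hj, ← add_assoc, hcrv]
  congr 1
  rw [Finset.sum_comm, ← Finset.sum_add_distrib]
  refine Finset.sum_congr rfl fun k _ => ?_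
  rw [Finset.sum_comm, ← Finset.sum_add_distrib]
  refine Finset.sum_congr rfl fun k' _ => ?_
  rw [← Finset.mul_sum]
  simp only [rC, rH, vovP, vovH, com_self, Finset.sum_add_distrib]
  ring

theorem abs_pcov_sum_le (ω : VState π K n → VState π K n → ℝ) (sel : VState π K n → VState π K n → VState π K n)
    (l m : Fin d) {Bk : ℝ}
    (hk : ∀ (x y z : VState π K n) κ,
      |∑ i ∈ S, ∑ j ∈ S, rtest π ω sel l m i j x y * ∑ u, dk i j κ x.1 u * π.ker κ z.1 u| ≤ Bk)
    (x y z : VState π K n) :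
    |∑ i ∈ S, ∑ j ∈ S, rtest π ω sel l m i j x y * pcov π dk e i j x z| ≤ pertSize e * Bk := by
  have e1 : ∑ i ∈ S, ∑ j ∈ S, rtest π ω sel l m i j x y * pcov π dk e i j x z
      = ∑ κ, ∑ p : Fin D, ∑ q : Fin (p.val + 2), (∑ l' ∈ Finset.Iic (com x.2 z.2), e l' κ p q) *
          (q.val * ((∑ i ∈ S, ∑ j ∈ S, rtest π ω sel l m i j x y * ∑ u, dk i j κ x.1 u * π.ker κ z.1 u) *
            vkerov π κ x z ^ (q.val - 1))) := by
    simp only [pcov]
    rw [Finset.sum_congr rfl fun i _ => Finset.sum_congr rfl fun j _ => Finset.mul_sum _ _ _,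
      sum3_comm]
    refine Finset.sum_congr rfl fun κ _ => ?_
    rw [Finset.sum_congr rfl fun i _ => Finset.sum_congr rfl fun j _ => Finset.mul_sum _ _ _,
      sum3_comm]
    refine Finset.sum_congr rfl fun p _ => ?_
    rw [Finset.sum_congr rfl fun i _ => Finset.sum_congr rfl fun j _ => Finset.mul_sum _ _ _,
      sum3_comm]
    exact Finset.sum_congr rfl fun q _ => sum2_scal S S _ _ _ _ _
  have hov : ∀ κ, |vkerov π κ x z| ≤ 1 := fun κ => by
    have := Finset.sum_mul_sq_le_sq_mul_sq Finset.univ (π.ker κ x.1) (π.ker κ z.1)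
    rw [π.ker_unit, π.ker_unit, mul_one] at this
    exact (sq_le_one_iff_abs_le_one _).1 this
  rw [e1, pertSize, Finset.sum_mul]
  refine (Finset.abs_sum_le_sum_abs _ _).trans (Finset.sum_le_sum fun κ _ => ?_)
  rw [Finset.sum_mul]
  refine (Finset.abs_sum_le_sum_abs _ _).trans (Finset.sum_le_sum fun p _ => ?_)
  rw [Finset.sum_mul]
  refine (Finset.abs_sum_le_sum_abs _ _).trans (Finset.sum_le_sum fun q _ => ?_)
  rw [abs_mul, abs_mul, abs_mul, Nat.abs_cast]
  have h1 : |∑ l' ∈ Finset.Iic (com x.2 z.2), e l' κ p q| ≤ ∑ l', |e l' κ p q| :=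
    (Finset.abs_sum_le_sum_abs _ _).trans
      (Finset.sum_le_sum_of_subset_of_nonneg (Finset.subset_univ _) fun _ _ _ => abs_nonneg _)
  have h2 : |vkerov π κ x z ^ (q.val - 1)| ≤ 1 := by
    rw [abs_pow]; exact pow_le_one₀ (abs_nonneg _) (hov κ)
  calc _ ≤ (∑ l', |e l' κ p q|) * ((q.val : ℝ) * (Bk * 1)) := by
        have hB : 0 ≤ Bk := (abs_nonneg _).trans (hk x y z κ)
        refine mul_le_mul h1 (mul_le_mul_of_nonneg_left ?_ (Nat.cast_nonneg _)) (by positivity)
          (Finset.sum_nonneg fun _ _ => abs_nonneg _)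
        exact mul_le_mul (hk x y z κ) h2 (abs_nonneg _) hB
    _ = _ := by ring

/-- The sum over the pairs of a type of the integrated derivatives of the energy. -/
theorem sum_tkern (hN : 0 < N) (w : VState π K n → ℝ) (hw : ∀ x, 0 < w x) [Nonempty (VState π K n)]
    (h : TypeVar Φ c S θ pF e)
    (ω : VState π K n → VState π K n → ℝ) (sel : VState π K n → VState π K n → VState π K n)
    (l m : Fin d) {Bk : ℝ}
    (hk : ∀ (x y z : VState π K n) κ,
      |∑ i ∈ S, ∑ j ∈ S, rtest π ω sel l m i j x y * ∑ u, dk i j κ x.1 u * π.ker κ z.1 u| ≤ Bk)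
    (G : VGIdx N M d R D K n → ℝ) (x y : VState π K n) :
    |(∑ i ∈ S, ∑ j ∈ S, tkern P w (vbpat π Φ) (dvbpat π i j) (vbspin π Φ) (dvbspin π Φ dk i j)
        (vqd π Φ) (vpull c) (rtest π ω sel l m i j) G x y)
      - (N : ℝ) ^ 2 * rmain P π Φ w c S θ pF ω sel l m G x y| ≤ 4 * (pertSize e * Bk) := by
  set γ := gibbs (vbw P w (vbpat π Φ) (vbspin π Φ) (vqd π Φ) (vpull c) G)
  set Z := fun z => ∑ i ∈ S, ∑ j ∈ S, rtest π ω sel l m i j x y * pcov π dk e i j x z with hZ
  have hgen : ∀ (C : Fin d → Fin d → ℝ) (z : VState π K n),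
      ∑ i ∈ S, ∑ j ∈ S, rtest π ω sel l m i j x y *
          ((∑ k, ∑ k', C k k' * ∑ u ∈ S, dcfg i j (π.cfg x.1) u k * π.cfg z.1 u k')
            + pcov π dk e i j x z)
        = (N : ℝ) ^ 2 * (∑ k, ∑ k', C k k' * rpha π S ω sel l m k k' x y z) + Z z := fun C z => by
    simp only [mul_add, Finset.sum_add_distrib, hZ]
    congr 1
    rw [sum2_lin, Finset.mul_sum]
    refine Finset.sum_congr rfl fun k _ => ?_
    rw [Finset.mul_sum]
    refine Finset.sum_congr rfl fun k' _ => ?_
    rw [sum_pairs π S hN ω sel]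
    ring
  have e1 : ∀ i ∈ S, ∀ j ∈ S, tkern P w (vbpat π Φ) (dvbpat π i j) (vbspin π Φ)
      (dvbspin π Φ dk i j) (vqd π Φ) (vpull c) (rtest π ω sel l m i j) G x y
      = rtest π ω sel l m i j x y * ((∑ k, ∑ k', rH P π Φ c θ pF k k' G x *
            ∑ u ∈ S, dcfg i j (π.cfg x.1) u k * π.cfg x.1 u k') + pcov π dk e i j x x)
        + rtest π ω sel l m i j x y * ((∑ k, ∑ k', rC P π Φ c θ pF k k' G x y *
            ∑ u ∈ S, dcfg i j (π.cfg x.1) u k * π.cfg y.1 u k') + pcov π dk e i j x y)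
        - 2 * ∑ z, γ z * (rtest π ω sel l m i j x y * ((∑ k, ∑ k', rC P π Φ c θ pF k k' G x z *
            ∑ u ∈ S, dcfg i j (π.cfg x.1) u k * π.cfg z.1 u k') + pcov π dk e i j x z)) :=
      fun i hi j hj => by
    have hz : ∑ z, γ z * (rtest π ω sel l m i j x y *
        tcov P (vbpat π Φ) (dvbpat π i j) (vbspin π Φ) (dvbspin π Φ dk i j) (vpull c) G x z)
        = rtest π ω sel l m i j x y * ∑ z, γ z *
          tcov P (vbpat π Φ) (dvbpat π i j) (vbspin π Φ) (dvbspin π Φ dk i j) (vpull c) G x z := by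
      rw [Finset.mul_sum]
      exact Finset.sum_congr rfl fun z _ => by ring
    simp only [← tcov_model P π Φ dk h hi hj, ← tcrv_model P π Φ dk h hi hj, hz]
    simp only [tkern]
    ring
  rw [Finset.sum_congr rfl fun i hi => Finset.sum_congr rfl fun j hj => e1 i hi j hj]
  have hzs : ∑ i ∈ S, ∑ j ∈ S, ∑ z, γ z * (rtest π ω sel l m i j x y *
      ((∑ k, ∑ k', rC P π Φ c θ pF k k' G x z *
        ∑ u ∈ S, dcfg i j (π.cfg x.1) u k * π.cfg z.1 u k') + pcov π dk e i j x z))
      = ∑ z, γ z * ((N : ℝ) ^ 2 * (∑ k, ∑ k', rC P π Φ c θ pF k k' G x z * rpha π S ω sel l m k k' x y z)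
          + Z z) := by
    rw [sum3_comm]
    refine Finset.sum_congr rfl fun z _ => ?_
    rw [← hgen, Finset.mul_sum]
    exact Finset.sum_congr rfl fun i _ => (Finset.mul_sum _ _ _).symm
  simp only [Finset.sum_sub_distrib, Finset.sum_add_distrib, ← Finset.mul_sum, hgen, hzs]
  have hmz : ∑ k, ∑ k', ∑ z, γ z * (rC P π Φ c θ pF k k' G x z * rpha π S ω sel l m k k' x y z)
      = ∑ z, γ z * ∑ k, ∑ k', rC P π Φ c θ pF k k' G x z * rpha π S ω sel l m k k' x y z := by
    simp only [Finset.mul_sum, Finset.sum_comm (t := (Finset.univ : Finset (VState π K n)))]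
  have hm : rmain P π Φ w c S θ pF ω sel l m G x y
      = (∑ k, ∑ k', rH P π Φ c θ pF k k' G x * rpha π S ω sel l m k k' x y x)
        + (∑ k, ∑ k', rC P π Φ c θ pF k k' G x y * rpha π S ω sel l m k k' x y y)
        - 2 * ∑ z, γ z * ∑ k, ∑ k', rC P π Φ c θ pF k k' G x z * rpha π S ω sel l m k k' x y z := by
    rw [← hmz]
    simp only [rmain, Finset.sum_sub_distrib, Finset.sum_add_distrib, ← Finset.mul_sum]
    rfl
  have hb : ∀ z, |Z z| ≤ pertSize e * Bk := fun z => abs_pcov_sum_le π dk ω sel l m hk x y z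
  have hsz : |∑ z, γ z * Z z| ≤ pertSize e * Bk :=
    Itp.abs_mean_le (vbw_pos P (vbpat π Φ) (vbspin π Φ) (vqd π Φ) hw (vpull c) G) hb
  rw [hm]
  simp only [mul_add, Finset.sum_add_distrib]
  have hfac : ∑ z, γ z * ((N : ℝ) ^ 2 * ∑ k, ∑ k', rC P π Φ c θ pF k k' G x z * rpha π S ω sel l m k k' x y z)
      = (N : ℝ) ^ 2 * ∑ z, γ z * ∑ k, ∑ k', rC P π Φ c θ pF k k' G x z * rpha π S ω sel l m k k' x y z := by
    rw [Finset.mul_sum]
    exact Finset.sum_congr rfl fun z _ => by ring
  rw [hfac]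
  rw [abs_le]
  have a1 := abs_le.1 (hb x)
  have a2 := abs_le.1 (hb y)
  have a3 := abs_le.1 hsz
  constructor <;> linarith [a1.1, a1.2, a2.1, a2.2, a3.1, a3.2]

/-- The pairs of a type, integrated. -/
theorem rot_ibp (hN : 0 < N) (w : VState π K n → ℝ) (hw : ∀ x, 0 < w x) [Nonempty (VState π K n)]
    (hc : ∀ i, 0 ≤ c i) (h : TypeVar Φ c S θ pF e)
    (ω : VState π K n → VState π K n → ℝ) (sel : VState π K n → VState π K n → VState π K n)
    (l m : Fin d) {Bk : ℝ}
    (hk : ∀ (x y z : VState π K n) κ,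
      |∑ i ∈ S, ∑ j ∈ S, rtest π ω sel l m i j x y * ∑ u, dk i j κ x.1 u * π.ker κ z.1 u| ≤ Bk) :
    |(∑ i ∈ S, ∑ j ∈ S, vpair P w (vbpat π Φ) (vbspin π Φ) (vqd π Φ) (vpull c)
        (fun G x y => rtest π ω sel l m i j x y *
          vtan P (vbpat π Φ) (dvbpat π i j) (dvbspin π Φ dk i j) (vpull c) G x))
      - ∫ G, (N : ℝ) ^ 2 * avg2 (vbw P w (vbpat π Φ) (vbspin π Φ) (vqd π Φ) (vpull c) G)
          (rmain P π Φ w c S θ pF ω sel l m G) ∂gaus (VGIdx N M d R D K n)|
      ≤ 4 * (pertSize e * Bk) := by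
  have hlam : ∀ i : VGIdx N M d R D K n, 0 ≤ vpull c i := fun i => by
    rcases i with p | ⟨o, i⟩ <;> exact hc _
  have hpos := fun G => vbw_pos P (vbpat π Φ) (vbspin π Φ) (vqd π Φ) hw (vpull (n := n) c) G
  simp only [vpair, fun i j => integral_vtan P (vbpat π Φ) (dvbpat π i j) (vbspin π Φ)
    (dvbspin π Φ dk i j) (vqd π Φ) hw hlam (rtest π ω sel l m i j)]
  have hfc : ∀ (a : Fin M) (x : VState π K n), Continuous fun G =>
      vfld (vbpat π Φ) (vpull c) G x a := fun a x => cont_vfld _ _ x a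
  have hgc : ∀ x : VState π K n, Continuous fun G =>
      gibbs (vbw P w (vbpat π Φ) (vbspin π Φ) (vqd π Φ) (vpull c) G) x := fun x =>
    cont_vgibbs P _ _ _ hw _ x
  have ctk : ∀ i j (x y : VState π K n), Continuous fun G =>
      tkern P w (vbpat π Φ) (dvbpat π i j) (vbspin π Φ) (dvbspin π Φ dk i j) (vqd π Φ) (vpull c)
        (rtest π ω sel l m i j) G x y := fun i j x y => by
    have := fun x i' => cont_tdir P (vbpat π Φ) (dvbpat (M := M) π i j) (dvbspin π Φ dk i j)
      (vpull (n := n) c) x i'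
    have := fun x i' => cont_vdir P (vbpat π Φ) (vbspin (M := M) π Φ) (vpull (n := n) c) x i'
    have := fun x i' => cont_tcrv P (vbpat π Φ) (dvbpat (M := M) π i j) (vpull (n := n) c) x i'
    unfold tkern tcov; fun_prop
  have hmainc : ∀ x y : VState π K n, Continuous fun G => rmain P π Φ w c S θ pF ω sel l m G x y :=
    fun x y => by
    have := fun a x k => (P.cg k).comp' (hfc a x)
    have := fun a x k k' => (P.ch k k').comp' (hfc a x)
    unfold rmain rH rC vovP vovH; fun_prop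
  obtain ⟨Bd, hBd⟩ : ∃ B, ∀ G x y, |rmain P π Φ w c S θ pF ω sel l m G x y| ≤ B := by
    refine ⟨∑ x : VState π K n, ∑ y : VState π K n, ∑ k, ∑ k',
      ((|θ| * ((∑ _a : Fin M, (|P.b2| + |P.b1| * |P.b1|)) / |(N : ℝ)|) + |pF (Fin.last K) k k'|)
          * |rpha π S ω sel l m k k' x y x|
        + (|θ| * ((∑ _a : Fin M, |P.b1| * |P.b1|) / |(N : ℝ)|) + ∑ u, |pF u k k'|)
          * |rpha π S ω sel l m k k' x y y|
        + 2 * ∑ z, (|θ| * ((∑ _a : Fin M, |P.b1| * |P.b1|) / |(N : ℝ)|) + ∑ u, |pF u k k'|)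
          * |rpha π S ω sel l m k k' x y z|), fun G x y => ?_⟩
    refine le_trans ?_ ((Finset.single_le_sum (fun y _ => Finset.sum_nonneg fun k _ =>
      Finset.sum_nonneg fun k' _ => by positivity) (Finset.mem_univ y)).trans
      (Finset.single_le_sum (fun x _ => Finset.sum_nonneg fun y _ => Finset.sum_nonneg fun k _ =>
        Finset.sum_nonneg fun k' _ => by positivity) (Finset.mem_univ x)))
    refine (Finset.abs_sum_le_sum_abs _ _).trans (Finset.sum_le_sum fun k _ =>
      (Finset.abs_sum_le_sum_abs _ _).trans (Finset.sum_le_sum fun k' _ => ?_))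
    have hg : ∀ k x a, |P.g k (vfld (vbpat π Φ) (vpull c) G x a)| ≤ |P.b1| := fun k x a =>
      (P.h1 _ _).trans (le_abs_self _)
    have hC : ∀ z : VState π K n, |rC P π Φ c θ pF k k' G x z|
        ≤ |θ| * ((∑ _a : Fin M, |P.b1| * |P.b1|) / |(N : ℝ)|) + ∑ u, |pF u k k'| := fun z => by
      refine (abs_add_le _ _).trans (add_le_add ?_
        (Finset.single_le_sum (f := fun u => |pF u k k'|) (fun u _ => abs_nonneg _) (Finset.mem_univ _)))
      rw [abs_mul, vovP, abs_div]
      gcongr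
      refine (Finset.abs_sum_le_sum_abs _ _).trans (Finset.sum_le_sum fun a _ => ?_)
      rw [abs_mul]
      exact mul_le_mul (hg k x a) (hg k' z a) (abs_nonneg _) (abs_nonneg _)
    refine (abs_sub _ _).trans (add_le_add ((abs_add_le _ _).trans (add_le_add ?_ ?_)) ?_)
    · rw [abs_mul]
      refine mul_le_mul_of_nonneg_right ((abs_add_le _ _).trans (add_le_add ?_ le_rfl)) (abs_nonneg _)
      rw [abs_mul, vovH, abs_div]
      gcongr
      refine (Finset.abs_sum_le_sum_abs _ _).trans (Finset.sum_le_sum fun a _ =>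
        (abs_add_le _ _).trans (add_le_add ((P.h2 _ _ _).trans (le_abs_self _)) ?_))
      rw [abs_mul]
      exact mul_le_mul (hg k x a) (hg k' x a) (abs_nonneg _) (abs_nonneg _)
    · rw [abs_mul]
      exact mul_le_mul_of_nonneg_right (hC y) (abs_nonneg _)
    · rw [abs_mul, abs_two]
      refine mul_le_mul_of_nonneg_left ((Finset.abs_sum_le_sum_abs _ _).trans
        (Finset.sum_le_sum fun z _ => ?_)) zero_le_two
      rw [abs_mul, abs_mul, abs_of_nonneg (gibbs_nonneg (hpos G) z)]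
      exact (mul_le_of_le_one_left (by positivity)
        ((Finset.single_le_sum (fun u _ => gibbs_nonneg (hpos G) u) (Finset.mem_univ z)).trans
          (sum_gibbs (hpos G)).le)).trans (mul_le_mul_of_nonneg_right (hC z) (abs_nonneg _))
  set U := fun G => avg2 (vbw P w (vbpat π Φ) (vbspin π Φ) (vqd π Φ) (vpull c) G)
      (rmain P π Φ w c S θ pF ω sel l m G) with hU
  set V := fun G => avg2 (vbw P w (vbpat π Φ) (vbspin π Φ) (vqd π Φ) (vpull c) G)
      (fun x y => ∑ i ∈ S, ∑ j ∈ S, tkern P w (vbpat π Φ) (dvbpat π i j) (vbspin π Φ)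
        (dvbspin π Φ dk i j) (vqd π Φ) (vpull c) (rtest π ω sel l m i j) G x y) with hV
  have hUc : Continuous U := by rw [hU]; unfold avg2; fun_prop
  have hVc : Continuous V := by rw [hV]; unfold avg2; fun_prop
  have hUb : ∀ G, |U G| ≤ Bd := fun G => Itp.abs_avg2_le (hpos G) (hBd G)
  have hdiff : ∀ G, |V G - (N : ℝ) ^ 2 * U G| ≤ 4 * (pertSize e * Bk) := fun G => by
    have he : V G - (N : ℝ) ^ 2 * U G = avg2 (vbw P w (vbpat π Φ) (vbspin π Φ) (vqd π Φ) (vpull c) G)
        (fun x y => (∑ i ∈ S, ∑ j ∈ S, tkern P w (vbpat π Φ) (dvbpat π i j) (vbspin π Φ)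
          (dvbspin π Φ dk i j) (vqd π Φ) (vpull c) (rtest π ω sel l m i j) G x y)
          - (N : ℝ) ^ 2 * rmain P π Φ w c S θ pF ω sel l m G x y) := by
      simp only [hU, hV, avg2, mul_sub, Finset.sum_sub_distrib, Finset.mul_sum]
      congr 1
      exact Finset.sum_congr rfl fun x _ => Finset.sum_congr rfl fun y _ => by ring
    rw [he]
    exact Itp.abs_avg2_le (hpos G) fun x y => sum_tkern P π Φ dk hN w hw h ω sel l m hk G x y
  have hVb : ∀ G, |V G| ≤ 4 * (pertSize e * Bk) + (N : ℝ) ^ 2 * Bd := fun G => by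
    have h2 : |(N : ℝ) ^ 2 * U G| ≤ (N : ℝ) ^ 2 * Bd := by
      rw [abs_mul, abs_of_nonneg (sq_nonneg _)]
      exact mul_le_mul_of_nonneg_left (hUb G) (sq_nonneg _)
    linarith [abs_sub_abs_le_abs_sub (V G) ((N : ℝ) ^ 2 * U G), hdiff G]
  have hVI : Integrable V (gaus (VGIdx N M d R D K n)) := integrable_bdd hVc hVb
  have hUI : Integrable U (gaus (VGIdx N M d R D K n)) := integrable_bdd hUc hUb
  have hsum : (∑ i ∈ S, ∑ j ∈ S, ∫ G, avg2 (vbw P w (vbpat π Φ) (vbspin π Φ) (vqd π Φ) (vpull c) G)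
      (tkern P w (vbpat π Φ) (dvbpat π i j) (vbspin π Φ) (dvbspin π Φ dk i j) (vqd π Φ) (vpull c)
        (rtest π ω sel l m i j) G) ∂gaus (VGIdx N M d R D K n)) = ∫ G, V G ∂gaus (VGIdx N M d R D K n) := by
    have hI : ∀ i j, Integrable (fun G =>
        avg2 (vbw P w (vbpat π Φ) (vbspin π Φ) (vqd π Φ) (vpull c) G)
          (tkern P w (vbpat π Φ) (dvbpat π i j) (vbspin π Φ) (dvbspin π Φ dk i j) (vqd π Φ) (vpull c)
            (rtest π ω sel l m i j) G)) (gaus (VGIdx N M d R D K n)) := fun i j => by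
      have hT : ∀ (G : VGIdx N M d R D K n → ℝ) (x z : VState π K n),
          |tcov P (vbpat π Φ) (dvbpat π i j) (vbspin π Φ) (dvbspin π Φ dk i j) (vpull c) G x z|
          ≤ ∑ q, |vpull c q| * (tbd P (vbpat π Φ) (dvbpat π i j) (dvbspin π Φ dk i j)
              * vbd P (vbpat π Φ) (vbspin π Φ)) := fun G x z => by
        refine (Finset.abs_sum_le_sum_abs _ _).trans (Finset.sum_le_sum fun q _ => ?_)
        rw [abs_mul, abs_mul]
        exact mul_le_mul_of_nonneg_left (mul_le_mul (abs_tdir_le P _ _ _ _ _ x q)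
          (abs_vdir_le P _ _ _ _ z q) (abs_nonneg _)
          ((abs_nonneg _).trans (abs_tdir_le P _ _ _ (vpull c) G x q))) (abs_nonneg _)
      refine integrable_bdd ?_ (C := (∑ x, ∑ y, |rtest π ω sel l m i j x y|) *
        ((∑ q : VGIdx N M d R D K n, |vpull c q| * tbd P (vbpat (M := M) (n := n) π Φ)
            (dvbpat π i j) (dvbspin π Φ dk i j))
          + 4 * ∑ q : VGIdx N M d R D K n, |vpull c q| * (tbd P (vbpat (M := M) (n := n) π Φ)
              (dvbpat π i j) (dvbspin π Φ dk i j)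
              * vbd P (vbpat (M := M) (n := n) π Φ) (vbspin π Φ)))) (fun G => ?_)
      · have := ctk i j
        unfold avg2; fun_prop
      refine Itp.abs_avg2_le (hpos G) fun x y => ?_
      rw [tkern, abs_mul]
      refine mul_le_mul ((Finset.single_le_sum (f := fun y => |rtest π ω sel l m i j x y|)
        (fun _ _ => abs_nonneg _) (Finset.mem_univ y)).trans (Finset.single_le_sum
        (f := fun x => ∑ y, |rtest π ω sel l m i j x y|) (fun _ _ => Finset.sum_nonneg fun _ _ => abs_nonneg _)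
        (Finset.mem_univ x))) ?_ (abs_nonneg _)
        (Finset.sum_nonneg fun _ _ => Finset.sum_nonneg fun _ _ => abs_nonneg _)
      have hcr : |∑ q, vpull c q * tcrv P (vbpat π Φ) (dvbpat π i j) (vpull c) G x q|
          ≤ ∑ q : VGIdx N M d R D K n, |vpull c q| * tbd P (vbpat (M := M) (n := n) π Φ)
              (dvbpat π i j) (dvbspin π Φ dk i j) := by
        refine (Finset.abs_sum_le_sum_abs _ _).trans (Finset.sum_le_sum fun q _ => ?_)
        rw [abs_mul]
        exact mul_le_mul_of_nonneg_left (abs_tcrv_le P _ _ _ _ _ x q) (abs_nonneg _)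
      have hzb := Itp.abs_mean_le (hpos G) (hT G x)
      rw [abs_le] at hcr hzb ⊢
      have h1 := abs_le.1 (hT G x x)
      have h2 := abs_le.1 (hT G x y)
      constructor <;> linarith [hcr.1, hcr.2, hzb.1, hzb.2, h1.1, h1.2, h2.1, h2.2]
    simp only [← integral_finsetSum _ fun j _ => hI _ j]
    rw [← integral_finsetSum _ fun i _ => integrable_finsetSum _ fun j _ => hI i j]
    refine integral_congr_ae (ae_of_all _ fun G => ?_)
    simp only [hV, avg2, Finset.mul_sum]
    rw [sum3_comm]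
    exact Finset.sum_congr rfl fun x _ => sum3_comm _ _ _ _
  rw [hsum, ← integral_sub hVI (hUI.const_mul _), ← Real.norm_eq_abs]
  refine (norm_integral_le_of_norm_le_const (C := 4 * (pertSize e * Bk))
    (ae_of_all _ fun G => (Real.norm_eq_abs _).trans_le (hdiff G))).trans_eq ?_
  simp

end Model

end Vale.Agent.P166.Casc
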