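import Vale.Agent.P166.Casc.Prior
import Vale.Agent.P166.Casc.VRot
import Vale.Agent.P166.Formula.Rotation

/-!
One point of the spins as a prior of one state: the derivative of its energy along a rotation of two
spins of one type, and the vanishing of the integral of that derivative against the spin measure.
-/

open MeasureTheory ProbabilityTheory Filter Topology Set

namespace Vale.Agent.P166.Casc

open Vale.Agent.P157.Casc Vale.Agent.P157.Casc.Itp VItp Vale.Agent.P166.Pen

section Energy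

variable {T I : Type*} [Fintype I] {M d : ℕ} (P : VPot d)

/-- The energy along moving directions. -/
theorem deriv_vham {b : ℝ → Fin M → Fin d → T → I → ℝ} {db : Fin M → Fin d → T → I → ℝ}
    {bz qd : ℝ → T → I → ℝ} {dbz : T → I → ℝ} (lam G : I → ℝ) {x : T}
    (hb : ∀ a k i, HasDerivAt (fun s => b s a k x i) (db a k x i) 0)
    (hz : ∀ i, HasDerivAt (fun s => bz s x i) (dbz x i) 0)
    (hq : ∀ s, ∑ i, lam i * qd s x i = 0) :
    HasDerivAt (fun s => vham P (b s) (bz s) (qd s) lam G x)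
      (vtan P (b 0) db dbz lam G x - ∑ i, lam i * (dbz x i * bz 0 x i)) 0 := by
  simp only [vham, hq, add_zero]
  have hlin : ∀ {f : ℝ → T → I → ℝ} {df : T → I → ℝ},
      (∀ i, HasDerivAt (fun s => f s x i) (df x i) 0) →
      HasDerivAt (fun s => lin (f s) lam G x) (∑ i, √(lam i) * G i * df x i) 0 := fun hf => by
    unfold lin
    refine (HasDerivAt.fun_sum (u := Finset.univ) fun i _ =>
      ((hf i).const_mul (√(lam i))).mul_const (G i)).congr_deriv ?_
    exact Finset.sum_congr rfl fun i _ => by ring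
  have hrows : HasDerivAt (fun s => ∑ a, P.f (vfld (b s) lam G x a))
      (∑ a, ∑ k, P.g k (vfld (b 0) lam G x a) * ∑ i, √(lam i) * G i * db a k x i) 0 :=
    HasDerivAt.fun_sum (u := Finset.univ) fun a _ =>
      deriv_chain (F := P.f) (F' := P.g) P.cg P.d1 (h := fun s => vfld (b s) lam G x a)
        fun k => hlin fun i => hb a k i
  have hsq : HasDerivAt (fun s => ∑ i, lam i * bz s x i ^ 2)
      (∑ i, 2 * (lam i * (dbz x i * bz 0 x i))) 0 := by
    refine HasDerivAt.fun_sum (u := Finset.univ) fun i _ => ?_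
    exact (((hz i).fun_pow 2).const_mul (lam i)).congr_deriv (by push_cast; ring)
  refine ((hrows.add (hlin hz)).sub (hsq.const_mul (1 / 2))).congr_deriv ?_
  rw [← Finset.mul_sum, ← mul_assoc, show (1 / 2 : ℝ) * 2 = 1 by norm_num, one_mul]
  congr 1
  simp only [vtan, tdir, mul_add, Finset.sum_add_distrib, Finset.mul_sum]
  congr 1
  conv_rhs => rw [Finset.sum_comm]
  refine Finset.sum_congr rfl fun a _ => ?_
  rw [Finset.sum_comm]
  exact Finset.sum_congr rfl fun i _ => Finset.sum_congr rfl fun k _ => by ring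

end Energy

section Rot

open Formula

variable {N K : ℕ} {i j : Fin N}

theorem prot_left (hij : i ≠ j) (t : ℝ) (x : Fin N → ℝ) :
    prot i j t x i = Real.cos t * x i - Real.sin t * x j := by
  simp [prot, pvel, hij, hij.symm]; ring

theorem prot_right (hij : i ≠ j) (t : ℝ) (x : Fin N → ℝ) :
    prot i j t x j = Real.sin t * x i + Real.cos t * x j := by
  simp [prot, pvel, hij, hij.symm]; ring

theorem prot_other (t : ℝ) (x : Fin N → ℝ) {u : Fin N} (h1 : u ≠ i) (h2 : u ≠ j) :
    prot i j t x u = x u := by simp [prot, pvel, h1, h2]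

theorem prot_zero (x : Fin N → ℝ) : prot i j 0 x = x := by funext u; simp [prot]

theorem blk_iff {γ : Fin K → ℝ} (ht : typ γ i = typ γ j) (k : Fin K) :
    i.val < blk γ N k ↔ j.val < blk γ N k := by
  simpa [typ] using Finset.ext_iff.1 ht k

/-- The spins of a rotated configuration are rotated. -/
theorem cfgOf_rot (τ : ℝ) {γ : Fin K → ℝ} (hij : i ≠ j) (ht : typ γ i = typ γ j) (t : ℝ)
    (ω : Fin K → Fin N → ℝ) (u : Fin N) (k : Fin K) :
    cfgOf τ γ (fun k => prot i j t (ω k)) u k = prot i j t (fun u => cfgOf τ γ ω u k) u := by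
  rcases eq_or_ne u i with rfl | h1
  · by_cases h : u.val < blk γ N k
    · simp only [cfgOf, prot_left hij, h, (blk_iff ht k).1 h, if_true]; ring
    · simp only [cfgOf, prot_left hij, h, mt (blk_iff ht k).2 h, if_false]; ring
  rcases eq_or_ne u j with rfl | h2
  · by_cases h : u.val < blk γ N k
    · simp only [cfgOf, prot_right hij, h, (blk_iff ht k).2 h, if_true]; ring
    · simp only [cfgOf, prot_right hij, h, mt (blk_iff ht k).1 h, if_false]; ring
  simp only [cfgOf, prot_other t _ h1 h2]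

/-- The combinations of a rotated configuration are rotated. -/
theorem kvec_rot (τ B : ℝ) {γ : Fin K → ℝ} (hij : i ≠ j) (ht : typ γ i = typ γ j) (t : ℝ)
    (ω : Fin K → Fin N → ℝ) (S : Finset (Fin K)) (v : Fin K → ℝ) :
    kvec τ B γ (fun k => prot i j t (ω k)) S v = prot i j t (kvec τ B γ ω S v) := by
  funext u
  rcases eq_or_ne u i with rfl | h1
  · simp only [kvec, cfgOf_rot τ hij ht, prot_left hij, ← ht]
    split_ifs
    · simp only [mul_sub, Finset.sum_sub_distrib, mul_left_comm (v _), ← Finset.mul_sum]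
      ring
    · simp
  rcases eq_or_ne u j with rfl | h2
  · simp only [kvec, cfgOf_rot τ hij ht, prot_right hij, ← ht]
    split_ifs
    · simp only [mul_add, Finset.sum_add_distrib, mul_left_comm (v _), ← Finset.mul_sum]
      ring
    · simp
  simp only [kvec, cfgOf_rot τ hij ht, prot_other t _ h1 h2]

theorem sum_kvec_rot (τ B : ℝ) {γ : Fin K → ℝ} (hij : i ≠ j) (ht : typ γ i = typ γ j) (t : ℝ)
    (ω : Fin K → Fin N → ℝ) (S : Finset (Fin K)) (v : Fin K → ℝ) :
    ∑ u, kvec τ B γ (fun k => prot i j t (ω k)) S v u ^ 2 = ∑ u, kvec τ B γ ω S v u ^ 2 := by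
  simp only [kvec_rot τ B hij ht, pow_two]
  exact sum_prot_mul hij _ (by simp) t _ _

theorem ovl_rot (τ : ℝ) {γ : Fin K → ℝ} (hij : i ≠ j) (ht : typ γ i = typ γ j) (t : ℝ)
    (ω : Fin K → Fin N → ℝ) (o : OIdx K) : ovl τ γ (fun k => prot i j t (ω k)) o = ovl τ γ ω o := by
  simp only [ovl]
  rw [sum_prot_mul hij _ (by simp [ht]) t]

theorem cut_rot (B : ℝ) (hij : i ≠ j) (t : ℝ) (ω : Fin K → Fin N → ℝ) :
    (fun k => prot i j t (ω k)) ∈ cutSet B K N ↔ ω ∈ cutSet B K N := by
  simp only [cutSet, Set.mem_ofPred_eq, pow_two]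
  simp only [sum_prot_mul hij Finset.univ (by simp) t]

end Rot

section Point

open Formula

variable {N M K K' L J nA : ℕ}

/-- Scale which keeps a combination inside the unit ball. -/
noncomputable def kscale (τ B : ℝ) (γ : Fin K → ℝ) (A : Coeffs K nA) (ω : Fin K → Fin N → ℝ)
    (κ : Fin (nker K nA)) : ℝ :=
  1 / √(max (2 * ∑ u, kvec τ B γ ω (kerIdx κ).1 (A.a (kerIdx κ).2) u ^ 2) 1)

theorem kvec_smul (τ B : ℝ) (γ : Fin K → ℝ) (c : ℝ) (ω : Fin K → Fin N → ℝ) (t : Finset (Fin K))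
    (v : Fin K → ℝ) (u : Fin N) : kvec τ B γ (c • ω) t v u = c * kvec τ B γ ω t v u := by
  have h : ∀ k, cfgOf τ γ (c • ω) u k = c * cfgOf τ γ ω u k := fun k => by
    simp only [cfgOf, Pi.smul_apply, smul_eq_mul]
    split_ifs <;> ring
  simp only [kvec, h, mul_left_comm (v _), ← Finset.mul_sum]
  split_ifs <;> ring

theorem kscale_sq_le (τ B : ℝ) (γ : Fin K → ℝ) (A : Coeffs K nA) (ω : Fin K → Fin N → ℝ)
    (κ : Fin (nker K nA)) :
    ∑ u, kvec τ B γ (kscale τ B γ A ω κ • ω) (kerIdx κ).1 (A.a (kerIdx κ).2) u ^ 2 ≤ 1 / 2 := by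
  simp only [kvec_smul, mul_pow, ← Finset.mul_sum, kscale, div_pow, one_pow]
  rw [Real.sq_sqrt (le_trans zero_le_one (le_max_right _ _)), div_mul_eq_mul_div, one_mul,
    div_le_iff₀ (lt_of_lt_of_le zero_lt_one (le_max_right _ _))]
  linarith [le_max_left (2 * ∑ u, kvec τ B γ ω (kerIdx κ).1 (A.a (kerIdx κ).2) u ^ 2) 1]

theorem continuous_kvec (τ B : ℝ) (γ : Fin K → ℝ) (t : Finset (Fin K)) (v : Fin K → ℝ) (u : Fin N) :
    Continuous fun ω : Fin K → Fin N → ℝ => kvec τ B γ ω t v u := by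
  unfold kvec cfgOf
  split_ifs
  · refine (continuous_finsetSum _ fun k _ => ?_).div_const _
    split_ifs <;> fun_prop
  · fun_prop

theorem continuous_kscale (τ B : ℝ) (γ : Fin K → ℝ) (A : Coeffs K nA) (κ : Fin (nker K nA)) :
    Continuous fun ω : Fin K → Fin N → ℝ => kscale τ B γ A ω κ := by
  have := fun u => continuous_kvec (N := N) τ B γ (kerIdx κ).1 (A.a (kerIdx κ).2) u
  refine continuous_const.div (by fun_prop) fun ω => ?_
  exact (Real.sqrt_pos.2 (lt_of_lt_of_le zero_lt_one (le_max_right _ _))).ne'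

/-- One configuration with one label, as a prior. -/
noncomputable def ptPrior (τ B : ℝ) (γ : Fin K → ℝ) (J : ℕ) (A : Coeffs K nA)
    (ω : Fin K → Fin N → ℝ) (ξ : Fin L) : VPrior N K (nker K nA) (N + L + J) where
  c := 1
  c_pos := one_pos
  w := fun _ => 1
  cfg := fun _ => cfgOf τ γ ω
  ker := fun κ _ => kerFeat τ B γ J A (kscale τ B γ A ω κ • ω) ξ κ
  w_pos := fun _ => one_pos
  ker_unit := fun κ _ => by
    simp only [pow_two, kerFeat]
    rw [sum_kfeat_mul, if_pos rfl,
      Real.mul_self_sqrt (by linarith [kscale_sq_le τ B γ A ω κ])]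
    simp only [← pow_two]
    ring

theorem kerFeat_scale {τ B : ℝ} {γ : Fin K → ℝ} (hτ : 0 ≤ τ) (A : Coeffs K nA)
    {ω : Fin K → Fin N → ℝ} (hω : ω ∈ cutSet B K N) (κ : Fin (nker K nA)) :
    kscale τ B γ A ω κ = 1 := by
  rw [kscale, max_eq_right (by linarith [sum_kvec_sq_le (γ := γ) hτ hω (kerIdx κ).1 (A.l1 (kerIdx κ).2)]),
    Real.sqrt_one, div_one]

/-- Velocity of a kernel vector along a rotation. -/
noncomputable def dker (τ B : ℝ) (γ : Fin K → ℝ) (L J : ℕ) (A : Coeffs K nA) (i j : Fin N)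
    (ω : Fin K → Fin N → ℝ) (κ : Fin (nker K nA)) : Fin (N + L + J) → ℝ :=
  Fin.append (Fin.append (fun u =>
    kscale τ B γ A ω κ * pvel i j (kvec τ B γ ω (kerIdx κ).1 (A.a (kerIdx κ).2)) u) fun _ => 0)
    fun _ => 0

variable (τ B : ℝ) (γ : Fin K → ℝ) (A : Coeffs K nA) (P : VPot K) (Φ : VFac N K K')
  (c : VCIdx N M K (nker K nA) (N + L + J) K' → ℝ)
  (g : VGIdx N M K (nker K nA) (N + L + J) K' 1 → ℝ)

/-- The only state of one point. -/
def ptSt (K' : ℕ) : Fin 1 × Leaf K' 1 := (0, fun _ => 0)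

/-- The energy of one point. -/
noncomputable def ptHam (ω : Fin K → Fin N → ℝ) (ξ : Fin L) : ℝ :=
  vham P (vbpat (ptPrior τ B γ J A ω ξ) Φ) (vbspin (ptPrior τ B γ J A ω ξ) Φ)
    (vqd (ptPrior τ B γ J A ω ξ) Φ) (vpull c) g (ptSt K')

/-- The derivative of the Gaussian part of the energy of one point along a rotation. -/
noncomputable def ptTan (i j : Fin N) (ω : Fin K → Fin N → ℝ) (ξ : Fin L) : ℝ :=
  vtan P (vbpat (ptPrior τ B γ J A ω ξ) Φ) (dvbpat (ptPrior τ B γ J A ω ξ) i j)
    (dvbspin (ptPrior τ B γ J A ω ξ) Φ (fun i j κ _ => dker τ B γ L J A i j ω κ) i j) (vpull c) g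
    (ptSt K')

theorem cont_pt_cfg (u : Fin N) (k : Fin K) :
    Continuous fun ω : Fin K → Fin N → ℝ => cfgOf τ γ ω u k := by
  unfold cfgOf; split_ifs <;> fun_prop

theorem cont_pt_ker (ξ : Fin L) (κ : Fin (nker K nA)) (u : Fin (N + L + J)) :
    Continuous fun ω : Fin K → Fin N → ℝ =>
      kerFeat τ B γ J A (kscale τ B γ A ω κ • ω) ξ κ u :=
  (continuous_kfeat ξ _ _ u).comp ((continuous_kscale τ B γ A κ).smul continuous_id)

theorem cont_dker (i j : Fin N) (κ : Fin (nker K nA)) (u : Fin (N + L + J)) :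
    Continuous fun ω : Fin K → Fin N → ℝ => dker τ B γ L J A i j ω κ u := by
  have := continuous_kscale (N := N) τ B γ A κ
  have := fun u => continuous_kvec (N := N) τ B γ (kerIdx κ).1 (A.a (kerIdx κ).2) u
  unfold dker
  refine Fin.addCases (fun u => ?_) (fun u => ?_) u
  · refine Fin.addCases (fun u => ?_) (fun u => ?_) u
    · simp only [Fin.append_left, pvel]; split_ifs <;> fun_prop
    · simp only [Fin.append_left, Fin.append_right]; fun_prop
  · simp only [Fin.append_right]; fun_prop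

/-- Every direction and velocity of one point is continuous in the point. -/
theorem cont_pt_dirs (ξ : Fin L) (i j : Fin N) (x : Fin 1 × Leaf K' 1)
    (q : VGIdx N M K (nker K nA) (N + L + J) K' 1) :
    (∀ a k, Continuous fun ω => vbpat (ptPrior τ B γ J A ω ξ) Φ a k x q) ∧
    (Continuous fun ω => vbspin (ptPrior τ B γ J A ω ξ) Φ x q) ∧
    (Continuous fun ω => vqd (ptPrior τ B γ J A ω ξ) Φ x q) ∧
    (∀ a k, Continuous fun ω => dvbpat (ptPrior τ B γ J A ω ξ) i j a k x q) ∧
    Continuous fun ω =>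
      dvbspin (ptPrior τ B γ J A ω ξ) Φ (fun i j κ _ => dker τ B γ L J A i j ω κ) i j x q := by
  have := cont_pt_cfg (N := N) τ γ
  have := cont_pt_ker (N := N) (J := J) τ B γ A ξ
  have := cont_dker (N := N) (L := L) (J := J) τ B γ A i j
  rcases q with (p | p) | ⟨o, p | p | p⟩ <;>
    simp only [vbpat, vbspin, vqd, dvbpat, dvbspin, treeDir, rowZ, rowL, spinL, tiltQ, drowZ,
      dspinL, dcfg, ptPrior] <;>
    refine ⟨fun a k => ?_, ?_, ?_, fun a k => ?_, ?_⟩ <;> (try split_ifs) <;> fun_prop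

variable {τ B γ A} {P Φ}

theorem deriv_kerFeat {i j : Fin N} (hij : i ≠ j) (ht : typ γ i = typ γ j)
    (ω : Fin K → Fin N → ℝ) (ξ : Fin L) (κ : Fin (nker K nA)) (u : Fin (N + L + J)) :
    HasDerivAt (fun s => kerFeat τ B γ J A
        (kscale τ B γ A (fun k => prot i j s (ω k)) κ • fun k => prot i j s (ω k)) ξ κ u)
      (dker τ B γ L J A i j ω κ u) 0 := by
  set sc := kscale τ B γ A ω κ with hsc
  have hs : ∀ s, kscale τ B γ A (fun k => prot i j s (ω k)) κ = sc := fun s => by
    simp only [hsc, kscale, sum_kvec_rot τ B hij ht]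
  have hv : ∀ s, kvec τ B γ (sc • fun k => prot i j s (ω k)) (kerIdx κ).1 (A.a (kerIdx κ).2)
      = fun u => sc * prot i j s (kvec τ B γ ω (kerIdx κ).1 (A.a (kerIdx κ).2)) u := fun s =>
    funext fun u => by rw [kvec_smul, kvec_rot τ B hij ht]
  have hc : ∀ s, ∑ u, (sc * prot i j s (kvec τ B γ ω (kerIdx κ).1 (A.a (kerIdx κ).2)) u) ^ 2
      = sc ^ 2 * ∑ u, kvec τ B γ ω (kerIdx κ).1 (A.a (kerIdx κ).2) u ^ 2 := fun s => by
    simp only [mul_pow, ← Finset.mul_sum, ← kvec_rot τ B hij ht, sum_kvec_rot τ B hij ht]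
  simp only [hs, kerFeat, kfeat, hv, hc]
  refine Fin.addCases (fun u => ?_) (fun u => ?_) u
  · refine Fin.addCases (fun u => ?_) (fun u => ?_) u
    · simp only [dker, Fin.append_left, ← hsc]
      exact (hasDerivAt_prot i j _ u).const_mul sc
    · simp only [dker, Fin.append_left, Fin.append_right]
      exact hasDerivAt_const _ _
  · simp only [dker, Fin.append_right]
    exact hasDerivAt_const _ _

theorem dker_dot {i j : Fin N} (ω : Fin K → Fin N → ℝ) (ξ : Fin L) (κ : Fin (nker K nA)) :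
    ∑ u, dker τ B γ L J A i j ω κ u * kerFeat τ B γ J A (kscale τ B γ A ω κ • ω) ξ κ u = 0 := by
  simp only [dker, kerFeat, kfeat, Fin.sum_univ_add, Fin.append_left, Fin.append_right, zero_mul,
    Finset.sum_const_zero, add_zero, kvec_smul, pvel, mul_sub, sub_mul, mul_ite, ite_mul, mul_zero,
    Finset.sum_sub_distrib, Finset.sum_ite_eq', Finset.mem_univ, if_true]
  ring

theorem deriv_ptHam {S : Finset (Fin N)} {θ : ℝ} {pF : Fin (K' + 1) → Fin K → Fin K → ℝ}
    {e : Fin (K' + 1) → Fin (nker K nA) → (p : Fin (N + L + J)) → Fin (p.val + 2) → ℝ}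
    (h : TypeVar Φ c S θ pF e) (hc : ∀ u, c (Sum.inl (Sum.inr u)) = 0) {i j : Fin N} (hi : i ∈ S)
    (hj : j ∈ S) (hij : i ≠ j) (ht : typ γ i = typ γ j) (ω : Fin K → Fin N → ℝ) (ξ : Fin L) :
    HasDerivAt (fun s => ptHam τ B γ A P Φ c g (fun k => prot i j s (ω k)) ξ)
      (ptTan τ B γ A P Φ c g i j ω ξ) 0 := by
  set rot := fun s => (fun k => prot i j s (ω k)) with hrot
  set x := ptSt K' with hx
  have h0 : rot 0 = ω := by funext k; simp [hrot, prot_zero]
  have hcfg : ∀ u k, HasDerivAt (fun s => cfgOf τ γ (rot s) u k)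
      (dcfg i j (cfgOf τ γ ω) u k) 0 := fun u k => by
    simp only [hrot, cfgOf_rot τ hij ht]
    exact hasDerivAt_prot i j (fun u => cfgOf τ γ ω u k) u
  have hker := fun κ u => deriv_kerFeat (τ := τ) (B := B) (A := A) (J := J) hij ht ω ξ κ u
  have hb : ∀ a k q, HasDerivAt (fun s => vbpat (ptPrior τ B γ J A (rot s) ξ) Φ a k x q)
      (dvbpat (M := M) (ptPrior τ B γ J A ω ξ) i j a k x q) 0 := fun a k q => by
    rcases q with (⟨a', u⟩ | u) | ⟨o, p⟩ <;> simp only [vbpat, dvbpat, treeDir, rowZ, drowZ, ptPrior]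
    · split_ifs
      · exact (hcfg u k).div_const _
      · exact hasDerivAt_const _ _
    · exact hasDerivAt_const _ _
    · exact (hasDerivAt_const _ _).congr_deriv (mul_zero _).symm
  have hz : ∀ q, HasDerivAt (fun s => vbspin (ptPrior τ B γ J A (rot s) ξ) Φ x q)
      (dvbspin (M := M) (ptPrior τ B γ J A ω ξ) Φ (fun i j κ _ => dker τ B γ L J A i j ω κ) i j x q)
      0 := fun q => by
    rcases q with p | ⟨o, p | p | ⟨κ, t⟩⟩ <;>
      simp only [vbspin, dvbspin, treeDir, spinL, dspinL, ptPrior]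
    · exact hasDerivAt_const _ _
    · exact (hasDerivAt_const _ _).congr_deriv (mul_zero _).symm
    · exact (HasDerivAt.fun_sum (u := Finset.univ) fun k _ =>
        (hcfg _ k).mul_const _).const_mul _
    · refine (HasDerivAt.fun_finsetProd (u := Finset.univ) fun q _ => hker κ (t.2.2 q)).const_mul _
        |>.congr_deriv ?_
      simp only [prot_zero, smul_eq_mul]
      exact congrArg _ (Finset.sum_congr rfl fun q _ => mul_comm _ _)
  have hq : ∀ s, ∑ q, vpull c q * vqd (M := M) (ptPrior τ B γ J A (rot s) ξ) Φ x q = 0 := fun s => by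
    exact (sum_vqd (ptPrior τ B γ J A (rot s) ξ) Φ c x).trans (by simp [hc])
  have hd := deriv_vham P (b := fun s => vbpat (ptPrior τ B γ J A (rot s) ξ) Φ)
    (bz := fun s => vbspin (ptPrior τ B γ J A (rot s) ξ) Φ)
    (qd := fun s => vqd (ptPrior τ B γ J A (rot s) ξ) Φ) (vpull c) g (x := x) hb hz hq
  rw [h0] at hd
  refine hd.congr_deriv (sub_eq_self.2 ?_)
  refine (cov_dvbspin (ptPrior τ B γ J A ω ξ) Φ (fun i j κ _ => dker τ B γ L J A i j ω κ) h hi hj
    x x).trans ?_
  have hp : ∀ k k', pF (com x.2 x.2) k k' = pF (com x.2 x.2) k' k := fun k k' => by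
    rw [← h.fld i hi, ← h.fld i hi]
    exact Finset.sum_congr rfl fun _ _ => Finset.sum_congr rfl fun _ _ =>
      Finset.sum_congr rfl fun _ _ => by ring
  have h1 : ∑ k, ∑ k', pF (com x.2 x.2) k k' *
      ∑ u ∈ S, dcfg i j (cfgOf τ γ ω) u k * cfgOf τ γ ω u k' = 0 := by
    simp only [dcfg, sub_mul, ite_mul, zero_mul, Finset.sum_sub_distrib, Finset.sum_ite_eq', hi, hj,
      if_true, mul_sub]
    rw [sub_eq_zero, Finset.sum_comm]
    exact Finset.sum_congr rfl fun k _ => Finset.sum_congr rfl fun k' _ => by rw [hp k' k]; ring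
  have h2 : pcov (ptPrior τ B γ J A ω ξ) (fun i j κ _ => dker τ B γ L J A i j ω κ) e i j x x = 0 := by
    simp only [pcov, ptPrior, dker_dot, zero_mul, mul_zero, Finset.sum_const_zero]
  exact (congrArg₂ (· + ·) h1 h2).trans (add_zero 0)

/-- Variances, coordinates of one branch and a point. -/
abbrev PtPar (N M K K' L J nA : ℕ) : Type :=
  (VCIdx N M K (nker K nA) (N + L + J) K' → ℝ) ×
    (VGIdx N M K (nker K nA) (N + L + J) K' 1 → ℝ) × (Fin K → Fin N → ℝ)

theorem cont_vpull1 (q : VGIdx N M K (nker K nA) (N + L + J) K' 1) :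
    Continuous fun p : PtPar N M K K' L J nA => vpull p.1 q :=
  (continuous_apply q).comp (continuous_vpull.comp continuous_fst)

theorem continuous_ptHam (ξ : Fin L) :
    Continuous fun p : PtPar N M K K' L J nA => ptHam τ B γ A P Φ p.1 p.2.1 p.2.2 ξ := by
  rcases isEmpty_or_nonempty (Fin N) with hN | ⟨⟨i⟩⟩
  · have : Subsingleton (Fin K → Fin N → ℝ) := inferInstance
    have : ∀ ω : Fin K → Fin N → ℝ, ω = 0 := fun ω => Subsingleton.elim _ _
    have h : (fun p : PtPar N M K K' L J nA => ptHam τ B γ A P Φ p.1 p.2.1 p.2.2 ξ)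
        = fun p => ptHam τ B γ A P Φ p.1 p.2.1 0 ξ := funext fun p => by rw [this p.2.2]
    have := cont_vpull1 (N := N) (M := M) (K := K) (K' := K') (L := L) (J := J) (nA := nA)
    have := P.cf
    rw [h]
    unfold ptHam vham vfld lin
    fun_prop
  set x := ptSt K'
  have hd := cont_pt_dirs (M := M) (J := J) τ B γ A Φ ξ i i x
  have hω : Continuous fun p : PtPar N M K K' L J nA => p.2.2 := by fun_prop
  have hb : ∀ q a k, Continuous fun p : PtPar N M K K' L J nA =>
      vbpat (ptPrior τ B γ J A p.2.2 ξ) Φ a k x q := fun q a k => ((hd q).1 a k).comp' hω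
  have hz : ∀ q, Continuous fun p : PtPar N M K K' L J nA =>
      vbspin (ptPrior τ B γ J A p.2.2 ξ) Φ x q := fun q => (hd q).2.1.comp' hω
  have hq : ∀ q, Continuous fun p : PtPar N M K K' L J nA =>
      vqd (ptPrior τ B γ J A p.2.2 ξ) Φ x q := fun q => (hd q).2.2.1.comp' hω
  have := cont_vpull1 (N := N) (M := M) (K := K) (K' := K') (L := L) (J := J) (nA := nA)
  have := P.cf
  unfold ptHam vham vfld lin
  fun_prop

theorem continuous_ptTan (ξ : Fin L) (i j : Fin N) :
    Continuous fun p : PtPar N M K K' L J nA => ptTan τ B γ A P Φ p.1 p.2.1 i j p.2.2 ξ := by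
  set x := ptSt K'
  have hd := cont_pt_dirs (M := M) (J := J) τ B γ A Φ ξ i j x
  have hω : Continuous fun p : PtPar N M K K' L J nA => p.2.2 := by fun_prop
  have hb : ∀ q a k, Continuous fun p : PtPar N M K K' L J nA =>
      vbpat (ptPrior τ B γ J A p.2.2 ξ) Φ a k x q := fun q a k => ((hd q).1 a k).comp' hω
  have hdb : ∀ q a k, Continuous fun p : PtPar N M K K' L J nA =>
      dvbpat (ptPrior τ B γ J A p.2.2 ξ) i j a k x q := fun q a k => ((hd q).2.2.2.1 a k).comp' hω
  have hdz : ∀ q, Continuous fun p : PtPar N M K K' L J nA =>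
      dvbspin (ptPrior τ B γ J A p.2.2 ξ) Φ (fun i j κ _ => dker τ B γ L J A i j p.2.2 κ) i j x q :=
    fun q => (hd q).2.2.2.2.comp' hω
  have := cont_vpull1 (N := N) (M := M) (K := K) (K' := K') (L := L) (J := J) (nA := nA)
  have := P.cg
  unfold ptTan vtan tdir vfld lin
  fun_prop

/-- The derivative along a rotation of a weighted energy has no integral. -/
theorem integral_pt_zero {S : Finset (Fin N)} {θ : ℝ} {pF : Fin (K' + 1) → Fin K → Fin K → ℝ}
    {e : Fin (K' + 1) → Fin (nker K nA) → (p : Fin (N + L + J)) → Fin (p.val + 2) → ℝ}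
    (h : TypeVar Φ c S θ pF e) (hc : ∀ u, c (Sum.inl (Sum.inr u)) = 0) {i j : Fin N} (hi : i ∈ S)
    (hj : j ∈ S) (hij : i ≠ j) (ht : typ γ i = typ γ j) {lam : ℝ} (hlam : 0 ≤ lam) (d : OIdx K → ℝ)
    {Q Q' : (Fin N → Fin K → ℝ) → ℝ} (hQc : Continuous Q) (hQ'c : Continuous Q')
    (hQ : ∀ x, HasDerivAt (fun s => Q fun u k => prot i j s (fun u => x u k) u) (Q' x) 0)
    (ξ : Fin L) :
    ∫ ω, Real.exp (ptHam τ B γ A P Φ c g ω ξ) *
        (ptTan τ B γ A P Φ c g i j ω ξ * Q (cfgOf τ γ ω) + Q' (cfgOf τ γ ω))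
      ∂spinMeas τ γ B lam d N = 0 := by
  set pen := fun ω : Fin K → Fin N → ℝ => Real.exp (-(lam * N * ∑ o, (ovl τ γ ω o - d o) ^ 2))
  have hpen : Measurable pen := by
    have := fun o => measurable_ovl (N := N) τ γ o
    fun_prop
  set ψ := (cutSet B K N).indicator pen with hψ
  set g' := fun ω : Fin K → Fin N → ℝ => Real.exp (ptHam τ B γ A P Φ c g ω ξ) *
      (ptTan τ B γ A P Φ c g i j ω ξ * Q (cfgOf τ γ ω) + Q' (cfgOf τ γ ω)) with hg'
  have hsp : ∫ ω, g' ω ∂spinMeas τ γ B lam d N = ∫ ω, ψ ω * g' ω ∂spinLaw K N := by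
    rw [spinMeas, integral_withDensity_eq_integral_toReal_smul hpen.ennreal_ofReal
      (ae_of_all _ fun ω => ENNReal.ofReal_lt_top), ← integral_indicator (measurableSet_cut B K N)]
    refine integral_congr_ae (ae_of_all _ fun ω => ?_)
    by_cases hω : ω ∈ cutSet B K N
    · simp [hψ, Set.indicator_of_mem hω, pen, ENNReal.toReal_ofReal (Real.exp_pos _).le]
    · simp [hψ, Set.indicator_of_notMem hω]
  rw [hsp]
  obtain ⟨R, hR⟩ := (isCompact_cut B K N).isBounded.exists_norm_le
  have hcfg : Continuous fun ω : Fin K → Fin N → ℝ => cfgOf τ γ ω :=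
    continuous_pi fun u => continuous_pi fun k => cont_pt_cfg τ γ u k
  have hp : Continuous fun ω : Fin K → Fin N → ℝ => ((c, g, ω) : PtPar N M K K' L J nA) := by fun_prop
  have hH := (continuous_ptHam (τ := τ) (B := B) (γ := γ) (A := A) (P := P) (Φ := Φ) (M := M) ξ).comp' hp
  have hT := (continuous_ptTan (τ := τ) (B := B) (γ := γ) (A := A) (P := P) (Φ := Φ) (M := M) ξ i j).comp' hp
  refine integral_rot_deriv (A := blockGen K i j) (μ := spinLaw K N)
    (fun x => blockGen_cube K hij x) (fun t => measurePreserving_rot_block K hij t)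
    (hpen.indicator (measurableSet_cut B K N)) (Bψ := 1) (R := R) (fun ω => ?_) (fun ω hω => ?_)
    (fun t ω => ?_) (g := fun ω => Real.exp (ptHam τ B γ A P Φ c g ω ξ) * Q (cfgOf τ γ ω))
    ((Real.continuous_exp.comp hH).mul (hQc.comp hcfg)) ?_ fun ω => ?_
  · by_cases hω : ω ∈ cutSet B K N
    · rw [Set.indicator_of_mem hω, abs_of_pos (Real.exp_pos _), Real.exp_le_one_iff, neg_nonpos]
      exact mul_nonneg (mul_nonneg hlam (Nat.cast_nonneg N))
        (Finset.sum_nonneg fun o _ => sq_nonneg _)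
    · simp [Set.indicator_of_notMem hω]
  · exact Set.indicator_of_notMem (fun h' => absurd (hR ω h') (not_le.2 hω)) _
  · rw [rotMap_block]
    by_cases hω : ω ∈ cutSet B K N
    · rw [Set.indicator_of_mem hω, Set.indicator_of_mem ((cut_rot B hij t ω).2 hω)]
      simp only [pen, ovl_rot τ hij ht]
    · rw [Set.indicator_of_notMem hω, Set.indicator_of_notMem (mt (cut_rot B hij t ω).1 hω)]
  · exact (Real.continuous_exp.comp hH).mul ((hT.mul (hQc.comp hcfg)).add (hQ'c.comp hcfg))
  · have hd1 := (deriv_ptHam (τ := τ) (B := B) (A := A) (P := P) c g h hc hi hj hij ht ω ξ).exp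
    have hd2 := hQ (cfgOf τ γ ω)
    simp only [rotMap_block, hg']
    have e : ∀ s, cfgOf τ γ (fun k => prot i j s (ω k))
        = fun u k => prot i j s (fun u => cfgOf τ γ ω u k) u := fun s =>
      funext fun u => funext fun k => cfgOf_rot τ hij ht s ω u k
    simp only [← e] at hd2
    refine (hd1.mul hd2).congr_deriv ?_
    simp only [prot_zero]
    ring

end Point

end Vale.Agent.P166.Casc
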