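import Vale.Agent.P166.Casc.VMexp

/-!
The two rotation identities in terms of synchronised paths.
-/

open MeasureTheory ProbabilityTheory Filter Topology

namespace Vale.Agent.P166.Casc

open Vale.Agent.P157.Casc

variable {T Ω : Type*} [Fintype T] [MeasurableSpace Ω] {d K : ℕ}

/-- Overlap matrices that follow a path and nearly constant self-overlaps, up to `δ`; field
covariances with given level averages and levels of known law obeying the overlap identities, up to
`ε`. -/
structure SDHyp (μ : Measure Ω) (u : Ω → T → ℝ) (U : T → T → Fin (K + 1))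
    (R : T → T → Matrix (Fin d) (Fin d) ℝ) (C : Ω → T → T → Matrix (Fin d) (Fin d) ℝ)
    (D : Matrix (Fin d) (Fin d) ℝ) (q p : Fin (K + 1) → Matrix (Fin d) (Fin d) ℝ)
    (dm : Fin (K + 1) → ℝ) (B δ ε : ℝ) : Prop where
  one_le : 1 ≤ B
  eps : 0 ≤ ε
  del : 0 ≤ δ
  tri : ∀ x y z, Formula.Tri (U x y) (U x z) (U z y)
  symU : ∀ x y, U x y = U y x
  Ct : ∀ ω x y, C ω y x = (C ω x y).transpose
  Cm : ∀ x y k l, Measurable fun ω => C ω x y k l
  Rb : ∀ x y, mabs (R x y) ≤ B
  Cb : ∀ ω x y, mabs (C ω x y) ≤ B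
  Db : mabs D ≤ B
  qb : ∀ n, mabs (q n) ≤ B
  pb : ∀ n, mabs (p n) ≤ B
  psym : ∀ n, (p n).transpose = p n
  dmb : ∀ n, dm n ∈ Set.Icc (0 : ℝ) 1
  self : reavg μ u 1 (fun _ x => mabs (R (x 0) (x 0) - D)) ≤ δ
  sync : reavg μ u 2 (fun _ x => mabs (R (x 0) (x 1) - q (U (x 0) (x 1)))) ≤ δ
  law : ∀ n, |levLaw μ u U n - dm n| ≤ ε
  part : ∀ n, mabs (mexp μ u 2 (fun ω x => if U (x 0) (x 1) = n then C ω (x 0) (x 1) else 0)
    - dm n • p n) ≤ ε
  gg : ∀ (n j : Fin (K + 1)) (a b : Fin d),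
    |rdef μ u (fun x y => if U x y = n then 1 else 0) 1
        (fun ω x => if U (x 0) (x 1) = j then B⁻¹ * C ω (x 0) (x 1) a b else 0)| ≤ ε ∧
    |rdef μ u (fun x y => if U x y = n then 1 else 0) 1
        (fun ω x => if U (x 0) (x 1) = j then B⁻¹ * C ω (x 1) (x 0) a b else 0)| ≤ ε

/-- The three-replica value at a level. -/
noncomputable def tripF (dm : Fin (K + 1) → ℝ) (p q : Fin (K + 1) → Matrix (Fin d) (Fin d) ℝ)
    (l : Fin (K + 1)) : Matrix (Fin d) (Fin d) ℝ :=
  (∑ j ∈ Finset.univ.filter (fun j => j < l), (dm j * dm l / 2) • (p j * q j))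
    + (∑ j ∈ Finset.univ.filter (fun j => l < j), (dm j * dm l / 2) • (p j * q l))
    + (dm l * (dm l + 1) / 2) • (p l * q l)
    + ∑ j ∈ Finset.univ.filter (fun j => l < j), (dm l * dm j / 2) • (p l * (q j - q l))

/-- The rotation identity at level `l`, for a test of one spin of each of two replicas. -/
noncomputable def rotLev (μ : Measure Ω) (u : Ω → T → ℝ) (U : T → T → Fin (K + 1))
    (R : T → T → Matrix (Fin d) (Fin d) ℝ) (C : Ω → T → T → Matrix (Fin d) (Fin d) ℝ) (a : ℝ)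
    (l : Fin (K + 1)) : Matrix (Fin d) (Fin d) ℝ :=
  mexp μ u 3 fun ω x => if U (x 0) (x 1) = l then
    a • R (x 0) (x 1) + R (x 0) (x 1) * C ω (x 1) (x 0) * R (x 0) (x 1)
      - R (x 0) (x 0) * C ω (x 0) (x 1) * R (x 1) (x 1)
      - (2 : ℝ) • (R (x 0) (x 2) * C ω (x 2) (x 0) * R (x 0) (x 1))
      + (2 : ℝ) • (R (x 0) (x 0) * C ω (x 0) (x 2) * R (x 2) (x 1))
    else 0

/-- The rotation identity for a test of two spins of one replica. -/
noncomputable def rotDiag (μ : Measure Ω) (u : Ω → T → ℝ)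
    (R : T → T → Matrix (Fin d) (Fin d) ℝ) (C : Ω → T → T → Matrix (Fin d) (Fin d) ℝ) :
    Matrix (Fin d) (Fin d) ℝ :=
  mexp μ u 2 fun ω x => R (x 0) (x 1) * C ω (x 1) (x 0) * R (x 0) (x 0)
    - R (x 0) (x 0) * C ω (x 0) (x 1) * R (x 1) (x 0)

/-- The observable of the level identity with the paths in place of the overlaps. -/
noncomputable def rotObs (U : T → T → Fin (K + 1)) (C : Ω → T → T → Matrix (Fin d) (Fin d) ℝ)
    (D : Matrix (Fin d) (Fin d) ℝ) (q : Fin (K + 1) → Matrix (Fin d) (Fin d) ℝ) (a : ℝ)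
    (l : Fin (K + 1)) (ω : Ω) (x : Fin 3 → T) : Matrix (Fin d) (Fin d) ℝ :=
  if U (x 0) (x 1) = l then
      a • q l + q l * C ω (x 1) (x 0) * q l - D * C ω (x 0) (x 1) * D
        - (2 : ℝ) • (q (U (x 0) (x 2)) * C ω (x 2) (x 0) * q l)
        + (2 : ℝ) • (D * (C ω (x 0) (x 2) * q (U (x 2) (x 1))))
    else 0

/-- Splitting the level expression into the differences of its parts. -/
theorem level_split (a L c : ℝ) (P P' X Y S T q p D : Matrix (Fin d) (Fin d) ℝ) :
    (a * L) • q + q * P' * q - D * P * D - (2 : ℝ) • (X * q) + (2 : ℝ) • (D * Y)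
        - (c • ((a • 1 - S) * q - D * p * D) + (2 : ℝ) • (D * T))
      = (a * (L - c)) • q + q * (P' - c • p) * q - D * (P - c • p) * D
        - (2 : ℝ) • ((X - (c / 2) • (S + q * p)) * q) + (2 : ℝ) • (D * (Y - T)) := by
  simp only [Matrix.sub_mul, Matrix.mul_sub, Matrix.add_mul, Matrix.smul_mul, Matrix.mul_smul,
    Matrix.one_mul, smul_sub, smul_add]
  module

/-- The size of the split expression. -/
theorem mabs_split {a e1 e2 e3 e4 b : ℝ} {q D A1 A2 A3 A4 : Matrix (Fin d) (Fin d) ℝ}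
    (ha : |a| ≤ b * e1) (hq : mabs q ≤ b) (hD : mabs D ≤ b) (h1 : mabs A1 ≤ e1) (h2 : mabs A2 ≤ e2)
    (h3 : mabs A3 ≤ e3) (h4 : mabs A4 ≤ e4) :
    mabs (a • q + q * A1 * q - D * A2 * D - (2 : ℝ) • (A3 * q) + (2 : ℝ) • (D * A4))
      ≤ b * e1 * b + b * e1 * b + b * e2 * b + 2 * (e3 * b) + 2 * (b * e4) := by
  refine (mabs_add _ _).trans (add_le_add ((mabs_sub _ _).trans (add_le_add ((mabs_sub _ _).trans
    (add_le_add ((mabs_add _ _).trans (add_le_add ?_ (mabs_mul_le (mabs_mul_le hq h1) hq)))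
      (mabs_mul_le (mabs_mul_le hD h2) hD))) ?_)) ?_)
  · rw [mabs_smul]
    exact mul_le_mul ha hq (mabs_nonneg _) ((abs_nonneg _).trans ha)
  · rw [mabs_smul, abs_two]
    exact mul_le_mul_of_nonneg_left (mabs_mul_le h3 hq) zero_le_two
  · rw [mabs_smul, abs_two]
    exact mul_le_mul_of_nonneg_left (mabs_mul_le hD h4) zero_le_two

/-- The pointwise error of replacing the overlaps in the level identity. -/
def rotErr (U : T → T → Fin (K + 1)) (R : T → T → Matrix (Fin d) (Fin d) ℝ)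
    (D : Matrix (Fin d) (Fin d) ℝ) (q : Fin (K + 1) → Matrix (Fin d) (Fin d) ℝ) (B : ℝ)
    (x : Fin 3 → T) : ℝ :=
  (B + 4 * B ^ 2) * mabs (R (x 0) (x 1) - q (U (x 0) (x 1)))
    + 2 * B ^ 2 * mabs (R (x 0) (x 2) - q (U (x 0) (x 2)))
    + 2 * B ^ 2 * mabs (R (x 2) (x 1) - q (U (x 2) (x 1)))
    + 3 * B ^ 2 * mabs (R (x 0) (x 0) - D) + B ^ 2 * mabs (R (x 1) (x 1) - D)

variable {μ : Measure Ω} [IsProbabilityMeasure μ] {u : Ω → T → ℝ} [Nonempty T]
  {U : T → T → Fin (K + 1)} {R : T → T → Matrix (Fin d) (Fin d) ℝ}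
  {C : Ω → T → T → Matrix (Fin d) (Fin d) ℝ} {D : Matrix (Fin d) (Fin d) ℝ}
  {q p : Fin (K + 1) → Matrix (Fin d) (Fin d) ℝ} {dm : Fin (K + 1) → ℝ} {B δ ε : ℝ}

omit [IsProbabilityMeasure μ] [Nonempty T] in
theorem rdef_smul (c : ℝ) (S : T → T → ℝ) (r : ℕ) (F : Ω → (Fin (r + 1) → T) → ℝ) :
    rdef μ u S r (fun ω x => c * F ω x) = c * rdef μ u S r F := by
  simp only [rdef, mul_assoc, reavg_smul, ← Finset.mul_sum]
  ring

variable (hm : ∀ x, Measurable fun ω => u ω x) (hp : ∀ ω x, 0 < u ω x)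
  (H : SDHyp μ u U R C D q p dm B δ ε)
include hm hp H

theorem levLaw_bound (n : Fin (K + 1)) : |levLaw μ u U n| ≤ 1 :=
  abs_reavg_le hp (bTest_const _ fun x => by split_ifs <;> norm_num)

theorem mtest_C {n : ℕ} (i j : Fin n) : MTest (fun ω (x : Fin n → T) => C ω (x i) (x j)) B :=
  ⟨fun x => H.Cm _ _, fun ω x => H.Cb ω _ _⟩

theorem mtest_R {n : ℕ} (i j : Fin n) : MTest (fun (_ : Ω) (x : Fin n → T) => R (x i) (x j)) B :=
  mtest_const fun x => H.Rb _ _

theorem mtest_q {n : ℕ} (i j : Fin n) :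
    MTest (fun (_ : Ω) (x : Fin n → T) => q (U (x i) (x j))) B :=
  mtest_const fun x => H.qb _

theorem btest_sync {n : ℕ} (i j : Fin n) :
    BTest (fun (_ : Ω) (x : Fin n → T) => mabs (R (x i) (x j) - q (U (x i) (x j)))) (2 * B) :=
  bTest_const _ fun x => by
    rw [abs_of_nonneg (mabs_nonneg _), two_mul]
    exact (mabs_sub _ _).trans (add_le_add (H.Rb _ _) (H.qb _))

theorem btest_self {n : ℕ} (i : Fin n) :
    BTest (fun (_ : Ω) (x : Fin n → T) => mabs (R (x i) (x i) - D)) (2 * B) :=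
  bTest_const _ fun x => by
    rw [abs_of_nonneg (mabs_nonneg _), two_mul]
    exact (mabs_sub _ _).trans (add_le_add (H.Rb _ _) H.Db)

theorem sync_err2 : reavg μ u 2 (fun _ x => mabs (R (x 1) (x 0) - q (U (x 1) (x 0)))) ≤ δ := by
  refine le_trans (le_of_eq ?_) H.sync
  rw [← reavg_perm (Equiv.swap (0 : Fin 2) 1)]
  simp [Equiv.swap_apply_def]

theorem self_err2 (i : Fin 2) : reavg μ u 2 (fun _ x => mabs (R (x i) (x i) - D)) ≤ δ := by
  refine le_trans (le_of_eq ?_) H.self
  rw [← reavg_perm (Equiv.swap (0 : Fin 2) i),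
    ← reavg_snoc (n := 1) hm hp (f := fun _ x => mabs (R (x 0) (x 0) - D))]
  simp [Equiv.swap_apply_def]

theorem self_err3 (i : Fin 3) : reavg μ u 3 (fun _ x => mabs (R (x i) (x i) - D)) ≤ δ := by
  refine le_trans (le_of_eq ?_) (self_err2 hm hp H 0)
  rw [← reavg_perm (Equiv.swap (0 : Fin 3) i),
    ← reavg_snoc (n := 2) hm hp (f := fun _ x => mabs (R (x 0) (x 0) - D))]
  simp [Equiv.swap_apply_def]

theorem sync_err3 : reavg μ u 3 (fun _ x => mabs (R (x 0) (x 1) - q (U (x 0) (x 1)))) ≤ δ := by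
  refine le_trans (le_of_eq ?_) H.sync
  rw [← reavg_snoc (n := 2) hm hp (f := fun _ x => mabs (R (x 0) (x 1) - q (U (x 0) (x 1))))]
  rfl

theorem sync_err3' : reavg μ u 3 (fun _ x => mabs (R (x 0) (x 2) - q (U (x 0) (x 2)))) ≤ δ := by
  refine le_trans (le_of_eq ?_) (sync_err3 hm hp H)
  rw [← reavg_perm (Equiv.swap (1 : Fin 3) 2)]
  simp [Equiv.swap_apply_def]

theorem sync_err3'' : reavg μ u 3 (fun _ x => mabs (R (x 2) (x 1) - q (U (x 2) (x 1)))) ≤ δ := by
  refine le_trans (le_of_eq ?_) (sync_err3 hm hp H)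
  rw [← reavg_perm (Equiv.swap (0 : Fin 3) 2)]
  simp [Equiv.swap_apply_def]

theorem part_swap (n : Fin (K + 1)) :
    mexp μ u 2 (fun ω x => if U (x 0) (x 1) = n then C ω (x 1) (x 0) else 0)
      = (mexp μ u 2 (fun ω x => if U (x 0) (x 1) = n then C ω (x 0) (x 1) else 0)).transpose := by
  rw [← mexp_transpose]
  congr 1
  funext ω x
  split_ifs
  · exact H.Ct ω _ _
  · exact Matrix.transpose_zero.symm

theorem part' (n : Fin (K + 1)) :
    mabs (mexp μ u 2 (fun ω x => if U (x 0) (x 1) = n then C ω (x 1) (x 0) else 0) - dm n • p n)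
      ≤ ε := by
  rw [part_swap hm hp H, ← H.psym n, ← Matrix.transpose_smul, ← Matrix.transpose_sub,
    mabs_transpose]
  exact H.part n

theorem part_bound (n : Fin (K + 1)) :
    mabs (mexp μ u 2 (fun ω x => if U (x 0) (x 1) = n then C ω (x 0) (x 1) else 0)) ≤ B := by
  have hC := (mtest_C hm hp H (0 : Fin 2) 1).ite fun x => U (x 0) (x 1) = n
  refine (mabs_mexp_le hm hp hC).trans ((le_abs_self _).trans (abs_reavg_le hp ⟨fun x => ?_, fun ω x => ?_⟩))
  · exact Finset.measurable_sum _ fun k _ => Finset.measurable_sum _ fun l _ => (hC.meas x k l).abs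
  · rw [abs_of_nonneg (mabs_nonneg _)]; exact hC.bound ω x

/-- The identity of one replica gives the symmetry of the total pairing against `D`. -/
theorem rotDiag_le :
    mabs (rotDiag μ u R C
      - ((∑ n, dm n • (q n * p n)) * D - D * ∑ n, dm n • (p n * q n)))
      ≤ δ * (4 * B ^ 2) + ε * (2 * ((K : ℝ) + 1) * B ^ 2) := by
  have hB0 : 0 ≤ B := zero_le_one.trans H.one_le
  have hDc : ∀ n, MTest (fun (_ : Ω) (_ : Fin n → T) => D) B := fun n => mtest_const fun _ => H.Db
  set E := mexp μ u 2 fun ω x => q (U (x 0) (x 1)) * C ω (x 1) (x 0) * D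
    - D * C ω (x 0) (x 1) * q (U (x 1) (x 0)) with hE
  have t1 := ((mtest_q hm hp H (0 : Fin 2) 1).mul (mtest_C hm hp H 1 0)).mul (hDc 2)
  have t2 := ((hDc 2).mul (mtest_C hm hp H (0 : Fin 2) 1)).mul (mtest_q hm hp H 1 0)
  have h1 : mabs (rotDiag μ u R C - E) ≤ δ * (4 * B ^ 2) := by
    refine (mexp_close_sum hm hp
      ((((mtest_R hm hp H (0 : Fin 2) 1).mul (mtest_C hm hp H 1 0)).mul (mtest_R hm hp H 0 0)).sub
        (((mtest_R hm hp H (0 : Fin 2) 0).mul (mtest_C hm hp H 0 1)).mul (mtest_R hm hp H 1 0)))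
      (t1.sub t2) ![B ^ 2, B ^ 2, 2 * B ^ 2] ?_
      ![fun x => mabs (R (x 0) (x 1) - q (U (x 0) (x 1))),
        fun x => mabs (R (x 1) (x 0) - q (U (x 1) (x 0))),
        fun x => mabs (R (x 0) (x 0) - D)] (ε := δ) ?_ fun ω x => ?_).trans_eq ?_
    · intro i; fin_cases i <;> simp <;> positivity
    · intro i; fin_cases i
      · exact H.sync
      · exact sync_err2 hm hp H
      · exact self_err2 hm hp H 0
    · have e1 := mabs_tri_sub (A := R (x 0) (x 1)) (B' := D) (H.qb (U (x 0) (x 1)))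
        (H.Cb ω (x 1) (x 0)) (H.Rb (x 0) (x 0))
      have e2 := mabs_tri_sub (A := R (x 0) (x 0)) (B' := q (U (x 1) (x 0))) H.Db
        (H.Cb ω (x 0) (x 1)) (H.Rb (x 1) (x 0))
      simp only [Fin.sum_univ_three, Matrix.cons_val_zero, Matrix.cons_val_one, Matrix.cons_val]
      refine (congrArg mabs (show _ = (R (x 0) (x 1) * C ω (x 1) (x 0) * R (x 0) (x 0)
          - q (U (x 0) (x 1)) * C ω (x 1) (x 0) * D)
          - (R (x 0) (x 0) * C ω (x 0) (x 1) * R (x 1) (x 0)
            - D * C ω (x 0) (x 1) * q (U (x 1) (x 0))) by abel)).trans_le ((mabs_sub _ _).trans ?_)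
      nlinarith
    · simp only [Fin.sum_univ_three, Matrix.cons_val_zero, Matrix.cons_val_one, Matrix.cons_val]
      ring
  have hC1 : ∀ n, MTest (fun ω (x : Fin 2 → T) =>
      if U (x 0) (x 1) = n then C ω (x 1) (x 0) else 0) B := fun n =>
    (mtest_C hm hp H 1 0).ite fun x => U (x 0) (x 1) = n
  have hC0 : ∀ n, MTest (fun ω (x : Fin 2 → T) =>
      if U (x 0) (x 1) = n then C ω (x 0) (x 1) else 0) B := fun n =>
    (mtest_C hm hp H 0 1).ite fun x => U (x 0) (x 1) = n
  set S1 := ∑ n, q n * mexp μ u 2 fun ω x => if U (x 0) (x 1) = n then C ω (x 1) (x 0) else 0 with hS1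
  set S2 := ∑ n, (mexp μ u 2 fun ω x => if U (x 0) (x 1) = n then C ω (x 0) (x 1) else 0) * q n with hS2
  have hEeq : E = S1 * D - D * S2 := by
    rw [hE, mexp_sub hm hp t1 t2, mexp_mul_const hm hp _ ((mtest_q hm hp H 0 1).mul (mtest_C hm hp H 1 0))]
    congr 1
    · congr 1
      rw [hS1, ← Finset.sum_congr rfl fun n _ => mexp_const_mul hm hp (q n) (hC1 n),
        ← mexp_sum hm hp _ fun n _ => (mtest_const fun _ => H.qb n).mul (hC1 n)]
      congr 1
      funext ω x
      simp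
    · simp only [Matrix.mul_assoc]
      rw [mexp_const_mul hm hp D ((mtest_C hm hp H (0 : Fin 2) 1).mul (mtest_q hm hp H 1 0))]
      congr 1
      rw [hS2, ← Finset.sum_congr rfl fun n _ => mexp_mul_const hm hp (q n) (hC0 n),
        ← mexp_sum hm hp _ fun n _ => (hC0 n).mul (mtest_const fun _ => H.qb n)]
      congr 1
      funext ω x
      simp [H.symU (x 1) (x 0)]
  have hsum : ∀ (f g : Fin (K + 1) → Matrix (Fin d) (Fin d) ℝ), (∀ n, mabs (f n - g n) ≤ B * ε) →
      mabs (∑ n, f n - ∑ n, g n) ≤ ((K : ℝ) + 1) * (B * ε) := fun f g h => by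
    rw [← Finset.sum_sub_distrib]
    exact ((mabs_sum _ _).trans (Finset.sum_le_sum fun n _ => h n)).trans_eq (by simp)
  have d1 : mabs (S1 - ∑ n, dm n • (q n * p n)) ≤ ((K : ℝ) + 1) * (B * ε) := hsum _ _ fun n => by
    rw [← Matrix.mul_smul, ← Matrix.mul_sub]
    exact mabs_mul_le (H.qb n) (part' hm hp H n)
  have d2 : mabs (S2 - ∑ n, dm n • (p n * q n)) ≤ ((K : ℝ) + 1) * (B * ε) := hsum _ _ fun n => by
    rw [← Matrix.smul_mul, ← Matrix.sub_mul, mul_comm B]
    exact mabs_mul_le (H.part n) (H.qb n)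
  have h2 : mabs (E - ((∑ n, dm n • (q n * p n)) * D - D * ∑ n, dm n • (p n * q n)))
      ≤ 2 * (((K : ℝ) + 1) * (B * ε) * B) := by
    rw [hEeq, show ∀ a b a' b' : Matrix (Fin d) (Fin d) ℝ,
      (a * D - D * b) - (a' * D - D * b') = (a - a') * D - D * (b - b') from fun a b a' b' => by
        simp only [Matrix.sub_mul, Matrix.mul_sub]; abel]
    refine (mabs_sub _ _).trans ?_
    have := mabs_mul_le d1 H.Db
    have := mabs_mul_le H.Db d2
    linarith
  refine (le_trans (le_of_eq (congrArg mabs (sub_add_sub_cancel _ E _).symm)) (mabs_add _ _)).trans ?_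
  linarith

/-- An overlap identity for a test of one pair, scaled. -/
theorem gg_pair {F : Ω → (Fin 2 → T) → ℝ} (j l : Fin (K + 1))
    (hg : |rdef μ u (fun x y => if U x y = l then 1 else 0) 1 (fun ω x => B⁻¹ * F ω x)| ≤ ε)
    (hj : ∀ ω x, U (x 0) (x 1) ≠ j → F ω x = 0) :
    |reavg μ u 3 (fun ω x => F ω (fun i => x i.castSucc) *
        (if U (x 0) (x 2) = l then 1 else 0))
      - (reavg μ u 2 F * levLaw μ u U l + if j = l then reavg μ u 2 F else 0) / 2| ≤ B * ε := by
  have hB : 0 < B := zero_lt_one.trans_le H.one_le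
  have h := hg
  rw [rdef_smul, abs_mul, abs_of_pos (inv_pos.2 hB), inv_mul_le_iff₀ hB] at h
  simp only [rdef, Fin.sum_univ_one, Nat.cast_one] at h
  have e : reavg μ u 2 (fun ω x => F ω x *
      (if U (x 0) (x ((0 : Fin 1).succ)) = l then 1 else 0))
      = if j = l then reavg μ u 2 F else 0 := by
    rw [show ((0 : Fin 1).succ : Fin 2) = 1 from rfl]
    split_ifs with hjl
    · subst hjl
      refine integral_congr_ae (Eventually.of_forall fun ω => congrArg _ (funext fun x => ?_))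
      by_cases hx : U (x 0) (x 1) = j
      · simp [hx]
      · simp [hx, hj ω x hx]
    · rw [show (fun ω (x : Fin 2 → T) => F ω x * (if U (x 0) (x 1) = l then (1 : ℝ) else 0))
          = fun _ _ => 0 from by
        funext ω x
        by_cases hx : U (x 0) (x 1) = j
        · simp [hx, hjl]
        · simp [hj ω x hx]]
      simp [reavg, avg]
  rw [e, show (1 : ℝ) + 1 = 2 by norm_num] at h
  exact h

/-- The mixed three-replica term at a level. -/
theorem rotX_le (l : Fin (K + 1)) :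
    mabs (mexp μ u 3 (fun ω x =>
        if U (x 0) (x 1) = l then q (U (x 0) (x 2)) * C ω (x 2) (x 0) else 0)
      - (dm l / 2) • ((∑ j, dm j • (q j * p j)) + q l * p l))
      ≤ ((K : ℝ) + 1) * (B * (((d : ℝ) ^ 2 + 2) * (B * ε))) := by
  have hB0 : 0 ≤ B := zero_le_one.trans H.one_le
  have h3 : ∀ j, MTest (fun ω (x : Fin 3 → T) =>
      if U (x 0) (x 2) = l then (if U (x 0) (x 1) = j then C ω (x 1) (x 0) else 0) else 0) B := fun j =>
    ((mtest_C hm hp H 1 0).ite fun x => U (x 0) (x 1) = j).ite fun x => U (x 0) (x 2) = l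
  set Z := fun j => mexp μ u 3 fun ω x =>
    if U (x 0) (x 2) = l then (if U (x 0) (x 1) = j then C ω (x 1) (x 0) else 0) else 0 with hZ
  have hX : mexp μ u 3 (fun ω x =>
      if U (x 0) (x 1) = l then q (U (x 0) (x 2)) * C ω (x 2) (x 0) else 0) = ∑ j, q j * Z j := by
    rw [← mexp_perm (Equiv.swap (1 : Fin 3) 2),
      Finset.sum_congr rfl fun j _ => (mexp_const_mul hm hp (q j) (h3 j)).symm,
      ← mexp_sum hm hp _ fun j _ => (mtest_const fun _ => H.qb j).mul (h3 j)]
    congr 1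
    funext ω x
    by_cases h : U (x 0) (x 2) = l <;> simp [h, Equiv.swap_apply_def]
  set P := fun j => mexp μ u 2 fun ω x => if U (x 0) (x 1) = j then C ω (x 1) (x 0) else 0 with hP
  have hgg : ∀ j, mabs (Z j - (1 / 2 : ℝ) • (levLaw μ u U l • P j + if j = l then P j else 0))
      ≤ (d : ℝ) ^ 2 * (B * ε) := fun j => by
    refine (Finset.sum_le_sum fun a _ => Finset.sum_le_sum fun b _ =>
      (show _ ≤ B * ε from ?_)).trans_eq (by simp; ring)
    refine le_trans (le_of_eq (congrArg abs ?_)) (gg_pair hm hp H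
      (F := fun ω x => (if U (x 0) (x 1) = j then C ω (x 1) (x 0) else 0 :
        Matrix (Fin d) (Fin d) ℝ) a b) j l ?_ fun ω x hx => by simp [hx])
    swap
    · refine le_trans (le_of_eq (congrArg abs (congrArg (rdef μ u _ 1) ?_))) (H.gg l j a b).2
      funext ω x
      split_ifs <;> simp
    simp only [Matrix.sub_apply, Matrix.smul_apply, Matrix.add_apply, hZ, hP, mexp, Matrix.of_apply,
      smul_eq_mul]
    congr 1
    · refine integral_congr_ae (Eventually.of_forall fun ω => congrArg _ (funext fun x => ?_))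
      simp only [Fin.castSucc_zero, show ((1 : Fin 2).castSucc : Fin 3) = 1 from rfl]
      split_ifs <;> simp
    · split_ifs <;> simp only [Matrix.of_apply, Matrix.zero_apply] <;> ring
  have hj : ∀ j, mabs (q j * Z j
      - ((dm l / 2) • (dm j • (q j * p j)) + if j = l then (dm l / 2) • (q l * p l) else 0))
      ≤ B * (((d : ℝ) ^ 2 + 2) * (B * ε)) := fun j => by
    have e : (dm l / 2) • (dm j • (q j * p j)) + (if j = l then (dm l / 2) • (q l * p l) else 0)
        = q j * ((1 / 2 : ℝ) • (dm l • (dm j • p j) + if j = l then dm j • p j else 0)) := by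
      simp only [smul_add, Matrix.mul_add, smul_smul, Matrix.mul_smul]
      split_ifs with h
      · subst h; simp only [smul_smul, Matrix.mul_smul]; congr 1 <;> congr 1 <;> ring
      · simp; congr 1; ring
    rw [e, ← Matrix.mul_sub]
    refine mabs_mul_le (H.qb j) ?_
    refine (le_trans (le_of_eq (congrArg mabs (sub_add_sub_cancel _
      ((1 / 2 : ℝ) • (levLaw μ u U l • P j + if j = l then P j else 0)) _).symm)) (mabs_add _ _)).trans ?_
    rw [add_mul]
    refine add_le_add (hgg j) ?_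
    have hd : mabs (P j - dm j • p j) ≤ ε := part' hm hp H j
    rw [← smul_sub, mabs_smul]
    have h1 : mabs ((levLaw μ u U l • P j + if j = l then P j else 0)
        - (dm l • (dm j • p j) + if j = l then dm j • p j else 0)) ≤ ε + ε * B + ε := by
      rw [add_sub_add_comm,
        show levLaw μ u U l • P j - dm l • (dm j • p j)
          = dm l • (P j - dm j • p j) + (levLaw μ u U l - dm l) • P j by module]
      refine (mabs_add _ _).trans (add_le_add ((mabs_add _ _).trans (add_le_add ?_ ?_)) ?_)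
      · rw [mabs_smul, abs_of_nonneg (H.dmb l).1]
        exact (mul_le_of_le_one_left (mabs_nonneg _) (H.dmb l).2).trans hd
      · rw [mabs_smul]
        refine mul_le_mul (H.law l) ?_ (mabs_nonneg _) H.eps
        rw [hP]
        dsimp only
        rw [part_swap hm hp H, mabs_transpose]
        exact part_bound hm hp H j
      · split_ifs
        · exact hd
        · simpa using H.eps
    have h2 : ε ≤ B * ε := le_mul_of_one_le_left H.eps H.one_le
    have h3 : 0 ≤ B * ε := mul_nonneg hB0 H.eps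
    rw [abs_of_pos (by norm_num : (0 : ℝ) < 1 / 2)]
    linarith
  rw [hX, show (dm l / 2) • ((∑ j, dm j • (q j * p j)) + q l * p l)
      = ∑ j, ((dm l / 2) • (dm j • (q j * p j)) + if j = l then (dm l / 2) • (q l * p l) else 0) by
    rw [smul_add, Finset.smul_sum, Finset.sum_add_distrib, Finset.sum_ite_eq', if_pos (Finset.mem_univ _)],
    ← Finset.sum_sub_distrib]
  exact ((mabs_sum _ _).trans (Finset.sum_le_sum fun j _ => hj j)).trans_eq (by simp)

/-- The ultrametric three-replica term at a level. -/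
theorem rotY_le (l : Fin (K + 1)) :
    mabs (mexp μ u 3 (fun ω x =>
        if U (x 0) (x 1) = l then C ω (x 0) (x 2) * q (U (x 2) (x 1)) else 0)
      - tripF dm p q l) ≤ ((K : ℝ) + 1) * ((5 * (d : ℝ) ^ 3 + 10) * (B ^ 2 * ε)) := by
  have hB : 0 < B := zero_lt_one.trans_le H.one_le
  set P := fun j => mexp μ u 2 fun ω x => if U (x 0) (x 1) = j then C ω (x 0) (x 1) else 0 with hP
  set L := levLaw μ u U with hL
  set V := (∑ j ∈ Finset.univ.filter (fun j => j < l), (L l / 2) • (P j * q j))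
    + (∑ j ∈ Finset.univ.filter (fun j => l < j), (L l / 2) • (P j * q l))
    + ((L l + 1) / 2) • (P l * q l)
    + ∑ j ∈ Finset.univ.filter (fun j => l < j), (L j / 2) • (P l * (q j - q l)) with hV
  have hX : mexp μ u 3 (fun ω x =>
      if U (x 0) (x 1) = l then C ω (x 0) (x 2) * q (U (x 2) (x 1)) else 0)
      = mexp μ u 3 (fun ω x =>
        if U (x 0) (x 2) = l then C ω (x 0) (x 1) * q (U (x 1) (x 2)) else 0) := by
    rw [← mexp_perm (Equiv.swap (1 : Fin 3) 2)]
    simp [Equiv.swap_apply_def]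
  have h1 : mabs (mexp μ u 3 (fun ω x =>
      if U (x 0) (x 2) = l then C ω (x 0) (x 1) * q (U (x 1) (x 2)) else 0) - V)
      ≤ 5 * ((K : ℝ) + 1) * (d : ℝ) ^ 3 * (B ^ 2 * ε) := by
    refine (Finset.sum_le_sum fun a _ => Finset.sum_le_sum fun c _ =>
      (show _ ≤ ∑ _b : Fin d, B * (5 * ((K : ℝ) + 1) * (B * ε)) from ?_)).trans_eq (by simp; ring)
    have hb : ∀ b, BTest (fun ω (x : Fin 3 → T) => if U (x 0) (x 2) = l then
        B⁻¹ * C ω (x 0) (x 1) a b * q (U (x 1) (x 2)) b c else 0) B := fun b => by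
      refine ⟨fun x => ?_, fun ω x => ?_⟩
      · split_ifs
        · exact (((H.Cm _ _ a b).const_mul _).mul_const _)
        · exact measurable_const
      · split_ifs
        · rw [abs_mul, abs_mul, abs_of_pos (inv_pos.2 hB)]
          refine (mul_le_of_le_one_left (abs_nonneg _) ?_).trans ((abs_le_mabs _ _ _).trans (H.qb _))
          rw [inv_mul_le_iff₀ hB, mul_one]
          exact (abs_le_mabs _ _ _).trans (H.Cb _ _ _)
        · simpa using hB.le
    have e : mexp μ u 3 (fun ω x =>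
        if U (x 0) (x 2) = l then C ω (x 0) (x 1) * q (U (x 1) (x 2)) else 0) a c
        = ∑ b, B * reavg μ u 3 (fun ω x => if U (x 0) (x 2) = l then
            B⁻¹ * C ω (x 0) (x 1) a b * q (U (x 1) (x 2)) b c else 0) := by
      rw [← Finset.mul_sum, ← reavg_sum hm hp _ fun b _ => hb b, ← reavg_smul]
      refine integral_congr_ae (Eventually.of_forall fun ω => congrArg _ (funext fun x => ?_))
      dsimp only
      split_ifs
      · rw [Matrix.mul_apply, Finset.mul_sum]
        exact Finset.sum_congr rfl fun b _ => by field_simp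
      · simp
    have hpart : ∀ b n, levPart μ u U (fun ω x y => B⁻¹ * C ω x y a b) n = B⁻¹ * P n a b := fun b n => by
      rw [hP]
      simp only [mexp, Matrix.of_apply, levPart, ← reavg_smul]
      refine integral_congr_ae (Eventually.of_forall fun ω => congrArg _ (funext fun x => ?_))
      dsimp only
      split_ifs <;> simp
    have hv : V a c = ∑ b, B *
        ((∑ n ∈ Finset.univ.filter (fun n => n < l),
            q n b c * (levPart μ u U (fun ω x y => B⁻¹ * C ω x y a b) n * L l / 2))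
          + (∑ n ∈ Finset.univ.filter (fun n => l < n),
            q l b c * (levPart μ u U (fun ω x y => B⁻¹ * C ω x y a b) n * L l / 2))
          + q l b c * (levPart μ u U (fun ω x y => B⁻¹ * C ω x y a b) l * (L l + 1) / 2)
          + ∑ j ∈ Finset.univ.filter (fun j => l < j), (q j b c - q l b c)
            * (levPart μ u U (fun ω x y => B⁻¹ * C ω x y a b) l * L j / 2)) := by
      simp only [hV, hpart, Matrix.add_apply, Matrix.sum_apply, Matrix.smul_apply, Matrix.mul_apply,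
        Matrix.sub_apply, smul_eq_mul, mul_add, Finset.mul_sum, Finset.sum_add_distrib]
      rw [Finset.sum_comm (s := Finset.univ.filter fun j => j < l),
        Finset.sum_comm (s := Finset.univ.filter fun j => l < j) (t := Finset.univ),
        Finset.sum_comm (s := Finset.univ.filter fun j => l < j) (t := Finset.univ)]
      congr 1
      · congr 1
        · congr 1 <;> refine Finset.sum_congr rfl fun b _ => Finset.sum_congr rfl fun n _ => ?_ <;>
            field_simp
        · exact Finset.sum_congr rfl fun b _ => by field_simp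
      · exact Finset.sum_congr rfl fun b _ => Finset.sum_congr rfl fun n _ => by field_simp
    rw [Matrix.sub_apply, e, hv, ← Finset.sum_sub_distrib]
    refine (Finset.abs_sum_le_sum_abs _ _).trans (Finset.sum_le_sum fun b _ => ?_)
    rw [← mul_sub, abs_mul, abs_of_pos hB]
    refine mul_le_mul_of_nonneg_left (triple_le hm hp H.tri H.symU
      (O := fun ω x y => B⁻¹ * C ω x y a b) (fun x y => (H.Cm x y a b).const_mul _) (fun ω x y => ?_)
      (fun n j => H.gg n j a b) (fun n => q n b c) (fun n => (abs_le_mabs _ _ _).trans (H.qb n)) l) hB.le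
    rw [abs_mul, abs_of_pos (inv_pos.2 hB), inv_mul_le_iff₀ hB, mul_one]
    exact (abs_le_mabs _ _ _).trans (H.Cb _ _ _)
  have hterm : ∀ (n : Fin (K + 1)) {s t : ℝ} {M : Matrix (Fin d) (Fin d) ℝ} {b : ℝ}, mabs M ≤ b →
      t ∈ Set.Icc (0 : ℝ) 2 → |s - t| ≤ ε →
      mabs ((s / 2) • (P n * M) - ((dm n * t) / 2) • (p n * M)) ≤ 2 * B * ε * b := fun n s t M b hM ht hst => by
    have e : (s / 2) • (P n * M) - ((dm n * t) / 2) • (p n * M)
        = ((t / 2) • (P n - dm n • p n) + ((s - t) / 2) • P n) * M := by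
      simp only [Matrix.add_mul, Matrix.smul_mul, Matrix.sub_mul]
      module
    rw [e]
    refine mabs_mul_le ((mabs_add _ _).trans ?_) hM
    rw [mabs_smul, mabs_smul, abs_of_nonneg (div_nonneg ht.1 zero_le_two), abs_div, abs_two]
    have := mul_le_mul (show t / 2 ≤ 1 by linarith [ht.2]) (H.part n) (mabs_nonneg _) zero_le_one
    have := mul_le_mul (show |s - t| / 2 ≤ ε by linarith [H.eps]) (part_bound hm hp H n)
      (mabs_nonneg _) H.eps
    have := le_mul_of_one_le_left H.eps H.one_le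
    linarith
  have hcard : ∀ (s : Finset (Fin (K + 1))), (s.card : ℝ) ≤ (K : ℝ) + 1 := fun s => by
    have := Finset.card_le_univ s
    rw [Fintype.card_fin] at this
    exact_mod_cast this
  have hBe : 0 ≤ B * ε := mul_nonneg hB.le H.eps
  have hl2 : dm l + 1 ∈ Set.Icc (0 : ℝ) 2 :=
    ⟨by linarith [(H.dmb l).1], by linarith [(H.dmb l).2]⟩
  have hd : ∀ j, dm j ∈ Set.Icc (0 : ℝ) 2 := fun j => ⟨(H.dmb j).1, by linarith [(H.dmb j).2]⟩
  have h2 : mabs (V - tripF dm p q l) ≤ ((K : ℝ) + 1) * (8 * (B ^ 2 * ε)) + 2 * B * ε * B := by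
    rw [hV, tripF, add_sub_add_comm, add_sub_add_comm, add_sub_add_comm]
    have hsum : ∀ (f g : Fin (K + 1) → Matrix (Fin d) (Fin d) ℝ) (s : Finset (Fin (K + 1))) {c : ℝ},
        0 ≤ c → (∀ j, mabs (f j - g j) ≤ c) →
        mabs (∑ j ∈ s, f j - ∑ j ∈ s, g j) ≤ ((K : ℝ) + 1) * c := fun f g s c hc h => by
      rw [← Finset.sum_sub_distrib]
      refine (mabs_sum _ _).trans ((Finset.sum_le_sum fun j _ => h j).trans ?_)
      rw [Finset.sum_const, nsmul_eq_mul]
      exact mul_le_mul_of_nonneg_right (hcard _) hc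
    have w1 := hsum _ _ (Finset.univ.filter fun j => j < l) (by have := H.eps; positivity)
      fun j => hterm j (H.qb j) (hd l) (H.law l)
    have w2 := hsum _ _ (Finset.univ.filter fun j => l < j) (by have := H.eps; positivity)
      fun j => hterm j (H.qb l) (hd l) (H.law l)
    have w3 := hterm l (H.qb l) hl2 (s := L l + 1)
      (by rw [add_sub_add_right_eq_sub]; exact H.law l)
    have w4 := hsum _ _ (Finset.univ.filter fun j => l < j) (by have := H.eps; positivity)
      fun j => hterm l ((mabs_sub _ _).trans (add_le_add (H.qb j) (H.qb l))) (hd j) (H.law j)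
    refine ((mabs_add _ _).trans (add_le_add ((mabs_add _ _).trans
      (add_le_add ((mabs_add _ _).trans (add_le_add w1 w2)) w3)) w4)).trans ?_
    nlinarith [H.eps]
  rw [hX]
  refine (le_trans (le_of_eq (congrArg mabs (sub_add_sub_cancel _ V _).symm)) (mabs_add _ _)).trans ?_
  nlinarith [mul_nonneg (Nat.cast_nonneg (α := ℝ) K) (mul_nonneg (sq_nonneg B) H.eps)]

/-- The error constant of the level identity. -/
def sdC (K d : ℕ) (B : ℝ) : ℝ :=
  16 * B ^ 2 + 2 * B ^ 3 * ((K : ℝ) + 1) * ((d : ℝ) ^ 2 + 5 * (d : ℝ) ^ 3 + 12)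

theorem btest_rotErr : BTest (fun (_ : Ω) (x : Fin 3 → T) => rotErr U R D q B x)
    (|B + 4 * B ^ 2| * (2 * B) + |2 * B ^ 2| * (2 * B) + |2 * B ^ 2| * (2 * B)
      + |3 * B ^ 2| * (2 * B) + |B ^ 2| * (2 * B)) := by
  refine ⟨fun _ => measurable_const, fun ω x => ?_⟩
  have h : ∀ (c v : ℝ), |v| ≤ 2 * B → |c * v| ≤ |c| * (2 * B) := fun c v hv =>
    (abs_mul _ _).trans_le (mul_le_mul_of_nonneg_left hv (abs_nonneg _))
  exact (abs_add_le _ _).trans (add_le_add ((abs_add_le _ _).trans (add_le_add ((abs_add_le _ _).trans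
    (add_le_add ((abs_add_le _ _).trans (add_le_add
      (h _ _ ((btest_sync hm hp H (0 : Fin 3) 1).bound ω x))
      (h _ _ ((btest_sync hm hp H (0 : Fin 3) 2).bound ω x))))
      (h _ _ ((btest_sync hm hp H (2 : Fin 3) 1).bound ω x))))
      (h _ _ ((btest_self hm hp H (0 : Fin 3)).bound ω x))))
      (h _ _ ((btest_self hm hp H (1 : Fin 3)).bound ω x)))

theorem btest_rotErr_ite (l : Fin (K + 1)) : BTest (fun (_ : Ω) (x : Fin 3 → T) =>
    if U (x 0) (x 1) = l then rotErr U R D q B x else 0)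
    (|B + 4 * B ^ 2| * (2 * B) + |2 * B ^ 2| * (2 * B) + |2 * B ^ 2| * (2 * B)
      + |3 * B ^ 2| * (2 * B) + |B ^ 2| * (2 * B)) :=
  ⟨fun _ => measurable_const, fun ω x => by
    by_cases h : U (x 0) (x 1) = l
    · simpa [h] using (btest_rotErr hm hp H).bound ω x
    · simpa [h] using (abs_nonneg _).trans ((btest_rotErr hm hp H).bound ω x)⟩

/-- Summed over the levels, that error is governed by the two global errors. -/
theorem rotErr_le :
    ∑ l, reavg μ u 3 (fun _ x => if U (x 0) (x 1) = l then rotErr U R D q B x else 0)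
      ≤ δ * (13 * B ^ 2) := by
  rw [← reavg_sum hm hp _ fun l _ => btest_rotErr_ite hm hp H l]
  simp only [Finset.sum_ite_eq, Finset.mem_univ, if_true]
  set c := ![B + 4 * B ^ 2, 2 * B ^ 2, 2 * B ^ 2, 3 * B ^ 2, B ^ 2] with hc
  set f : Fin 5 → (Fin 3 → T) → ℝ := ![fun x => mabs (R (x 0) (x 1) - q (U (x 0) (x 1))),
    fun x => mabs (R (x 0) (x 2) - q (U (x 0) (x 2))),
    fun x => mabs (R (x 2) (x 1) - q (U (x 2) (x 1))),
    fun x => mabs (R (x 0) (x 0) - D), fun x => mabs (R (x 1) (x 1) - D)] with hf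
  have hB0 : 0 ≤ B := zero_le_one.trans H.one_le
  have e : (fun (_ : Ω) x => rotErr U R D q B x) = fun _ x => ∑ i, c i * f i x := by
    funext _ x
    simp only [Fin.sum_univ_five, hc, hf, Matrix.cons_val_zero, Matrix.cons_val_one, Matrix.cons_val,
      rotErr]
  rw [e, reavg_sum hm hp _ (fun i _ => bTest_const (fun x => c i * f i x) fun x =>
    Finset.single_le_sum (f := fun x => |c i * f i x|) (fun _ _ => abs_nonneg _) (Finset.mem_univ x))]
  have he : ∀ i, reavg μ u 3 (fun _ => f i) ≤ δ := fun i => by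
    fin_cases i
    · exact sync_err3 hm hp H
    · exact sync_err3' hm hp H
    · exact sync_err3'' hm hp H
    · exact self_err3 hm hp H 0
    · exact self_err3 hm hp H 1
  have hc0 : ∀ i, 0 ≤ c i := fun i => by fin_cases i <;> simp [hc] <;> positivity
  refine (Finset.sum_le_sum fun i _ => (reavg_smul (μ := μ) (u := u) (c i) fun _ => f i).trans_le
    (mul_le_mul_of_nonneg_left (he i) (hc0 i))).trans ?_
  rw [← Finset.sum_mul, mul_comm]
  refine mul_le_mul_of_nonneg_left ?_ H.del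
  simp only [Fin.sum_univ_five, hc, Matrix.cons_val_zero, Matrix.cons_val_one, Matrix.cons_val]
  nlinarith [le_mul_of_one_le_left hB0 H.one_le]

/-- The level identity is close to its form in the paths. -/
theorem rotLev_close {a : ℝ} (ha : |a| ≤ B) (l : Fin (K + 1)) :
    mabs (rotLev μ u U R C a l - mexp μ u 3 (rotObs U C D q a l)) ≤ reavg μ u 3 (fun _ x => if U (x 0) (x 1) = l then rotErr U R D q B x else 0) := by
  have hB0 : 0 ≤ B := zero_le_one.trans H.one_le
  have hD : MTest (fun (_ : Ω) (_ : Fin 3 → T) => D) B := mtest_const fun _ => H.Db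
  have hQ : MTest (fun (_ : Ω) (_ : Fin 3 → T) => q l) B := mtest_const fun _ => H.qb l
  have s1 := hQ.smul a
  have s2 := (hQ.mul (mtest_C hm hp H (1 : Fin 3) 0)).mul hQ
  have s3 := (hD.mul (mtest_C hm hp H (0 : Fin 3) 1)).mul hD
  have s4 := (((mtest_q hm hp H (0 : Fin 3) 2).mul (mtest_C hm hp H 2 0)).mul hQ).smul (2 : ℝ)
  have s5 := (hD.mul ((mtest_C hm hp H (0 : Fin 3) 2).mul (mtest_q hm hp H 2 1))).smul (2 : ℝ)
  have hG := ((((s1.add s2).sub s3).sub s4).add s5).ite fun x => U (x 0) (x 1) = l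
  have r01 := mtest_R hm hp H (0 : Fin 3) 1
  have hF := (((((r01.smul a).add ((r01.mul (mtest_C hm hp H 1 0)).mul r01)).sub
    (((mtest_R hm hp H (0 : Fin 3) 0).mul (mtest_C hm hp H 0 1)).mul (mtest_R hm hp H 1 1))).sub
    ((((mtest_R hm hp H (0 : Fin 3) 2).mul (mtest_C hm hp H 2 0)).mul r01).smul (2 : ℝ))).add
    ((((mtest_R hm hp H (0 : Fin 3) 0).mul (mtest_C hm hp H 0 2)).mul
      (mtest_R hm hp H 2 1)).smul (2 : ℝ))).ite fun x => U (x 0) (x 1) = l
  refine mexp_close (G := rotObs U C D q a l) hm hp hF hG (E := |B + 4 * B ^ 2| * (2 * B)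
      + |2 * B ^ 2| * (2 * B) + |2 * B ^ 2| * (2 * B) + |3 * B ^ 2| * (2 * B) + |B ^ 2| * (2 * B))
    (btest_rotErr_ite hm hp H l) fun ω x => ?_
  dsimp only [rotObs, rotErr]
  have := mabs_nonneg (R (x 0) (x 1) - q (U (x 0) (x 1)))
  have := mabs_nonneg (R (x 0) (x 2) - q (U (x 0) (x 2)))
  have := mabs_nonneg (R (x 2) (x 1) - q (U (x 2) (x 1)))
  have := mabs_nonneg (R (x 0) (x 0) - D)
  have := mabs_nonneg (R (x 1) (x 1) - D)
  by_cases hx : U (x 0) (x 1) = l
  swap
  · simp only [hx, if_false, sub_zero, mabs_zero]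
    positivity
  simp only [hx, if_true]
  have e0 : mabs (a • R (x 0) (x 1) - a • q l) ≤ B * mabs (R (x 0) (x 1) - q l) := by
    rw [← smul_sub, mabs_smul]
    exact mul_le_mul_of_nonneg_right ha (mabs_nonneg _)
  have e1 := mabs_tri_sub (A := R (x 0) (x 1)) (B' := q l) (H.qb l) (H.Cb ω (x 1) (x 0))
    (H.Rb (x 0) (x 1))
  have e2 := mabs_tri_sub (A := R (x 0) (x 0)) (B' := D) H.Db (H.Cb ω (x 0) (x 1))
    (H.Rb (x 1) (x 1))
  have e3 := mabs_tri_sub (A := R (x 0) (x 2)) (B' := q l) (H.qb (U (x 0) (x 2)))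
    (H.Cb ω (x 2) (x 0)) (H.Rb (x 0) (x 1))
  have e4 := mabs_tri_sub (A := R (x 0) (x 0)) (B' := q (U (x 2) (x 1))) H.Db
    (H.Cb ω (x 0) (x 2)) (H.Rb (x 2) (x 1))
  rw [Matrix.mul_assoc D (C ω (x 0) (x 2)) (q (U (x 2) (x 1)))] at e4
  refine (congrArg mabs (show _ = (a • R (x 0) (x 1) - a • q l)
      + (R (x 0) (x 1) * C ω (x 1) (x 0) * R (x 0) (x 1) - q l * C ω (x 1) (x 0) * q l)
      - (R (x 0) (x 0) * C ω (x 0) (x 1) * R (x 1) (x 1) - D * C ω (x 0) (x 1) * D)
      - (2 : ℝ) • (R (x 0) (x 2) * C ω (x 2) (x 0) * R (x 0) (x 1)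
          - q (U (x 0) (x 2)) * C ω (x 2) (x 0) * q l)
      + (2 : ℝ) • (R (x 0) (x 0) * C ω (x 0) (x 2) * R (x 2) (x 1)
          - D * (C ω (x 0) (x 2) * q (U (x 2) (x 1)))) by simp only [smul_sub]; abel)).trans_le ?_
  refine ((mabs_add _ _).trans (add_le_add ((mabs_sub _ _).trans (add_le_add ((mabs_sub _ _).trans
    (add_le_add ((mabs_add _ _).trans (add_le_add e0 e1)) e2))
    ((mabs_smul _ _).trans_le (mul_le_mul_of_nonneg_left e3 (abs_nonneg _)))))
    ((mabs_smul _ _).trans_le (mul_le_mul_of_nonneg_left e4 (abs_nonneg _))))).trans ?_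
  rw [abs_two]
  linarith

/-- The expectation of that observable. -/
theorem rotObs_eq (a : ℝ) (l : Fin (K + 1)) :
    mexp μ u 3 (rotObs U C D q a l)
      = (a * levLaw μ u U l) • q l
        + q l * mexp μ u 2 (fun ω x => if U (x 0) (x 1) = l then C ω (x 1) (x 0) else 0) * q l
        - D * mexp μ u 2 (fun ω x => if U (x 0) (x 1) = l then C ω (x 0) (x 1) else 0) * D
        - (2 : ℝ) • (mexp μ u 3 (fun ω x =>
            if U (x 0) (x 1) = l then q (U (x 0) (x 2)) * C ω (x 2) (x 0) else 0) * q l)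
        + (2 : ℝ) • (D * mexp μ u 3 (fun ω x =>
            if U (x 0) (x 1) = l then C ω (x 0) (x 2) * q (U (x 2) (x 1)) else 0)) := by
  have hD : MTest (fun (_ : Ω) (_ : Fin 3 → T) => D) B := mtest_const fun _ => H.Db
  have hQ : MTest (fun (_ : Ω) (_ : Fin 3 → T) => q l) B := mtest_const fun _ => H.qb l
  have t1 := hQ.ite (fun x => U (x 0) (x 1) = l)
  have t2 := (mtest_C hm hp H (1 : Fin 3) 0).ite fun x => U (x 0) (x 1) = l
  have t3 := (mtest_C hm hp H (0 : Fin 3) 1).ite fun x => U (x 0) (x 1) = l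
  have t4 := ((mtest_q hm hp H (0 : Fin 3) 2).mul (mtest_C hm hp H 2 0)).ite
    fun x => U (x 0) (x 1) = l
  have t5 := ((mtest_C hm hp H (0 : Fin 3) 2).mul (mtest_q hm hp H 2 1)).ite
    fun x => U (x 0) (x 1) = l
  have u1 := t1.smul a
  have u2 := (hQ.mul t2).mul hQ
  have u3 := (hD.mul t3).mul hD
  have u4 := (t4.mul hQ).smul (2 : ℝ)
  have u5 := (hD.mul t5).smul (2 : ℝ)
  unfold rotObs
  rw [show (fun ω (x : Fin 3 → T) => if U (x 0) (x 1) = l then
      a • q l + q l * C ω (x 1) (x 0) * q l - D * C ω (x 0) (x 1) * D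
        - (2 : ℝ) • (q (U (x 0) (x 2)) * C ω (x 2) (x 0) * q l)
        + (2 : ℝ) • (D * (C ω (x 0) (x 2) * q (U (x 2) (x 1)))) else 0)
      = fun ω x => a • (if U (x 0) (x 1) = l then q l else 0)
        + q l * (if U (x 0) (x 1) = l then C ω (x 1) (x 0) else 0) * q l
        - D * (if U (x 0) (x 1) = l then C ω (x 0) (x 1) else 0) * D
        - (2 : ℝ) • ((if U (x 0) (x 1) = l then q (U (x 0) (x 2)) * C ω (x 2) (x 0) else 0) * q l)
        + (2 : ℝ) • (D * (if U (x 0) (x 1) = l then C ω (x 0) (x 2) * q (U (x 2) (x 1)) else 0))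
      from by funext ω x; split_ifs <;> simp,
    mexp_add hm hp (((u1.add u2).sub u3).sub u4) u5, mexp_sub hm hp ((u1.add u2).sub u3) u4,
    mexp_sub hm hp (u1.add u2) u3, mexp_add hm hp u1 u2, mexp_smul, mexp_smul, mexp_smul,
    mexp_mul_const hm hp _ (hQ.mul t2), mexp_const_mul hm hp _ t2,
    mexp_mul_const hm hp _ (hD.mul t3), mexp_const_mul hm hp _ t3,
    mexp_mul_const hm hp _ t4, mexp_const_mul hm hp _ t5]
  congr 1
  congr 1
  congr 1
  congr 1
  · rw [mul_smul]
    congr 1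
    ext i j
    simp only [mexp, Matrix.of_apply, Matrix.smul_apply, smul_eq_mul, levLaw]
    rw [mul_comm, ← reavg_smul, ← reavg_snoc (n := 2) hm hp
      (f := fun _ x => q l i j * (if U (x 0) (x 1) = l then 1 else 0))]
    refine integral_congr_ae (Eventually.of_forall fun ω => congrArg _ (funext fun x => ?_))
    simp only [Fin.castSucc_zero, show ((1 : Fin 2).castSucc : Fin 3) = 1 from rfl]
    split_ifs <;> simp
  · congr 2
    ext i j
    exact reavg_snoc (n := 2) hm hp (f := fun ω x => (if U (x 0) (x 1) = l then C ω (x 1) (x 0) else 0 :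
      Matrix (Fin d) (Fin d) ℝ) i j)
  · congr 2
    ext i j
    exact reavg_snoc (n := 2) hm hp (f := fun ω x => (if U (x 0) (x 1) = l then C ω (x 0) (x 1) else 0 :
      Matrix (Fin d) (Fin d) ℝ) i j)

/-- The identity of two replicas at a level, in terms of the paths. -/
theorem rotLev_le {a : ℝ} (ha : |a| ≤ B) (l : Fin (K + 1)) :
    mabs (rotLev μ u U R C a l
      - (dm l • ((a • 1 - ∑ j, dm j • (q j * p j)) * q l - D * p l * D)
        + (2 : ℝ) • (D * tripF dm p q l)))
      ≤ reavg μ u 3 (fun _ x => if U (x 0) (x 1) = l then rotErr U R D q B x else 0)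
        + ε * sdC K d B := by
  have hB0 : 0 ≤ B := zero_le_one.trans H.one_le
  set P := mexp μ u 2 fun ω x => if U (x 0) (x 1) = l then C ω (x 0) (x 1) else 0 with hP
  set P' := mexp μ u 2 fun ω x => if U (x 0) (x 1) = l then C ω (x 1) (x 0) else 0 with hP'
  set X := mexp μ u 3 (fun ω x =>
    if U (x 0) (x 1) = l then q (U (x 0) (x 2)) * C ω (x 2) (x 0) else 0) with hX
  set Y := mexp μ u 3 (fun ω x =>
    if U (x 0) (x 1) = l then C ω (x 0) (x 2) * q (U (x 2) (x 1)) else 0) with hY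
  set E := (a * levLaw μ u U l) • q l + q l * P' * q l - D * P * D - (2 : ℝ) • (X * q l)
    + (2 : ℝ) • (D * Y) with hE
  have h1 := rotLev_close hm hp H ha l
  rw [rotObs_eq hm hp H a l] at h1
  have h2 : mabs (E - (dm l • ((a • 1 - ∑ j, dm j • (q j * p j)) * q l - D * p l * D)
        + (2 : ℝ) • (D * tripF dm p q l)))
      ≤ ε * (3 * B ^ 2) + 2 * (((K : ℝ) + 1) * (B * (((d : ℝ) ^ 2 + 2) * (B * ε)))) * B
        + 2 * (B * (((K : ℝ) + 1) * ((5 * (d : ℝ) ^ 3 + 10) * (B ^ 2 * ε)))) := by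
    have ha' : |a * (levLaw μ u U l - dm l)| ≤ B * ε :=
      (abs_mul _ _).trans_le (mul_le_mul ha (H.law l) (abs_nonneg _) hB0)
    have k1 : mabs (P' - dm l • p l) ≤ ε := part' hm hp H l
    have k2 : mabs (P - dm l • p l) ≤ ε := H.part l
    have k3 : mabs (X - (dm l / 2) • ((∑ j, dm j • (q j * p j)) + q l * p l))
      ≤ ((K : ℝ) + 1) * (B * (((d : ℝ) ^ 2 + 2) * (B * ε))) := rotX_le hm hp H l
    have k4 : mabs (Y - tripF dm p q l)
      ≤ ((K : ℝ) + 1) * ((5 * (d : ℝ) ^ 3 + 10) * (B ^ 2 * ε)) := rotY_le hm hp H l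
    have k := mabs_split (b := B) (e1 := ε) ha' (H.qb l) H.Db k1 k2 k3 k4
    rw [← level_split a (levLaw μ u U l) (dm l) P P' X Y] at k
    exact k.trans_eq (by ring)
  refine (le_trans (le_of_eq (congrArg mabs (sub_add_sub_cancel _ E _).symm)) (mabs_add _ _)).trans ?_
  rw [sdC]
  have : 0 ≤ ε * B ^ 2 := mul_nonneg H.eps (sq_nonneg B)
  refine (add_le_add h1 h2).trans ?_
  linarith

/-- The identities of all levels together. -/
theorem rotLev_sum_le {a : ℝ} (ha : |a| ≤ B) :
    ∑ l, mabs (rotLev μ u U R C a l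
      - (dm l • ((a • 1 - ∑ j, dm j • (q j * p j)) * q l - D * p l * D)
        + (2 : ℝ) • (D * tripF dm p q l)))
      ≤ δ * (13 * B ^ 2) + ε * (((K : ℝ) + 1) * sdC K d B) := by
  refine (Finset.sum_le_sum fun l _ => rotLev_le hm hp H ha l).trans ?_
  rw [Finset.sum_add_distrib]
  refine add_le_add (rotErr_le hm hp H) (le_of_eq ?_)
  simp
  ring

end Vale.Agent.P166.Casc
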