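import Vale.Agent.P166.Casc.VDefect
import Vale.Agent.P166.Casc.VLevelU
import Vale.Agent.P166.Casc.VSD

/-!
The rotation identities of the penalised spins: with fine atoms, the two identities in the overlaps
of one type hold up to a small error, uniformly in the size of the tree.
-/

open MeasureTheory ProbabilityTheory Filter Topology Set

namespace Vale.Agent.P166.Casc

open Vale.Agent.P157.Casc Vale.Agent.P157.Casc.Itp VItp Vale.Agent.P166.Pen Formula

section Mat

variable {N M d R D K n : ℕ}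

/-- The overlap matrix of two states on a set of coordinates. -/
noncomputable def rmat (π : VPrior N d R D) (S : Finset (Fin N)) (x y : VState π K n) :
    Matrix (Fin d) (Fin d) ℝ :=
  Matrix.of fun k l => vov π S k l x y

/-- The covariance of the moves of two states as a matrix. -/
noncomputable def cmat (P : VPot d) (π : VPrior N d R D) (Φ : VFac N d K)
    (c : VCIdx N M d R D K → ℝ) (θ : ℝ) (pF : Fin (K + 1) → Fin d → Fin d → ℝ)
    (G : VGIdx N M d R D K n → ℝ) (x y : VState π K n) : Matrix (Fin d) (Fin d) ℝ :=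
  Matrix.of fun k l => rC P π Φ c θ pF k l G x y

variable (P : VPot d) (π : VPrior N d R D) (Φ : VFac N d K) {c : VCIdx N M d R D K → ℝ}
  {S : Finset (Fin N)} {θ : ℝ} {pF : Fin (K + 1) → Fin d → Fin d → ℝ}

theorem vov_symm (S : Finset (Fin N)) (k l : Fin d) (x y : VState π K n) :
    vov π S k l x y = vov π S l k y x := by
  simp only [vov, mul_comm]

theorem rmat_transpose (S : Finset (Fin N)) (x y : VState π K n) :
    (rmat π S x y).transpose = rmat π S y x :=
  Matrix.ext fun k l => vov_symm π S l k x y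

theorem cmat_transpose (hp : ∀ l k k', pF l k k' = pF l k' k) (G : VGIdx N M d R D K n → ℝ)
    (x y : VState π K n) :
    (cmat P π Φ c θ pF G x y).transpose = cmat P π Φ c θ pF G y x := by
  refine Matrix.ext fun k l => ?_
  simp only [cmat, Matrix.transpose_apply, Matrix.of_apply, rC, vovP, com_comm x.2 y.2, hp _ l k,
    mul_comm (P.g l _)]

/-- The quadratic form of the overlaps against a covariance, as products of matrices. -/
theorem sum_rC_rphi (hp : ∀ l k k', pF l k k' = pF l k' k) (G : VGIdx N M d R D K n → ℝ)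
    (l m : Fin d) (x y z : VState π K n) :
    ∑ k, ∑ k', rC P π Φ c θ pF k k' G x z * rphi π S l m k k' x y z
      = (rmat π S y x * cmat P π Φ c θ pF G x z * rmat π S z x) l m
        - (rmat π S y z * cmat P π Φ c θ pF G z x * rmat π S x x) l m := by
  have e : ∀ k k', rC P π Φ c θ pF k k' G x z = cmat P π Φ c θ pF G z x k' k := fun k k' =>
    congrFun (congrFun (cmat_transpose P π Φ (θ := θ) (c := c) hp G z x) k) k' |>.symm
  simp only [rphi, mul_sub, Finset.sum_sub_distrib]
  congr 1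
  · simp only [Matrix.mul_apply, Finset.sum_mul]
    rw [Finset.sum_comm]
    refine Finset.sum_congr rfl fun k' _ => Finset.sum_congr rfl fun k _ => ?_
    simp only [rmat, cmat, Matrix.of_apply, vov_symm π S k' m z x]
    ring
  · simp only [Matrix.mul_apply, Finset.sum_mul, e]
    refine Finset.sum_congr rfl fun k _ => Finset.sum_congr rfl fun k' _ => ?_
    simp only [rmat, Matrix.of_apply, vov_symm π S k m x x]
    ring

theorem sum_rH_rphi (hp : ∀ l k k', pF l k k' = pF l k' k)
    (hh : ∀ k k' y, P.h k k' y = P.h k' k y) (G : VGIdx N M d R D K n → ℝ)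
    (l m : Fin d) (x y : VState π K n) :
    ∑ k, ∑ k', rH P π Φ c θ pF k k' G x * rphi π S l m k k' x y x = 0 := by
  have e : ∀ k k', rH P π Φ c θ pF k k' G x = rH P π Φ c θ pF k' k G x := fun k k' => by
    simp only [rH, vovH, hh k k', hp _ k k', mul_comm (P.g k _)]
  simp only [rphi, mul_sub, Finset.sum_sub_distrib, sub_eq_zero]
  rw [Finset.sum_comm]
  refine Finset.sum_congr rfl fun k _ => Finset.sum_congr rfl fun k' _ => ?_
  rw [e k' k]
  ring

/-- The weighted kernel of the level identity, averaged. -/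
theorem avg_level (hp : ∀ l k k', pF l k k' = pF l k' k) (hh : ∀ k k' y, P.h k k' y = P.h k' k y)
    [Nonempty (VState π K n)] {w : VState π K n → ℝ} (hw : ∀ x, 0 < w x)
    (G : VGIdx N M d R D K n → ℝ) (a : ℝ) (lv : Fin (K + 1)) (l m : Fin d) :
    avg (vbw P w (vbpat π Φ) (vbspin π Φ) (vqd π Φ) (vpull c) G) 3 (fun x =>
      (if vlev π (x 0) (x 1) = lv then
        a • rmat π S (x 0) (x 1)
          + rmat π S (x 0) (x 1) * cmat P π Φ c θ pF G (x 1) (x 0) * rmat π S (x 0) (x 1)
          - rmat π S (x 0) (x 0) * cmat P π Φ c θ pF G (x 0) (x 1) * rmat π S (x 1) (x 1)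
          - (2 : ℝ) • (rmat π S (x 0) (x 2) * cmat P π Φ c θ pF G (x 2) (x 0) * rmat π S (x 0) (x 1))
          + (2 : ℝ) • (rmat π S (x 0) (x 0) * cmat P π Φ c θ pF G (x 0) (x 2) * rmat π S (x 2) (x 1))
      else 0) m l)
      = a * avg2 (vbw P w (vbpat π Φ) (vbspin π Φ) (vqd π Φ) (vpull c) G)
          (fun x y => (if vlev π x y = lv then 1 else 0) * vov π S l m y x)
        + avg2 (vbw P w (vbpat π Φ) (vbspin π Φ) (vqd π Φ) (vpull c) G)
          (rmain P π Φ w c S θ pF (fun x y => if vlev π x y = lv then 1 else 0) (fun _ y => y) l m G) := by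
  set u := vbw P w (vbpat π Φ) (vbspin π Φ) (vqd π Φ) (vpull c) G with hu
  have hs : ∑ z, gibbs u z = 1 := Itp.sum_gibbs (vbw_pos P _ _ _ hw _ G)
  set R := rmat (K := K) (n := n) π S with hR
  set C := cmat P π Φ c θ pF G with hC
  have hm : ∀ x y, rmain P π Φ w c S θ pF (fun x y => if vlev π x y = lv then 1 else 0) (fun _ y => y)
      l m G x y = (if vlev π x y = lv then 1 else 0) *
        ((R y x * C x y * R y x) l m - (R y y * C y x * R x x) l m
          - 2 * ∑ z, gibbs u z * ((R y x * C x z * R z x) l m - (R y z * C z x * R x x) l m)) := by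
    intro x y
    simp only [rmain, rpha, hR, hC, ← hu, ← sum_rC_rphi P π Φ hp G]
    simp only [mul_left_comm _ (if vlev π x y = lv then (1 : ℝ) else 0), ← Finset.mul_sum,
      Finset.sum_sub_distrib, Finset.sum_add_distrib, sum_rH_rphi P π Φ hp hh]
    rw [Finset.sum_congr rfl fun k _ => Finset.sum_comm, Finset.sum_comm]
    simp only [mul_zero, zero_add, Finset.mul_sum, mul_sub]
    congr 1
    exact Finset.sum_comm
  simp only [avg_cons', avg_zero', Fin.cons_zero, Fin.cons_one,
    show (2 : Fin 3) = Fin.succ 1 from rfl, Fin.cons_succ]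
  rw [avg2_eq, avg2_eq, Finset.mul_sum (a := a), ← Finset.sum_add_distrib]
  refine Finset.sum_congr rfl fun x _ => ?_
  rw [mul_left_comm a, ← mul_add]
  congr 1
  rw [Finset.mul_sum (a := a), ← Finset.sum_add_distrib]
  refine Finset.sum_congr rfl fun y _ => ?_
  rw [mul_left_comm a, ← mul_add, hm x y]
  congr 1
  by_cases h : vlev π x y = lv
  swap; · simp [h]
  simp only [h, if_true, one_mul, Matrix.add_apply, Matrix.sub_apply, Matrix.smul_apply,
    smul_eq_mul]
  have ht : ∀ a b b' e e' f, (R a b * C b' e * R e' f) m l = (R f e' * C e b' * R b a) l m := by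
    intro a b b' e e' f
    rw [← Matrix.transpose_apply (R a b * C b' e * R e' f) l m]
    simp only [hR, hC, Matrix.transpose_mul, rmat_transpose, cmat_transpose P π Φ hp, Matrix.mul_assoc]
  have ht0 : R x y m l = vov π S l m y x := vov_symm π S m l x y
  simp only [ht, ht0]
  rw [Finset.sum_congr rfl fun z _ => show gibbs u z * _ = gibbs u z * (a * vov π S l m y x
      + (R y x * C x y * R y x) l m - (R y y * C y x * R x x) l m)
    - 2 * (gibbs u z * ((R y x * C x z * R z x) l m - (R y z * C z x * R x x) l m)) by ring,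
    Finset.sum_sub_distrib, ← Finset.sum_mul, hs, ← Finset.mul_sum]
  ring

/-- The kernel of the identity of one replica, averaged. -/
theorem avg_diag (hp : ∀ l k k', pF l k k' = pF l k' k) (hh : ∀ k k' y, P.h k k' y = P.h k' k y)
    [Nonempty (VState π K n)] {w : VState π K n → ℝ} (hw : ∀ x, 0 < w x)
    (G : VGIdx N M d R D K n → ℝ) (l m : Fin d) :
    avg (vbw P w (vbpat π Φ) (vbspin π Φ) (vqd π Φ) (vpull c) G) 2 (fun x =>
      (rmat π S (x 0) (x 1) * cmat P π Φ c θ pF G (x 1) (x 0) * rmat π S (x 0) (x 0)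
        - rmat π S (x 0) (x 0) * cmat P π Φ c θ pF G (x 0) (x 1) * rmat π S (x 1) (x 0)) l m)
      = avg2 (vbw P w (vbpat π Φ) (vbspin π Φ) (vqd π Φ) (vpull c) G)
          (rmain P π Φ w c S θ pF (fun _ _ => 1) (fun x _ => x) l m G) := by
  set u := vbw P w (vbpat π Φ) (vbspin π Φ) (vqd π Φ) (vpull c) G with hu
  have hs : ∑ z, gibbs u z = 1 := Itp.sum_gibbs (vbw_pos P _ _ _ hw _ G)
  set D' := fun x z => (rmat π S x x * cmat P π Φ c θ pF G x z * rmat π S z x) l m
    - (rmat π S x z * cmat P π Φ c θ pF G z x * rmat π S x x) l m with hD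
  have hm : ∀ x y, rmain P π Φ w c S θ pF (fun _ _ => 1) (fun x _ => x) l m G x y
      = D' x y - 2 * ∑ z, gibbs u z * D' x z := fun x y => by
    simp only [rmain, rpha, one_mul, ← hu, hD, ← sum_rC_rphi P π Φ hp G]
    simp only [← Finset.mul_sum, Finset.sum_sub_distrib, Finset.sum_add_distrib,
      sum_rH_rphi P π Φ hp hh]
    rw [Finset.sum_congr rfl fun k _ => Finset.sum_comm, Finset.sum_comm]
    simp only [zero_add, Finset.mul_sum]
    congr 1
    exact Finset.sum_comm
  simp only [avg_cons', avg_zero', Matrix.sub_apply]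
  rw [avg2_eq]
  refine Finset.sum_congr rfl fun x _ => ?_
  congr 1
  simp only [hm, mul_sub, Finset.sum_sub_distrib, ← Finset.sum_mul, hs]
  simp only [hD, mul_sub, Finset.sum_sub_distrib]
  simp only [Fin.cons_zero, Fin.cons_one, one_mul]
  ring

end Mat

section Sum

variable {N M K K' L J nA n : ℕ} {τ B lam : ℝ} {γ : Fin K → ℝ}

/-- Averages of the derivative along a move are integrable. -/
theorem integrable_avg2_vtan {T I : Type*} [Fintype T] [Nonempty T] [Fintype I] {M d : ℕ}
    (P : VPot d) {w : T → ℝ} (hw : ∀ x, 0 < w x) (b db : Fin M → Fin d → T → I → ℝ)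
    (bz dbz qd : T → I → ℝ) (lam : I → ℝ) (O : T → T → ℝ) :
    Integrable (fun G => avg2 (vbw P w b bz qd lam G) fun x y => O x y * vtan P b db dbz lam G x)
      (gaus I) := by
  have e : ∀ G, avg2 (vbw P w b bz qd lam G) (fun x y => O x y * vtan P b db dbz lam G x)
      = ∑ i, √(lam i) * (G i * avg2 (vbw P w b bz qd lam G)
          (fun x y => O x y * tdir P b db dbz lam G x i)) := fun G => by
    simp only [avg2, vtan, Finset.mul_sum]
    rw [sum3_comm]
    exact Finset.sum_congr rfl fun i _ => Finset.sum_congr rfl fun x _ =>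
      Finset.sum_congr rfl fun y _ => by ring
  simp only [e]
  refine integrable_finsetSum _ fun i _ => (integrable_coord_mul ?_ (C := (∑ x, ∑ y, |O x y|)
    * tbd P b db dbz) (fun G => ?_) i).const_mul _
  · have := fun x => cont_vgibbs P b bz qd hw lam x
    have := fun x => cont_tdir P b db dbz lam x i
    unfold avg2
    fun_prop
  · refine Itp.abs_avg2_le (vbw_pos P b bz qd hw lam G) fun x y => ?_
    rw [abs_mul]
    exact mul_le_mul ((Finset.single_le_sum (f := fun y => |O x y|) (fun _ _ => abs_nonneg _)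
      (Finset.mem_univ y)).trans (Finset.single_le_sum (f := fun x => ∑ y, |O x y|)
      (fun _ _ => Finset.sum_nonneg fun _ _ => abs_nonneg _) (Finset.mem_univ x)))
      (abs_tdir_le P b db dbz lam G x i) (abs_nonneg _)
      (Finset.sum_nonneg fun _ _ => Finset.sum_nonneg fun _ _ => abs_nonneg _)

/-- The pairing of the velocity of a kernel with a kernel, against a product of two spins. -/
theorem atom_kernel_le {ν : Measure (Fin K → Fin N → ℝ)} {ε : ℝ} (hτ : 0 ≤ τ) (A : Coeffs K nA)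
    (a : Atoms ν (cutSet B K N) ε) (hL : 0 < L) (S : Finset (Fin N))
    (φ : Fin (K' + 1) → ℝ) (hφ : ∀ l, |φ l| ≤ 1) (l m : Fin K) :
    ∀ (sel : VState (penPrior (γ := γ) hτ A a hL J) K' n → VState (penPrior (γ := γ) hτ A a hL J) K' n →
      VState (penPrior (γ := γ) hτ A a hL J) K' n)
    (x y z : VState (penPrior (γ := γ) hτ A a hL J) K' n) (κ : Fin (nker K nA)),
    |∑ i ∈ S, ∑ j ∈ S, rtest (penPrior (γ := γ) hτ A a hL J)
        (fun x y => φ (vlev (penPrior (γ := γ) hτ A a hL J) x y)) sel l m i j x y *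
        ∑ u, dkAtom hτ A a hL J i j κ x.1 u * (penPrior (γ := γ) hτ A a hL J).ker κ z.1 u|
      ≤ τ * B * N := by
  set π := penPrior (γ := γ) hτ A a hL J
  intro sel x y z κ
  set p := fun σ : Fin π.c => a.x (finProdFinEquiv.symm σ).1
  have hmem : ∀ σ, p σ ∈ cutSet B K N := fun σ => a.mem _
  set v := fun σ u => kvec τ B γ (p σ) (kerIdx κ).1 (A.a (kerIdx κ).2) u
  have hdot : ∀ i ∈ S, ∀ j ∈ S, ∑ u, dkAtom hτ A a hL J i j κ x.1 u * π.ker κ z.1 u
      = v x.1 i * v z.1 j - v x.1 j * v z.1 i := fun i _ j _ => by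
    simp only [dkAtom, dker, kerFeat_scale hτ A (hmem x.1), π, penPrior, kerFeat, kfeat,
      Fin.sum_univ_add, Fin.append_left, Fin.append_right, zero_mul, Finset.sum_const_zero,
      add_zero, one_mul, pvel, sub_mul, ite_mul, Finset.sum_sub_distrib, Finset.sum_ite_eq',
      Finset.mem_univ, if_true, v, p]
  have hcs : ∀ (s : VState π K' n) (k : Fin K) σ, |∑ i ∈ S, π.cfg s.1 i k * v σ i|
      ≤ √(τ * B * N / 2) := fun s k σ => by
    refine Real.abs_le_sqrt ((Finset.sum_mul_sq_le_sq_mul_sq S _ _).trans ?_)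
    have h1 : ∑ i ∈ S, π.cfg s.1 i k ^ 2 ≤ τ * (B * N) := by
      refine (Finset.sum_le_sum (g := fun i => τ * p s.1 k i ^ 2) fun i _ => ?_).trans ?_
      · show cfgOf τ γ (p s.1) i k ^ 2 ≤ _
        unfold cfgOf
        split_ifs
        · rw [mul_pow, Real.sq_sqrt hτ]
        · rw [zero_pow two_ne_zero]; positivity
      · rw [← Finset.mul_sum]
        refine mul_le_mul_of_nonneg_left (le_trans ?_ (hmem s.1)) hτ
        exact (Finset.sum_le_sum_of_subset_of_nonneg (Finset.subset_univ S) fun _ _ _ => sq_nonneg _).trans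
          (Finset.single_le_sum (f := fun k => ∑ i, p s.1 k i ^ 2)
            (fun k _ => Finset.sum_nonneg fun i _ => sq_nonneg _) (Finset.mem_univ k))
    have h2 : ∑ i ∈ S, v σ i ^ 2 ≤ 1 / 2 :=
      (Finset.sum_le_sum_of_subset_of_nonneg (Finset.subset_univ S) fun _ _ _ => sq_nonneg _).trans
        (sum_kvec_sq_le hτ (hmem σ) _ (A.l1 _))
    exact (mul_le_mul h1 h2 (Finset.sum_nonneg fun _ _ => sq_nonneg _)
      ((Finset.sum_nonneg fun _ _ => sq_nonneg _).trans h1)).trans_eq (by ring)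
  have e : ∑ i ∈ S, ∑ j ∈ S, rtest π (fun x y => φ (vlev π x y)) sel l m i j x y *
        ∑ u, dkAtom hτ A a hL J i j κ x.1 u * π.ker κ z.1 u
      = φ (vlev π x y) * ((∑ i ∈ S, π.cfg (sel x y).1 i l * v x.1 i) * (∑ j ∈ S, π.cfg x.1 j m * v z.1 j)
          - (∑ i ∈ S, π.cfg (sel x y).1 i l * v z.1 i) * (∑ j ∈ S, π.cfg x.1 j m * v x.1 j)) := by
    rw [Finset.sum_congr rfl fun i hi => Finset.sum_congr rfl fun j hj =>
      show _ = φ (vlev π x y) * ((π.cfg (sel x y).1 i l * v x.1 i) * (π.cfg x.1 j m * v z.1 j)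
        - (π.cfg (sel x y).1 i l * v z.1 i) * (π.cfg x.1 j m * v x.1 j)) by
        rw [hdot i hi j hj, rtest]; ring]
    simp only [← Finset.mul_sum, Finset.sum_sub_distrib, ← Finset.sum_mul]
  have hp : ∀ {a b : ℝ}, |a| ≤ √(τ * B * N / 2) → |b| ≤ √(τ * B * N / 2) → |a * b| ≤ τ * B * N / 2 :=
    fun {a b} ha hb => by
      rw [abs_mul]
      have h0 : 0 ≤ B * N :=
        le_trans (Finset.sum_nonneg fun k _ => Finset.sum_nonneg fun j _ => sq_nonneg _) (hmem x.1)
      refine (mul_le_mul ha hb (abs_nonneg _) (Real.sqrt_nonneg _)).trans_eq ?_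
      exact Real.mul_self_sqrt (by rw [mul_assoc]; positivity)
  refine (congrArg abs e).trans_le ?_
  rw [abs_mul]
  refine (mul_le_of_le_one_left (abs_nonneg _) (hφ _)).trans ((abs_sub _ _).trans
    ((add_le_add (hp (hcs _ _ _) (hcs _ _ _)) (hp (hcs _ _ _) (hcs _ _ _))).trans_eq (add_halves _)))

theorem vtan_diag_zero {ν : Measure (Fin K → Fin N → ℝ)} {ε : ℝ} (hτ : 0 ≤ τ) (A : Coeffs K nA)
    (a : Atoms ν (cutSet B K N) ε) (hL : 0 < L) (P : VPot K) (Φ : VFac N K K') (i : Fin N)
    (lamV G : VGIdx N M K (nker K nA) (N + L + J) K' n → ℝ)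
    (x : VState (penPrior (γ := γ) hτ A a hL J) K' n) :
    vtan P (vbpat (penPrior (γ := γ) hτ A a hL J) Φ) (dvbpat (penPrior (γ := γ) hτ A a hL J) i i)
      (dvbspin (penPrior (γ := γ) hτ A a hL J) Φ (dkAtom hτ A a hL J) i i) lamV G x = 0 := by
  have h1 : ∀ (a' : Fin M) k q, dvbpat (penPrior (γ := γ) hτ A a hL J) i i a' k x q = 0 := fun a' k q => by
    rcases q with (⟨a'', u⟩ | u) | ⟨o, p⟩ <;> simp [dvbpat, treeDir, drowZ, dcfg]
  have h2 : ∀ q, dvbspin (M := M) (penPrior (γ := γ) hτ A a hL J) Φ (dkAtom hτ A a hL J) i i x q = 0 :=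
    fun q => by
    have hd : ∀ κ u, dker τ B γ L J A i i (a.x (finProdFinEquiv.symm x.1).1) κ u = 0 := fun κ u => by
      refine Fin.addCases (fun u => ?_) (fun u => ?_) u
      · refine Fin.addCases (fun u => ?_) (fun u => ?_) u <;> simp [dker, pvel]
      · simp [dker]
    rcases q with p | ⟨o, p | p | p⟩ <;> simp [dvbspin, treeDir, dspinL, dkAtom, dcfg, hd]
  simp [vtan, tdir, h1, h2]

/-- The identity of one test, for given weights of the vertices. -/
theorem rot_sum (hτ : 0 ≤ τ) (hlam : 0 ≤ lam) (d : OIdx K → ℝ) (A : Coeffs K nA) (hL : 0 < L)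
    (P : VPot K) (Φ : VFac N K K') (hN : 0 < N) (Cb : ℝ) (S : Finset (Fin N)) (t : Finset (Fin K))
    (hS : ∀ u ∈ S, typ γ u = t) (l m : Fin K) :
    ∀ η > 0, ∃ δ > 0, ∀ {ε : ℝ} (a : Atoms (spinMeas τ γ B lam d N) (cutSet B K N) ε), ε ≤ δ →
      ∀ (n : ℕ), 0 < n → ∀ W : Node K' n → ℝ, (∀ u, 0 < W u) →
      ∀ c : VCIdx N M K (nker K nA) (N + L + J) K' → ℝ, (∀ q, c q ∈ Icc 0 Cb) →
      (∀ u, c (Sum.inl (Sum.inr u)) = 0) →
      ∀ (θ : ℝ) (pF : Fin (K' + 1) → Fin K → Fin K → ℝ)
        (e : Fin (K' + 1) → Fin (nker K nA) → (p : Fin (N + L + J)) → Fin (p.val + 2) → ℝ),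
      TypeVar Φ c S θ pF e → ∀ φ : Fin (K' + 1) → ℝ, (∀ l, |φ l| ≤ 1) →
      |(∫ G, avg2 (vbw P (vstw (penPrior (γ := γ) hτ A a hL J) W)
            (vbpat (penPrior (γ := γ) hτ A a hL J) Φ) (vbspin (penPrior (γ := γ) hτ A a hL J) Φ)
            (vqd (penPrior (γ := γ) hτ A a hL J) Φ) (vpull c) G)
          (fun x y => φ (vlev (penPrior (γ := γ) hτ A a hL J) x y) *
            vov (penPrior (γ := γ) hτ A a hL J) S l m y x) ∂gaus _) * ((S.card - 1) / N)
        + ∫ G, avg2 (vbw P (vstw (penPrior (γ := γ) hτ A a hL J) W)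
            (vbpat (penPrior (γ := γ) hτ A a hL J) Φ) (vbspin (penPrior (γ := γ) hτ A a hL J) Φ)
            (vqd (penPrior (γ := γ) hτ A a hL J) Φ) (vpull c) G)
          (rmain P (penPrior (γ := γ) hτ A a hL J) Φ (vstw (penPrior (γ := γ) hτ A a hL J) W) c S θ pF
            (fun x y => φ (vlev (penPrior (γ := γ) hτ A a hL J) x y)) (fun _ y => y) l m G) ∂gaus _|
        ≤ η + 4 * (pertSize e * (τ * B)) / N ∧
      |∫ G, avg2 (vbw P (vstw (penPrior (γ := γ) hτ A a hL J) W)
            (vbpat (penPrior (γ := γ) hτ A a hL J) Φ) (vbspin (penPrior (γ := γ) hτ A a hL J) Φ)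
            (vqd (penPrior (γ := γ) hτ A a hL J) Φ) (vpull c) G)
          (rmain P (penPrior (γ := γ) hτ A a hL J) Φ (vstw (penPrior (γ := γ) hτ A a hL J) W) c S θ pF
            (fun x y => φ (vlev (penPrior (γ := γ) hτ A a hL J) x y)) (fun x _ => x) l m G) ∂gaus _|
        ≤ η + 4 * (pertSize e * (τ * B)) / N := by
  intro η hη
  have hN' : (0 : ℝ) < N := Nat.cast_pos.2 hN
  have hev : ∀ (i j : Fin N) {Q Q' : (Fin N → Fin K → ℝ) → (Fin N → Fin K → ℝ) → ℝ},
      (Continuous fun p : (Fin N → Fin K → ℝ) × (Fin N → Fin K → ℝ) => Q p.1 p.2) →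
      (Continuous fun p : (Fin N → Fin K → ℝ) × (Fin N → Fin K → ℝ) => Q' p.1 p.2) →
      (∀ y x, HasDerivAt (fun s => Q y fun u k => prot i j s (fun u => x u k) u) (Q' y x) 0) →
      (∀ y x, i = j → Q' y x = 0) →
      ∀ᶠ δ in 𝓝[>] (0 : ℝ), ∀ {ε : ℝ} (a : Atoms (spinMeas τ γ B lam d N) (cutSet B K N) ε), ε ≤ δ →
        ∀ (n : ℕ), 0 < n → ∀ W : Node K' n → ℝ, (∀ u, 0 < W u) →
        ∀ c : VCIdx N M K (nker K nA) (N + L + J) K' → ℝ, (∀ q, c q ∈ Icc 0 Cb) →
        (∀ u, c (Sum.inl (Sum.inr u)) = 0) →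
        ∀ (θ : ℝ) (pF : Fin (K' + 1) → Fin K → Fin K → ℝ)
          (e : Fin (K' + 1) → Fin (nker K nA) → (p : Fin (N + L + J)) → Fin (p.val + 2) → ℝ),
        TypeVar Φ c S θ pF e → i ∈ S → j ∈ S → ∀ φ : Fin (K' + 1) → ℝ, (∀ l, |φ l| ≤ 1) →
        |vpair P (vstw (penPrior (γ := γ) hτ A a hL J) W) (vbpat (penPrior (γ := γ) hτ A a hL J) Φ)
          (vbspin (penPrior (γ := γ) hτ A a hL J) Φ) (vqd (penPrior (γ := γ) hτ A a hL J) Φ) (vpull c)
          (fun G x y => φ (vlev (penPrior (γ := γ) hτ A a hL J) x y) *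
            (Q ((penPrior (γ := γ) hτ A a hL J).cfg y.1) ((penPrior (γ := γ) hτ A a hL J).cfg x.1) *
              vtan P (vbpat (penPrior (γ := γ) hτ A a hL J) Φ)
                (dvbpat (penPrior (γ := γ) hτ A a hL J) i j)
                (dvbspin (penPrior (γ := γ) hτ A a hL J) Φ (dkAtom hτ A a hL J) i j) (vpull c) G x
              + Q' ((penPrior (γ := γ) hτ A a hL J).cfg y.1)
                ((penPrior (γ := γ) hτ A a hL J).cfg x.1)))| ≤ η := by
    intro i j Q Q' hQc hQ'c hQ hzero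
    by_cases hij : i = j
    · refine Eventually.of_forall fun δ {ε} a _ n hn W hW c _ _ θ pF e _ _ _ φ _ => ?_
      subst hij
      simp [vtan_diag_zero, hzero _ _ rfl, vpair, avg2, hη.le]
    by_cases ht : typ γ i = typ γ j
    swap
    · exact Eventually.of_forall fun δ {ε} a _ n hn W hW c _ _ θ pF e _ hi hj _ _ =>
        absurd ((hS i hi).trans (hS j hj).symm) ht
    obtain ⟨δ0, hδ0, h⟩ := rot_defect (M := M) (J := J) hτ hlam d A hL P Φ Cb hij ht hQc hQ'c hQ η hη
    filter_upwards [Ioo_mem_nhdsGT hδ0] with δ hδ ε a hε n hn W hW c hc hc0 θ pF e hT hi hj φ hφ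
    exact h a (hε.trans hδ.2.le) n hn W hW c hc hc0 S θ pF e hT hi hj φ hφ
  have hd : ∀ (i j : Fin N) (q : Fin K) (x : Fin N → Fin K → ℝ) (u : Fin N),
      HasDerivAt (fun s => prot i j s (fun u => x u q) u) (dcfg i j x u q) 0 := fun i j q x u =>
    hasDerivAt_prot i j (fun u => x u q) u
  have hall := (eventually_all.2 fun i => eventually_all.2 fun j =>
      (hev i j (Q := fun y x => y i l * x j m) (Q' := fun y x => y i l * dcfg i j x j m)
        (by fun_prop) (by unfold dcfg; split_ifs <;> fun_prop)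
        (fun y x => (hd i j m x j).const_mul _) (fun y x h => by subst h; simp [dcfg])).and
      (hev i j (Q := fun _ x => x i l * x j m)
        (Q' := fun _ x => dcfg i j x i l * x j m + x i l * dcfg i j x j m)
        (by fun_prop) (by unfold dcfg; split_ifs <;> fun_prop)
        (fun y x => ((hd i j l x i).mul (hd i j m x j)).congr_deriv (by simp [prot]))
        (fun y x h => by subst h; simp [dcfg])))
  obtain ⟨δ, hδ, hδ'⟩ := ((eventually_mem_nhdsWithin (s := Ioi (0 : ℝ)) (a := 0)).and hall).exists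
  refine ⟨δ, hδ, fun {ε} a hε n hn W hW c hc hc0 θ pF e hT φ hφ => ?_⟩
  set π := penPrior (γ := γ) hτ A a hL J
  have : Nonempty (VState π K' n) := ⟨(⟨0, π.c_pos⟩, fun _ => ⟨0, hn⟩)⟩
  set w := vstw π W
  have hw : ∀ st, 0 < w st := fun st => mul_pos (π.w_pos _) (P157.Casc.wgt_pos _ hW _)
  set u := fun G => vbw P w (vbpat π Φ) (vbspin π Φ) (vqd π Φ) (vpull c) G
  have key : ∀ (sel : VState π K' n → VState π K' n → VState π K' n)
      (Qd : Fin N → Fin N → VState π K' n → VState π K' n → ℝ) (V : VState π K' n → VState π K' n → ℝ),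
      (∀ i ∈ S, ∀ j ∈ S, |∫ G, avg2 (u G) (fun x y =>
          rtest π (fun x y => φ (vlev π x y)) sel l m i j x y *
            vtan P (vbpat π Φ) (dvbpat π i j) (dvbspin π Φ (dkAtom hτ A a hL J) i j) (vpull c) G x
          + Qd i j x y) ∂gaus _| ≤ η) →
      (∀ x y, ∑ i ∈ S, ∑ j ∈ S, Qd i j x y = (N : ℝ) ^ 2 * V x y) →
      |(∫ G, avg2 (u G) V ∂gaus _) + ∫ G, avg2 (u G)
          (rmain P π Φ w c S θ pF (fun x y => φ (vlev π x y)) sel l m G) ∂gaus _|
        ≤ η + 4 * (pertSize e * (τ * B)) / N := by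
    intro sel Qd V hpair hsum
    have hQi : ∀ O : VState π K' n → VState π K' n → ℝ,
        Integrable (fun G => avg2 (u G) O) (gaus (VGIdx N M K (nker K nA) (N + L + J) K' n)) := fun O => by
      refine integrable_bdd ?_ (C := ∑ x, ∑ y, |O x y|) fun G =>
        Itp.abs_avg2_le (vbw_pos P _ _ _ hw _ G) fun x y =>
          (Finset.single_le_sum (f := fun y => |O x y|) (fun _ _ => abs_nonneg _) (Finset.mem_univ y)).trans
            (Finset.single_le_sum (f := fun x => ∑ y, |O x y|)
              (fun _ _ => Finset.sum_nonneg fun _ _ => abs_nonneg _) (Finset.mem_univ x))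
      have := fun x => cont_vgibbs P (vbpat π Φ) (vbspin π Φ) (vqd π Φ) hw (vpull c) x
      unfold avg2; fun_prop
    have hti := fun i j => integrable_avg2_vtan P hw (vbpat π Φ) (dvbpat π i j) (vbspin π Φ)
      (dvbspin π Φ (dkAtom hτ A a hL J) i j) (vqd π Φ) (vpull c)
      (rtest π (fun x y => φ (vlev π x y)) sel l m i j)
    have hsplit : ∀ i j, ∫ G, avg2 (u G) (fun x y =>
          rtest π (fun x y => φ (vlev π x y)) sel l m i j x y *
            vtan P (vbpat π Φ) (dvbpat π i j) (dvbspin π Φ (dkAtom hτ A a hL J) i j) (vpull c) G x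
          + Qd i j x y) ∂gaus _
        = vpair P w (vbpat π Φ) (vbspin π Φ) (vqd π Φ) (vpull c) (fun G x y =>
          rtest π (fun x y => φ (vlev π x y)) sel l m i j x y *
            vtan P (vbpat π Φ) (dvbpat π i j) (dvbspin π Φ (dkAtom hτ A a hL J) i j) (vpull c) G x)
          + ∫ G, avg2 (u G) (Qd i j) ∂gaus _ := fun i j => by
      rw [vpair, ← integral_add (hti i j) (hQi _)]
      refine integral_congr_ae (ae_of_all _ fun G => ?_)
      simp only [avg2, mul_add, Finset.sum_add_distrib]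
      rfl
    have hV : ∑ i ∈ S, ∑ j ∈ S, ∫ G, avg2 (u G) (Qd i j) ∂gaus _
        = (N : ℝ) ^ 2 * ∫ G, avg2 (u G) V ∂gaus _ := by
      simp only [← integral_finsetSum _ fun j _ => hQi (Qd _ j)]
      rw [← integral_finsetSum _ fun i _ => integrable_finsetSum _ fun j _ => hQi (Qd i j),
        ← integral_const_mul]
      refine integral_congr_ae (ae_of_all _ fun G => ?_)
      simp only [avg2, Finset.mul_sum]
      rw [sum3_comm]
      refine Finset.sum_congr rfl fun x _ => ?_
      rw [sum3_comm]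
      refine Finset.sum_congr rfl fun y _ => ?_
      simp only [← Finset.mul_sum, hsum]
      ring
    have hib := rot_ibp P π Φ (dkAtom hτ A a hL J) hN w hw (fun q => (hc q).1) hT
      (fun x y => φ (vlev π x y)) sel l m
      (fun x y z κ => atom_kernel_le hτ A a hL S φ hφ l m sel x y z κ)
    have hsumle : |∑ i ∈ S, ∑ j ∈ S, ∫ G, avg2 (u G) (fun x y =>
          rtest π (fun x y => φ (vlev π x y)) sel l m i j x y *
            vtan P (vbpat π Φ) (dvbpat π i j) (dvbspin π Φ (dkAtom hτ A a hL J) i j) (vpull c) G x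
          + Qd i j x y) ∂gaus _| ≤ (N : ℝ) ^ 2 * η := by
      refine (Finset.abs_sum_le_sum_abs _ _).trans ((Finset.sum_le_sum fun i hi =>
        (Finset.abs_sum_le_sum_abs _ _).trans ((Finset.sum_le_sum fun j hj => hpair i hi j hj).trans_eq
          (Finset.sum_const _))).trans ?_)
      simp only [Finset.sum_const, nsmul_eq_mul, ← mul_assoc]
      refine mul_le_mul_of_nonneg_right ?_ hη.le
      rw [sq]
      have hcard : (S.card : ℝ) ≤ N := by
        exact_mod_cast (Finset.card_le_univ S).trans_eq (Fintype.card_fin N)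
      exact mul_le_mul hcard hcard (Nat.cast_nonneg _) hN'.le
    simp only [hsplit, Finset.sum_add_distrib, hV] at hsumle
    rw [integral_const_mul] at hib
    have h2 : (N : ℝ) ^ 2 * |(∫ G, avg2 (u G) V ∂gaus _) + ∫ G, avg2 (u G)
          (rmain P π Φ w c S θ pF (fun x y => φ (vlev π x y)) sel l m G) ∂gaus _|
        ≤ (N : ℝ) ^ 2 * η + 4 * (pertSize e * (τ * B * N)) := by
      rw [← abs_of_nonneg (sq_nonneg (N : ℝ)), ← abs_mul, abs_of_nonneg (sq_nonneg (N : ℝ)), mul_add]
      have a1 := abs_le.1 hsumle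
      have a2 := abs_le.1 hib
      exact abs_le.2 ⟨by linarith [a1.1, a1.2, a2.1, a2.2], by linarith [a1.1, a1.2, a2.1, a2.2]⟩
    refine le_of_mul_le_mul_left (h2.trans_eq ?_) (pow_pos hN' 2)
    field_simp
  refine ⟨?_, ?_⟩
  · have h := key (fun _ y => y) (fun i j x y => φ (vlev π x y) *
      (π.cfg y.1 i l * dcfg i j (π.cfg x.1) j m))
      (fun x y => φ (vlev π x y) * vov π S l m y x * ((S.card - 1) / N)) (fun i hi j hj => ?_) ?_
    · refine le_trans (le_of_eq ?_) h
      congr 2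
      rw [← integral_mul_const]
      refine integral_congr_ae (ae_of_all _ fun G => ?_)
      simp only [avg2, Finset.sum_mul, mul_assoc]
      rfl
    · refine le_trans (le_of_eq ?_) ((hδ' i j).1 a hε n hn W hW c hc hc0 θ pF e hT hi hj φ hφ)
      refine congrArg _ (integral_congr_ae (ae_of_all _ fun G => ?_))
      refine congrArg (avg2 _) (funext fun x => funext fun y => ?_)
      simp only [rtest, π]
      ring
    · intro x y
      simp only [dcfg, if_true, mul_sub, mul_ite, mul_zero, Finset.sum_sub_distrib]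
      rw [Finset.sum_congr rfl fun i (hi : i ∈ S) => Finset.sum_const _]
      have : ∀ i ∈ S, ∑ j ∈ S, (if j = i then φ (vlev π x y) * (π.cfg y.1 i l * π.cfg x.1 j m) else 0)
          = φ (vlev π x y) * (π.cfg y.1 i l * π.cfg x.1 i m) := fun i hi => by
        rw [Finset.sum_ite_eq', if_pos hi]
      rw [Finset.sum_congr rfl this]
      simp only [nsmul_eq_mul, ← Finset.mul_sum, vov]
      field_simp
  · have h := key (fun x _ => x) (fun i j x y => φ (vlev π x y) *
      (dcfg i j (π.cfg x.1) i l * π.cfg x.1 j m + π.cfg x.1 i l * dcfg i j (π.cfg x.1) j m))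
      (fun _ _ => 0) (fun i hi j hj => ?_) ?_
    · simpa [avg2] using h
    · refine le_trans (le_of_eq ?_) ((hδ' i j).2 a hε n hn W hW c hc hc0 θ pF e hT hi hj φ hφ)
      refine congrArg _ (integral_congr_ae (ae_of_all _ fun G => ?_))
      refine congrArg (avg2 _) (funext fun x => funext fun y => ?_)
      simp only [rtest, π]
      ring
    · intro x y
      simp only [dcfg, if_true, sub_mul, mul_sub, ite_mul, mul_ite, zero_mul, mul_zero, mul_add,
        Finset.sum_add_distrib, Finset.sum_sub_distrib]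
      simp only [Finset.sum_ite_eq, Finset.sum_ite_eq']
      rw [Finset.sum_comm (s := S) (t := S)]
      simp only [Finset.sum_const, nsmul_eq_mul]
      rw [Finset.sum_congr rfl fun i (hi : i ∈ S) => if_pos hi]
      ring

end Sum

section Expect

variable {N M K K' L J nA : ℕ} {τ B lam : ℝ} {γ : Fin K → ℝ}

/-- The two rotation identities of a type for fine atoms. -/
theorem rot_identities (hτ : 0 ≤ τ) (hlam : 0 ≤ lam) (d : OIdx K → ℝ) (A : Coeffs K nA)
    (hL : 0 < L) (P : VPot K) (hh : ∀ k k' y, P.h k k' y = P.h k' k y) (Φ : VFac N K K')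
    (hN : 0 < N) (Cb : ℝ) (S : Finset (Fin N)) (t : Finset (Fin K)) (hS : ∀ u ∈ S, typ γ u = t) :
    ∀ η > 0, ∃ δ > 0, ∀ {ε : ℝ} (a : Atoms (spinMeas τ γ B lam d N) (cutSet B K N) ε), ε ≤ δ →
      ∀ (n : ℕ), 0 < n →
      ∀ c : VCIdx N M K (nker K nA) (N + L + J) K' → ℝ, (∀ q, c q ∈ Icc 0 Cb) →
      (∀ u, c (Sum.inl (Sum.inr u)) = 0) →
      ∀ (θ : ℝ) (pF : Fin (K' + 1) → Fin K → Fin K → ℝ)
        (e : Fin (K' + 1) → Fin (nker K nA) → (p : Fin (N + L + J)) → Fin (p.val + 2) → ℝ),
      TypeVar Φ c S θ pF e → (∀ l k k', pF l k k' = pF l k' k) →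
      (∀ lv : Fin (K' + 1),
        mabs (rotLev (venv N M K (nker K nA) (N + L + J) K' n)
            (vposW P (penPrior (γ := γ) hτ A a hL J) Φ c) (vlev (penPrior (γ := γ) hτ A a hL J))
            (rmat (penPrior (γ := γ) hτ A a hL J) S)
            (fun p => cmat P (penPrior (γ := γ) hτ A a hL J) Φ c θ pF p.2)
            ((S.card - 1) / N) lv)
          ≤ (K : ℝ) ^ 2 * (η + 4 * (pertSize e * (τ * B)) / N)) ∧
      mabs (rotDiag (venv N M K (nker K nA) (N + L + J) K' n)
          (vposW P (penPrior (γ := γ) hτ A a hL J) Φ c) (rmat (penPrior (γ := γ) hτ A a hL J) S)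
          (fun p => cmat P (penPrior (γ := γ) hτ A a hL J) Φ c θ pF p.2))
        ≤ (K : ℝ) ^ 2 * (η + 4 * (pertSize e * (τ * B)) / N) := by
  intro η hη
  have hall := eventually_all.2 fun l : Fin K => eventually_all.2 fun m : Fin K => by
    obtain ⟨δ, hδ, h⟩ := rot_sum (M := M) (J := J) hτ hlam d A hL P Φ hN Cb S t hS l m η hη
    exact mem_of_superset (Ioo_mem_nhdsGT hδ) fun δ' hδ' =>
      show ∀ {ε : ℝ} (a : Atoms (spinMeas τ γ B lam d N) (cutSet B K N) ε), ε ≤ δ' → _ from
        fun a hε => h a (hε.trans hδ'.2.le)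
  obtain ⟨δ, hδ, hδ'⟩ := ((eventually_mem_nhdsWithin (s := Ioi (0 : ℝ)) (a := 0)).and hall).exists
  refine ⟨δ, hδ, fun {ε} a hε n hn c hc hc0 θ pF e hT hp => ?_⟩
  set π := penPrior (γ := γ) hτ A a hL J
  have : Nonempty (VState π K' n) := ⟨(⟨0, π.c_pos⟩, fun _ => ⟨0, hn⟩)⟩
  set μ := venv N M K (nker K nA) (N + L + J) K' n
  set E := η + 4 * (pertSize e * (τ * B)) / N with hE
  have hpos := vposW_pos (n := n) P π Φ c
  have hm := measurable_vposW (n := n) P π Φ c
  have hmat : ∀ {X : Matrix (Fin K) (Fin K) ℝ}, (∀ k l, |X k l| ≤ E) → mabs X ≤ (K : ℝ) ^ 2 * E :=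
    fun {X} h => by
    refine (Finset.sum_le_sum fun k _ => Finset.sum_le_sum fun l _ => h k l).trans_eq ?_
    simp only [Finset.sum_const, Finset.card_univ, Fintype.card_fin, nsmul_eq_mul]
    ring
  have hbt : ∀ {r : ℕ} (F : (Node K' n → ℝ) × (VGIdx N M K (nker K nA) (N + L + J) K' n → ℝ) →
      (Fin r → VState π K' n) → ℝ), (∀ x, Continuous fun G => F ((fun _ => 1), G) x) →
      (∀ W G x, F (W, G) x = F ((fun _ => 1), G) x) → (∃ C, ∀ G x, |F ((fun _ => 1), G) x| ≤ C) →
      (∀ W, (∀ u, 0 < W u) → Integrable (fun G => avg (vbw P (vstw π W) (vbpat π Φ) (vbspin π Φ)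
          (vqd π Φ) (vpull c) G) r (F (W, G))) (gaus _) →
        |∫ G, avg (vbw P (vstw π W) (vbpat π Φ) (vbspin π Φ) (vqd π Φ) (vpull c) G)
        r (F (W, G)) ∂gaus _| ≤ E) →
      |reavg μ (vposW P π Φ c) r F| ≤ E := fun {r} F hFc hFW hFb hle => by
    obtain ⟨C, hC⟩ := hFb
    have hB : BTest F C := ⟨fun x => by
      simp only [show (fun p => F p x) = fun p => F ((fun _ => 1), p.2) x from funext fun p => hFW p.1 p.2 x]
      exact (hFc x).measurable.comp measurable_snd, fun p x => by rw [hFW p.1 p.2 x]; exact hC p.2 x⟩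
    have hi := integrable_reavg (μ := μ) hm hpos hB
    have hI : ∀ W, (∀ u, 0 < W u) → Integrable (fun G => avg (vbw P (vstw π W) (vbpat π Φ)
        (vbspin π Φ) (vqd π Φ) (vpull c) G) r (F (W, G))) (gaus _) := fun W hW => by
      have hw : ∀ st, 0 < vstw π W st := fun st => mul_pos (π.w_pos _) (P157.Casc.wgt_pos _ hW _)
      refine integrable_bdd ?_ (C := C) fun G => abs_avg' (vbw_pos P _ _ _ hw _ G) fun x => ?_
      · unfold avg
        simp only [hFW W]
        exact continuous_finsetSum _ fun x _ => (continuous_finsetProd _ fun i _ =>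
          cont_vgibbs P (vbpat π Φ) (vbspin π Φ) (vqd π Φ) hw (vpull c) (x i)).mul (hFc x)
      · rw [hFW W G x]
        exact hC G x
    rw [reavg]
    simp only [μ, venv] at hi ⊢
    rw [integral_prod _ hi, ← Real.norm_eq_abs]
    refine (norm_integral_le_of_norm_le_const (C := E) (ae_of_all _ fun W =>
      (Real.norm_eq_abs _).trans_le (hle (posV W) (posV_pos W) (hI (posV W) (posV_pos W))
        |>.trans_eq' ?_))).trans_eq (by simp)
    refine congrArg _ (integral_congr_ae (ae_of_all _ fun G => ?_))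
    exact congrArg (avg _ r) (funext fun x => (hFW (posV W) G x).trans (hFW W G x).symm)
  have hcC : ∀ k k' (x y : VState π K' n), Continuous fun G => cmat P π Φ c θ pF G x y k k' :=
    fun k k' x y => by
    have := fun a z q => (P.cg q).comp' (cont_vfld (vbpat (M := M) π Φ) (vpull (n := n) c) z a)
    simp only [cmat, Matrix.of_apply, rC, vovP]
    fun_prop
  obtain ⟨C0, hC0⟩ : ∃ C0, ∀ G (x y : VState π K' n) k k', |cmat P π Φ c θ pF G x y k k'| ≤ C0 := by
    refine ⟨|θ| * ((∑ _a : Fin M, |P.b1| * |P.b1|) / N) + ∑ u, ∑ k, ∑ k', |pF u k k'|,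
      fun G x y k k' => ?_⟩
    simp only [cmat, Matrix.of_apply, rC, vovP]
    refine (abs_add_le _ _).trans (add_le_add ?_ ((Finset.single_le_sum (f := fun k' => |pF _ k k'|)
      (fun _ _ => abs_nonneg _) (Finset.mem_univ k')).trans ((Finset.single_le_sum
      (f := fun k => ∑ k', |pF _ k k'|) (fun _ _ => Finset.sum_nonneg fun _ _ => abs_nonneg _)
      (Finset.mem_univ k)).trans (Finset.single_le_sum (f := fun u => ∑ k, ∑ k', |pF u k k'|)
      (fun _ _ => Finset.sum_nonneg fun _ _ => Finset.sum_nonneg fun _ _ => abs_nonneg _)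
      (Finset.mem_univ _)))))
    rw [abs_mul, abs_div, Nat.abs_cast]
    refine mul_le_mul_of_nonneg_left (div_le_div_of_nonneg_right
      ((Finset.abs_sum_le_sum_abs _ _).trans (Finset.sum_le_sum fun a _ => ?_)) (Nat.cast_nonneg N))
      (abs_nonneg _)
    rw [abs_mul]
    exact mul_le_mul ((P.h1 _ _).trans (le_abs_self _)) ((P.h1 _ _).trans (le_abs_self _))
      (abs_nonneg _) (abs_nonneg _)
  have hCm : ∀ G (x y : VState π K' n), mabs (cmat P π Φ c θ pF G x y) ≤ (K : ℝ) ^ 2 * C0 :=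
    fun G x y => (Finset.sum_le_sum fun k _ => Finset.sum_le_sum fun l _ => hC0 G x y k l).trans_eq (by
      simp only [Finset.sum_const, Finset.card_univ, Fintype.card_fin, nsmul_eq_mul]; ring)
  obtain ⟨R0, hR0⟩ : ∃ R0, ∀ x y : VState π K' n, mabs (rmat π S x y) ≤ R0 :=
    ⟨∑ x : VState π K' n, ∑ y, mabs (rmat π S x y), fun x y =>
      (Finset.single_le_sum (f := fun y => mabs (rmat π S x y)) (fun _ _ => mabs_nonneg _)
        (Finset.mem_univ y)).trans (Finset.single_le_sum (f := fun x => ∑ y, mabs (rmat π S x y))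
        (fun _ _ => Finset.sum_nonneg fun _ _ => mabs_nonneg _) (Finset.mem_univ x))⟩
  refine ⟨fun lv => ?_, ?_⟩
  · refine hmat fun k l => hbt _ (fun x => ?_) (fun W G x => rfl) ?_ fun W hW hiF => ?_
    · dsimp only
      split_ifs
      · simp only [Matrix.add_apply, Matrix.sub_apply, Matrix.smul_apply, Matrix.mul_apply]
        fun_prop
      · exact continuous_const
    · refine ⟨|((S.card : ℝ) - 1) / N| * R0 + R0 * ((K : ℝ) ^ 2 * C0) * R0 + R0 * ((K : ℝ) ^ 2 * C0) * R0
          + 2 * (R0 * ((K : ℝ) ^ 2 * C0) * R0) + 2 * (R0 * ((K : ℝ) ^ 2 * C0) * R0), fun G x => ?_⟩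
      have h3 := fun a b b' e e' f => mabs_mul_le (mabs_mul_le (hR0 a b) (hCm G b' e)) (hR0 e' f)
      refine (abs_le_mabs _ k l).trans ?_
      dsimp only
      split_ifs
      · refine (mabs_add _ _).trans (add_le_add ((mabs_sub _ _).trans (add_le_add ((mabs_sub _ _).trans
          (add_le_add ((mabs_add _ _).trans (add_le_add ?_ (h3 _ _ _ _ _ _))) (h3 _ _ _ _ _ _))) ?_)) ?_)
        · rw [mabs_smul]
          exact mul_le_mul_of_nonneg_left (hR0 _ _) (abs_nonneg _)
        · rw [mabs_smul, abs_two]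
          exact mul_le_mul_of_nonneg_left (h3 _ _ _ _ _ _) zero_le_two
        · rw [mabs_smul, abs_two]
          exact mul_le_mul_of_nonneg_left (h3 _ _ _ _ _ _) zero_le_two
      · rw [mabs_zero]
        have := (mabs_nonneg _).trans (hR0 (x 0) (x 0))
        have := (mabs_nonneg _).trans (hCm G (x 0) (x 0))
        positivity
    · refine le_trans (le_of_eq ?_) ((hδ' l k a hε n hn W hW c hc hc0 θ pF e hT
        (fun v => if v = lv then 1 else 0) fun v => by split_ifs <;> norm_num).1)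
      have hw : ∀ st, 0 < vstw π W st := fun st => mul_pos (π.w_pos _) (P157.Casc.wgt_pos _ hW _)
      rw [← integral_mul_const]
      have hi1 : Integrable (fun G => avg2 (vbw P (vstw π W) (vbpat π Φ) (vbspin π Φ) (vqd π Φ) (vpull c) G)
          (fun x y => (if vlev π x y = lv then (1 : ℝ) else 0) * vov π S l k y x) * (((S.card : ℝ) - 1) / N))
          (gaus (VGIdx N M K (nker K nA) (N + L + J) K' n)) := by
        refine (integrable_bdd ?_ (C := ∑ x : VState π K' n, ∑ y, |vov π S l k y x|) fun G =>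
          Itp.abs_avg2_le (vbw_pos P _ _ _ hw _ G) fun x y => ?_).mul_const _
        · have := fun x => cont_vgibbs P (vbpat π Φ) (vbspin π Φ) (vqd π Φ) hw (vpull c) x
          unfold avg2; fun_prop
        · rw [abs_mul]
          refine (mul_le_of_le_one_left (abs_nonneg _) (by split_ifs <;> norm_num)).trans ?_
          exact (Finset.single_le_sum (f := fun y => |vov π S l k y x|) (fun _ _ => abs_nonneg _)
            (Finset.mem_univ y)).trans (Finset.single_le_sum (f := fun x => ∑ y, |vov π S l k y x|)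
            (fun _ _ => Finset.sum_nonneg fun _ _ => abs_nonneg _) (Finset.mem_univ x))
      simp only [avg_level P π Φ hp hh hw] at hiF ⊢
      have hi2 : Integrable (fun G => avg2 (vbw P (vstw π W) (vbpat π Φ) (vbspin π Φ) (vqd π Φ) (vpull c) G)
          (rmain P π Φ (vstw π W) c S θ pF (fun x y => if vlev π x y = lv then 1 else 0) (fun _ y => y) l k G))
          (gaus (VGIdx N M K (nker K nA) (N + L + J) K' n)) := by
        refine (hiF.sub hi1).congr (ae_of_all _ fun G => ?_)
        simp only [Pi.sub_apply]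
        ring
      rw [← integral_add hi1 hi2]
      exact congrArg _ (integral_congr_ae (ae_of_all _ fun G => by ring))
  · refine hmat fun k l => hbt _ (fun x => ?_) (fun W G x => rfl) ?_ fun W hW hiF => ?_
    · simp only [Matrix.sub_apply, Matrix.mul_apply]
      fun_prop
    · exact ⟨R0 * ((K : ℝ) ^ 2 * C0) * R0 + R0 * ((K : ℝ) ^ 2 * C0) * R0, fun G x =>
        (abs_le_mabs _ k l).trans ((mabs_sub _ _).trans (add_le_add
          (mabs_mul_le (mabs_mul_le (hR0 _ _) (hCm G _ _)) (hR0 _ _))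
          (mabs_mul_le (mabs_mul_le (hR0 _ _) (hCm G _ _)) (hR0 _ _))))⟩
    · have hw : ∀ st, 0 < vstw π W st := fun st => mul_pos (π.w_pos _) (P157.Casc.wgt_pos _ hW _)
      simp only [avg_diag P π Φ hp hh hw]
      exact (hδ' k l a hε n hn W hW c hc hc0 θ pF e hT (fun _ => 1) fun _ => by norm_num).2

end Expect

end Vale.Agent.P166.Casc
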