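import Vale.Agent.P166.Casc.VRowMean
import Vale.Agent.P166.Casc.VLevelU

/-!
The value of one row in the cascade is Lipschitz in the covariances of its slot: the path in `L¹`
with the weight of one level, the top in absolute value, uniformly in the number of levels.
-/

open MeasureTheory ProbabilityTheory Filter Topology Set

namespace Vale.Agent.P166.Casc

open Vale.Agent.P157.Casc Vale.Agent.P166.Formula
open scoped MatrixOrder

variable {d K n : ℕ}

/-- Covariance at a level of factors of the increments. -/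
def facCum (A : Fin (K + 1) → Fin d → Fin d → ℝ) (u : Fin (K + 1)) (k l : Fin d) : ℝ :=
  ∑ i ∈ Finset.Iic u, ∑ r, A i k r * A i l r

theorem facCum_rowCum {N : ℕ} (Φ : VFac N d K) : facCum (Φ.1 0) = rowCum Φ := rfl

/-- One configuration, without spins and kernels. -/
def rowPrior (d : ℕ) : VPrior 0 d 0 0 where
  c := 1
  c_pos := one_pos
  w := fun _ => 1
  cfg := fun _ j => j.elim0
  ker := fun κ => κ.elim0
  w_pos := fun _ => one_pos
  ker_unit := fun κ => κ.elim0

/-- Two slots holding two families of factors. -/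
def pairFac (A A' : Fin (K + 1) → Fin d → Fin d → ℝ) : VFac 0 d K :=
  (fun z => if z = 0 then A else A', fun _ j => j.elim0, fun j => j.elim0)

/-- Variances of the two slots. -/
def slotC (ρ : Fin 2 → ℝ) : VCIdx 0 1 d 0 0 K → ℝ :=
  vfldc (fun _ _ => 0) (fun _ => 0) (fun z _ => ρ z) fun _ _ => 0

theorem slotC_add (ρ δ : Fin 2 → ℝ) (t : ℝ) :
    (fun i => slotC (d := d) (K := K) ρ i + t * slotC δ i) = slotC fun z => ρ z + t * δ z := by
  funext i
  rcases i with (⟨a, j⟩ | j) | ⟨l, ⟨z, a, r⟩ | ⟨z, j, r⟩ | u⟩ <;> simp [slotC, vfldc]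

theorem slotC_nonneg {ρ : Fin 2 → ℝ} (h : ∀ z, 0 ≤ ρ z) (i : VCIdx 0 1 d 0 0 K) :
    0 ≤ slotC (d := d) ρ i := by
  rcases i with (⟨a, j⟩ | j) | ⟨l, ⟨z, a, r⟩ | ⟨z, j, r⟩ | u⟩ <;> simp [slotC, vfldc, h]

theorem vcasc_slot_sub (P : VPot d) (A A' : Fin (K + 1) → Fin d → Fin d → ℝ) :
    vcasc P (rowPrior d) (pairFac A A') (slotC fun z => if z = 0 then 0 else 1)
        - vcasc P (rowPrior d) (pairFac A A') (slotC fun z => if z = 0 then 1 else 0)
      = rowCasc P.f (A' 0) (fun l => A' l.succ) - rowCasc P.f (A 0) (fun l => A l.succ) := by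
  set π := rowPrior d
  set Φ := pairFac A A'
  set S : Finset (Fin 1) := Finset.univ
  have hfree : ∀ ρ, FreeRows (slotC (d := d) (K := K) ρ) S := fun ρ a _ j => j.elim0
  have hrest : ∀ ρ (z : VRIdx 0 1 d 0 0 → ℝ) (y : Fin K → VLIdx 0 1 d 0 0 → ℝ),
      vrestY P π Φ (slotC ρ) S z y = ∑ σ, π.w σ := fun ρ z y => by
    refine Finset.sum_congr rfl fun σ _ => ?_
    have hz : ∀ i : VGIdx 0 1 d 0 0 K 1,
        vbspin π Φ ((σ, fun _ => 0) : VState π K 1) i = 0 := fun i => by
      rcases i with p | ⟨o, ⟨z, a, r⟩ | ⟨z, j, r⟩ | ⟨u, t⟩⟩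
      · simp [vbspin, treeDir]
      · simp [vbspin, treeDir, spinL]
      · exact j.elim0
      · exact u.elim0
    have hq : ∀ i : VGIdx 0 1 d 0 0 K 1,
        vpull (slotC ρ) i * vqd π Φ ((σ, fun _ => 0) : VState π K 1) i = 0 := fun i => by
      rcases i with (⟨a, j⟩ | j) | ⟨o, u⟩
      · exact j.elim0
      · exact j.elim0
      · simp [vqd, treeDir]
    simp [vrestH, vbham, vham, lin, hz, hq, S]
  obtain ⟨-, h1⟩ := vcasc_free_rows P π Φ (hfree fun z => if z = 0 then 0 else 1)
  obtain ⟨-, h0⟩ := vcasc_free_rows P π Φ (hfree fun z => if z = 0 then 1 else 0)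
  simp only [hrest] at h1 h0
  rw [h1, h0]
  have e1 : rowCasc P.f (rowA Φ (slotC fun z => if z = 0 then 0 else 1) (0 : Fin 1) 0)
      (fun l => rowA Φ (slotC fun z => if z = 0 then 0 else 1) (0 : Fin 1) l.succ)
      = rowCasc P.f (A' 0) (fun l => A' l.succ) := by
    have h : ∀ l u, cq (rowA Φ (slotC fun z => if z = 0 then 0 else 1) (0 : Fin 1) l) u
        = cq (A' l) u := fun l u => by
      simp [cq, rowA, rowEmb, Fintype.sum_prod_type, Fin.sum_univ_two, slotC, vfldc, Φ, pairFac]
    exact rowCasc_congr (h 0) (fun l => h _) P.cf.measurable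
  have e0 : rowCasc P.f (rowA Φ (slotC fun z => if z = 0 then 1 else 0) (0 : Fin 1) 0)
      (fun l => rowA Φ (slotC fun z => if z = 0 then 1 else 0) (0 : Fin 1) l.succ)
      = rowCasc P.f (A 0) (fun l => A l.succ) := by
    have h : ∀ l u, cq (rowA Φ (slotC fun z => if z = 0 then 1 else 0) (0 : Fin 1) l) u
        = cq (A l) u := fun l u => by
      simp [cq, rowA, rowEmb, Fintype.sum_prod_type, Fin.sum_univ_two, slotC, vfldc, Φ, pairFac]
    exact rowCasc_congr (h 0) (fun l => h _) P.cf.measurable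
  simp only [S, Fin.sum_univ_one, e1, e0]
  ring

/-- The distance of two slots at a level. -/
noncomputable def levDist (A A' : Fin (K + 1) → Fin d → Fin d → ℝ) (u : Fin (K + 1)) : ℝ :=
  ∑ k, ∑ l, |facCum A u k l - facCum A' u k l|

theorem abs_vkern_slot_le (P : VPot d) (A A' : Fin (K + 1) → Fin d → Fin d → ℝ)
    (lam G : VGIdx 0 1 d 0 0 K n → ℝ) (x y : VState (rowPrior d) K n) :
    |vkern P (vbpat (rowPrior d) (pairFac A A')) (vbspin (rowPrior d) (pairFac A A'))
        (vqd (rowPrior d) (pairFac A A')) lam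
        (vpull (slotC fun z => if z = 0 then -1 else 1)) G x y|
      ≤ rowB P ^ 2 * levDist A A' (com x.2 y.2)
        + (rowB P + rowB P ^ 2) * levDist A A' (Fin.last K) := by
  set δ : VCIdx 0 1 d 0 0 K → ℝ := slotC fun z => if z = 0 then -1 else 1 with hδ
  have hb : ∀ (k l : Fin d) (x y : VState (rowPrior d) K n),
      bcov (vbpat (rowPrior d) (pairFac A A')) (vpull δ) (0 : Fin 1) k l x y
        = facCum A' (com x.2 y.2) k l - facCum A (com x.2 y.2) k l := fun k l x y => by
    rw [bcov, cov_vbpat]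
    simp only [hδ, slotC, vfldc, zero_mul, Finset.sum_const_zero, zero_div, zero_add, facCum,
      ← Finset.sum_sub_distrib]
    refine Finset.sum_congr rfl fun i _ => ?_
    rw [Fin.sum_univ_two, ← Finset.sum_add_distrib]
    refine Finset.sum_congr rfl fun r _ => ?_
    simp [pairFac]
    ring
  have hz : ∑ i, vpull δ i * (vbspin (rowPrior d) (pairFac A A') x i * vbspin (rowPrior d) (pairFac A A') y i) = 0 := by
    rw [cov_vbspin]
    simp [hδ, slotC, vfldc]
  have hq : ∑ i, vpull δ i * vqd (rowPrior d) (pairFac A A') x i = 0 := by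
    rw [sum_vqd]
    exact Fintype.sum_empty _
  have hg1 : ∀ k l (v w : Fin d → ℝ), |P.g k v * P.g l w| ≤ rowB P ^ 2 := fun k l v w => by
    rw [abs_mul, sq]
    exact mul_le_mul (abs_g_le P k _) (abs_g_le P l _) (abs_nonneg _) (rowB_nonneg P)
  have hg2 : ∀ k l (v : Fin d → ℝ), |P.h k l v + P.g k v * P.g l v| ≤ rowB P + rowB P ^ 2 :=
    fun k l v => (abs_add_le _ _).trans (add_le_add (abs_h_le P k l v) (hg1 k l v v))
  have hbd : ∀ (u : Fin (K + 1)) (F : Fin d → Fin d → ℝ) (B : ℝ), (∀ k l, |F k l| ≤ B) →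
      |∑ k, ∑ l, (facCum A' u k l - facCum A u k l) * F k l| ≤ B * levDist A A' u := by
    intro u F B hF
    simp only [levDist, Finset.mul_sum]
    refine (Finset.abs_sum_le_sum_abs _ _).trans (Finset.sum_le_sum fun k _ =>
      (Finset.abs_sum_le_sum_abs _ _).trans (Finset.sum_le_sum fun l _ => ?_))
    rw [abs_mul, abs_sub_comm, mul_comm]
    exact mul_le_mul_of_nonneg_right (hF k l) (abs_nonneg _)
  simp only [vkern, vgrad, vdiag, Fin.sum_univ_one, hb, hz, hq, add_zero, mul_zero, sub_zero,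
    com_self]
  exact (abs_sub _ _).trans (add_le_add (hbd _ _ _ fun k l => hg1 k l _ _)
    (hbd _ _ _ fun k l => hg2 k l _))

/-- **The slot of a row.** -/
theorem rowCasc_lip (P : VPot d) : ∃ C, 0 ≤ C ∧
    ∀ (K : ℕ) (A A' : Fin (K + 1) → Fin d → Fin d → ℝ),
      |rowCasc P.f (A 0) (fun l => A l.succ) - rowCasc P.f (A' 0) (fun l => A' l.succ)|
        ≤ C * (pi0 K * (∑ u, ∑ k, ∑ l, |facCum A u k l - facCum A' u k l|)
          + ∑ k, ∑ l, |facCum A (Fin.last K) k l - facCum A' (Fin.last K) k l|) := by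
  set b := rowB P
  have hb := rowB_nonneg P
  refine ⟨b + b ^ 2, by positivity, fun K A A' => ?_⟩
  set W : Fin (K + 1) → ℝ := fun u =>
    b ^ 2 * levDist A A' u + (b + b ^ 2) * levDist A A' (Fin.last K) with hW
  have hL : ∀ u, 0 ≤ levDist A A' u := fun u =>
    Finset.sum_nonneg fun k _ => Finset.sum_nonneg fun l _ => abs_nonneg _
  have hW0 : ∀ u, 0 ≤ W u := fun u => by
    simp only [hW]
    have h1 := hL u
    have h2 := hL (Fin.last K)
    positivity
  set π := rowPrior d
  set Φ := pairFac A A'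
  set ρ0 : Fin 2 → ℝ := fun z => if z = 0 then 1 else 0
  set δ : Fin 2 → ℝ := fun z => if z = 0 then -1 else 1
  set c : ℝ → VCIdx 0 1 d 0 0 K → ℝ := fun t => slotC fun z => ρ0 z + t * δ z
  have hpos : ∀ t ∈ Icc (0 : ℝ) 1, ∀ z, 0 ≤ ρ0 z + t * δ z := fun t ht z => by
    simp only [ρ0, δ]
    split_ifs <;> linarith [ht.1, ht.2]
  have hcont : Continuous c := continuous_pi fun i => by
    rcases i with (⟨a, j⟩ | j) | ⟨l, ⟨z, a, r⟩ | ⟨z, j, r⟩ | u⟩ <;>
      simp only [c, slotC, vfldc] <;> fun_prop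
  have key : ∀ η : ℝ, 0 < η →
      |vcasc P π Φ (slotC fun z => ρ0 z + δ z) - vcasc P π Φ (slotC ρ0)|
        ≤ 1 / 2 * (∑ u, W u) * (pi0 K + η) := by
    intro η hη
    obtain ⟨n0, hn0⟩ := pairLev_uniform P π Φ (isCompact_Icc.image hcont) 1 hη
    have hlim := ((tendsto_vmfree P π Φ
      (tendsto_const_nhds (x := (slotC fun z => ρ0 z + δ z : VCIdx 0 1 d 0 0 K → ℝ)))
      tendsto_id).sub (tendsto_vmfree P π Φ
      (tendsto_const_nhds (x := (slotC ρ0 : VCIdx 0 1 d 0 0 K → ℝ))) tendsto_id)).abs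
    refine le_of_tendsto hlim ?_
    filter_upwards [eventually_ge_atTop n0, eventually_gt_atTop 0] with m hm hm0
    simp only [id]
    have := vstate_nonempty (K := K) π hm0
    have e1 : (fun i => slotC (d := d) (K := K) ρ0 i + slotC δ i) = slotC fun z => ρ0 z + δ z := by
      simpa using slotC_add (d := d) (K := K) ρ0 δ 1
    obtain ⟨t, ht, he⟩ := vmfree_mvt P π Φ hm0 (Measure.dirac ()) (c := fun _ => slotC ρ0)
      (fun _ => measurable_const) (B := ∑ i, |slotC (d := d) (K := K) ρ0 i|)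
      (fun _ i => Finset.single_le_sum (f := fun i => |slotC (d := d) (K := K) ρ0 i|)
        (fun _ _ => abs_nonneg _) (Finset.mem_univ i))
      (e := slotC δ) (fun _ t ht i => by
        rw [congrFun (slotC_add (d := d) (K := K) ρ0 δ t) i]
        exact slotC_nonneg (hpos t ht) i)
    simp only [integral_dirac, e1, slotC_add] at he
    rw [he, abs_mul, abs_neg, abs_of_nonneg (by norm_num : (0 : ℝ) ≤ 1 / 2), mul_assoc (1 / 2 : ℝ)]
    refine mul_le_mul_of_nonneg_left ?_ (by norm_num)
    obtain ⟨hl, -, -⟩ := hn0 m hm (c t) ⟨t, Ioo_subset_Icc_self ht, rfl⟩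
    set O : (VGIdx 0 1 d 0 0 K m → ℝ) → VState π K m → VState π K m → ℝ := fun _ x y =>
      ∑ u, W u * onLev u (vlev π x y) 1
    have hOb : vmpair m P π Φ (c t) O ≤ (∑ u, W u) * (pi0 K + η) := by
      rw [vmpair_sum P Φ (c t) hm0 _ fun u _ => goodObs_const _, Finset.sum_mul]
      refine Finset.sum_le_sum fun u _ => ?_
      rw [vmpair_smul P Φ (c t) hm0 (goodObs_const fun x y => onLev u (vlev π x y) 1)]
      refine mul_le_mul_of_nonneg_left ?_ (hW0 u)
      have := (abs_le.1 (hl u)).2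
      simp only [pairLev] at this
      linarith
    have hker : ∀ G (x y : VState π K m),
        |vkern P (vbpat π Φ) (vbspin π Φ) (vqd π Φ) (vpull (c t)) (vpull (slotC δ)) G x y|
          ≤ O G x y := fun G x y => by
      refine (abs_vkern_slot_le P A A' _ G x y).trans (le_of_eq ?_)
      simp only [O, onLev, hW, b]
      rw [show com x.2 y.2 = vlev π x y from rfl]
      rw [Finset.sum_eq_single (vlev π x y) (fun u _ hu => by rw [if_neg hu.symm, mul_zero])
        (fun h => absurd (Finset.mem_univ _) h), if_pos rfl, mul_one]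
    have hgood : GoodObs (vkern P (vbpat π Φ) (vbspin π Φ) (vqd π Φ) (vpull (c t))
        (vpull (slotC δ)) : (VGIdx 0 1 d 0 0 K m → ℝ) → VState π K m → VState π K m → ℝ) :=
      ⟨fun x y => continuous_vkern P π Φ _ _ x y, _,
        fun G x y => VItp.abs_vkern_le P (vbpat π Φ) (vbspin π Φ) (vqd π Φ) _ _ G x y⟩
    have hO : GoodObs O := goodObs_const _
    refine le_trans (abs_le.2 ⟨?_, ?_⟩) hOb
    · have := vmpair_mono P Φ (c t) hm0 (hO.smul (-1)) hgood
        fun G x y => by linarith [(abs_le.1 (hker G x y)).1]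
      rw [vmpair_smul P Φ (c t) hm0 hO] at this
      linarith
    · exact vmpair_mono P Φ (c t) hm0 hgood hO fun G x y => (le_abs_self _).trans (hker G x y)
  have h := le_of_forall_pos_le_add (a := |vcasc P π Φ (slotC fun z => ρ0 z + δ z)
      - vcasc P π Φ (slotC ρ0)|) (b := 1 / 2 * (∑ u, W u) * pi0 K) fun η hη => by
    set s := 1 / 2 * ∑ u, W u
    have hs : 0 ≤ s := mul_nonneg (by norm_num) (Finset.sum_nonneg fun u _ => hW0 u)
    refine (key (η / (s + 1)) (by positivity)).trans ?_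
    rw [mul_add, ← mul_div_assoc]
    gcongr
    rw [div_le_iff₀ (by linarith)]
    nlinarith
  have e : (fun z => ρ0 z + δ z) = fun z : Fin 2 => if z = 0 then (0:ℝ) else 1 := by
    funext z
    simp only [ρ0, δ]
    split_ifs <;> ring
  rw [e, show ρ0 = fun z : Fin 2 => if z = 0 then (1:ℝ) else 0 from rfl, vcasc_slot_sub,
    abs_sub_comm] at h
  refine h.trans ?_
  have hp : pi0 K * ((K:ℝ) + 1) = 1 := by unfold pi0; field_simp
  have hp0 : 0 ≤ pi0 K := by unfold pi0; positivity
  simp only [hW, Finset.sum_add_distrib, ← Finset.mul_sum, Finset.sum_const, Finset.card_univ,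
    Fintype.card_fin, nsmul_eq_mul, Nat.cast_add, Nat.cast_one]
  show _ ≤ (b + b ^ 2) * (pi0 K * (∑ u, levDist A A' u) + levDist A A' (Fin.last K))
  have hsum : 0 ≤ ∑ u, levDist A A' u := Finset.sum_nonneg fun u _ => hL u
  have e2 : 1 / 2 * (b ^ 2 * ∑ u, levDist A A' u
      + (b + b ^ 2) * (((K:ℝ) + 1) * levDist A A' (Fin.last K))) * pi0 K
      = 1 / 2 * (b ^ 2 * (pi0 K * ∑ u, levDist A A' u))
        + 1 / 2 * ((b + b ^ 2) * levDist A A' (Fin.last K)) * (pi0 K * ((K:ℝ) + 1)) := by ring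
  rw [e2, hp]
  nlinarith [mul_nonneg hb (mul_nonneg hp0 hsum), mul_nonneg (sq_nonneg b) (mul_nonneg hp0 hsum),
    mul_nonneg hb (hL (Fin.last K)), mul_nonneg (sq_nonneg b) (hL (Fin.last K))]

/-- Factors of the increments of the path, the top increment inside the last level. -/
noncomputable def mergeFac (K : ℕ) (D : Matrix (Fin d) (Fin d) ℝ)
    (q : ℕ → Matrix (Fin d) (Fin d) ℝ) : Fin (K + 1) → Fin d → Fin d → ℝ :=
  Fin.cases (facOf (if 0 = K then D else q 0)) fun l =>
    facOf ((if l.val + 1 = K then D else q (l.val + 1)) - q l.val)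

theorem sum_facOf {P : Matrix (Fin d) (Fin d) ℝ} (hP : P.PosSemidef) (k l : Fin d) :
    ∑ r, facOf P k r * facOf P l r = P k l := by
  have hs : (CFC.sqrt P).PosSemidef := Matrix.nonneg_iff_posSemidef.1 (CFC.sqrt_nonneg P)
  have ht : ∀ r, CFC.sqrt P l r = CFC.sqrt P r l := fun r => by
    have := congrFun (congrFun hs.isHermitian.eq r) l
    simpa using this
  calc ∑ r, facOf P k r * facOf P l r = (CFC.sqrt P * CFC.sqrt P) k l := by
        simp only [facOf, Matrix.mul_apply, ht]
    _ = P k l := by rw [CFC.sqrt_mul_sqrt_self P hP.nonneg]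

theorem facCum_merge {D : Matrix (Fin d) (Fin d) ℝ} {q : ℕ → Matrix (Fin d) (Fin d) ℝ} (hK : 0 < K)
    (hq : IsPath K q) (hD : (D - q K).PosSemidef) (u : Fin (K + 1)) (k l : Fin d) :
    facCum (mergeFac K D q) u k l = (if u.val = K then D else q u.val) k l := by
  induction u using Fin.induction with
  | zero =>
    rw [facCum, show (Finset.Iic (0 : Fin (K + 1))) = {0} from by ext i; simp,
      Finset.sum_singleton]
    simp only [mergeFac, Fin.cases_zero, if_neg hK.ne, sum_facOf hq.nonneg]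
    rw [if_neg (by simpa using hK.ne)]
    simp
  | succ i ih =>
    have hins : (Finset.Iic i.succ : Finset (Fin (K + 1))) = insert i.succ (Finset.Iic i.castSucc) := by
      ext j
      simp only [Finset.mem_Iic, Finset.mem_insert, Fin.le_iff_val_le_val, Fin.val_succ,
        Fin.val_castSucc, Fin.ext_iff]
      omega
    have hni : i.succ ∉ Finset.Iic i.castSucc := by
      simp [Fin.le_iff_val_le_val, Fin.val_succ]
    rw [facCum, hins, Finset.sum_insert hni]
    rw [facCum] at ih
    rw [ih, Fin.val_castSucc, if_neg i.isLt.ne]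
    have hpsd : ((if i.val + 1 = K then D else q (i.val + 1)) - q i.val).PosSemidef := by
      split_ifs with h
      · have := hD.add (hq.step i.val i.isLt)
        rw [h] at this
        simpa [sub_add_sub_cancel] using this
      · exact hq.step i.val i.isLt
    simp only [mergeFac, Fin.cases_succ, sum_facOf hpsd, Fin.val_succ, Matrix.sub_apply]
    ring

theorem rowFac_merge {D : Matrix (Fin d) (Fin d) ℝ} {q : ℕ → Matrix (Fin d) (Fin d) ℝ} (hK : 0 < K)
    (hq : IsPath K q) (hD : (D - q K).PosSemidef) : RowFac K D q (mergeFac K D q) where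
  root u := by
    simp only [mergeFac, Fin.cases_zero, if_neg hK.ne]
    exact cq_facOf hq.nonneg u
  level l hl u := by
    simp only [mergeFac, Fin.cases_succ, if_neg hl.ne]
    exact cq_facOf (hq.step l.val l.isLt) u
  last l hl u := by
    simp only [mergeFac, Fin.cases_succ, if_pos hl]
    refine cq_facOf ?_ u
    have := hD.add (hq.step l.val l.isLt)
    rw [hl] at this
    simpa [sub_add_sub_cancel] using this

/-- The value of a path against the cascade value of a slot. -/
theorem rowVal_slot_le (P : VPot d) : ∃ C, 0 ≤ C ∧ ∀ K, 0 < K →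
    ∀ (D : Matrix (Fin d) (Fin d) ℝ) (q : ℕ → Matrix (Fin d) (Fin d) ℝ), IsPath K q →
      (D - q K).PosSemidef → ∀ A : Fin (K + 1) → Fin d → Fin d → ℝ,
        rowVal P.f K D q ≤ rowCasc P.f (A 0) (fun l => A l.succ) + 2 * P.bF / K
          + C * (pi0 K * (∑ u : Fin (K + 1), ∑ k, ∑ l,
              |facCum A u k l - (if u.val = K then D else q u.val) k l|)
            + ∑ k, ∑ l, |facCum A (Fin.last K) k l - D k l|) := by
  obtain ⟨C, hC0, hC⟩ := rowCasc_lip P
  refine ⟨C, hC0, fun K hK D q hq hD A => ?_⟩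
  have h1 := (rowVal_merge hK hq hD (rowFac_merge hK hq hD) P.cf.measurable P.hF).2
  have h2 := (abs_le.1 (hC K A (mergeFac K D q))).1
  simp only [facCum_merge hK hq hD, Fin.val_last, if_true] at h2
  linarith

end Vale.Agent.P166.Casc
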