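import Vale.Agent.P166.Casc.VIncLimit

/-!
The mean covariance of the gradients of the rows at a level: one row at a time is decoupled to its
slot, where it gives the value of the slot.
-/

open MeasureTheory ProbabilityTheory Filter Topology Set

namespace Vale.Agent.P166.Casc

open Vale.Agent.P157.Casc Vale.Agent.P166.Formula

variable {N M d R D K n : ℕ}

/-- A pair average as an average over two replicas. -/
theorem vmpair_eq_reavg (P : VPot d) (π : VPrior N d R D) (Φ : VFac N d K)
    (c : VCIdx N M d R D K → ℝ)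
    (O : (VGIdx N M d R D K n → ℝ) → VState π K n → VState π K n → ℝ) :
    vmpair n P π Φ c O = reavg (venv N M d R D K n) (vposW P π Φ c) 2
      (fun p x => O p.2 (x 0) (x 1)) := by
  refine integral_congr_ae ?_
  filter_upwards [ae_vposW P π Φ c] with p hp
  rw [← hp]
  simp only [avg2]
  rw [avg_cons']
  refine Finset.sum_congr rfl fun a _ => ?_
  rw [avg_cons', Finset.mul_sum]
  refine Finset.sum_congr rfl fun b _ => ?_
  simp only [avg_zero']
  rw [show O p.2 ((Fin.cons a (Fin.cons b Fin.elim0) : Fin 2 → VState π K n) 0)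
      ((Fin.cons a (Fin.cons b Fin.elim0) : Fin 2 → VState π K n) 1) = O p.2 a b from rfl]
  ring

theorem rowc_eq_segc (s : ℝ) (i : VCIdx N M d R D K) :
    rowc s i = segc (fun _ _ => s) (fun _ => 0) (fun _ => 0) i := by
  rcases i with (⟨a, j⟩ | j) | ⟨l, ⟨z, a, r⟩ | ⟨z, j, r⟩ | u⟩ <;>
    simp [rowc, segc, vfldc]

/-- The rows of the old system, one of them on its slot. -/
noncomputable def rowDecC (J : ℕ) (x : Fin R → ℕ → ℝ) (a : Fin M) :
    VCIdx N M d R D K → ℝ := fun i =>
  segc (fun b _ => if b = a then 0 else 1) (fun b => if b = a then 1 else 0) (fun _ => 0) i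
    + vpert J x i

/-- Mean product of two components of the gradient of the rows on a level, divided by `N`. -/
noncomputable def rowMean (n : ℕ) (P : VPot d) (π : VPrior N d R D) (Φ : VFac N d K)
    (c : VCIdx N M d R D K → ℝ) (u : Fin (K + 1)) (k l : Fin d) : ℝ :=
  vmpair n P π Φ c fun G st st' => onLev u (vlev π st st') (vovP P π Φ c k l G st st')

theorem rowMean_eq (P : VPot d) (π : VPrior N d R D) (Φ : VFac N d K) (hn : 0 < n)
    (c : VCIdx N M d R D K → ℝ) (u : Fin (K + 1)) (k l : Fin d) :
    rowMean n P π Φ c u k l = 1 / (N : ℝ) * ∑ a, vmpair n P π Φ c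
      (robs P (vbpat π Φ) a (levA π u (fun _ => 1) (fun _ => 1)) (some k) (some l) (vpull c)) := by
  rw [← vmpair_sum P Φ c hn _ fun a _ => goodObs_robs P Φ a _ _ _ c,
    ← vmpair_smul P Φ c hn (GoodObs.sum _ fun a _ => goodObs_robs P Φ a _ _ _ c)]
  unfold rowMean
  congr 1
  funext G st st'
  simp only [robs, levA, onLev, gO, vovP, mul_one]
  split_ifs
  · rw [div_eq_mul_inv, mul_comm, one_div]
    simp
  · simp

section Close

variable (P : VPot d) (π : VPrior N d R D) (Φ : VFac N d K) (J : ℕ) (x : Fin R → ℕ → ℝ)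

theorem rowDecC_row (a : Fin M) (l : Fin (K + 1)) :
    rowA Φ (rowDecC (d := d) (R := R) (D := D) (K := K) J x a) a l = slotA Φ l := by
  funext k i
  obtain ⟨z, r⟩ := i
  by_cases hz : z = 0
  · subst hz
    simp [rowA, rowEmb, rowDecC, segc, vfldc, vpert, slotA]
  · simp [rowA, rowEmb, rowDecC, segc, vfldc, vpert, slotA, hz]

theorem freeRows_rowDecC (a : Fin M) :
    FreeRows (rowDecC (N := N) (d := d) (R := R) (D := D) (K := K) J x a) {a} := by
  intro b hb j
  rw [Finset.mem_singleton] at hb
  subst hb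
  simp [rowDecC, segc, vfldc, vpert]

/-- The level means of the rows are those of the slot, up to the distance of the overlaps to the
path of the slot. -/
theorem rowMean_close {B : ℝ} (hB0 : 0 ≤ B) (hov : ∀ k l σ σ', |oldOv π k l σ σ'| ≤ B)
    (hrow : ∀ u k l, |rowCum Φ u k l| ≤ B) {η : ℝ} (hη : 0 < η) :
    ∃ n0, ∀ n ≥ n0, ∀ σ εd : ℝ,
      vmpair n P π Φ (oldC (M := M) J x) (fun _ => syncF π Φ) ≤ σ →
      vmpair n P π Φ (oldC (M := M) J x) (fun _ st _ => devS π Φ st.1) ≤ εd →
      ∑ u, ∑ k, ∑ l, |rowMean n P π Φ (oldC (M := M) J x) u k l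
          - (M : ℝ) / N * (pi0 K * slotLev P Φ u k l)|
        ≤ (M : ℝ) / N * ((d : ℝ) ^ 2 * (decK P B * (σ + εd))) + η := by
  set X := fun n (a : Fin M) (u : Fin (K + 1)) (k l : Fin d) =>
    vmpair n P π Φ (rowDecC J x a) (robs P (vbpat π Φ) a (levA π u (fun _ => 1) (fun _ => 1))
      (some k) (some l) (vpull (rowDecC J x a)))
  have hX : ∀ a u k l, Tendsto (fun n => X n a u k l) atTop (𝓝 (pi0 K * slotLev P Φ u k l)) :=
    fun a u k l => by
    have hc := tendsto_const_nhds (x := rowDecC (N := N) (d := d) (R := R) (D := D) (K := K) J x a)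
      (f := (atTop : Filter ℕ))
    have h := tendsto_fldLev_free P π Φ (a := a) (fun _ => (1 : ℝ)) (fun _ => 1) (P.cg k) (P.cg l)
      (b := rowB P) (abs_g_le P k) (abs_g_le P l) hc (freeRows_rowDecC J x a) (nn := id)
      tendsto_id u
    have hE := tendsto_pairLev_sq P π Φ hc (φ := fun _ _ => (1 : ℝ)) tendsto_const_nhds (nn := id)
      tendsto_id u
    simp only [sqLim_one, mul_one] at hE
    simp only [rowDecC_row] at h
    have hE' : Tendsto (fun n => fldLev n P π Φ (rowDecC J x a) a (fun _ _ => (1 : ℝ))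
        (fun _ _ => 1) u) atTop (𝓝 (pi0 K)) := by
      refine hE.congr fun j => ?_
      simp only [id, fldLev, pairLev, fldObs, one_mul]
    have h2 := h.add (hE'.const_mul (slotLev P Φ u k l))
    rw [zero_add, mul_comm] at h2
    refine h2.congr fun n => ?_
    simp only [X, id, vmpair_robs_lev, gO, slotLev]
    ring
  set Z := fun n => 1 / (N : ℝ) * ∑ a, ∑ u, ∑ k, ∑ l, |X n a u k l - pi0 K * slotLev P Φ u k l|
  have hZ : Tendsto Z atTop (𝓝 0) := by
    have h := (tendsto_finsetSum Finset.univ fun a _ => tendsto_finsetSum Finset.univ fun u _ =>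
      tendsto_finsetSum Finset.univ fun k _ => tendsto_finsetSum Finset.univ fun l _ =>
        ((hX a u k l).sub_const (pi0 K * slotLev P Φ u k l)).abs).const_mul (1 / (N : ℝ))
    simpa [Z] using h
  obtain ⟨n0, hn0⟩ := eventually_atTop.1 ((hZ.eventually (eventually_le_nhds hη)).and
    (eventually_gt_atTop 0))
  refine ⟨n0, fun n hn σ εd hσ hd => ?_⟩
  obtain ⟨hZn, hn'⟩ := hn0 n hn
  have := vstate_nonempty (K := K) π hn'
  set c := oldC (N := N) (M := M) (d := d) (R := R) (D := D) (K := K) J x
  have hK0 : 0 ≤ decK P B := mul_nonneg (rowC_nonneg P) (by positivity)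
  set s := fun (u : Fin (K + 1)) (k l : Fin d) =>
    if rowMean n P π Φ c u k l - (M : ℝ) / N * (pi0 K * slotLev P Φ u k l) < 0 then (-1 : ℝ) else 1
  have habs : ∀ u k l, |rowMean n P π Φ c u k l - (M : ℝ) / N * (pi0 K * slotLev P Φ u k l)|
      = s u k l * (rowMean n P π Φ c u k l - (M : ℝ) / N * (pi0 K * slotLev P Φ u k l)) :=
    fun u k l => by
      simp only [s]
      split_ifs with h
      · rw [abs_of_neg h]; ring
      · rw [abs_of_nonneg (not_lt.1 h), one_mul]
  have hs : ∀ u k l, |s u k l| ≤ 1 := fun u k l => by simp only [s]; split_ifs <;> simp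
  -- one row at a time
  have hrowa : ∀ a k l, ∑ u, s u k l * vmpair n P π Φ c
        (robs P (vbpat π Φ) a (levA π u (fun _ => 1) (fun _ => 1)) (some k) (some l) (vpull c))
      ≤ (∑ u, s u k l * X n a u k l) + decK P B * (σ + εd) := fun a k l => by
    set A : VState π K n → VState π K n → ℝ := fun st st' => s (com st.2 st'.2) k l
    have hsum : ∀ c' : VCIdx N M d R D K → ℝ, vmpair n P π Φ c'
          (robs P (vbpat π Φ) a A (some k) (some l) (vpull c'))
        = ∑ u, s u k l * vmpair n P π Φ c' (robs P (vbpat π Φ) a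
          (levA π u (fun _ => 1) (fun _ => 1)) (some k) (some l) (vpull c')) := fun c' => by
      have e' : robs P (vbpat π Φ) a A (some k) (some l) (vpull c')
          = fun G (st st' : VState π K n) => ∑ u, s u k l * robs P (vbpat π Φ) a
            (levA π u (fun _ => 1) (fun _ => 1)) (some k) (some l) (vpull c') G st st' := by
        funext G st st'
        have hA : A st st' = ∑ u, s u k l * levA π u (fun _ => (1 : ℝ)) (fun _ => 1) st st' := by
          simp [A, levA, vlev, onLev, Finset.sum_ite_eq]
        simp only [robs, hA, Finset.sum_mul, mul_assoc]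
      rw [e', vmpair_sum P Φ c' hn' _ fun u _ => (goodObs_robs P Φ a _ _ _ c').smul _]
      exact Finset.sum_congr rfl fun u _ => vmpair_smul P Φ c' hn' (goodObs_robs P Φ a _ _ _ c') _
    set ea : VCIdx N M d R D K → ℝ :=
      segc (fun b _ => if b = a then -1 else 0) (fun b => if b = a then 1 else 0) (fun _ => 0)
      with hea
    have hc : ∀ r, (fun i => c i + r * ea i) = fun i => segc
        (fun b (_ : Fin N) => 1 + r * if b = a then (-1 : ℝ) else 0)
        (fun b => 0 + r * if b = a then 1 else 0) (fun _ => 0 + r * 0) i + vpert J x i := fun r => by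
      rw [← segc_add]
      funext i
      simp only [c, oldC, ea, rowc_eq_segc]
      ring
    have hpos : ∀ r ∈ Icc (0 : ℝ) 1, ∀ i, 0 ≤ c i + r * ea i := fun r hr i => by
      rw [show c i + r * ea i = _ from congrFun (hc r) i]
      refine add_nonneg (segc_nonneg (fun b j => ?_) (fun b => ?_) (fun j => by simp) i)
        (vpert_nonneg J x i)
      · split_ifs <;> linarith [hr.2]
      · split_ifs <;> linarith [hr.1]
    have hvrow : VRow a ea := by
      refine ⟨fun b j hb => ?_, fun j => ?_, fun l' z b r hb => ?_, fun l' u => ?_⟩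
      · simp [ea, segc, vfldc, hb]
      · simp [ea, segc, vfldc]
      · simp [ea, segc, vfldc, hb]
      · rcases u with ⟨z, j, r⟩ | v <;> simp [ea, segc, vfldc]
    have hend : (fun i => c i + ea i) = rowDecC J x a := by
      have h := hc 1
      simp only [one_mul, mul_zero, add_zero, zero_add] at h
      rw [h]
      funext i
      simp only [rowDecC]
      congr 2
      funext b j
      split_ifs <;> ring
    have hcov : ∀ k' l' (st st' : VState π K n), bcov (vbpat π Φ) (vpull ea) a k' l' st st'
        = rowCum Φ (com st.2 st'.2) k' l' - oldOv π k' l' st.1 st'.1 := fun k' l' st st' => by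
      rw [hea, bcov_segc]
      simp [oldOv, neg_div]
      ring
    have h4 : ∀ k' l' (st st' : VState π K n),
        |bcov (vbpat π Φ) (vpull ea) a k' l' st st'| ≤ 4 * B := fun k' l' st st' => by
      rw [hcov]
      refine (abs_sub _ _).trans ?_
      linarith [hrow (com st.2 st'.2) k' l', hov k' l' st.1 st'.1]
    have h := abs_vmpair_row_sub P π Φ hn' a hpos hvrow A (CA := 1) (fun st st' => hs _ _ _)
      (some k) (some l) (mul_nonneg (by norm_num) hB0) h4
    rw [hend, hsum, hsum] at h
    have hR : vmpair n P π Φ c (fun _ => rowF (vbpat π Φ) (vpull ea) a) ≤ σ + εd := by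
      refine le_trans (vmpair_mono P Φ c hn' (goodObs_const _) ((goodObs_const (syncF π Φ)).add
        (goodObs_const fun st _ => devS π Φ st.1)) fun G st st' => ?_) ?_
      · refine le_of_eq ?_
        simp only [rowF, rowDev, syncF, devS, hcov, com_self, abs_sub_comm (oldOv π _ _ _ _)]
      · rw [vmpair_add P Φ c hn' (goodObs_const _) (goodObs_const _)]
        exact add_le_add hσ hd
    have h' := (abs_le.1 h).1
    have h2 := mul_le_mul_of_nonneg_left hR hK0
    simp only [decK, mul_assoc, one_mul] at h' h2 ⊢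
    linarith
  have e0 : ∑ u, ∑ k, ∑ l, |rowMean n P π Φ c u k l - (M : ℝ) / N * (pi0 K * slotLev P Φ u k l)|
      = 1 / (N : ℝ) * ∑ a, ∑ k, ∑ l, ((∑ u, s u k l * vmpair n P π Φ c
          (robs P (vbpat π Φ) a (levA π u (fun _ => 1) (fun _ => 1)) (some k) (some l) (vpull c)))
        - ∑ u, s u k l * (pi0 K * slotLev P Φ u k l)) := by
    have e1 : ∀ u k l, |rowMean n P π Φ c u k l - (M : ℝ) / N * (pi0 K * slotLev P Φ u k l)|
        = 1 / (N : ℝ) * ∑ a, (s u k l * vmpair n P π Φ c
            (robs P (vbpat π Φ) a (levA π u (fun _ => 1) (fun _ => 1)) (some k) (some l) (vpull c))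
          - s u k l * (pi0 K * slotLev P Φ u k l)) := fun u k l => by
      rw [habs, rowMean_eq P π Φ hn', Finset.sum_sub_distrib, ← Finset.mul_sum, Finset.sum_const,
        Finset.card_univ, Fintype.card_fin, nsmul_eq_mul]
      ring
    simp only [e1, ← Finset.mul_sum, ← Finset.sum_sub_distrib]
    congr 1
    calc _ = ∑ u, ∑ a, ∑ k, ∑ l, (s u k l * vmpair n P π Φ c
            (robs P (vbpat π Φ) a (levA π u (fun _ => 1) (fun _ => 1)) (some k) (some l) (vpull c))
          - s u k l * (pi0 K * slotLev P Φ u k l)) := Finset.sum_congr rfl fun u _ => by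
          rw [Finset.sum_congr rfl fun k _ => Finset.sum_comm, Finset.sum_comm]
      _ = _ := by
          rw [Finset.sum_comm]
          refine Finset.sum_congr rfl fun a _ => ?_
          rw [Finset.sum_comm]
          exact Finset.sum_congr rfl fun k _ => Finset.sum_comm
  rw [e0]
  have hb : ∀ a : Fin M, ∑ k, ∑ l, ((∑ u, s u k l * vmpair n P π Φ c
          (robs P (vbpat π Φ) a (levA π u (fun _ => 1) (fun _ => 1)) (some k) (some l) (vpull c)))
        - ∑ u, s u k l * (pi0 K * slotLev P Φ u k l))
      ≤ (d : ℝ) ^ 2 * (decK P B * (σ + εd))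
        + ∑ u, ∑ k, ∑ l, |X n a u k l - pi0 K * slotLev P Φ u k l| := fun a => by
    refine (Finset.sum_le_sum (g := fun k => ∑ l : Fin d, (decK P B * (σ + εd)
        + ∑ u, |X n a u k l - pi0 K * slotLev P Φ u k l|))
      fun k _ => Finset.sum_le_sum fun l _ => ?_).trans_eq ?_
    · have h1 := hrowa a k l
      have h2 : ∑ u, s u k l * X n a u k l - ∑ u, s u k l * (pi0 K * slotLev P Φ u k l)
          ≤ ∑ u, |X n a u k l - pi0 K * slotLev P Φ u k l| := by
        rw [← Finset.sum_sub_distrib]
        refine Finset.sum_le_sum fun u _ => ?_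
        rw [← mul_sub]
        refine (le_abs_self _).trans ?_
        rw [abs_mul]
        exact mul_le_of_le_one_left (abs_nonneg _) (hs u k l)
      linarith
    · simp only [Finset.sum_add_distrib, Finset.sum_const, Finset.card_univ, Fintype.card_fin,
        nsmul_eq_mul]
      congr 1
      · ring
      · rw [Finset.sum_congr rfl fun k _ => Finset.sum_comm, Finset.sum_comm]
  refine (mul_le_mul_of_nonneg_left (Finset.sum_le_sum fun a _ => hb a) (by positivity)).trans ?_
  rw [Finset.sum_add_distrib, mul_add, Finset.sum_const, Finset.card_univ, Fintype.card_fin,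
    nsmul_eq_mul]
  refine add_le_add (le_of_eq (by ring)) hZn

end Close

end Vale.Agent.P166.Casc
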