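import Vale.Agent.P166.Casc.VIncLimit
import Vale.Agent.P166.Casc.BlockAtoms
import Vale.Agent.P166.Casc.VRowMean
import Vale.Agent.P166.Formula.Value

/-!
The factors of a cavity step built from an overlap path of the rows and responses of the types, the
covariances they give, and the irrelevance of the factors for the system with rows only.
-/

open MeasureTheory ProbabilityTheory Filter Topology
open Matrix hiding comp
open scoped MatrixOrder

namespace Vale.Agent.P166.Casc

open Vale.Agent.P157.Casc Vale.Agent.P166.Formula Vale.Agent.P166.Pen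
open Vale.Agent.P150.Fast.Dom (arrMap)

variable {d N N' m M R D K n : ℕ}

theorem sum_facOf_eq {P : Matrix (Fin d) (Fin d) ℝ} (hP : P.PosSemidef) (k l : Fin d) :
    ∑ r, facOf P k r * facOf P l r = P k l := by
  have hs : (CFC.sqrt P).PosSemidef := Matrix.nonneg_iff_posSemidef.1 (CFC.sqrt_nonneg P)
  have hb : CFC.sqrt P * CFC.sqrt P = P := CFC.sqrt_mul_sqrt_self P hP.nonneg
  have h : ∀ r, CFC.sqrt P l r = CFC.sqrt P r l := fun r => by
    simpa using hs.isHermitian.apply r l
  conv_rhs => rw [← hb, Matrix.mul_apply]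
  simp only [facOf, h]

/-- Increments of a path on the levels. -/
def incM (q : ℕ → Matrix (Fin d) (Fin d) ℝ) (l : Fin (K + 1)) : Matrix (Fin d) (Fin d) ℝ :=
  Fin.cases (q 0) (fun i : Fin K => q (i.val + 1) - q i.val) l

/-- Factors of one row slot along a path. -/
noncomputable def slotFac (q : ℕ → Matrix (Fin d) (Fin d) ℝ) (l : Fin (K + 1)) :
    Fin d → Fin d → ℝ :=
  facOf (incM q l)

theorem sum_Iic_incM (q : ℕ → Matrix (Fin d) (Fin d) ℝ) (u : Fin (K + 1)) :
    ∑ i ∈ Finset.Iic u, incM q i = q u.val := by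
  induction u using Fin.induction with
  | zero =>
    rw [show Finset.Iic (0 : Fin (K + 1)) = {0} by ext; simp]
    simp [incM]
  | succ i ih =>
    have e : Finset.Iic i.succ = insert i.succ (Finset.Iic i.castSucc) := by
      ext j
      simp only [Finset.mem_Iic, Finset.mem_insert, Fin.le_iff_val_le_val, Fin.ext_iff,
        Fin.val_succ, Fin.val_castSucc]
      omega
    rw [e, Finset.sum_insert (by simp [Fin.le_iff_val_le_val]), ih]
    simp [incM]

theorem cum_slotFac {q : ℕ → Matrix (Fin d) (Fin d) ℝ} (hq : IsPath K q) (u : Fin (K + 1))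
    (k l : Fin d) :
    ∑ i ∈ Finset.Iic u, ∑ r, slotFac q i k r * slotFac q i l r = q u.val k l := by
  rw [← sum_Iic_incM q u, Matrix.sum_apply]
  refine Finset.sum_congr rfl fun i _ => ?_
  refine sum_facOf_eq ?_ k l
  refine Fin.cases ?_ (fun j => ?_) i
  · exact hq.nonneg
  · simpa [incM] using hq.step j.val j.isLt

/-- The factors of a step: the path of the rows on the first slot, the responses of the types on
the new sites. -/
noncomputable def stepFac (e : Fin N ⊕ Fin m ≃ Fin N') (T : Fin m → Finset (Fin d))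
    (q : ℕ → Matrix (Fin d) (Fin d) ℝ)
    (p : (t : Finset (Fin d)) → ℕ → Matrix (Fin t.card) (Fin t.card) ℝ) : VFac N' d K :=
  (fun z l => if z = 0 then slotFac q l else fun _ _ => 0,
    fun z j l => if z = 0 then Sum.elim (fun _ _ _ => 0) (fun i => siteFac T K p i l) (e.symm j)
      else fun _ _ => 0,
    fun _ _ _ => 0)

variable (e : Fin N ⊕ Fin m ≃ Fin N') (T : Fin m → Finset (Fin d))
  (q : ℕ → Matrix (Fin d) (Fin d) ℝ)
  (p : (t : Finset (Fin d)) → ℕ → Matrix (Fin t.card) (Fin t.card) ℝ)

theorem rowCum_stepFac (hq : IsPath K q) (u : Fin (K + 1)) (k l : Fin d) :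
    rowCum (stepFac e T q p) u k l = q u.val k l := by
  rw [← cum_slotFac hq u k l]
  simp [rowCum, stepFac]

theorem blkS_stepFac (i : Fin m) :
    blkS (stepFac (K := K) e T q p) e i = siteFac T K p i := by
  funext l
  simp [blkS, stepFac]

/-- Covariance of the factors of the sites. -/
theorem cum_siteFac (hp : ∀ i, IsPath K (p (T i))) (hp0 : ∀ i, p (T i) 0 = 0) (i : Fin m)
    (u : Fin (K + 1)) (k l : Fin d) :
    ∑ j ∈ Finset.Iic u, ∑ r, siteFac T K p i j k r * siteFac T K p i j l r
      = Formula.liftM (T i) (p (T i) u.val) k l := by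
  set t := T i
  have hs : ∀ (j : Fin (K + 1)), ∑ r, siteFac T K p i j k r * siteFac T K p i j l r
      = Formula.liftM t (incM (p t) j) k l := by
    refine Fin.cases ?_ fun j => ?_
    · simp [siteFac, incM, t, hp0 i, liftM_zero]
    set f := facOf (p t (j.val + 1) - p t j.val)
    have e1 : ∀ k r, siteFac T K p i j.succ k r
        = ∑ b, ∑ b', if comp t b = k ∧ comp t b' = r then f b b' else 0 := fun _ _ => rfl
    have e2 : ∀ k r, siteFac T K p i j.succ k r = Formula.liftM t (Matrix.of f) k r := fun k r => by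
      rw [e1, liftM_apply]
      rfl
    have e3 : selM t * (selM t).transpose = 1 := by
      ext b b'
      simp [selM, Matrix.mul_apply, Matrix.one_apply, (comp t).injective.eq_iff]
    have e4 : Matrix.of f * (Matrix.of f).transpose = incM (p t) j.succ := by
      ext b b'
      simp only [Matrix.mul_apply, Matrix.transpose_apply, Matrix.of_apply, f]
      exact (sum_facOf_eq ((hp i).step j.val j.isLt) b b').trans rfl
    calc ∑ r, siteFac T K p i j.succ k r * siteFac T K p i j.succ l r
        = (Formula.liftM t (Matrix.of f) * (Formula.liftM t (Matrix.of f)).transpose) k l := by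
          simp only [e2, Matrix.mul_apply, Matrix.transpose_apply]
      _ = _ := by
          rw [← e4]
          simp only [Formula.liftM, Matrix.transpose_mul, Matrix.transpose_transpose]
          simp only [Matrix.mul_assoc]
          rw [← Matrix.mul_assoc (selM t) (selM t).transpose, e3, Matrix.one_mul]
  rw [Finset.sum_congr rfl fun j _ => hs j, ← sum_Iic_incM (p t) u]
  simp only [Formula.liftM, Matrix.mul_sum, Matrix.sum_mul, Matrix.sum_apply]

theorem spinCum_stepFac (hp : ∀ i, IsPath K (p (T i))) (hp0 : ∀ i, p (T i) 0 = 0) (i : Fin m)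
    (u : Fin (K + 1)) (k l : Fin d) :
    spinCum (stepFac (K := K) e T q p) (e (Sum.inr i)) u k l
      = Formula.liftM (T i) (p (T i) u.val) k l := by
  rw [← cum_siteFac T p hp hp0 i u k l]
  simp [spinCum, stepFac]

/-- Level means of a slot are bounded. -/
theorem abs_slotLev_le (P : VPot d) (Φ : VFac N d K) (u : Fin (K + 1)) (k l : Fin d) :
    |slotLev P Φ u k l| ≤ 3 * rowB P ^ 2 := by
  unfold slotLev rowLev
  set b := rowB P
  set S : Fin K → Fin d → RowIdx d → ℝ := fun j => slotA Φ j.succ
  have key : ∀ w, |cbil (gaus (RowIdx d)) K (mlev K)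
      (fun u => P.f (rowFld S (arrMap (slotA Φ 0) w) u))
      (fun u => P.g k (rowFld S (arrMap (slotA Φ 0) w) u))
      (fun u => P.g l (rowFld S (arrMap (slotA Φ 0) w) u)) u| ≤ 3 * b ^ 2 := fun w => by
    have hH : Measurable fun u => P.f (rowFld S (arrMap (slotA Φ 0) w) u) :=
      P.cf.measurable.comp ((continuous_rowFld S).measurable.comp measurable_prodMk_left)
    have hm : ∀ i, Measurable fun u => P.g i (rowFld S (arrMap (slotA Φ 0) w) u) := fun i =>
      (P.cg i).measurable.comp ((continuous_rowFld S).measurable.comp measurable_prodMk_left)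
    have hi : Integrable (fun u => Real.exp (P.f (rowFld S (arrMap (slotA Φ 0) w) u)))
        (Measure.pi fun _ : Fin K => gaus (RowIdx d)) :=
      (integrable_const (Real.exp |P.bF|)).mono' hH.exp.aestronglyMeasurable
        (ae_of_all _ fun u => by
          rw [Real.norm_eq_abs, abs_of_pos (Real.exp_pos _)]
          exact Real.exp_le_exp.2 ((le_abs_self _).trans ((P.hF _).trans (le_abs_self _))))
    have h := csq_add K (grid_mlev K) hH (hm k) (hm l) hi (B := b) (fun _ => abs_g_le P k _)
      (fun _ => abs_g_le P l _) u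
    have c0 := abs_le.1 ((csq_bound_mono K (grid_mlev K) hH ((hm k).add (hm l)) hi (B := b + b)
      fun y => (abs_add_le _ _).trans (add_le_add (abs_g_le P k _) (abs_g_le P l _))).1 u)
    have c1 := abs_le.1 ((csq_bound_mono K (grid_mlev K) hH (hm k) hi (B := b)
      fun _ => abs_g_le P k _).1 u)
    have c2 := abs_le.1 ((csq_bound_mono K (grid_mlev K) hH (hm l) hi (B := b)
      fun _ => abs_g_le P l _).1 u)
    simp only [Pi.add_def] at c0
    exact abs_le.2 ⟨by linarith [c0.1, c1.2, c2.2], by linarith [c0.2, c1.1, c2.1]⟩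
  rw [← Real.norm_eq_abs]
  refine (norm_integral_le_of_norm_le_const (ae_of_all _ fun w =>
    (Real.norm_eq_abs _).trans_le (key w))).trans_eq ?_
  simp

section Congr

variable (P : VPot d) (π : VPrior N d R D) (Φ Φ' : VFac N d K)

/-- Variances of rows and perturbations only. -/
def NoSlot (c : VCIdx N M d R D K → ℝ) : Prop :=
  (∀ j, c (Sum.inl (Sum.inr j)) = 0) ∧ (∀ l v, c (Sum.inr (l, Sum.inl v)) = 0) ∧
    ∀ l v, c (Sum.inr (l, Sum.inr (Sum.inl v))) = 0

theorem noSlot_oldC (J : ℕ) (x : Fin R → ℕ → ℝ) :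
    NoSlot (oldC (N := N) (M := M) (d := d) (D := D) (K := K) J x) :=
  ⟨fun j => by simp [oldC, rowc, vfldc, vpert], fun l v => by simp [oldC, rowc, vfldc, vpert],
    fun l v => by simp [oldC, rowc, vfldc, vpert]⟩

theorem vfld_noSlot {c : VCIdx N M d R D K → ℝ} (hc : NoSlot c)
    (G : VGIdx N M d R D K n → ℝ) (st : VState π K n) (a : Fin M) :
    vfld (vbpat π Φ) (vpull c) G st a = vfld (vbpat π Φ') (vpull c) G st a := by
  funext k
  refine Finset.sum_congr rfl fun i _ => ?_
  rcases i with (p | p) | ⟨o, u | u | u⟩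
  · rfl
  · rfl
  · simp [vpull, hc.2.1]
  · simp [vbpat, treeDir, rowL]
  · simp [vbpat, treeDir, rowL]

theorem vmbw_noSlot {c : VCIdx N M d R D K → ℝ} (hc : NoSlot c)
    (w : (Node K n → ℝ) × (VGIdx N M d R D K n → ℝ)) (st : VState π K n) :
    vmbw P π Φ c w st = vmbw P π Φ' c w st := by
  have hz : ∀ i, vpull c i = 0 ∨ vbspin (M := M) π Φ st i = vbspin π Φ' st i := fun i => by
    rcases i with q | ⟨o, u | u | u⟩
    · exact Or.inr rfl
    · exact Or.inl (by simp [vpull, hc.2.1])
    · exact Or.inl (by simp [vpull, hc.2.2])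
    · exact Or.inr (by simp [vbspin, treeDir, spinL])
  have hq : ∀ i, vpull c i * vqd (M := M) π Φ st i = vpull c i * vqd π Φ' st i := fun i => by
    rcases i with (q | q) | ⟨o, u⟩
    · simp [vqd, treeDir, tiltQ]
    · simp [vpull, hc.1]
    · simp [vqd, treeDir]
  have hl : lin (vbspin π Φ) (vpull c) w.2 st = lin (vbspin π Φ') (vpull c) w.2 st :=
    Finset.sum_congr rfl fun i _ => by rcases hz i with h | h <;> simp [h]
  have hs : ∑ i, vpull c i * vbspin π Φ st i ^ 2 = ∑ i, vpull c i * vbspin π Φ' st i ^ 2 :=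
    Finset.sum_congr rfl fun i _ => by rcases hz i with h | h <;> simp [h]
  simp only [vmbw, vbw, vham, hl, hs, Finset.sum_congr rfl fun i _ => hq i,
    vfld_noSlot π Φ Φ' hc]

theorem vmpair_noSlot {c : VCIdx N M d R D K → ℝ} (hc : NoSlot c)
    (O : (VGIdx N M d R D K n → ℝ) → VState π K n → VState π K n → ℝ) :
    vmpair n P π Φ c O = vmpair n P π Φ' c O := by
  simp only [vmpair]
  congr 1
  funext w
  rw [funext (vmbw_noSlot P π Φ Φ' hc w)]

theorem vcasc_noSlot {c : VCIdx N M d R D K → ℝ} (hc : NoSlot c) :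
    vcasc P π Φ c = vcasc P π Φ' c := by
  have h : ∀ σ g, vbham P π Φ c σ g = vbham P π Φ' c σ g := fun σ g => by
    have e := vmbw_noSlot P π Φ Φ' hc ((fun _ => 1), g) (σ, fun _ => 0)
    simp only [vmbw, vbw] at e
    refine Real.exp_injective (mul_left_cancel₀ ?_ e)
    exact (mul_pos (π.w_pos _) (wgt_pos _ (fun _ => one_pos) _)).ne'
  simp only [vcasc, vleafY, h]

end Congr

end Vale.Agent.P166.Casc
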