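import Vale.Agent.P166.Casc.VStep
import Vale.Agent.P166.Casc.VGlueAtoms

/-!
From a bound at almost every point of the parameters of the perturbation to a bound of the averaged
free energies of two successive systems.
-/

open MeasureTheory ProbabilityTheory Filter Topology Set

namespace Vale.Agent.P166.Casc

open Vale.Agent.P157.Casc Vale.Agent.P166.Pen

variable {N N' M mr m d R D J K : ℕ}

theorem ae_cube (R J : ℕ) : ∀ᵐ y ∂vxlaw R J, ∀ p, y p ∈ Icc (1 : ℝ) 2 := by
  have : IsProbabilityMeasure (volume.restrict (Icc (1 : ℝ) 2)) := ⟨by norm_num⟩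
  refine ae_all_iff.2 fun p => ?_
  exact (measurePreserving_eval (fun _ : Fin R × Fin J => volume.restrict (Icc (1 : ℝ) 2))
    p).quasiMeasurePreserving.ae (ae_restrict_mem measurableSet_Icc)

theorem integrable_cube {f : (Fin R × Fin J → ℝ) → ℝ} (hf : Continuous f) :
    Integrable f (vxlaw R J) := by
  obtain ⟨C, hC⟩ := (isCompact_univ_pi fun _ : Fin R × Fin J => isCompact_Icc (a := (1 : ℝ))
    (b := 2)).exists_bound_of_continuousOn hf.continuousOn
  exact (integrable_const C).mono' hf.aestronglyMeasurable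
    ((ae_cube R J).mono fun y hy => hC y fun p _ => hy p)

theorem continuous_vpert (Jp : ℕ) (i : VCIdx N M d R D K) :
    Continuous fun y : Fin R × Fin J → ℝ =>
      (vpert Jp (vext y) : VCIdx N M d R D K → ℝ) i := by
  rcases i with q | ⟨l, u | u | ⟨κ, p⟩⟩
  · exact continuous_const
  · exact continuous_const
  · exact continuous_const
  · obtain ⟨j, i, t⟩ := p
    simp only [vpert]
    split_ifs
    · have : Continuous fun y : Fin R × Fin J → ℝ => vext y κ j := by
        unfold vext
        split_ifs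
        · exact continuous_apply _
        · exact continuous_const
      fun_prop
    · exact continuous_const

/-- The limit free energy is continuous in the parameters of the perturbation. -/
theorem continuous_vcasc_pert (P : VPot d) (π : VPrior N d R D) (Φ : VFac N d K) (Jp : ℕ)
    (fld : VCIdx N M d R D K → ℝ) :
    Continuous fun y : Fin R × Fin J → ℝ =>
      vcasc P π Φ fun i => fld i + vpert Jp (vext y) i := by
  refine continuous_iff_seqContinuous.2 fun u y hu => ?_
  exact tendsto_vcasc P π Φ (tendsto_pi_nhds.2 fun i =>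
    ((continuous_const.add (continuous_vpert (M := M) Jp i)).tendsto y).comp hu)

/-- A function which is eventually below a multiple of small means has a small mean. -/
theorem integral_le_of_eventually {X : Type*} [MeasurableSpace X] {μ : Measure X} {f : X → ℝ}
    (hf : Integrable f μ) {δ : ℕ → X → ℝ} {C ε : ℝ} (hC : 0 ≤ C)
    (hδ : ∀ᶠ n in atTop, Integrable (δ n) μ ∧ (∀ y, 0 ≤ δ n y) ∧ ∫ y, δ n y ∂μ ≤ ε)
    (h : ∀ᵐ y ∂μ, ∀ᶠ n in atTop, f y ≤ C * δ n y) : ∫ y, f y ∂μ ≤ C * ε := by
  set g := fun n y => min (max (f y) 0) (C * δ n y)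
  have h1 : ∫ y, f y ∂μ ≤ ∫ y, max (f y) 0 ∂μ :=
    integral_mono hf hf.pos_part fun y => le_max_left _ _
  refine h1.trans ?_
  have hlim : Tendsto (fun n => ∫ y, g n y ∂μ) atTop (𝓝 (∫ y, max (f y) 0 ∂μ)) := by
    refine tendsto_integral_filter_of_dominated_convergence (fun y => |f y|) ?_ ?_ hf.abs ?_
    · filter_upwards [hδ] with n hn
      exact hf.pos_part.aestronglyMeasurable.inf (hn.1.const_mul C).aestronglyMeasurable
    · filter_upwards [hδ] with n hn
      refine ae_of_all _ fun y => ?_
      rw [Real.norm_eq_abs, abs_of_nonneg (le_min (le_max_right _ _)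
        (mul_nonneg hC (hn.2.1 y)))]
      exact (min_le_left _ _).trans (max_le (le_abs_self _) (abs_nonneg _))
    · filter_upwards [h] with y hy
      refine tendsto_nhds_of_eventually_eq ?_
      filter_upwards [hy, hδ] with n h2 hn
      exact min_eq_left (max_le h2 (mul_nonneg hC (hn.2.1 y)))
  refine le_of_tendsto hlim ?_
  filter_upwards [hδ] with n hn
  have hgi : Integrable (g n) μ :=
    hf.pos_part.inf (hn.1.const_mul C)
  calc ∫ y, g n y ∂μ ≤ ∫ y, C * δ n y ∂μ :=
        integral_mono hgi (hn.1.const_mul C) fun y => min_le_right _ _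
    _ ≤ C * ε := by rw [integral_const_mul]; exact mul_le_mul_of_nonneg_left hn.2.2 hC

variable {τ B lam : ℝ} {γ : Fin d → ℝ}

/-- The averaged free energies of two successive systems, from the mean of their difference. -/
theorem avg_step (P : VPot d) (hτ : 0 < τ) (hB : 0 < B) (hlam : 0 ≤ lam) (hN : 0 < N) (hm : 0 < m)
    (e : Fin N ⊕ Fin m ≃ Fin (N + m)) (he : ∀ i, typ γ (e (Sum.inl i)) = typ γ i)
    {dd : OIdx d → ℝ} (hdd : Clean γ dd) {es e1 : ℝ} (hes : 0 ≤ es) (he1 : 0 ≤ e1)
    (Dt : Finset (Fin d) → Matrix (Fin d) (Fin d) ℝ)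
    (hD : ∀ t, Occupied γ t → ∀ k ∈ t, ∀ l ∈ t,
      |Dt t k l * typSize (fun i => typ γ (e (Sum.inr i))) t / m - dd (t, k, l)| ≤ e1)
    {εa εb del : ℝ} (hdel : 0 < del) (a : Atoms (spinMeas τ γ B lam dd N) (cutSet B d N) εa)
    (b : Atoms ((spinLaw d m).restrict (shellSet (fun i => typ γ (e (Sum.inr i))) τ es B Dt))
      (shellSet (fun i => typ γ (e (Sum.inr i))) τ es B Dt) εb)
    {L : ℕ} (hL : 0 < L) (J J' M mr K : ℕ) {G E : ℝ}
    (hmean : ∫ y, (vcasc P (penPrior (γ := γ) hτ.le (basicCoeffs d) a hL J) (noFac N d K)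
        (vsys (rowc (M := M) 1) y) + G
      - vcasc P (prodPrior (penPrior (γ := γ) hτ.le (basicCoeffs d) a hL J)
          (atomBlock (fun i => typ γ (e (Sum.inr i))) τ b) e) (noFac (N + m) d K)
          (fun i => ptFull M mr i + vpert N (vext y) i)) ∂vxlaw (nker d (d * d)) N ≤ E) :
    ∃ a' : Atoms (spinMeas τ γ B lam dd (N + m)) (cutSet B d (N + m)) (max (max εa εb) del),
      wAvg hτ.le P γ K M a hL J + G - E - lam * m * Fintype.card (OIdx d) * (es + e1) ^ 2
          - 6 * nker d (d * d) * m / (N : ℝ) ^ ((1 : ℝ) / 4)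
        ≤ wAvg hτ.le P γ K (M + mr) a' hL J' := by
  obtain ⟨a', ha'⟩ := glue_step P hτ hB hlam hN hm e he hdd hes he1 Dt hD hdel a b (basicCoeffs d) hL
  refine ⟨a', ?_⟩
  set R := nker d (d * d)
  set π := penPrior (γ := γ) hτ.le (basicCoeffs d) a hL J
  set β := atomBlock (fun i => typ γ (e (Sum.inr i))) τ b
  set Vo := fun y : Fin R × Fin N → ℝ => vcasc P π (noFac N d K) (vsys (rowc (M := M) 1) y)
  set Vn := fun y : Fin R × Fin N → ℝ => vcasc P (prodPrior π β e) (noFac (N + m) d K)
    fun i => ptFull M mr i + vpert N (vext y) i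
  have hVo : Integrable Vo (vxlaw R N) :=
    integrable_cube (continuous_vcasc_pert (M := M) P π (noFac N d K) N (rowc 1))
  have hVn : Integrable Vn (vxlaw R N) :=
    integrable_cube (continuous_vcasc_pert (M := M + mr) P (prodPrior π β e) _ N (ptFull M mr))
  rw [integral_sub (f := fun y => Vo y + G) (g := Vn) (hVo.add (integrable_const G)) hVn,
    integral_add hVo (integrable_const G)] at hmean
  simp only [integral_const, probReal_univ, smul_eq_mul, one_mul] at hmean
  set c := lam * m * Fintype.card (OIdx d) * (es + e1) ^ 2 + 6 * R * m / (N : ℝ) ^ ((1 : ℝ) / 4)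
  set W := fun y' : Fin R × Fin (N + m) → ℝ =>
    vcasc P (penPrior (γ := γ) hτ.le (basicCoeffs d) a' hL J') (noFac (N + m) d K)
      (vsys (M := M + mr) (rowc 1) y')
  have hW : Integrable W (vxlaw R (N + m)) :=
    integrable_cube (continuous_vcasc_pert (M := M + mr) P _ _ (N + m) (rowc 1))
  have hmp := mp_restrict R N m
  have hle : ∫ y, Vn y ∂vxlaw R N ≤ (∫ y', W y' ∂vxlaw R (N + m)) + c := by
    have hVn' := (hmp.integrable_comp hVn.aestronglyMeasurable).2 hVn
    rw [← hmp.map_eq, integral_map hmp.measurable.aemeasurable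
      (hmp.map_eq.symm ▸ hVn.aestronglyMeasurable)]
    calc _ ≤ ∫ y', (W y' + c) ∂vxlaw R (N + m) := by
          refine integral_mono_ae hVn' (hW.add (integrable_const c)) ?_
          filter_upwards [ae_cube R (N + m)] with y' hy'
          have := ha' J J' M mr K (noFac (N + m) d K) (noFac (N + m) d K) y' hy'
          simp only [Vn, W, c, Function.comp, R, π, β] at this ⊢
          linarith
      _ = _ := by
          rw [integral_add hW (integrable_const c), integral_const, probReal_univ, smul_eq_mul,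
            one_mul]
  simp only [wAvg]
  linarith

end Vale.Agent.P166.Casc
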