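import Vale.Agent.P166.Casc.VStepGain
import Vale.Agent.P166.Casc.VMass
import Vale.Agent.P166.Casc.VGGModel
import Vale.Agent.P166.Casc.VPertCost

/-!
The distance of the self-overlaps to the centre stays of the order of the inverse square root of
the penalty, at the old system and along both segments of a step.
-/

open MeasureTheory ProbabilityTheory Filter Topology
open Matrix hiding comp

namespace Vale.Agent.P166.Casc

open Vale.Agent.P157.Casc Vale.Agent.P166.Formula Vale.Agent.P166.Pen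

variable {d N N' m M mr R D K n : ℕ}

/-- The perturbations give every state a variance below their total size. -/
theorem pert_self_le (π : VPrior N d R D) (Φ : VFac N d K) (J : ℕ) {x : Fin R → ℕ → ℝ} {X : ℝ}
    (hx : ∀ κ i, |x κ i| ≤ X) (st : VState π K n) :
    ∑ i, vpull (vpert (M := M) J x) i * vbspin π Φ st i ^ 2 ≤ vpertBd R J X := by
  simp only [pow_two]
  rw [cov_vbspin]
  simp only [cov_vpert]
  have h1 : ∀ l p, (vpert J x : VCIdx N M d R D K → ℝ) (Sum.inr (l, Sum.inr (Sum.inl p))) = 0 :=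
    fun l p => rfl
  simp only [h1, zero_mul, Finset.sum_const_zero, zero_add]
  refine (Finset.sum_le_card_nsmul _ _ (X ^ 2 * (J : ℝ) ^ ((3 : ℝ) / 4) / 3) fun κ _ =>
    le_trans (Finset.sum_le_sum fun j _ => ?_) (vamp_sum_le (D := D) J (hx κ))).trans_eq
      (by simp [vpertBd])
  refine mul_le_of_le_one_right (sq_nonneg _) ((le_abs_self _).trans ?_)
  rw [abs_pow]
  exact pow_le_one₀ (abs_nonneg _) (abs_vS_le π κ _ _)

theorem abs_vext_le {R N : ℕ} {y : Fin R × Fin N → ℝ} (hy : ∀ p, y p ∈ Set.Icc (1 : ℝ) 2)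
    (κ : Fin R) (j : ℕ) : |vext y κ j| ≤ 2 := by
  unfold vext
  split_ifs with h
  · obtain ⟨h1, h2⟩ := hy (κ, ⟨j, h⟩)
    exact abs_le.2 ⟨by linarith, h2⟩
  · simp

section Dev

variable {τ : ℝ} {γ : Fin d → ℝ}

/-- The overlap of all sites is the sum of those of the types. -/
theorem sum_cfgOf_types (hτ : 0 ≤ τ) (ω : Fin d → Fin N → ℝ) (k l : Fin d) :
    (∑ j, cfgOf τ γ ω j k * cfgOf τ γ ω j l) / N = ∑ t, ovl τ γ ω (t, k, l) := by
  rw [← Finset.sum_fiberwise_of_maps_to (g := typ γ) (t := Finset.univ)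
    fun j _ => Finset.mem_univ _, Finset.sum_div]
  refine Finset.sum_congr rfl fun t _ => ?_
  simp only [ovl]
  split_ifs with h
  · rw [div_mul_eq_mul_div, Finset.mul_sum]
    refine congrArg (· / (N : ℝ)) (Finset.sum_congr rfl fun j hj => ?_)
    have hj' : typ γ j = t := (Finset.mem_filter.1 hj).2
    have hm : ∀ i ∈ t, j.val < blk γ N i := fun i hi => by
      rw [← hj'] at hi; exact (Finset.mem_filter.1 hi).2
    rw [cfgOf, cfgOf, if_pos (hm k h.1), if_pos (hm l h.2)]
    linear_combination (ω k j * ω l j) * Real.mul_self_sqrt hτ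
  · refine div_eq_zero_iff.2 (Or.inl (Finset.sum_eq_zero fun j hj => ?_))
    have hj' : typ γ j = t := (Finset.mem_filter.1 hj).2
    have hm : ∀ i, j.val < blk γ N i → i ∈ t := fun i hi => by
      rw [← hj']; exact Finset.mem_filter.2 ⟨Finset.mem_univ _, hi⟩
    rcases not_and_or.1 h with h | h
    · rw [show cfgOf τ γ ω j k = 0 from if_neg fun hi => h (hm k hi), zero_mul]
    · rw [show cfgOf τ γ ω j l = 0 from if_neg fun hi => h (hm l hi), mul_zero]

/-- The self-overlaps of all sites are close to the total centre. -/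
theorem sum_oldOv_sub_le (hτ : 0 ≤ τ) {B : ℝ} {nA L J : ℕ} {ν : Measure (Fin d → Fin N → ℝ)}
    {ε : ℝ} (A : Coeffs d nA) (a : Atoms ν (cutSet B d N) ε) (hL : 0 < L) (dd : OIdx d → ℝ)
    (σ : Fin (penPrior (γ := γ) hτ A a hL J).c) :
    ∑ k, ∑ l, |oldOv (penPrior (γ := γ) hτ A a hL J) k l σ σ - dTot dd k l|
      ≤ ovlDev τ γ dd (a.x (finProdFinEquiv.symm σ).1) := by
  rw [ovlDev, Fintype.sum_prod_type]
  simp only [Fintype.sum_prod_type]
  conv_rhs => rw [Finset.sum_comm]
  refine Finset.sum_le_sum fun k _ => ?_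
  conv_rhs => rw [Finset.sum_comm]
  refine Finset.sum_le_sum fun l _ => ?_
  have e : oldOv (penPrior (γ := γ) hτ A a hL J) k l σ σ
      = ∑ t, ovl τ γ (a.x (finProdFinEquiv.symm σ).1) (t, k, l) := by
    rw [← sum_cfgOf_types hτ]
    rfl
  rw [e, dTot, Matrix.of_apply, ← Finset.sum_sub_distrib]
  exact Finset.abs_sum_le_sum_abs _ _

theorem devS_le (hτ : 0 ≤ τ) {B : ℝ} {nA L J : ℕ} {ν : Measure (Fin d → Fin N → ℝ)}
    {ε : ℝ} (A : Coeffs d nA) (a : Atoms ν (cutSet B d N) ε) (hL : 0 < L) (dd : OIdx d → ℝ)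
    (Φ : VFac N' d K) {ec : ℝ} (hec : 0 ≤ ec)
    (htop : ∀ k l, rowCum Φ (Fin.last K) k l
      = (dTot dd + ec • (1 : Matrix (Fin d) (Fin d) ℝ)) k l)
    (σ : Fin (penPrior (γ := γ) hτ A a hL J).c) :
    devS (penPrior (γ := γ) hτ A a hL J) Φ σ
      ≤ ovlDev τ γ dd (a.x (finProdFinEquiv.symm σ).1) + d * ec := by
  refine le_trans ?_ (add_le_add (sum_oldOv_sub_le (J := J) hτ A a hL dd σ) le_rfl)
  have e : (d : ℝ) * ec = ∑ k : Fin d, ∑ l : Fin d, if k = l then ec else 0 := by simp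
  rw [devS, e, ← Finset.sum_add_distrib]
  refine Finset.sum_le_sum fun k _ => ?_
  rw [← Finset.sum_add_distrib]
  refine Finset.sum_le_sum fun l _ => ?_
  rw [htop, Matrix.add_apply, Matrix.smul_apply, Matrix.one_apply, ← sub_sub]
  refine (abs_sub _ _).trans (add_le_add le_rfl (le_of_eq ?_))
  split_ifs <;> simp [abs_of_nonneg hec]

end Dev

section Step

variable {τ κ L B a0 : ℝ} {γ : Fin d → ℝ}

/-- The deviation from the centre at the old system and along both segments of a step. -/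
theorem step_dev (hτ : 0 < τ) (hγ : ∀ k, 0 < γ k ∧ γ k ≤ 1) (hκ : 0 < κ) (P : VPot d) :
    ∃ C : ℝ, ∀ dd, GoodCentre γ κ L dd →
      ((∑ t, ∑ k, dd (t, k, k)) + d) / τ + 2 * d ≤ B → ∀ lam : ℝ, 1 ≤ lam →
      ∀ (nA m : ℕ) (B1 : ℝ), ∀ᶠ N : ℕ in atTop, ∃ del : ℝ, 0 < del ∧
        ∀ {εa : ℝ} (a : Atoms (spinMeas τ γ B lam dd N) (cutSet B d N) εa), εa ≤ del →
        ∀ {nL J : ℕ} (A : Coeffs d nA) (hL : 0 < nL) (y : Fin (nker d nA) × Fin N → ℝ),
        (∀ p, y p ∈ Set.Icc (1 : ℝ) 2) →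
        (∀ {M K n : ℕ} (Φ : VFac N d K), 0 < n → (M : ℝ) ≤ a0 * N →
          vmpair n P (penPrior (γ := γ) hτ.le A a hL J) Φ (vsys (M := M) (rowc 1) y)
              (fun _ st _ => ovlDev τ γ dd (a.x (finProdFinEquiv.symm st.1).1)) ≤ C / √lam) ∧
        (∀ {N' M mr K n : ℕ} (e : Fin N ⊕ Fin m ≃ Fin N') (T : Fin m → Finset (Fin d))
          {es εb : ℝ} {D0 : Finset (Fin d) → Matrix (Fin d) (Fin d) ℝ}
          (aW : Atoms ((spinLaw d m).restrict (shellSet T τ es B D0)) (shellSet T τ es B D0) εb)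
          (qS : ℕ → Matrix (Fin d) (Fin d) ℝ) (q : TPath d) {ec : ℝ}, 0 ≤ ec → IsPath K qS →
          qS K = dTot dd + ec • (1 : Matrix (Fin d) (Fin d) ℝ) →
          (∀ i, T i = ∅ ∨ Occupied γ (T i)) → StepPaths γ dd K B1 q → 0 < n →
          ((M + mr : ℕ) : ℝ) ≤ a0 * N → ∀ t ∈ Set.Icc (0 : ℝ) 1,
          vmpair n P (prodPrior (penPrior (γ := γ) hτ.le A a hL J) (atomBlock T τ aW) e)
              (stepFac (K := K) e T qS (respP γ dd K q)) (seg1C M mr e N (vext y) t)
              (fun _ st _ => devS (penPrior (γ := γ) hτ.le A a hL J)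
                (stepFac (K := K) e T qS (respP γ dd K q))
                (oldCfg (penPrior (γ := γ) hτ.le A a hL J) (atomBlock T τ aW) e st.1))
            ≤ C / √lam + d * ec ∧
          vmpair n P (prodPrior (penPrior (γ := γ) hτ.le A a hL J) (atomBlock T τ aW) e)
              (stepFac (K := K) e T qS (respP γ dd K q)) (seg2C M mr e N (vext y) t)
              (fun _ st _ => devS (penPrior (γ := γ) hτ.le A a hL J)
                (stepFac (K := K) e T qS (respP γ dd K q))
                (oldCfg (penPrior (γ := γ) hτ.le A a hL J) (atomBlock T τ aW) e st.1))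
            ≤ C / √lam + d * ec) := by
  obtain ⟨C, hC⟩ := dev_bound (L := L) (B := B) (a0 := a0) hτ hγ hκ P
  refine ⟨C, fun dd hdd htr lam hlam nA m B1 => ?_⟩
  set S := (d : ℝ) ^ 2 * ((m : ℝ) * (τ * |B| * |B1|)) with hS
  have hS0 : 0 ≤ S := by positivity
  set R := (nker d nA : ℝ) * (4 / 3) with hR
  have hR0 : 0 ≤ R := by positivity
  have hsmall : ∀ᶠ N : ℕ in atTop, vpertBd (nker d nA) N 2 + S ≤ N := by
    have hl : Tendsto (fun N : ℕ => R * (N : ℝ) ^ (-((1 : ℝ) / 4))) atTop (𝓝 0) := by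
      simpa using ((tendsto_rpow_neg_atTop (by norm_num : (0 : ℝ) < 1 / 4)).comp
        tendsto_natCast_atTop_atTop).const_mul R
    filter_upwards [hl.eventually (ge_mem_nhds (by norm_num : (0 : ℝ) < 1 / 2)),
      tendsto_natCast_atTop_atTop.eventually (eventually_ge_atTop (2 * S + 1))] with N h1 h2
    have hN : (0 : ℝ) < N := by linarith
    have e : vpertBd (nker d nA) N 2 = N * (R * (N : ℝ) ^ (-((1 : ℝ) / 4))) := by
      rw [vpertBd, hR, show (N : ℝ) * ((nker d nA : ℝ) * (4 / 3) * (N : ℝ) ^ (-((1 : ℝ) / 4)))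
        = (nker d nA : ℝ) * (4 / 3) * ((N : ℝ) ^ (1 : ℝ) * (N : ℝ) ^ (-((1 : ℝ) / 4))) by
          rw [Real.rpow_one]; ring,
        ← Real.rpow_add hN]
      norm_num
      ring
    rw [e]
    have := mul_le_mul_of_nonneg_left h1 hN.le
    linarith
  filter_upwards [hC dd hdd htr lam hlam, hsmall] with N ⟨del, hdel, h⟩ hN
  refine ⟨del, hdel, fun {εa} a hεa {nL J} A hL y hy => ?_⟩
  obtain ⟨hold, hnew⟩ := h a hεa (J := J) A hL
  refine ⟨fun {M K n} Φ hn hM => hold Φ (vsys (rowc 1) y) (fun i => ?_) (fun j => ?_) hn hM N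
    le_rfl fun x => ?_, fun {N' M mr K n} e T {es εb D0} aW qS q {ec} hec hqS htop hT hq hn hM t ht => ?_⟩
  · refine add_nonneg ?_ (vpert_nonneg _ _ i)
    rcases i with (p | p) | ⟨o, u | u | u⟩ <;> simp [rowc, vfldc]
  · simp [vsys, rowc, vfldc, vpert]
  · have hsplit : ∀ i, vpull (vsys (M := M) (rowc 1) y) i
        * vbspin (penPrior (γ := γ) hτ.le A a hL J) Φ x i ^ 2
        = vpull (vpert N (vext y)) i * vbspin (penPrior (γ := γ) hτ.le A a hL J) Φ x i ^ 2 :=
      fun i => by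
        rcases i with (p | p) | ⟨o, u | u | u⟩ <;>
          simp [vpull, vsys, rowc, vfldc, vpert, vbspin, treeDir]
    rw [Finset.sum_congr rfl fun i _ => hsplit i]
    have := pert_self_le (M := M) (penPrior (γ := γ) hτ.le A a hL J) Φ N (abs_vext_le hy) x
    linarith
  set π := penPrior (γ := γ) hτ.le A a hL J
  set β := atomBlock T τ aW
  set Φ := stepFac (K := K) e T qS (respP γ dd K q)
  have hp : ∀ i, IsPath K (respP γ dd K q (T i)) := fun i => (hq.resp _ (hT i)).1
  have hp0 : ∀ i, respP γ dd K q (T i) 0 = 0 := fun i => (hq.resp _ (hT i)).2.1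
  have hspin : ∀ s, |spinPair β e Φ (Fin.last K) s s| ≤ S := fun s => by
    simp only [spinPair]
    rw [Finset.sum_comm]
    refine (Finset.abs_sum_le_sum_abs _ _).trans ((Finset.sum_le_sum
      (g := fun _ => (d : ℝ) * ((m : ℝ) * (τ * |B| * |B1|))) fun k _ => ?_).trans_eq
        (by simp [hS]; ring))
    rw [Finset.sum_comm]
    refine (Finset.abs_sum_le_sum_abs _ _).trans ((Finset.sum_le_sum
      (g := fun _ => (m : ℝ) * (τ * |B| * |B1|)) fun l _ => ?_).trans_eq (by simp))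
    rcases Nat.eq_zero_or_pos m with hm | hm
    · subst hm; simp
    have hb : ∀ i, |spinCum Φ (e (Sum.inr i)) (Fin.last K) k l| ≤ |B1| := fun i => by
      rw [spinCum_stepFac e T qS (respP γ dd K q) hp hp0, Fin.val_last]
      exact ((abs_liftM_le _ _ _ _).trans ((hq.resp _ (hT i)).2.2 K le_rfl)).trans (le_abs_self _)
    refine (pair_le_block T aW hτ.le hm s s k l _ hb).trans ?_
    refine mul_le_mul_of_nonneg_left (mul_le_mul_of_nonneg_right
      (mul_le_mul_of_nonneg_left (le_abs_self B) hτ.le) (abs_nonneg _)) (Nat.cast_nonneg m)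
  have hobs : ∀ c : VCIdx N' (M + mr) d (nker d nA) (N + nL + J) K → ℝ, (∀ i, 0 ≤ c i) →
      (∀ j, c (Sum.inl (Sum.inr j)) = 0) →
      (∀ x : VState (prodPrior π β e) K n,
        ∑ i, vpull c i * vbspin (prodPrior π β e) Φ x i ^ 2 ≤ N) →
      vmpair n P (prodPrior π β e) Φ c
        (fun _ st _ => devS π Φ (oldCfg π β e st.1)) ≤ C / √lam + d * ec := by
    intro c hc0 htilt hZ
    have h1 := hnew β e Φ c hc0 htilt hn hM N le_rfl hZ
    refine (vmpair_mono P Φ c hn (goodObs_const fun st _ => devS π Φ (oldCfg π β e st.1))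
      (O' := fun _ st _ => ovlDev τ γ dd (a.x (finProdFinEquiv.symm (oldCfg π β e st.1)).1) + d * ec)
      ((goodObs_const fun st _ =>
        ovlDev τ γ dd (a.x (finProdFinEquiv.symm (oldCfg π β e st.1)).1) + d * ec))
      fun _ st _ => devS_le hτ.le A a hL dd Φ hec (fun k l => by
        rw [rowCum_stepFac e T qS _ hqS, Fin.val_last, htop]) _).trans ?_
    rw [vmpair_add P Φ c hn (O' := fun _ _ _ => (d : ℝ) * ec)
      (goodObs_const fun st _ => ovlDev τ γ dd (a.x (finProdFinEquiv.symm (oldCfg π β e st.1)).1))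
      (goodObs_const fun _ _ => (d : ℝ) * ec)]
    refine add_le_add h1 (le_of_eq ?_)
    have h2 := vmpair_smul P Φ c hn (π := prodPrior π β e) (O := fun _ _ _ => (1 : ℝ))
      (goodObs_const fun _ _ => (1 : ℝ)) ((d : ℝ) * ec)
    simp only [mul_one, vmpair_one P Φ c hn] at h2
    exact h2
  have hZ : ∀ (s : Fin (M + mr) → Fin N' → ℝ) (ρ : Fin (M + mr) → ℝ) (r : ℝ), r ∈ Set.Icc (0 : ℝ) 1 →
      ∀ x : VState (prodPrior π β e) K n,
      ∑ i, vpull (fun i => segc s ρ (fun j => r * newI e j) i + vpert N (vext y) i) i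
        * vbspin (prodPrior π β e) Φ x i ^ 2 ≤ N := fun s ρ r hr x => by
    have hsum : ∀ i, vpull (fun i => segc s ρ (fun j => r * newI e j) i + vpert N (vext y) i) i
        * vbspin (prodPrior π β e) Φ x i ^ 2
        = vpull (segc s ρ (fun j => r * newI e j)) i
            * (vbspin (prodPrior π β e) Φ x i * vbspin (prodPrior π β e) Φ x i)
          + vpull (vpert N (vext y)) i * vbspin (prodPrior π β e) Φ x i ^ 2 := fun i => by
      rcases i with p | ⟨o, p⟩ <;> (simp only [vpull]; ring)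
    rw [Finset.sum_congr rfl fun i _ => hsum i, Finset.sum_add_distrib, bz_segc, com_self,
      sum_glue e]
    have e1 : (∑ i, r * newI e (e (Sum.inl i)) * ∑ k, ∑ l,
        (prodPrior π β e).cfg x.1 (e (Sum.inl i)) k * (prodPrior π β e).cfg x.1 (e (Sum.inl i)) l
          * spinCum Φ (e (Sum.inl i)) (Fin.last K) k l) = 0 := by simp [newI]
    have e2 : (∑ i, r * newI e (e (Sum.inr i)) * ∑ k, ∑ l,
        (prodPrior π β e).cfg x.1 (e (Sum.inr i)) k * (prodPrior π β e).cfg x.1 (e (Sum.inr i)) l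
          * spinCum Φ (e (Sum.inr i)) (Fin.last K) k l)
        = r * spinPair β e Φ (Fin.last K) (newCfg π β e x.1) (newCfg π β e x.1) := by
      rw [spinPair, Finset.mul_sum]
      refine Finset.sum_congr rfl fun i _ => ?_
      rw [prodPrior_cfg_inr, show newI e (e (Sum.inr i)) = 1 by simp [newI], mul_one]
    rw [e1, e2, zero_add]
    have h1 : r * spinPair β e Φ (Fin.last K) (newCfg π β e x.1) (newCfg π β e x.1) ≤ 1 * S :=
      (mul_le_mul_of_nonneg_left ((le_abs_self _).trans (hspin _)) hr.1).trans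
        (mul_le_mul_of_nonneg_right hr.2 hS0)
    have h2 := pert_self_le (M := M + mr) (prodPrior π β e) Φ N (abs_vext_le hy) x
    linarith
  refine ⟨hobs _ (fun i => add_nonneg (segc_nonneg (fun _ j => ?_) (fun _ => le_rfl) (fun j => ?_) i)
      (vpert_nonneg _ _ i)) (fun j => by simp [seg1C, segc, vfldc, vpert]) (hZ _ _ t ht),
    hobs _ (fun i => add_nonneg (segc_nonneg (fun a' j => ?_) (fun a' => ?_) (newI_nonneg e) i)
      (vpert_nonneg _ _ i)) (fun j => by simp [seg2C, segc, vfldc, vpert]) fun x => ?_⟩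
  · have := mul_nonneg ht.1 (oldS_nonneg e j)
    linarith [ht.2]
  · exact mul_nonneg ht.1 (newI_nonneg e j)
  · refine mul_nonneg (oldS_nonneg e j) ?_
    rcases newR_mem (M := M) (mr := mr) a' with h | h <;> rw [h] <;> linarith [ht.1, ht.2]
  · refine mul_nonneg ht.1 ?_
    rcases newR_mem (M := M) (mr := mr) a' with h | h <;> simp [h]
  · have h := hZ (fun a' j => oldS e j * (1 - t * newR M mr a')) (fun a' => t * newR M mr a') 1
      ⟨zero_le_one, le_rfl⟩ x
    simp only [one_mul] at h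
    exact h

end Step

end Vale.Agent.P166.Casc
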