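import Vale.Agent.P166.Casc.VSyncPath
import Vale.Agent.P166.Casc.VLabel

/-!
For the prior of atoms and labels, with rows and perturbations only: the overlap matrix of every
type follows an increasing path of nonnegative matrices, in mean over the perturbation parameters.
-/

open MeasureTheory ProbabilityTheory Filter Topology Set

namespace Vale.Agent.P166.Casc

open Vale.Agent.P157.Casc Vale.Agent.P166.Pen

variable {N M d R D K n : ℕ}

/-- One scalar kernel as a function of the configurations. -/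
noncomputable def vkerC (π : VPrior N d R D) (κ : Fin R) (σ σ' : Fin π.c) : ℝ :=
  ∑ j, π.ker κ σ j * π.ker κ σ' j

section Bridge

variable (P : VPot d) (π : VPrior N d R D) (Φ : VFac N d K) (c : VCIdx N M d R D K → ℝ)
variable (hn : 0 < n)
include hn

theorem sum_pairLev_same (O : Fin π.c → Fin π.c → ℝ) :
    ∑ l : Fin (K + 1), pairLev n P π Φ c O l
      = vmpair n P π Φ c fun _ st st' => O st.1 st'.1 := by
  rw [sum_pairLev P π Φ c hn fun _ => O, reavg_vposW]
  simp only [reavg, vmpair, avg2_eq_avg]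

theorem pairLev_swap (O : Fin π.c → Fin π.c → ℝ) (l : Fin (K + 1)) :
    pairLev n P π Φ c (fun σ σ' => O σ' σ) l = pairLev n P π Φ c O l := by
  simp only [pairLev_eq_reavg P π Φ hn]
  rw [← reavg_perm (Equiv.swap (0 : Fin 2) 1) (fun _ => levO π O l)]
  congr 1
  funext _ x
  simp only [levO, Function.comp_apply, Equiv.swap_apply_left, Equiv.swap_apply_right]
  rw [show vlev π (x 1) (x 0) = vlev π (x 0) (x 1) from com_comm _ _]

/-- A kernel predicted by the levels predicts a function close to a multiple of it. -/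
theorem pred_of_syncErr (κ : Fin R) (f : Fin π.c → Fin π.c → ℝ) (sc : ℝ) {e θ0 : ℝ}
    (h : ∑ l : Fin (K + 1), pairLev n P π Φ c (fun σ σ' => |f σ σ' - sc * vkerC π κ σ σ'|) l ≤ θ0)
    (he : syncErr (venv N M d R D K n) (vposW P π Φ c) (vkerov π κ) (vlev π) ≤ e) :
    ∃ g : Fin (K + 1) → ℝ,
      ∑ l, pairLev n P π Φ c (fun σ σ' => |f σ σ' - g l|) l ≤ |sc| * e + θ0 := by
  set μ := venv N M d R D K n
  set u := vposW (n := n) P π Φ c
  set m : Fin (K + 1) → ℝ := fun l =>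
    eavg μ u 2 (fun y => if vlev π (y 0) (y 1) = l then vkerov π κ (y 0) (y 1) else 0)
      / eavg μ u 2 (fun y => if vlev π (y 0) (y 1) = l then 1 else 0)
  have hs : ∑ l, pairLev n P π Φ c (fun σ σ' => |vkerC π κ σ σ' - m l|) l ≤ e := by
    rw [sum_pairLev P π Φ c hn fun l σ σ' => |vkerC π κ σ σ' - m l|]
    exact he
  refine ⟨fun l => sc * m l, (Finset.sum_le_sum fun l _ => pairLev_mono P π Φ c hn
    (O' := fun σ σ' => |f σ σ' - sc * vkerC π κ σ σ'| + |sc| * |vkerC π κ σ σ' - m l|)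
    (fun σ σ' => ?_) l).trans ?_⟩
  · rw [← abs_mul, mul_sub]
    exact abs_sub_le _ _ _
  · simp only [pairLev_add P π Φ c hn, pairLev_smul P π Φ c hn, Finset.sum_add_distrib,
      ← Finset.mul_sum]
    have := mul_le_mul_of_nonneg_left hs (abs_nonneg sc)
    linarith

/-- A function of one replica is nearly independent of the last level, from its identity. -/
theorem first_of_rdef {δ : ℝ}
    (h : ∀ (r : ℕ) (F : (Node K n → ℝ) × (VGIdx N M d R D K n → ℝ) →
      (Fin (r + 1) → VState π K n) → ℝ), PertFree F →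
      |rdef (venv N M d R D K n) (vmbw P π Φ c)
        (fun a b => if vlev π a b = Fin.last K then 1 else 0) r F| ≤ δ)
    (f : Fin π.c → ℝ) (hf : ∀ σ, |f σ| ≤ 1) :
    pairLev n P π Φ c (fun σ _ => f σ) (Fin.last K)
      ≤ reavg (venv N M d R D K n) (vposW P π Φ c) 1 (fun _ x => f (x 0).1)
          * pairLev n P π Φ c (fun _ _ => 1) (Fin.last K) + δ := by
  have h0 := h 0 (fun _ x => f (x 0).1) (pertFree_det fun x => hf _)
  rw [← rdef_vposW] at h0
  simp only [rdef, Finset.univ_eq_empty, Finset.sum_empty, add_zero, Nat.cast_zero, zero_add,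
    div_one] at h0
  rw [← levLaw_eq_pairLev P π Φ hn, pairLev_eq_reavg P π Φ hn, levLaw]
  have e : reavg (venv N M d R D K n) (vposW P π Φ c) 2
        (fun _ => levO π (fun σ _ => f σ) (Fin.last K))
      = reavg (venv N M d R D K n) (vposW P π Φ c) 2 (fun _ x =>
          f ((fun i : Fin 1 => x i.castSucc) 0).1
            * if vlev π (x 0) (x (Fin.last 1)) = Fin.last K then 1 else 0) := by
    congr 1
    funext _ x
    simp only [levO, onLev, Fin.castSucc_zero, show (Fin.last 1 : Fin 2) = 1 from rfl,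
      mul_ite, mul_one, mul_zero]
  rw [e]
  linarith [(abs_le.1 h0).2]

end Bridge

section Types

variable {τ B : ℝ} {γ : Fin d → ℝ}

/-- The coordinates of one type of a configuration, scaled. -/
noncomputable def typX (τ : ℝ) (γ : Fin d → ℝ) (t : Finset (Fin d)) (ω : Fin d → Fin N → ℝ)
    (j : {j : Fin N // typ γ j = t}) (k : Fin d) : ℝ :=
  cfgOf τ γ ω j k / √(N : ℝ)

theorem gov_typX {S : Type*} (x : S → Fin d → Fin N → ℝ) (t : Finset (Fin d)) (σ σ' : S)
    (k l : Fin d) :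
    gov (fun σ => typX τ γ t (x σ)) σ σ' k l
      = (∑ j ∈ Finset.univ.filter (fun j => typ γ j = t),
          cfgOf τ γ (x σ) j k * cfgOf τ γ (x σ') j l) / N := by
  simp only [gov, Matrix.of_apply, typX]
  rw [Finset.sum_subtype (Finset.univ.filter fun j => typ γ j = t) (p := fun j => typ γ j = t)
    (by simp), Finset.sum_div]
  exact Finset.sum_congr rfl fun j _ => by
    rw [div_mul_div_comm, Real.mul_self_sqrt (Nat.cast_nonneg N)]

theorem sum_cfgOf_sq_le (hτ : 0 ≤ τ) {ω : Fin d → Fin N → ℝ} (hω : ω ∈ cutSet B d N) :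
    ∑ k, ∑ j, cfgOf τ γ ω j k ^ 2 ≤ τ * (B * N) := by
  refine le_trans ?_ (mul_le_mul_of_nonneg_left hω hτ)
  rw [Finset.mul_sum]
  refine Finset.sum_le_sum fun k _ => ?_
  rw [Finset.mul_sum]
  refine Finset.sum_le_sum fun j _ => ?_
  unfold cfgOf
  split_ifs
  · rw [mul_pow, Real.sq_sqrt hτ]
  · rw [zero_pow two_ne_zero]; positivity

theorem abs_gov_typX_le (hτ : 0 ≤ τ) {S : Type*} (x : S → Fin d → Fin N → ℝ)
    (hx : ∀ σ, x σ ∈ cutSet B d N) (hN : 0 < N) (t : Finset (Fin d)) (σ σ' : S) (k l : Fin d) :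
    |gov (fun σ => typX τ γ t (x σ)) σ σ' k l| ≤ τ * B := by
  have hN' : (0 : ℝ) < N := Nat.cast_pos.2 hN
  rw [gov_typX, abs_div, abs_of_pos hN', div_le_iff₀ hN']
  have h1 : ∀ σ k, ∑ j ∈ Finset.univ.filter (fun j => typ γ j = t), cfgOf τ γ (x σ) j k ^ 2
      ≤ τ * (B * N) := fun σ k =>
    ((Finset.sum_le_sum_of_subset_of_nonneg (Finset.subset_univ _) fun j _ _ => sq_nonneg _).trans
      (Finset.single_le_sum (f := fun k => ∑ j, cfgOf τ γ (x σ) j k ^ 2)
        (fun k _ => Finset.sum_nonneg fun j _ => sq_nonneg _) (Finset.mem_univ k))).trans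
      (sum_cfgOf_sq_le hτ (hx σ))
  refine (Finset.abs_sum_le_sum_abs _ _).trans ((Finset.sum_le_sum (g := fun j =>
    (cfgOf τ γ (x σ) j k ^ 2 + cfgOf τ γ (x σ') j l ^ 2) / 2) fun j _ => ?_).trans ?_)
  · rw [abs_mul, ← sq_abs (cfgOf τ γ (x σ) j k), ← sq_abs (cfgOf τ γ (x σ') j l)]
    nlinarith [sq_nonneg (|cfgOf τ γ (x σ) j k| - |cfgOf τ γ (x σ') j l|)]
  · rw [← Finset.sum_div, Finset.sum_add_distrib]
    linarith [h1 σ k, h1 σ' l]

theorem sum_kvec_mul (hτ : 0 < τ) (hB : 0 < B) (t : Finset (Fin d)) {S : Type*}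
    (x : S → Fin d → Fin N → ℝ) (v : Fin d → ℝ) (σ σ' : S) :
    ∑ j, kvec τ B γ (x σ) t v j * kvec τ B γ (x σ') t v j
      = gq (fun σ => typX τ γ t (x σ)) v σ σ' / (8 * τ * B) := by
  simp only [gq, typX, kvec, mul_ite, ite_mul, mul_zero, zero_mul, ← ite_and, and_self]
  rw [← Finset.sum_filter, Finset.sum_subtype (Finset.univ.filter fun j => typ γ j = t)
    (p := fun j => typ γ j = t) (by simp), Finset.sum_div]
  refine Finset.sum_congr rfl fun j _ => ?_
  simp only [mul_div_assoc', ← Finset.sum_div]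
  rw [div_mul_eq_mul_div, div_div, Real.mul_self_sqrt (by positivity), div_mul_eq_mul_div,
    div_div, div_div, ← mul_assoc √(N : ℝ), Real.mul_self_sqrt (Nat.cast_nonneg N),
    mul_comm (N : ℝ)]

end Types

section Pen

variable {τ B εa : ℝ} {γ : Fin d → ℝ} {ν : Measure (Fin d → Fin N → ℝ)} {nA L J : ℕ}

/-- The atom of a configuration of the prior of atoms and labels. -/
noncomputable def penAtom (hτ : 0 ≤ τ) (A : Coeffs d nA) (a : Atoms ν (cutSet B d N) εa)
    (hL : 0 < L) (J : ℕ) (σ : Fin (penPrior (γ := γ) hτ A a hL J).c) : Fin d → Fin N → ℝ :=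
  a.x ((finProdFinEquiv (m := a.c) (n := L)).symm σ).1

/-- The coordinates of one type in that prior. -/
noncomputable def penX (hτ : 0 ≤ τ) (A : Coeffs d nA) (a : Atoms ν (cutSet B d N) εa)
    (hL : 0 < L) (J : ℕ) (t : Finset (Fin d))
    (σ : Fin (penPrior (γ := γ) hτ A a hL J).c) : {j : Fin N // typ γ j = t} → Fin d → ℝ :=
  typX τ γ t (penAtom hτ A a hL J σ)

/-- A kernel is a quadratic form of its type, up to a common label. -/
theorem gq_sub_ker_le (hτ : 0 < τ) (hB : 0 < B) (A : Coeffs d nA)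
    (a : Atoms ν (cutSet B d N) εa) (hL : 0 < L) (κ : Fin (nker d nA))
    (σ σ' : Fin (penPrior (γ := γ) hτ.le A a hL J).c) :
    |gq (penX hτ.le A a hL J (kerIdx κ).1) (A.a (kerIdx κ).2) σ σ'
        - 8 * τ * B * vkerC (penPrior (γ := γ) hτ.le A a hL J) κ σ σ'|
      ≤ 8 * τ * B * labEq hτ.le A a hL J σ σ' := by
  set v := A.a (kerIdx κ).2
  set t := (kerIdx κ).1
  have hc : 0 < 8 * τ * B := by positivity
  set i := (finProdFinEquiv (m := a.c) (n := L)).symm σ
  set i' := (finProdFinEquiv (m := a.c) (n := L)).symm σ'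
  have hk : vkerC (penPrior (γ := γ) hτ.le A a hL J) κ σ σ'
      = ∑ u, kfeat τ B γ J (a.x i.1) i.2 t v u * kfeat τ B γ J (a.x i'.1) i'.2 t v u := rfl
  have hs : ∀ ω ∈ cutSet B d N, √(1 - ∑ j, kvec τ B γ ω t v j ^ 2) ∈ Icc (0 : ℝ) 1 := fun ω _ =>
    ⟨Real.sqrt_nonneg _, Real.sqrt_le_one.2 (sub_le_self _ (Finset.sum_nonneg fun j _ => sq_nonneg _))⟩
  have hg : gq (penX hτ.le A a hL J t) v σ σ'
      = 8 * τ * B * ∑ j, kvec τ B γ (a.x i.1) t v j * kvec τ B γ (a.x i'.1) t v j := by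
    rw [show ∑ j, kvec τ B γ (a.x i.1) t v j * kvec τ B γ (a.x i'.1) t v j
        = gq (penX (γ := γ) hτ.le A a hL J t) v σ σ' / (8 * τ * B) from
      sum_kvec_mul hτ hB t (penAtom (γ := γ) hτ.le A a hL J) v σ σ', mul_div_cancel₀ _ hc.ne']
  rw [hk, sum_kfeat_mul, hg, mul_add, sub_add_cancel_left, abs_neg, abs_mul, abs_of_pos hc]
  refine mul_le_mul_of_nonneg_left ?_ hc.le
  rw [show labEq hτ.le A a hL J σ σ' = if i.2 = i'.2 then 1 else 0 from rfl]
  split_ifs with h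
  · obtain ⟨h1, h2⟩ := hs _ (a.mem i.1)
    obtain ⟨h3, h4⟩ := hs _ (a.mem i'.1)
    rw [abs_mul, abs_of_nonneg h1, abs_of_nonneg h3]
    exact mul_le_one₀ h2 h3 h4
  · simp

theorem rowc_sized (hτ : 0 ≤ τ) (A : Coeffs d nA) (a : Atoms ν (cutSet B d N) εa) (hL : 0 < L)
    (Φ : VFac N d K) (hN : 0 < N) {a0 : ℝ} (hM : (M : ℝ) ≤ a0 * N) :
    VSized (penPrior (γ := γ) hτ A a hL J) Φ (|a0| * (τ * |B|))
      (rowc 1 : VCIdx N M d (nker d nA) (N + L + J) K → ℝ) := by
  have hN' : (0 : ℝ) < N := Nat.cast_pos.2 hN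
  refine ⟨fun i => ?_, fun σ => ⟨?_, ?_⟩⟩
  · rcases i with (q | q) | ⟨l, u | u | u⟩ <;> simp [rowc, vfldc]
  · have e : ∀ (i : Fin M) (k : Fin d), ∑ q, vpull (rowc 1 : VCIdx N M d (nker d nA) (N + L + J) K → ℝ) q
        * vbpat (n := 1) (penPrior (γ := γ) hτ A a hL J) Φ i k (σ, fun _ => 0) q ^ 2
        = (∑ j, cfgOf τ γ (penAtom (γ := γ) hτ A a hL J σ) j k ^ 2) / N := fun i k => by
      simp only [Fintype.sum_sum_type, Fintype.sum_prod_type, vpull, rowc, vfldc, vbpat, treeDir,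
        rowZ, zero_mul, Finset.sum_const_zero, add_zero, one_mul]
      simp [ite_pow, Finset.sum_div, div_pow, penPrior, penAtom]
    simp only [e]
    rw [Finset.sum_const, Finset.card_univ, Fintype.card_fin, nsmul_eq_mul, ← Finset.sum_div]
    refine (mul_le_mul (hM.trans (mul_le_mul_of_nonneg_right (le_abs_self a0) hN'.le))
      (div_le_div_of_nonneg_right (sum_cfgOf_sq_le hτ (a.mem _)) hN'.le)
      (by positivity) (by positivity)).trans ?_
    rw [mul_div_assoc, mul_div_cancel_right₀ _ hN'.ne']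
    have := mul_le_mul_of_nonneg_left (mul_le_mul_of_nonneg_left (le_abs_self B) hτ)
      (mul_nonneg (abs_nonneg a0) hN'.le)
    linarith
  · refine le_of_eq_of_le (Finset.sum_eq_zero fun i _ => ?_) (by positivity)
    rcases i with (q | q) | ⟨o, u | u | u⟩ <;> simp [vpull, rowc, vfldc, vbspin, treeDir]

end Pen

/-- The coefficient vectors of the forms that determine a matrix. -/
noncomputable def basicCoeffs (d : ℕ) : Coeffs d (d * d) where
  a i := bvec ((finProdFinEquiv (m := d) (n := d)).symm i).1 ((finProdFinEquiv (m := d) (n := d)).symm i).2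
  l1 i := by
    set k := ((finProdFinEquiv (m := d) (n := d)).symm i).1
    set l := ((finProdFinEquiv (m := d) (n := d)).symm i).2
    refine (Finset.sum_le_sum (g := fun j => (if j = k then (1 : ℝ) else 0) + if j = l then 1 else 0)
      fun j _ => ?_).trans_eq (by simp [Finset.sum_add_distrib]; norm_num)
    unfold bvec
    split_ifs <;> simp_all

theorem basicCoeffs_spec (k l : Fin d) : ∃ i, (basicCoeffs d).a i = bvec k l :=
  ⟨finProdFinEquiv (k, l), by
    show bvec (finProdFinEquiv.symm (finProdFinEquiv (k, l))).1 (finProdFinEquiv.symm (finProdFinEquiv (k, l))).2 = _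
    rw [Equiv.symm_apply_apply]⟩

/-- The gap of the path, in the worst case of the size of a type. -/
noncomputable def penGap (d K N : ℕ) (η : ℝ) : ℝ :=
  ((d : ℝ) + 1) * (((N : ℝ) + 1) * η / pi0 K * ((K : ℝ) + 1))

/-- The bound on the error of one type. -/
noncomputable def penErr (d K N : ℕ) (B θ s η e : ℝ) : ℝ :=
  (d : ℝ) ^ 2 * (2 * (2 * e + ((K : ℝ) + 1) * (8 * B * η))
      + (4 * θ * B ^ 2 + 192 * B / θ * (2 * e + ((K : ℝ) + 1) * (8 * B * η))
        + ((K : ℝ) + 1) * η) / (4 * s) + s / 4)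
    + penGap d K N η

/-- The bound on the error at the last level. -/
noncomputable def penTop (d K N : ℕ) (B η δ : ℝ) : ℝ :=
  penGap d K N η + (((d : ℝ) ^ 2 * B + 1) * (η + δ) + η) / pi0 K

theorem penErr_eq (d K N : ℕ) {B θ s : ℝ} (η e : ℝ) (hθ : θ ≠ 0) (hs : s ≠ 0) :
    penErr d K N B θ s η e = (d : ℝ) ^ 2 * (θ * B ^ 2 / s + s / 4)
      + (d : ℝ) ^ 2 * (2 + 48 * B / (θ * s)) * 2 * e
      + (((d : ℝ) ^ 2 * (2 + 48 * B / (θ * s)) * (((K : ℝ) + 1) * (8 * B))
          + (d : ℝ) ^ 2 * ((K : ℝ) + 1) / (4 * s)) * η + penGap d K N η) := by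
  rw [penErr]
  field_simp
  ring

/-- The parameters can be chosen: many levels, then a small law error. -/
theorem pen_budget (d : ℕ) {B : ℝ} (hB : 0 ≤ B) (sc : ℝ) (hsc : 0 < sc) {ε : ℝ} (hε : 0 < ε) :
    ∃ θ > 0, ∃ s > 0, ∃ C1 : ℝ, 0 ≤ C1 ∧ ∃ K0 : ℕ, ∀ K ≥ K0, ∀ N : ℕ, ∃ η > 0, η ≤ pi0 K ∧ η ≤ ε ∧
      penGap d K N η ≤ ε ∧ ∀ x cl : ℝ, 0 ≤ x → 0 ≤ cl → C1 * (sc * cl) ≤ ε / 8 →
        penErr d K N B θ s η (sc * (26 * pi0 K + x) + sc * cl)
          ≤ ε / 2 + (C1 * sc + ((d : ℝ) ^ 2 * B + 1) / pi0 K + 1) * x ∧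
        penTop d K N B η x ≤ ε / 2 + (C1 * sc + ((d : ℝ) ^ 2 * B + 1) / pi0 K + 1) * x := by
  set D2 := (d : ℝ) ^ 2
  set s := ε / (4 * (D2 + 1)) with hs
  have hs0 : 0 < s := by positivity
  set θ := ε * s / (16 * ((D2 + 1) * (B ^ 2 + 1))) with hθ
  have hθ0 : 0 < θ := by positivity
  set C1 := D2 * (2 + 48 * B / (θ * s)) * 2
  have hC1 : 0 ≤ C1 := by positivity
  have hfix : D2 * (θ * B ^ 2 / s + s / 4) ≤ ε / 8 := by
    have h1 : D2 * (s / 4) ≤ ε / 16 := by
      rw [hs, div_div, mul_div_assoc', div_le_div_iff₀ (by positivity) (by norm_num)]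
      nlinarith
    have h2 : θ * B ^ 2 / s = ε * B ^ 2 / (16 * ((D2 + 1) * (B ^ 2 + 1))) := by
      rw [hθ]; field_simp
    have h3 : D2 * (θ * B ^ 2 / s) ≤ ε / 16 := by
      rw [h2, mul_div_assoc', div_le_div_iff₀ (by positivity) (by norm_num)]
      have : D2 * B ^ 2 ≤ (D2 + 1) * (B ^ 2 + 1) := by gcongr <;> linarith
      nlinarith
    linarith
  obtain ⟨K0, hK0⟩ := exists_nat_gt (8 * (C1 * (sc * 26)) / ε)
  refine ⟨θ, hθ0, s, hs0, C1, hC1, K0, fun K hK N => ?_⟩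
  have hπ : 0 < pi0 K := by rw [pi0]; positivity
  have hKπ : C1 * (sc * (26 * pi0 K)) ≤ ε / 8 := by
    rw [div_lt_iff₀ hε] at hK0
    have : (K0 : ℝ) ≤ (K : ℝ) + 1 := by exact_mod_cast (by omega : K0 ≤ K + 1)
    have h1 := mul_le_mul_of_nonneg_right this hε.le
    rw [pi0, mul_div_assoc', mul_div_assoc', mul_div_assoc', mul_one,
      div_le_iff₀ (by positivity : (0 : ℝ) < (K : ℝ) + 1)]
    linarith
  set C2 := D2 * (2 + 48 * B / (θ * s)) * (((K : ℝ) + 1) * (8 * B)) + D2 * ((K : ℝ) + 1) / (4 * s)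
    + ((d : ℝ) + 1) * (((N : ℝ) + 1) * ((K : ℝ) + 1)) / pi0 K + (D2 * B + 2) / pi0 K + 1
  have hC2 : 0 < C2 := by positivity
  set η := min (pi0 K) (ε / (8 * C2))
  have hη0 : 0 < η := lt_min hπ (by positivity)
  have hηC : C2 * η ≤ ε / 8 := by
    refine (mul_le_mul_of_nonneg_left (min_le_right _ _) hC2.le).trans (le_of_eq ?_)
    field_simp
  have hgap : penGap d K N η = ((d : ℝ) + 1) * (((N : ℝ) + 1) * ((K : ℝ) + 1)) / pi0 K * η := by
    rw [penGap]; ring
  have hgap0 : 0 ≤ penGap d K N η := by rw [penGap]; positivity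
  have e2 : C2 * η = (D2 * (2 + 48 * B / (θ * s)) * (((K : ℝ) + 1) * (8 * B))
      + D2 * ((K : ℝ) + 1) / (4 * s)) * η + penGap d K N η + (D2 * B + 2) / pi0 K * η + η := by
    rw [hgap]; simp only [C2]; ring
  have p1 : 0 ≤ (D2 * (2 + 48 * B / (θ * s)) * (((K : ℝ) + 1) * (8 * B))
      + D2 * ((K : ℝ) + 1) / (4 * s)) * η := by positivity
  have p2 : 0 ≤ (D2 * B + 2) / pi0 K * η := by positivity
  refine ⟨η, hη0, min_le_left _ _, by linarith, by linarith, fun x cl hx hcl hl => ⟨?_, ?_⟩⟩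
  · rw [penErr_eq d K N η _ hθ0.ne' hs0.ne']
    have p3 : 0 ≤ (D2 * B + 1) / pi0 K * x := by positivity
    linarith
  · rw [penTop, show ((D2 * B + 1) * (η + x) + η) / pi0 K
      = (D2 * B + 2) / pi0 K * η + (D2 * B + 1) / pi0 K * x by ring]
    have p3 : 0 ≤ C1 * sc * x := by positivity
    linarith

/-- Synchronisation of one type from that of its kernels, at fixed parameters. -/
theorem pen_type_sync {τ B εa : ℝ} {γ : Fin d → ℝ} {ν : Measure (Fin d → Fin N → ℝ)} {nA L J : ℕ}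
    (hτ : 0 < τ) (hB : 0 < B) (hN : 0 < N) (P : VPot d) (A : Coeffs d nA)
    (hA : ∀ k l : Fin d, ∃ i, A.a i = bvec k l) (a : Atoms ν (cutSet B d N) εa) (hL : 0 < L)
    (Φ : VFac N d K) (hn : 0 < n) {c : VCIdx N M d (nker d nA) (N + L + J) K → ℝ}
    {θ s η x cl δ : ℝ} (hθ : 0 < θ) (hs : 0 < s) (hη : η ≤ pi0 K) (hδ : 0 ≤ δ)
    (H : LevFacts n P (penPrior (γ := γ) hτ.le A a hL J) Φ c (syncB d (τ * B) θ) η)
    (hsync : ∀ κ, syncErr (venv N M d (nker d nA) (N + L + J) K n)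
      (vposW P (penPrior (γ := γ) hτ.le A a hL J) Φ c)
      (vkerov (penPrior (γ := γ) hτ.le A a hL J) κ) (vlev (penPrior (γ := γ) hτ.le A a hL J)) ≤ x)
    (hlab : vmpair n P (penPrior (γ := γ) hτ.le A a hL J) Φ c
      (fun _ st st' => labEq hτ.le A a hL J st.1 st'.1) ≤ cl)
    (hfirst : ∀ f : Fin (penPrior (γ := γ) hτ.le A a hL J).c → ℝ, (∀ σ, |f σ| ≤ 1) →
      pairLev n P (penPrior (γ := γ) hτ.le A a hL J) Φ c (fun σ _ => f σ) (Fin.last K)
        ≤ reavg (venv N M d (nker d nA) (N + L + J) K n)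
            (vposW P (penPrior (γ := γ) hτ.le A a hL J) Φ c) 1 (fun _ y => f (y 0).1)
          * pairLev n P (penPrior (γ := γ) hτ.le A a hL J) Φ c (fun _ _ => 1) (Fin.last K) + δ)
    (t : Finset (Fin d)) :
    ∃ q : Fin (K + 1) → Matrix (Fin d) (Fin d) ℝ,
      (∀ l, (q l).transpose = q l) ∧ (q 0).PosSemidef ∧
      (∀ l : Fin K, (q l.succ - q l.castSucc).PosSemidef) ∧
      (∀ l, mabs (q l) ≤ 2 * (d : ℝ) ^ 2 * (τ * B) + penGap d K N η) ∧
      reavg (venv N M d (nker d nA) (N + L + J) K n)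
          (vposW P (penPrior (γ := γ) hτ.le A a hL J) Φ c) 2 (fun _ y =>
          mabs (gov (penX hτ.le A a hL J t) (y 0).1 (y 1).1
            - q (vlev (penPrior (γ := γ) hτ.le A a hL J) (y 0) (y 1))))
        ≤ penErr d K N (τ * B) θ s η (8 * τ * B * x + 8 * τ * B * cl) ∧
      ∀ T, penTop d K N (τ * B) η δ ≤ T →
        (mexp (venv N M d (nker d nA) (N + L + J) K n)
            (vposW P (penPrior (γ := γ) hτ.le A a hL J) Φ c) 1
            (fun _ y => gov (penX hτ.le A a hL J t) (y 0).1 (y 0).1)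
          + T • (1 : Matrix (Fin d) (Fin d) ℝ) - q (Fin.last K)).PosSemidef := by
  set π := penPrior (γ := γ) hτ.le A a hL J
  set X := penX (γ := γ) hτ.le A a hL J t
  have hB0 : 0 ≤ τ * B := by positivity
  have hsc : 0 < 8 * τ * B := by positivity
  have hX : ∀ σ σ' k l, |gov X σ σ' k l| ≤ τ * B := fun σ σ' k l =>
    abs_gov_typX_le hτ.le (penAtom (γ := γ) hτ.le A a hL J) (fun σ => a.mem _) hN t σ σ' k l
  have hsync' : ∀ k l : Fin d, ∃ g : Fin (K + 1) → ℝ, ∑ n', pairLev n P π Φ c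
      (fun σ σ' => |gq X (bvec k l) σ σ' - g n'|) n' ≤ 8 * τ * B * x + 8 * τ * B * cl := fun k l => by
    obtain ⟨i, hi⟩ := hA k l
    set κ : Fin (nker d nA) := Fintype.equivFin (Finset (Fin d) × Fin nA) (t, i)
    have hκ : kerIdx κ = (t, i) := Equiv.symm_apply_apply _ _
    have hk : ∀ σ σ', |gq X (bvec k l) σ σ' - 8 * τ * B * vkerC π κ σ σ'|
        ≤ 8 * τ * B * labEq hτ.le A a hL J σ σ' := fun σ σ' => by
      have h := gq_sub_ker_le (γ := γ) (J := J) hτ hB A a hL κ σ σ'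
      rw [hκ, hi] at h
      exact h
    have hsum : ∑ n', pairLev n P π Φ c
        (fun σ σ' => |gq X (bvec k l) σ σ' - 8 * τ * B * vkerC π κ σ σ'|) n' ≤ 8 * τ * B * cl := by
      refine (Finset.sum_le_sum fun n' _ => pairLev_mono P π Φ c hn hk n').trans ?_
      simp only [pairLev_smul P π Φ c hn, ← Finset.mul_sum]
      refine mul_le_mul_of_nonneg_left ?_ hsc.le
      rw [sum_pairLev_same P π Φ c hn]
      exact hlab
    obtain ⟨g, hg⟩ := pred_of_syncErr P π Φ c hn κ (gq X (bvec k l)) (8 * τ * B) hsum (hsync κ)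
    exact ⟨g, hg.trans_eq (by rw [abs_of_pos hsc])⟩
  have hcard : (Fintype.card {j : Fin N // typ γ j = t} : ℝ) ≤ N := by
    have := Fintype.card_subtype_le fun j : Fin N => typ γ j = t
    rw [Fintype.card_fin] at this
    exact_mod_cast this
  have hπ : 0 < pi0 K := by rw [pi0]; positivity
  have hη0 : 0 ≤ η := (abs_nonneg _).trans (H.law 0)
  set g0 := ((Fintype.card {j : Fin N // typ γ j = t} : ℝ) + 1) * η / pi0 K * ((K : ℝ) + 1)
  have hg00 : 0 ≤ g0 := by positivity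
  have hg : ((d : ℝ) + 1) * g0 ≤ penGap d K N η := by
    rw [penGap]
    simp only [g0]
    gcongr
  have hdg : (d : ℝ) * g0 ≤ ((d : ℝ) + 1) * g0 := by linarith
  have h1g : g0 ≤ ((d : ℝ) + 1) * g0 :=
    le_mul_of_one_le_left hg00 (by linarith [Nat.cast_nonneg (α := ℝ) d])
  refine ⟨fun l => qpath n P π Φ c X η l, qpath_symm X, (qpath_mono X hn hX hB0 hθ hη H).1,
    (qpath_mono X hn hX hB0 hθ hη H).2, fun l => ?_, ?_, fun T hT => ?_⟩
  · refine (mabs_qpath_le X hn hX hB0 hη H l).trans ?_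
    change (d : ℝ) ^ 2 * (2 * (τ * B)) + (d : ℝ) * g0 ≤ _
    linarith
  · refine (qpath_err X hn hX hB0 hθ hη H hs hsync').trans ?_
    rw [penErr]
    exact add_le_add le_rfl (hdg.trans hg)
  · have h := qpath_top X hn hX hB0 hθ H hδ hfirst
      (fun f => pairLev_swap (n := n) P π Φ c hn (fun σ _ => f σ) (Fin.last K))
    have hle : g0 + (((d : ℝ) ^ 2 * (τ * B) + 1) * (η + δ) + η) / pi0 K ≤ T := by
      rw [penTop] at hT
      linarith
    convert h.add (Matrix.PosSemidef.one.smul (sub_nonneg.2 hle)) using 1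
    simp only [sub_smul]
    abel

/-- Synchronisation of every type along a path of nonnegative matrices, uniformly over a compact
set of variances of bounded size without perturbations: for many levels, then large systems, many
labels and large trees, in mean over the perturbation parameters. -/
theorem pen_sync_set {τ B : ℝ} (hτ : 0 < τ) (hB : 0 < B) (P : VPot d) (Bs : ℝ) {ε : ℝ}
    (hε : 0 < ε) :
    ∃ K0 : ℕ, ∀ K ≥ K0, ∀ nA : ℕ, 0 < nA → ∃ Nmin : ℕ, ∀ N ≥ Nmin, ∀ M : ℕ,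
      ∃ L0 : ℕ, ∀ L ≥ L0, ∀ (hL : 0 < L) (J : ℕ) (γ : Fin d → ℝ) (A : Coeffs d nA),
        (∀ k l : Fin d, ∃ i, A.a i = bvec k l) →
        ∀ (ν : Measure (Fin d → Fin N → ℝ)) (εa : ℝ) (a : Atoms ν (cutSet B d N) εa)
          (Φ : VFac N d K) (s : Set (VCIdx N M d (nker d nA) (N + L + J) K → ℝ)), IsCompact s →
          (∀ fld ∈ s, PertZero fld ∧
            VSized (penPrior (γ := γ) hτ.le A a hL J) Φ Bs fld) →
        ∃ n0, 0 < n0 ∧ ∀ n ≥ n0, ∀ fld ∈ s, ∃ δ : (Fin (nker d nA) × Fin N → ℝ) → ℝ,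
          Integrable δ (vxlaw (nker d nA) N) ∧ (∀ y, 0 ≤ δ y) ∧
          ∫ y, δ y ∂vxlaw (nker d nA) N ≤ ε ∧
          ∀ y : Fin (nker d nA) × Fin N → ℝ, (∀ p, y p ∈ Icc (1 : ℝ) 2) →
            let π := penPrior (γ := γ) hτ.le A a hL J
            let c : VCIdx N M d (nker d nA) (N + L + J) K → ℝ := vsys fld y
            (∀ l, |levLaw (venv N M d (nker d nA) (N + L + J) K n) (vposW P π Φ c) (vlev π) l
              - pi0 K| ≤ δ y) ∧
            (∀ (l : Fin (K + 1)) (r : ℕ)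
              (F : (Node K n → ℝ) × (VGIdx N M d (nker d nA) (N + L + J) K n → ℝ) →
                (Fin (r + 1) → VState π K n) → ℝ), PertFree F →
              |rdef (venv N M d (nker d nA) (N + L + J) K n) (vmbw P π Φ c)
                (fun a b => if vlev π a b = l then 1 else 0) r F| ≤ δ y) ∧
            ∀ t : Finset (Fin d), ∃ q : Fin (K + 1) → Matrix (Fin d) (Fin d) ℝ,
              (∀ l, (q l).transpose = q l) ∧ (q 0).PosSemidef ∧
              (∀ l : Fin K, (q l.succ - q l.castSucc).PosSemidef) ∧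
              (∀ l, mabs (q l) ≤ 2 * (d : ℝ) ^ 2 * (τ * B) + ε) ∧
              reavg (venv N M d (nker d nA) (N + L + J) K n) (vposW P π Φ c) 2 (fun _ x =>
                mabs (gov (penX hτ.le A a hL J t) (x 0).1 (x 1).1 - q (vlev π (x 0) (x 1))))
                  ≤ δ y ∧
              (mexp (venv N M d (nker d nA) (N + L + J) K n) (vposW P π Φ c) 1 (fun _ x =>
                  gov (penX hτ.le A a hL J t) (x 0).1 (x 0).1)
                + δ y • (1 : Matrix (Fin d) (Fin d) ℝ) - q (Fin.last K)).PosSemidef := by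
  obtain ⟨θ, hθ, s, hs, C1, hC1, K0, hbud⟩ :=
    pen_budget d (B := τ * B) (by positivity) (8 * τ * B) (by positivity) hε
  refine ⟨K0 + 1, fun K hK nA hnA => ?_⟩
  have hK1 : 0 < K := by omega
  have hπ : 0 < pi0 K := by rw [pi0]; positivity
  set C4 := C1 * (8 * τ * B) + ((d : ℝ) ^ 2 * (τ * B) + 1) / pi0 K + 1
  have hC4 : 1 ≤ C4 := le_add_of_nonneg_left (by positivity)
  obtain ⟨Nmin, hNmin⟩ := vsync P Bs (nker d nA) hK1
    (show 0 < ε / (2 * C4) by positivity)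
  refine ⟨Nmin + 1, fun N hN M => ?_⟩
  have hN0 : 0 < N := by omega
  set coll := 3 * Real.exp (36 * vpertBd (nker d nA) N 2) with hcolldef
  obtain ⟨L0, hL0⟩ := exists_nat_gt (8 * (C1 * (8 * τ * B * coll)) / ε)
  refine ⟨L0, fun L hLL hL J γ A hA ν εa a Φ sR hs' hfld => ?_⟩
  have hcoll : C1 * (8 * τ * B * (coll / L)) ≤ ε / 8 := by
    rw [div_lt_iff₀ hε] at hL0
    have hL' : (0 : ℝ) < L := Nat.cast_pos.2 hL
    have h1 := mul_le_mul_of_nonneg_right (show (L0 : ℝ) ≤ L by exact_mod_cast hLL) hε.le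
    rw [mul_div_assoc', mul_div_assoc', div_le_iff₀ hL']
    linarith
  set π := penPrior (γ := γ) hτ.le A a hL J
  obtain ⟨n1, hn1, hsync⟩ := hNmin N (by omega) M (nker d nA) (N + L + J) le_rfl (by omega) π Φ sR
    hs' hfld
  obtain ⟨η, hη0, hη1, hη2, hgap, hfin⟩ := hbud K (by omega) N
  obtain ⟨n2, hn2⟩ := levFacts_uniform P π Φ (isCompact_vsysSet (s := sR) hs')
    (syncB d (τ * B) θ) (show 0 < min η (ε / 4) by positivity)
  refine ⟨n1 + n2, by omega, fun n hn fld hfs => ?_⟩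
  obtain ⟨hpz, hsz⟩ := hfld fld hfs
  have hn' : 0 < n := by omega
  have κ0 : Fin (nker d nA) := Fintype.equivFin (Finset (Fin d) × Fin nA) (∅, ⟨0, hnA⟩)
  obtain ⟨δ0, hδi, hδ0, hδe, hδ⟩ := hsync n (by omega) fld hfs
  refine ⟨fun y => ε / 2 + C4 * δ0 y, (integrable_const _).add (hδi.const_mul _),
    fun y => by have := hδ0 y; positivity, ?_, fun y hy => ?_⟩
  · rw [integral_add (integrable_const _) (hδi.const_mul _), integral_const, probReal_univ,
      one_smul, integral_const_mul]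
    refine le_trans (add_le_add le_rfl (mul_le_mul_of_nonneg_left hδe (by positivity))) (le_of_eq ?_)
    field_simp
    ring
  dsimp only
  have H0 := hn2 n (by omega) (vsys fld y) (mem_vsysSet hfs hy)
  have hx := hδ0 y
  have hC4' : δ0 y ≤ C4 * δ0 y := le_mul_of_one_le_left hx hC4
  have hrdef := fun l r F hF => ((hδ y hy κ0).2 l r F hF).trans
    (show δ0 y ≤ ε / 2 + C4 * δ0 y by linarith)
  refine ⟨fun l => ?_, hrdef, fun t => ?_⟩
  · rw [levLaw_eq_pairLev P π Φ hn']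
    have := (H0.law l).trans (min_le_right _ _)
    linarith
  have H : LevFacts n P π Φ (vsys fld y) (syncB d (τ * B) θ) η :=
    ⟨fun l => (H0.law l).trans (min_le_left _ _),
      fun O hO hO' l => le_trans (neg_le_neg (min_le_left _ _)) (H0.pos O hO hO' l),
      fun φ hφ l l' hl => (H0.mono φ hφ l l' hl).trans (add_le_add le_rfl (min_le_left _ _))⟩
  have hlab : vmpair (M := M) n P π Φ (vsys fld y) (fun _ st st' => labEq hτ.le A a hL J st.1 st'.1)
      ≤ coll / L := by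
    refine vmpair_labEq_le (γ := γ) (J := J) P hτ.le A a hL Φ hn' hpz hsz.1 N
      (x := vext y) (X := 2) fun κ j => ?_
    · unfold vext
      split_ifs with h
      · exact abs_le.2 ⟨by linarith [(hy (κ, ⟨j, h⟩)).1], (hy (κ, ⟨j, h⟩)).2⟩
      · simp
  obtain ⟨q, hq1, hq2, hq3, hq4, hq5, hq6⟩ := pen_type_sync hτ hB hN0 P A hA a hL Φ hn' hθ hs hη1
    hx H (fun κ => (hδ y hy κ).1) hlab
    (first_of_rdef P π Φ _ hn' fun r F hF => (hδ y hy κ0).2 _ r F hF) t
  obtain ⟨hf1, hf2⟩ := hfin (δ0 y) (coll / L) hx (by positivity) hcoll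
  exact ⟨q, hq1, hq2, hq3, fun l => (hq4 l).trans (add_le_add le_rfl hgap), hq5.trans hf1,
    hq6 _ hf2⟩

/-- The same with rows only. -/
theorem pen_sync {τ B : ℝ} (hτ : 0 < τ) (hB : 0 < B) (P : VPot d) (a0 : ℝ) {ε : ℝ} (hε : 0 < ε) :
    ∃ K0 : ℕ, ∀ K ≥ K0, ∀ nA : ℕ, 0 < nA → ∃ Nmin : ℕ, ∀ N ≥ Nmin, ∀ M : ℕ, (M : ℝ) ≤ a0 * N →
      ∃ L0 : ℕ, ∀ L ≥ L0, ∀ (hL : 0 < L) (J : ℕ) (γ : Fin d → ℝ) (A : Coeffs d nA),
        (∀ k l : Fin d, ∃ i, A.a i = bvec k l) →
        ∀ (ν : Measure (Fin d → Fin N → ℝ)) (εa : ℝ) (a : Atoms ν (cutSet B d N) εa)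
          (Φ : VFac N d K),
        ∃ n0, 0 < n0 ∧ ∀ n ≥ n0, ∃ δ : (Fin (nker d nA) × Fin N → ℝ) → ℝ,
          Integrable δ (vxlaw (nker d nA) N) ∧ (∀ y, 0 ≤ δ y) ∧
          ∫ y, δ y ∂vxlaw (nker d nA) N ≤ ε ∧
          ∀ y : Fin (nker d nA) × Fin N → ℝ, (∀ p, y p ∈ Icc (1 : ℝ) 2) →
            let π := penPrior (γ := γ) hτ.le A a hL J
            let c : VCIdx N M d (nker d nA) (N + L + J) K → ℝ := vsys (rowc 1) y
            (∀ l, |levLaw (venv N M d (nker d nA) (N + L + J) K n) (vposW P π Φ c) (vlev π) l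
              - pi0 K| ≤ δ y) ∧
            (∀ (l : Fin (K + 1)) (r : ℕ)
              (F : (Node K n → ℝ) × (VGIdx N M d (nker d nA) (N + L + J) K n → ℝ) →
                (Fin (r + 1) → VState π K n) → ℝ), PertFree F →
              |rdef (venv N M d (nker d nA) (N + L + J) K n) (vmbw P π Φ c)
                (fun a b => if vlev π a b = l then 1 else 0) r F| ≤ δ y) ∧
            ∀ t : Finset (Fin d), ∃ q : Fin (K + 1) → Matrix (Fin d) (Fin d) ℝ,
              (∀ l, (q l).transpose = q l) ∧ (q 0).PosSemidef ∧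
              (∀ l : Fin K, (q l.succ - q l.castSucc).PosSemidef) ∧
              (∀ l, mabs (q l) ≤ 2 * (d : ℝ) ^ 2 * (τ * B) + ε) ∧
              reavg (venv N M d (nker d nA) (N + L + J) K n) (vposW P π Φ c) 2 (fun _ x =>
                mabs (gov (penX hτ.le A a hL J t) (x 0).1 (x 1).1 - q (vlev π (x 0) (x 1))))
                  ≤ δ y ∧
              (mexp (venv N M d (nker d nA) (N + L + J) K n) (vposW P π Φ c) 1 (fun _ x =>
                  gov (penX hτ.le A a hL J t) (x 0).1 (x 0).1)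
                + δ y • (1 : Matrix (Fin d) (Fin d) ℝ) - q (Fin.last K)).PosSemidef := by
  obtain ⟨K0, h⟩ := pen_sync_set hτ hB P (|a0| * (τ * |B|)) hε
  refine ⟨K0, fun K hK nA hnA => ?_⟩
  obtain ⟨Nmin, hN⟩ := h K hK nA hnA
  refine ⟨Nmin + 1, fun N hN' M hM => ?_⟩
  obtain ⟨L0, hL0⟩ := hN N (by omega) M
  refine ⟨L0, fun L hLL hL J γ A hA ν εa a Φ => ?_⟩
  obtain ⟨n0, hn0, h0⟩ := hL0 L hLL hL J γ A hA ν εa a Φ {rowc 1} isCompact_singleton (by
    rintro _ rfl
    exact ⟨fun _ _ => rfl, rowc_sized hτ.le A a hL Φ (by omega) hM⟩)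
  exact ⟨n0, hn0, fun n hn => h0 n hn _ (mem_singleton _)⟩

end Vale.Agent.P166.Casc
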