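import Vale.Agent.P166.Casc.VStepDev
import Vale.Agent.P166.Casc.VSyncPen
import Vale.Agent.P166.Casc.VStat

/-!
The slot of the rows of a step: a finite set of increasing paths with a prescribed top contains a
path near the sum of the synchronisation paths of the types, and that sum is near the total path of
any responses which are near the paths of the types.
-/

open MeasureTheory ProbabilityTheory Filter Topology
open Matrix hiding comp

namespace Vale.Agent.P166.Casc

open Vale.Agent.P157.Casc Vale.Agent.P166.Formula Vale.Agent.P166.Pen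

variable {d N N' M R D K n : ℕ}

section Test

variable (P : VPot d) (π : VPrior N d R D) (Φ : VFac N d K) (c : VCIdx N M d R D K → ℝ)

/-- A test of the states only is monotone under the random average. -/
theorem reavg_le_of_le (hn : 0 < n) {r : ℕ} {f g : (Fin r → VState π K n) → ℝ}
    (h : ∀ x, f x ≤ g x) :
    reavg (venv N M d R D K n) (vposW P π Φ c) r (fun _ => f)
      ≤ reavg (venv N M d R D K n) (vposW P π Φ c) r fun _ => g := by
  classical
  have := vstate_nonempty (K := K) π hn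
  refine reavg_mono (measurable_vposW P π Φ c) (vposW_pos P π Φ c)
    (bTest_const (B := ∑ x, |f x|) _ fun x => Finset.single_le_sum (f := fun x => |f x|)
      (fun _ _ => abs_nonneg _) (Finset.mem_univ x))
    (bTest_const (B := ∑ x, |g x|) _ fun x => Finset.single_le_sum (f := fun x => |g x|)
      (fun _ _ => abs_nonneg _) (Finset.mem_univ x)) fun _ => h

/-- An average of a function of the level alone. -/
theorem reavg_lev (hn : 0 < n) (f : Fin (K + 1) → ℝ) :
    reavg (venv N M d R D K n) (vposW P π Φ c) 2 (fun _ x => f (vlev π (x 0) (x 1)))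
      = ∑ u, f u * levLaw (venv N M d R D K n) (vposW P π Φ c) (vlev π) u := by
  rw [← sum_pairLev P π Φ c hn fun u _ _ => f u]
  refine Finset.sum_congr rfl fun u _ => ?_
  rw [pairLev_const P π Φ c hn, levLaw_eq_pairLev P π Φ hn]

theorem reavg_add_le (hn : 0 < n) (f g : (Fin 2 → VState π K n) → ℝ) :
    reavg (venv N M d R D K n) (vposW P π Φ c) 2 (fun _ x => f x + g x)
      = reavg (venv N M d R D K n) (vposW P π Φ c) 2 (fun _ => f)
        + reavg (venv N M d R D K n) (vposW P π Φ c) 2 (fun _ => g) := by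
  classical
  have := vstate_nonempty (K := K) π hn
  exact reavg_add (measurable_vposW P π Φ c) (vposW_pos P π Φ c)
    (bTest_const (B := ∑ x, |f x|) _ fun x => Finset.single_le_sum (f := fun x => |f x|)
      (fun _ _ => abs_nonneg _) (Finset.mem_univ x))
    (bTest_const (B := ∑ x, |g x|) _ fun x => Finset.single_le_sum (f := fun x => |g x|)
      (fun _ _ => abs_nonneg _) (Finset.mem_univ x))

end Test

theorem mabs_entry_bound {A : Matrix (Fin d) (Fin d) ℝ} {b : ℝ} (h : ∀ k l, |A k l| ≤ b) :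
    mabs A ≤ (d : ℝ) ^ 2 * b := by
  refine (Finset.sum_le_sum fun k _ => Finset.sum_le_sum fun l _ => h k l).trans_eq ?_
  simp
  ring

theorem isPath_extPath {x : Fin (K + 1) → Matrix (Fin d) (Fin d) ℝ} (h0 : (x 0).PosSemidef)
    (hs : ∀ l : Fin K, (x l.succ - x l.castSucc).PosSemidef) : IsPath K (extPath x) := by
  refine ⟨?_, fun l hl => ?_⟩
  · rw [show extPath x 0 = x 0 from extPath_val x 0]
    exact h0
  · rw [show extPath x (l + 1) = x (Fin.succ ⟨l, hl⟩) from extPath_val x (Fin.succ ⟨l, hl⟩),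
      show extPath x l = x (Fin.castSucc ⟨l, hl⟩) from extPath_val x (Fin.castSucc ⟨l, hl⟩)]
    exact hs _

section Types

variable {τ B εa : ℝ} {γ : Fin d → ℝ} {ν : Measure (Fin d → Fin N → ℝ)} {nA L J : ℕ}

/-- The old overlap is the sum of those of the types. -/
theorem sum_gov_types (hτ : 0 ≤ τ) (A : Coeffs d nA) (a : Atoms ν (cutSet B d N) εa) (hL : 0 < L)
    (σ σ' : Fin (penPrior (γ := γ) hτ A a hL J).c) (k l : Fin d) :
    ∑ t, gov (penX (γ := γ) hτ A a hL J t) σ σ' k l
      = oldOv (penPrior (γ := γ) hτ A a hL J) k l σ σ' := by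
  simp only [show ∀ t, gov (penX (γ := γ) hτ A a hL J t) σ σ' k l
      = gov (fun s => typX τ γ t (penAtom hτ A a hL J s)) σ σ' k l from fun _ => rfl, gov_typX,
    ← Finset.sum_div, oldOv]
  rw [Finset.sum_fiberwise Finset.univ fun j : Fin N => typ γ j]
  rfl

/-- The overlaps of a type vanish off its support. -/
theorem gov_supp (hτ : 0 ≤ τ) (A : Coeffs d nA) (a : Atoms ν (cutSet B d N) εa) (hL : 0 < L)
    (σ σ' : Fin (penPrior (γ := γ) hτ A a hL J).c) (t : Finset (Fin d)) (k l : Fin d)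
    (h : ¬(Occupied γ t ∧ k ∈ t ∧ l ∈ t)) :
    gov (penX (γ := γ) hτ A a hL J t) σ σ' k l = 0 := by
  rw [show gov (penX (γ := γ) hτ A a hL J t) σ σ' k l
    = gov (fun s => typX τ γ t (penAtom hτ A a hL J s)) σ σ' k l from rfl, gov_typX,
    Finset.sum_eq_zero fun j hj => ?_, zero_div]
  have hj' : typ γ j = t := (Finset.mem_filter.1 hj).2
  have hz : ∀ i, i ∉ t → ∀ ω : Fin d → Fin N → ℝ, cfgOf τ γ ω j i = 0 := fun i hi ω =>
    if_neg fun hlt => hi (hj' ▸ Finset.mem_filter.2 ⟨Finset.mem_univ _, hlt⟩)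
  by_cases hk : k ∈ t
  swap
  · rw [hz k hk, zero_mul]
  by_cases hl : l ∈ t
  swap
  · rw [hz l hl, mul_zero]
  rcases typ_nonocc γ j with h0 | h0
  · rw [hj'] at h0
    subst h0
    simp at hk
  · exact absurd ⟨hj' ▸ h0, hk, hl⟩ h

end Types

section Select

variable {γ : Fin d → ℝ} {κ L0 : ℝ}

theorem dTot_psd (hκ : 0 < κ) (hγ : ∀ k, 0 < γ k ∧ γ k ≤ 1) {dd : OIdx d → ℝ}
    (hd : GoodCentre γ κ L0 dd) : (dTot dd).PosSemidef := by
  rw [dTot_eq hγ hd.1]
  refine Matrix.posSemidef_sum _ fun t _ => ?_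
  by_cases ho : Occupied γ t
  · refine (liftM_psd ?_).smul (tfrac_nonneg γ t)
    have h := (typD_posDef hκ hγ hd ho).add
      (Matrix.PosSemidef.one.smul (div_nonneg hκ.le (tfrac_nonneg γ t)))
    rwa [sub_add_cancel] at h
  rcases t.eq_empty_or_nonempty with rfl | hne
  · rw [show liftM (∅ : Finset (Fin d)) (typD γ dd ∅) = 0 by
      ext k l
      rw [liftM_apply]
      exact Finset.sum_eq_zero fun b _ => absurd b.isLt (by simp), smul_zero]
    exact Matrix.PosSemidef.zero
  · rw [tfrac_eq_zero hγ hne ho, zero_smul]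
    exact Matrix.PosSemidef.zero

theorem mabs_dTot_good {dd : OIdx d → ℝ} (hd : GoodCentre γ κ L0 dd) :
    mabs (dTot dd) ≤ (d : ℝ) ^ 2 * ((2 : ℝ) ^ d * |L0|) := by
  refine mabs_entry_bound fun k l => ?_
  rw [dTot, Matrix.of_apply]
  refine ((Finset.abs_sum_le_sum_abs _ _).trans (Finset.sum_le_sum fun t _ =>
    (hd.2.1 (t, k, l)).trans (le_abs_self L0))).trans_eq ?_
  simp

variable {τ B : ℝ}

/-- A finite set of paths with the given top contains a path near the sum of the synchronisation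
paths of the types, with which the old overlaps are synchronised. -/
theorem slot_select (P : VPot d) (hκ : 0 < κ) (hγ : ∀ k, 0 < γ k ∧ γ k ≤ 1) (hτ : 0 ≤ τ) (Bq : ℝ) :
    ∃ C : ℝ, ∀ dd, GoodCentre γ κ L0 dd → ∀ K : ℕ, 0 < K → ∀ ρ > 0, ∀ ec ∈ Set.Icc (0 : ℝ) 1,
      ∃ QS : Finset (ℕ → Matrix (Fin d) (Fin d) ℝ), QS.Nonempty ∧
        (∀ qS ∈ QS, IsPath K qS ∧ qS K = dTot dd + ec • (1 : Matrix (Fin d) (Fin d) ℝ) ∧
          ∀ l, l ≤ K → mabs (qS l) ≤ C) ∧
        ∀ {N M n L J nA : ℕ} {εa : ℝ} {ν : Measure (Fin d → Fin N → ℝ)} (A : Coeffs d nA)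
          (a : Atoms ν (cutSet B d N) εa) (hL : 0 < L),
          0 < n → ∀ (c : VCIdx N M d (nker d nA) (N + L + J) K → ℝ) (Φ0 : VFac N d K)
            (q : Finset (Fin d) → Fin (K + 1) → Matrix (Fin d) (Fin d) ℝ) (δ e εl : ℝ),
          (∀ t, (q t 0).PosSemidef) → (∀ t (l : Fin K), (q t l.succ - q t l.castSucc).PosSemidef) →
          (∀ t l, mabs (q t l) ≤ Bq) →
          (∀ t, reavg (venv N M d (nker d nA) (N + L + J) K n)
            (vposW P (penPrior (γ := γ) hτ A a hL J) Φ0 c) 2 (fun _ x =>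
              mabs (gov (penX hτ A a hL J t) (x 0).1 (x 1).1
                - q t (vlev (penPrior (γ := γ) hτ A a hL J) (x 0) (x 1)))) ≤ δ) →
          (∀ t, (mexp (venv N M d (nker d nA) (N + L + J) K n)
              (vposW P (penPrior (γ := γ) hτ A a hL J) Φ0 c) 1
              (fun _ x => gov (penX hτ A a hL J t) (x 0).1 (x 0).1)
            + δ • (1 : Matrix (Fin d) (Fin d) ℝ) - q t (Fin.last K)).PosSemidef) →
          vmpair n P (penPrior (γ := γ) hτ A a hL J) Φ0 c
            (fun _ st _ => ovlDev τ γ dd (a.x (finProdFinEquiv.symm st.1).1)) ≤ e →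
          (∀ u, |levLaw (venv N M d (nker d nA) (N + L + J) K n)
              (vposW P (penPrior (γ := γ) hτ A a hL J) Φ0 c)
              (vlev (penPrior (γ := γ) hτ A a hL J)) u - pi0 K| ≤ εl) →
          εl ≤ pi0 K → e + (2 : ℝ) ^ d * δ ≤ ec →
          ∃ qS ∈ QS, pi0 K * ∑ u : Fin (K + 1), mabs (qS u.val - ∑ t, q t u) ≤ C * (ρ + pi0 K) ∧
            ∀ {N' : ℕ} (Φ : VFac N' d K), (∀ u k l, rowCum Φ u k l = qS u.val k l) →
              vmpair n P (penPrior (γ := γ) hτ A a hL J) Φ0 c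
                (fun _ => syncF (penPrior (γ := γ) hτ A a hL J) Φ) ≤ C * (ρ + δ + pi0 K) := by
  classical
  set B2 := (2 : ℝ) ^ d * |Bq| + (d : ℝ) ^ 2 * ((2 : ℝ) ^ d * |L0|) + d with hB2
  have hB2n : 0 ≤ B2 := by positivity
  set C1 := (d : ℝ) ^ 2 + 2 * B2 with hC1
  have hC1n : 0 ≤ C1 := by positivity
  set C := B2 + 2 * C1 + (2 : ℝ) ^ d with hC
  refine ⟨C, fun dd hdd K hK ρ hρ ec hec => ?_⟩
  have h2d : (0 : ℝ) ≤ 2 ^ d := by positivity
  have hπ : 0 < pi0 K := by rw [pi0]; positivity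
  have hπK : pi0 K * ((K : ℝ) + 1) = 1 := by rw [pi0]; field_simp
  set top := dTot dd + ec • (1 : Matrix (Fin d) (Fin d) ℝ) with htop
  have htop_psd : top.PosSemidef := (dTot_psd hκ hγ hdd).add (Matrix.PosSemidef.one.smul hec.1)
  have htop_bd : mabs top ≤ B2 := by
    have h1 : mabs (ec • (1 : Matrix (Fin d) (Fin d) ℝ)) ≤ d := by
      rw [mabs_smul, abs_of_nonneg hec.1]
      refine (mul_le_of_le_one_left (mabs_nonneg _) hec.2).trans (le_of_eq ?_)
      simp [mabs, Matrix.one_apply, apply_ite]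
    have := mul_nonneg h2d (abs_nonneg Bq)
    linarith [mabs_add (dTot dd) (ec • (1 : Matrix (Fin d) (Fin d) ℝ)), mabs_dTot_good hdd]
  set S : Set (Fin (K + 1) → Fin d → Fin d → ℝ) := {x |
    IsPath K (extPath fun u => Matrix.of (x u)) ∧ Matrix.of (x (Fin.last K)) = top ∧
      ∀ u, mabs (Matrix.of (x u)) ≤ B2}
  have hS : TotallyBounded S := by
    refine (isCompact_closedBall (0 : Fin (K + 1) → Fin d → Fin d → ℝ) B2).totallyBounded.subset
      fun x hx => ?_
    rw [Metric.mem_closedBall, dist_zero_right, pi_norm_le_iff_of_nonneg hB2n]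
    refine fun u => (pi_norm_le_iff_of_nonneg hB2n).2 fun k =>
      (pi_norm_le_iff_of_nonneg hB2n).2 fun l => ?_
    exact (abs_le_mabs (Matrix.of (x u)) k l).trans (hx.2.2 u)
  obtain ⟨T, hTS, hTf, hTc⟩ := Metric.finite_approx_of_totallyBounded hS ρ hρ
  set toP : (Fin (K + 1) → Fin d → Fin d → ℝ) → ℕ → Matrix (Fin d) (Fin d) ℝ :=
    fun x => extPath fun u => Matrix.of (x u)
  have hmem : ∀ x ∈ S, ∃ y ∈ T, pi0 K * ∑ u : Fin (K + 1),
      mabs (Matrix.of (y u) - Matrix.of (x u)) ≤ (d : ℝ) ^ 2 * ρ := fun x hx => by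
    obtain ⟨y, hyT, hxy⟩ := Set.mem_iUnion₂.1 (hTc hx)
    refine ⟨y, hyT, ?_⟩
    have h : ∀ u, mabs (Matrix.of (y u) - Matrix.of (x u)) ≤ (d : ℝ) ^ 2 * ρ := fun u =>
      mabs_entry_bound fun k l => by
        have h1 := (dist_le_pi_dist (y u k) (x u k) l).trans ((dist_le_pi_dist (y u) (x u) k).trans
          (dist_le_pi_dist y x u))
        rw [Real.dist_eq] at h1
        exact h1.trans ((dist_comm y x).trans_le (Metric.mem_ball.1 hxy).le)
    refine (mul_le_mul_of_nonneg_left (Finset.sum_le_sum fun u _ => h u) hπ.le).trans_eq ?_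
    rw [Finset.sum_const, Finset.card_univ, Fintype.card_fin, nsmul_eq_mul, ← mul_assoc]
    push_cast
    rw [hπK, one_mul]
  have hne : (fun _ => fun k l => top k l) ∈ S := by
    refine ⟨isPath_extPath (x := fun _ => top) htop_psd fun l => ?_, rfl, fun _ => htop_bd⟩
    rw [sub_self]
    exact Matrix.PosSemidef.zero
  refine ⟨hTf.toFinset.image toP, ?_, fun qS hqS => ?_, ?_⟩
  · obtain ⟨y, hy, -⟩ := hmem _ hne
    exact ⟨toP y, Finset.mem_image_of_mem _ (hTf.mem_toFinset.2 hy)⟩
  · obtain ⟨y, hy, rfl⟩ := Finset.mem_image.1 hqS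
    obtain ⟨h1, h2, h3⟩ := hTS (hTf.mem_toFinset.1 hy)
    refine ⟨h1, (extPath_val (fun u => Matrix.of (y u)) (Fin.last K)).trans h2, fun l _ => ?_⟩
    exact (h3 _).trans (by rw [hC]; linarith)
  intro N M n L J nA εa ν A a hL hn c Φ0 q δ e εl hq0 hqs hqb hsync hmexp hdev hlaw hεl hece
  set π := penPrior (γ := γ) hτ A a hL J
  set μ := venv N M d (nker d nA) (N + L + J) K n
  set w := vposW P π Φ0 c
  have := vstate_nonempty (K := K) π hn
  have hm : ∀ x, Measurable fun ω => w ω x := measurable_vposW (n := n) P π Φ0 c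
  have hp : ∀ ω x, 0 < w ω x := vposW_pos (n := n) P π Φ0 c
  set tot : Fin (K + 1) → Matrix (Fin d) (Fin d) ℝ := fun u => ∑ t, q t u with htot
  have htot_bd : ∀ u, mabs (tot u) ≤ B2 := fun u => by
    refine (mabs_sum _ _).trans ((Finset.sum_le_sum fun t _ =>
      (hqb t u).trans (le_abs_self Bq)).trans ?_)
    simp only [Finset.sum_const, Finset.card_univ, Fintype.card_finset, Fintype.card_fin,
      nsmul_eq_mul, hB2]
    push_cast
    have : 0 ≤ (d : ℝ) ^ 2 * ((2 : ℝ) ^ d * |L0|) + d := by positivity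
    linarith
  -- the mean self-overlap is close to the centre
  set R := fun (s : Fin π.c) (s' : Fin π.c) => (Matrix.of fun k l => oldOv π k l s s')
  set E := ∑ t, mexp μ w 1 fun _ x => gov (penX hτ A a hL J t) (x 0).1 (x 0).1 with hE
  have hRb : ∀ {r : ℕ} (F : (Fin r → VState π K n) → Matrix (Fin d) (Fin d) ℝ) (x),
      mabs (F x) ≤ ∑ x, mabs (F x) := fun F x =>
    Finset.single_le_sum (f := fun x => mabs (F x)) (fun _ _ => mabs_nonneg _) (Finset.mem_univ x)
  have hEeq : E = mexp μ w 1 fun _ x => R (x 0).1 (x 0).1 := by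
    rw [hE, ← mexp_sum hm hp Finset.univ fun t _ => mtest_const
      (hRb fun x => gov (penX hτ A a hL J t) (x 0).1 (x 0).1)]
    congr 1
    funext _ x
    ext k l
    rw [Matrix.sum_apply]
    exact sum_gov_types hτ A a hL (x 0).1 (x 0).1 k l
  have hEdev : mabs (E - dTot dd) ≤ e := by
    have hD : mexp μ w 1 (fun _ (_ : Fin 1 → VState π K n) => dTot dd) = dTot dd := by
      ext k l
      simp only [mexp, Matrix.of_apply]
      simp [reavg, avg_const' (hp _)]
    rw [hEeq, ← hD]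
    refine (mexp_close hm hp (mtest_const (hRb fun x => R (x 0).1 (x 0).1))
      (mtest_const (hRb fun _ => dTot dd))
      (e := fun _ x => ovlDev τ γ dd (a.x (finProdFinEquiv.symm (x 0).1).1))
      (bTest_const (B := ∑ x : Fin 1 → VState π K n,
          |ovlDev τ γ dd (a.x (finProdFinEquiv.symm (x 0).1).1)|) _ fun x =>
        Finset.single_le_sum
          (f := fun x : Fin 1 → VState π K n =>
            |ovlDev τ γ dd (a.x (finProdFinEquiv.symm (x 0).1).1)|)
          (fun _ _ => abs_nonneg _) (Finset.mem_univ x))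
      fun _ x => sum_oldOv_sub_le hτ A a hL dd (x 0).1).trans ?_
    rw [← reavg_snoc hm hp]
    rw [vmpair_eq_reavg] at hdev
    exact hdev
  have hEsym : E.IsHermitian := by
    refine Matrix.IsHermitian.ext fun k l => ?_
    rw [star_trivial, hEeq]
    simp only [mexp, Matrix.of_apply, R, oldOv]
    congr 1
    funext _ x
    exact congrArg (· / (N : ℝ)) (Finset.sum_congr rfl fun j _ => mul_comm _ _)
  have hdsym : (dTot dd).IsHermitian := (dTot_psd hκ hγ hdd).isHermitian
  have htopq : (top - tot (Fin.last K)).PosSemidef := by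
    have h1 := Formula.sub_smul_one_psd (hdsym.sub hEsym) (c := e) (by rwa [mabs_sub_comm])
    have h2 : (E + ((2 : ℝ) ^ d * δ) • (1 : Matrix (Fin d) (Fin d) ℝ)
        - tot (Fin.last K)).PosSemidef := by
      have h := Matrix.posSemidef_sum Finset.univ fun t _ => hmexp t
      rw [Finset.sum_sub_distrib, Finset.sum_add_distrib, Finset.sum_const, Finset.card_univ,
        Fintype.card_finset, Fintype.card_fin, ← Nat.cast_smul_eq_nsmul ℝ, smul_smul] at h
      push_cast at h
      exact h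
    have h3 := (h1.add h2).add (Matrix.PosSemidef.one.smul
      (show 0 ≤ ec - (e + (2 : ℝ) ^ d * δ) by linarith))
    convert h3 using 1
    simp only [htop, sub_smul, add_smul]
    abel
  set x : Fin (K + 1) → Fin d → Fin d → ℝ := fun u k l =>
    if u = Fin.last K then top k l else tot u k l with hx
  have hxval : ∀ u, Matrix.of (x u) = if u = Fin.last K then top else tot u := fun u => by
    ext k l
    simp only [hx, Matrix.of_apply]
    split_ifs <;> rfl
  have hxS : x ∈ S := by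
    refine ⟨isPath_extPath ?_ fun l => ?_, by rw [hxval, if_pos rfl], fun u => ?_⟩
    · rw [hxval, if_neg fun h => by simp [Fin.ext_iff] at h; omega]
      exact Matrix.posSemidef_sum _ fun t _ => hq0 t
    · simp only [hxval, Fin.castSucc_ne_last, if_false]
      have hd : (tot l.succ - tot l.castSucc).PosSemidef := by
        rw [htot, ← Finset.sum_sub_distrib]
        exact Matrix.posSemidef_sum _ fun t _ => hqs t l
      split_ifs with h
      · have := htopq.add hd
        rw [h] at this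
        rwa [sub_add_sub_cancel] at this
      · exact hd
    · rw [hxval]
      split_ifs
      · exact htop_bd
      · exact htot_bd u
  obtain ⟨y, hyT, hy⟩ := hmem x hxS
  refine ⟨toP y, Finset.mem_image_of_mem _ (hTf.mem_toFinset.2 hyT), ?_⟩
  have hyv : ∀ u : Fin (K + 1), toP y u.val = Matrix.of (y u) := fun u =>
    extPath_val (fun u => Matrix.of (y u)) u
  have hlast : ∑ u, mabs (Matrix.of (x u) - tot u) ≤ 2 * B2 := by
    rw [Finset.sum_eq_single (Fin.last K)]
    · rw [hxval, if_pos rfl]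
      exact (mabs_sub _ _).trans (by linarith [htot_bd (Fin.last K)])
    · intro u _ hu
      rw [hxval, if_neg hu, sub_self, mabs_zero]
    · simp
  have hclose : pi0 K * ∑ u : Fin (K + 1), mabs (toP y u.val - tot u) ≤ C1 * (ρ + pi0 K) := by
    refine (mul_le_mul_of_nonneg_left (Finset.sum_le_sum (g := fun u =>
      mabs (Matrix.of (y u) - Matrix.of (x u)) + mabs (Matrix.of (x u) - tot u)) fun u _ => ?_)
      hπ.le).trans ?_
    · rw [hyv, ← sub_add_sub_cancel (Matrix.of (y u)) (Matrix.of (x u)) (tot u)]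
      exact mabs_add _ _
    · rw [Finset.sum_add_distrib, mul_add, hC1]
      have := mul_le_mul_of_nonneg_left hlast hπ.le
      have : 0 ≤ 2 * B2 * ρ := by positivity
      have : 0 ≤ (d : ℝ) ^ 2 * pi0 K := by positivity
      linarith
  have hCC : C1 * (ρ + pi0 K) ≤ C * (ρ + pi0 K) :=
    mul_le_mul_of_nonneg_right (by rw [hC]; linarith) (by positivity)
  refine ⟨hclose.trans hCC, fun {N'} Φ hΦ => ?_⟩
  rw [vmpair_eq_reavg]
  set g : Fin (K + 1) → ℝ := fun u => mabs (toP y u.val - tot u)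
  have hδ : ∀ t, 0 ≤ δ := fun t => le_trans (le_of_eq (by simp [reavg, avg_const' (vposW_pos (n := n) P π Φ0 c _)]))
    ((reavg_le_of_le P π Φ0 c hn (f := fun _ => (0 : ℝ)) fun _ => mabs_nonneg _).trans (hsync t))
  refine (reavg_le_of_le P π Φ0 c hn (g := fun x : Fin 2 → VState π K n =>
    (∑ t, mabs (gov (penX hτ A a hL J t) (x 0).1 (x 1).1 - q t (vlev π (x 0) (x 1))))
      + g (vlev π (x 0) (x 1))) fun x => ?_).trans ?_
  · refine le_trans (le_of_eq ?_) ((mabs_sub (∑ t, (gov (penX hτ A a hL J t) (x 0).1 (x 1).1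
      - q t (vlev π (x 0) (x 1)))) (toP y (vlev π (x 0) (x 1)).val - tot (vlev π (x 0) (x 1)))).trans
      (add_le_add (mabs_sum _ _) le_rfl))
    simp only [syncF, mabs, Matrix.sub_apply, Matrix.sum_apply, Finset.sum_sub_distrib, htot,
      sub_sub_sub_cancel_right, sum_gov_types, hΦ]
    rfl
  rw [reavg_add_le P π Φ0 c hn (fun x => ∑ t, mabs (gov (penX hτ A a hL J t) (x 0).1 (x 1).1
    - q t (vlev π (x 0) (x 1)))) (fun x => g (vlev π (x 0) (x 1))), reavg_lev P π Φ0 c hn]
  have h1 : reavg μ w 2 (fun _ x => ∑ t, mabs (gov (penX hτ A a hL J t) (x 0).1 (x 1).1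
      - q t (vlev π (x 0) (x 1)))) ≤ (2 : ℝ) ^ d * δ := by
    rw [reavg_sum hm hp _ fun t _ => bTest_const (B := ∑ x : Fin 2 → VState π K n,
      |mabs (gov (penX hτ A a hL J t) (x 0).1 (x 1).1 - q t (vlev π (x 0) (x 1)))|) _ fun x =>
      Finset.single_le_sum (f := fun x : Fin 2 → VState π K n =>
        |mabs (gov (penX hτ A a hL J t) (x 0).1 (x 1).1 - q t (vlev π (x 0) (x 1)))|)
        (fun _ _ => abs_nonneg _) (Finset.mem_univ x)]
    refine (Finset.sum_le_sum fun t _ => hsync t).trans_eq ?_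
    simp
  have h2 : ∑ u, g u * levLaw μ w (vlev π) u ≤ 2 * (C1 * (ρ + pi0 K)) := by
    refine le_trans (Finset.sum_le_sum (g := fun u => g u * (2 * pi0 K)) fun u _ =>
      mul_le_mul_of_nonneg_left (by linarith [(abs_le.1 (hlaw u)).2]) (mabs_nonneg _)) ?_
    rw [← Finset.sum_mul]
    linarith [mul_le_mul_of_nonneg_left hclose zero_le_two]
  refine (add_le_add h1 h2).trans ?_
  have := hδ ∅
  rw [hC]
  have : 0 ≤ B2 * (ρ + δ + pi0 K) := by positivity
  have : 0 ≤ (2 : ℝ) ^ d * (ρ + pi0 K) := by positivity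
  have : 0 ≤ 2 * C1 * δ := by positivity
  linarith

/-- The sum of the synchronisation paths is near the total path of nearby responses. -/
theorem rawTot_close (P : VPot d) (hγ : ∀ k, 0 < γ k ∧ γ k ≤ 1) (hτ : 0 ≤ τ) (Bq : ℝ) :
    ∃ C : ℝ, ∀ {N M n L J nA K : ℕ} {εa : ℝ} {ν : Measure (Fin d → Fin N → ℝ)} (A : Coeffs d nA)
      (a : Atoms ν (cutSet B d N) εa) (hL : 0 < L),
      0 < n → 0 < N → ∀ (c : VCIdx N M d (nker d nA) (N + L + J) K → ℝ) (Φ0 : VFac N d K)
        (q : Finset (Fin d) → Fin (K + 1) → Matrix (Fin d) (Fin d) ℝ) (q' : TPath d)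
        (sN : Finset (Fin d) → ℝ) (δ η εl : ℝ),
      0 ≤ δ → 0 ≤ η →
      (∀ t l, mabs (q t l) ≤ Bq) →
      (∀ t, reavg (venv N M d (nker d nA) (N + L + J) K n)
        (vposW P (penPrior (γ := γ) hτ A a hL J) Φ0 c) 2 (fun _ x =>
          mabs (gov (penX hτ A a hL J t) (x 0).1 (x 1).1
            - q t (vlev (penPrior (γ := γ) hτ A a hL J) (x 0) (x 1)))) ≤ δ) →
      (∀ u, |levLaw (venv N M d (nker d nA) (N + L + J) K n)
          (vposW P (penPrior (γ := γ) hτ A a hL J) Φ0 c)
          (vlev (penPrior (γ := γ) hτ A a hL J)) u - pi0 K| ≤ εl) →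
      εl ≤ pi0 K / 2 →
      (∀ t, Occupied γ t → |sN t - tfrac γ t| ≤ 2 / N ∧ tfrac γ t / 2 ≤ sN t ∧
        lmean (gridM K) K
          (fun l => q' t l - extPath (fun u => (sN t)⁻¹ • subM t (q t u)) l) ≤ η) →
      pi0 K * ∑ u : Fin (K + 1), mabs ((∑ t, q t u) - qTot γ q' u.val)
        ≤ C * (δ + η + 1 / N) := by
  classical
  refine ⟨(d : ℝ) ^ 2 * ∑ t : Finset (Fin d), (2 + 1 + 4 * |Bq| / tfrac γ t),
    fun {N M n L J nA K εa ν} A a hL hn hN c Φ0 q q' sN δ η εl hδ hη hqb hsync hlaw hεl hocc => ?_⟩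
  set π := penPrior (γ := γ) hτ A a hL J
  set μ := venv N M d (nker d nA) (N + L + J) K n
  set w := vposW P π Φ0 c
  have hπ : 0 < pi0 K := by rw [pi0]; positivity
  have hN' : (0 : ℝ) < N := Nat.cast_pos.2 hN
  have hπK : pi0 K * ((K : ℝ) + 1) = 1 := by rw [pi0]; field_simp
  have hC : ∀ t, 0 ≤ 4 * |Bq| / tfrac γ t := fun t =>
    div_nonneg (by positivity) (tfrac_nonneg γ t)
  have hoff : ∀ t k l, ¬(Occupied γ t ∧ k ∈ t ∧ l ∈ t) →
      pi0 K * ∑ u : Fin (K + 1), |q t u k l| ≤ 2 * δ := fun t k l h => by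
    have h1 := ((reavg_le_of_le P π Φ0 c hn
      (f := fun x : Fin 2 → VState π K n => |q t (vlev π (x 0) (x 1)) k l|)
      (g := fun x => mabs (gov (penX hτ A a hL J t) (x 0).1 (x 1).1
        - q t (vlev π (x 0) (x 1)))) fun x => ?_).trans (hsync t))
    · rw [reavg_lev P π Φ0 c hn fun u => |q t u k l|] at h1
      have h2 : ∑ u, |q t u k l| * (pi0 K / 2) ≤ δ :=
        (Finset.sum_le_sum fun u _ => mul_le_mul_of_nonneg_left
          (by linarith [(abs_le.1 (hlaw u)).1]) (abs_nonneg _)).trans h1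
      rw [← Finset.sum_mul] at h2
      linarith
    · refine le_trans (le_of_eq ?_) (abs_le_mabs _ k l)
      rw [Matrix.sub_apply, gov_supp hτ A a hL _ _ t k l h, zero_sub, abs_neg]
  have key : ∀ t k l, pi0 K * ∑ u : Fin (K + 1),
      |q t u k l - tfrac γ t * Formula.liftM t (q' t u.val) k l|
      ≤ (2 + 1 + 4 * |Bq| / tfrac γ t) * (δ + η + 1 / N) := fun t k l => by
    have hbig : 2 * δ + η + 4 * |Bq| / tfrac γ t * (1 / N)
        ≤ (2 + 1 + 4 * |Bq| / tfrac γ t) * (δ + η + 1 / N) := by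
      have := mul_nonneg (hC t) (add_nonneg hδ hη)
      have : (0 : ℝ) ≤ 1 / N := by positivity
      linarith
    refine le_trans ?_ hbig
    have h0 : 0 ≤ 4 * |Bq| / tfrac γ t * (1 / N) := mul_nonneg (hC t) (by positivity)
    by_cases h : Occupied γ t ∧ k ∈ t ∧ l ∈ t
    swap
    · have hz : ∀ u : Fin (K + 1), tfrac γ t * Formula.liftM t (q' t u.val) k l = 0 := fun u => by
        by_cases hkl : k ∈ t ∧ l ∈ t
        · rw [tfrac_eq_zero hγ ⟨k, hkl.1⟩ fun ho => h ⟨ho, hkl⟩, zero_mul]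
        · refine mul_eq_zero_of_right _ ?_
          rw [liftM_apply]
          exact Finset.sum_eq_zero fun b _ => Finset.sum_eq_zero fun b' _ =>
            if_neg fun h' : comp t b = k ∧ comp t b' = l => hkl ⟨h'.1 ▸ comp_mem t b, h'.2 ▸ comp_mem t b'⟩
      simp only [hz, sub_zero]
      linarith [hoff t k l h]
    obtain ⟨ho, hk, hl⟩ := h
    obtain ⟨hs1, hs2, hs3⟩ := hocc t ho
    obtain ⟨b, rfl⟩ := exists_comp hk
    obtain ⟨b', rfl⟩ := exists_comp hl
    have ha := tfrac_pos hγ ho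
    have hsp : 0 < sN t := by linarith
    have hu : ∀ u : Fin (K + 1),
        |q t u (comp t b) (comp t b') - tfrac γ t * Formula.liftM t (q' t u.val) (comp t b) (comp t b')|
        ≤ mabs (q' t u.val - extPath (fun u => (sN t)⁻¹ • subM t (q t u)) u.val)
          + 4 * |Bq| / tfrac γ t * (1 / N) := fun u => by
      rw [liftM_apply_comp, extPath_val]
      set X := q t u (comp t b) (comp t b')
      set Y := q' t u.val b b'
      have h1 : |Y - (sN t)⁻¹ * X| ≤ mabs (q' t u.val - (sN t)⁻¹ • subM t (q t u)) :=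
        le_trans (le_of_eq (by simp [subM, Y, X])) (abs_le_mabs _ b b')
      have h2 : |X * (1 - tfrac γ t / sN t)| ≤ 4 * |Bq| / tfrac γ t * (1 / N) := by
        rw [abs_mul, one_sub_div hsp.ne', abs_div, abs_of_pos hsp]
        have hx : |X| ≤ |Bq| := (abs_le_mabs _ _ _).trans ((hqb t u).trans (le_abs_self Bq))
        refine (mul_le_mul hx (div_le_div₀ (by positivity) hs1 (half_pos ha) hs2)
          (by positivity) (abs_nonneg _)).trans_eq ?_
        field_simp
        ring
      rw [show X - tfrac γ t * Y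
        = -(tfrac γ t * (Y - (sN t)⁻¹ * X)) + X * (1 - tfrac γ t / sN t) by field_simp; ring]
      refine (abs_add_le _ _).trans (add_le_add ?_ h2)
      rw [abs_neg, abs_mul, abs_of_pos ha]
      exact (mul_le_of_le_one_left (abs_nonneg _) (tfrac_le_one γ t)).trans h1
    refine (mul_le_mul_of_nonneg_left (Finset.sum_le_sum fun u _ => hu u) hπ.le).trans ?_
    rw [Finset.sum_add_distrib, mul_add, Finset.sum_const, Finset.card_univ, Fintype.card_fin,
      nsmul_eq_mul, ← mul_assoc (pi0 K)]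
    push_cast
    rw [hπK, one_mul]
    simp only [lmean, dmAt_gridM, ← Finset.mul_sum] at hs3
    rw [← Fin.sum_univ_eq_sum_range
      (fun l => mabs (q' t l - extPath (fun u => (sN t)⁻¹ • subM t (q t u)) l)) (K + 1)] at hs3
    linarith
  have hentry : ∀ (u : Fin (K + 1)) k l, |((∑ t, q t u) - qTot γ q' u.val) k l|
      ≤ ∑ t, |q t u k l - tfrac γ t * Formula.liftM t (q' t u.val) k l| := fun u k l => by
    rw [qTot, ← Finset.sum_sub_distrib, Matrix.sum_apply]
    exact (Finset.abs_sum_le_sum_abs _ _).trans_eq (Finset.sum_congr rfl fun t _ => by simp)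
  calc pi0 K * ∑ u : Fin (K + 1), mabs ((∑ t, q t u) - qTot γ q' u.val)
      ≤ pi0 K * ∑ u : Fin (K + 1), ∑ k, ∑ l, ∑ t,
          |q t u k l - tfrac γ t * Formula.liftM t (q' t u.val) k l| :=
        mul_le_mul_of_nonneg_left (Finset.sum_le_sum fun u _ => Finset.sum_le_sum fun k _ =>
          Finset.sum_le_sum fun l _ => hentry u k l) hπ.le
    _ = ∑ k, ∑ l, ∑ t, pi0 K * ∑ u : Fin (K + 1),
          |q t u k l - tfrac γ t * Formula.liftM t (q' t u.val) k l| := by
        simp only [Finset.mul_sum]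
        rw [Finset.sum_comm]
        refine Finset.sum_congr rfl fun k _ => ?_
        rw [Finset.sum_comm]
        exact Finset.sum_congr rfl fun l _ => Finset.sum_comm
    _ ≤ ∑ _k : Fin d, ∑ _l : Fin d, ∑ t : Finset (Fin d),
          (2 + 1 + 4 * |Bq| / tfrac γ t) * (δ + η + 1 / N) :=
        Finset.sum_le_sum fun k _ => Finset.sum_le_sum fun l _ => Finset.sum_le_sum fun t _ =>
          key t k l
    _ = _ := by
        simp only [Finset.sum_const, Finset.card_univ, Fintype.card_fin, nsmul_eq_mul,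
          ← Finset.sum_mul]
        ring

end Select

end Vale.Agent.P166.Casc
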