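import Vale.Agent.P166.Casc.VStepSelect
import Vale.Agent.P166.Casc.VStepSlot

/-!
From the synchronisation paths of the types, and responses of the types near them, to an index of a
step: a slot of the rows and paths of the types with small errors.
-/

open MeasureTheory ProbabilityTheory Filter Topology
open Matrix hiding comp
open scoped MatrixOrder

namespace Vale.Agent.P166.Casc

open Vale.Agent.P157.Casc Vale.Agent.P166.Formula Vale.Agent.P166.Pen

variable {d : ℕ} {γ : Fin d → ℝ} {κ L0 τ B : ℝ}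

/-- For large trees, synchronised paths of the types with responses near their means of the rows
give an index of a finite set with small errors. -/
theorem step_choose (P : VPot d) (hκ : 0 < κ) (hγ : ∀ k, 0 < γ k ∧ γ k ≤ 1) (hτ : 0 ≤ τ)
    (hB : 0 ≤ B) (Bq : ℝ) :
    ∃ Cs : ℝ, 0 ≤ Cs ∧ ∀ dd, GoodCentre γ κ L0 dd → ∀ K : ℕ, 0 < K → ∀ ρ > 0,
      ∀ ec ∈ Set.Icc (0 : ℝ) 1, ∃ QS : Finset (ℕ → Matrix (Fin d) (Fin d) ℝ), QS.Nonempty ∧
        (∀ qS ∈ QS, IsPath K qS ∧ qS K = dTot dd + ec • (1 : Matrix (Fin d) (Fin d) ℝ) ∧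
          ∀ l, l ≤ K → mabs (qS l) ≤ Cs) ∧
        ∀ {N M L J : ℕ} {εa : ℝ} {ν : Measure (Fin d → Fin N → ℝ)}
          (a : Atoms ν (cutSet B d N) εa) (hL : 0 < L) (Jp : ℕ)
          (x : Fin (nker d (d * d)) → ℕ → ℝ)
          (Q : (t : Finset (Fin d)) → Finset (ℕ → Matrix (Fin t.card) (Fin t.card) ℝ)),
          0 < N → (∀ t, (Q t).Nonempty) → ∀ η θ εl ee ηr : ℝ, 0 ≤ η → 0 ≤ θ → 0 < ηr →
          εl ≤ pi0 K / 2 → ee + (2 : ℝ) ^ d * θ ≤ ec →
          ∀ᶠ n in atTop,
            (∀ t : Finset (Fin d), ∃ q : Fin (K + 1) → Matrix (Fin d) (Fin d) ℝ,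
              (q 0).PosSemidef ∧ (∀ l : Fin K, (q l.succ - q l.castSucc).PosSemidef) ∧
              (∀ l, mabs (q l) ≤ Bq) ∧
              reavg (venv N M d (nker d (d * d)) (N + L + J) K n)
                (vposW P (penPrior (γ := γ) hτ (basicCoeffs d) a hL J) (noFac N d K)
                  (oldC (M := M) Jp x)) 2 (fun _ z =>
                mabs (gov (penX hτ (basicCoeffs d) a hL J t) (z 0).1 (z 1).1
                  - q (vlev (penPrior (γ := γ) hτ (basicCoeffs d) a hL J) (z 0) (z 1)))) ≤ θ ∧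
              (mexp (venv N M d (nker d (d * d)) (N + L + J) K n)
                  (vposW P (penPrior (γ := γ) hτ (basicCoeffs d) a hL J) (noFac N d K)
                    (oldC (M := M) Jp x)) 1
                  (fun _ z => gov (penX hτ (basicCoeffs d) a hL J t) (z 0).1 (z 0).1)
                + θ • (1 : Matrix (Fin d) (Fin d) ℝ) - q (Fin.last K)).PosSemidef ∧
              (Occupied γ t → ∃ q' ∈ Q t, ∃ sN : ℝ, |sN - tfrac γ t| ≤ 2 / (N : ℝ) ∧
                tfrac γ t / 2 ≤ sN ∧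
                lmean (gridM K) K
                  (fun l => q' l - extPath (fun u => sN⁻¹ • subM t (q u)) l) ≤ η ∧
                lmean (gridM K) K (fun l => extPath (fun u : Fin (K + 1) =>
                    subM t ((pi0 K)⁻¹ • Matrix.of (rowMean n P
                      (penPrior (γ := γ) hτ (basicCoeffs d) a hL J) (noFac N d K)
                      (oldC (M := M) Jp x) u))) l
                  - bestPath (gridM K) K (typD γ dd t) q' l) ≤ η)) →
            vmpair n P (penPrior (γ := γ) hτ (basicCoeffs d) a hL J) (noFac N d K)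
              (oldC (M := M) Jp x)
              (fun _ st _ => ovlDev τ γ dd (a.x (finProdFinEquiv.symm st.1).1)) ≤ ee →
            (∀ u, |levLaw (venv N M d (nker d (d * d)) (N + L + J) K n)
                (vposW P (penPrior (γ := γ) hτ (basicCoeffs d) a hL J) (noFac N d K)
                  (oldC (M := M) Jp x))
                (vlev (penPrior (γ := γ) hτ (basicCoeffs d) a hL J)) u - pi0 K| ≤ εl) →
            ∀ (rA : ℝ) {m : ℕ} (e : Fin N ⊕ Fin m ≃ Fin (N + m)) (T : Fin m → Finset (Fin d)),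
              ∃ i ∈ QS ×ˢ Fintype.piFinset Q,
                rowGap γ K i ≤ Cs * (ρ + pi0 K) + Cs * (θ + η + 1 / (N : ℝ)) ∧
                RespGap P γ dd rA K
                  (η + ((M : ℝ) / N * ((d : ℝ) ^ 2 * (decK P (τ * B + Cs)
                      * (Cs * (ρ + θ + pi0 K) + (ee + d * ec)))) + ηr)
                    + |rA - (M : ℝ) / N| * ((d : ℝ) ^ 2 * (3 * rowB P ^ 2))) i ∧
                vmpair n P (penPrior (γ := γ) hτ (basicCoeffs d) a hL J) (noFac N d K)
                    (oldC (M := M) Jp x)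
                    (fun _ => syncF (penPrior (γ := γ) hτ (basicCoeffs d) a hL J)
                      (stepFac (K := K) e T i.1 (respP γ dd K i.2)))
                  ≤ Cs * (ρ + θ + pi0 K) := by
  classical
  obtain ⟨C1, h1⟩ := slot_select (L0 := L0) (B := B) P hκ hγ hτ Bq
  obtain ⟨C2, h2⟩ := rawTot_close (B := B) P hγ hτ Bq
  set Cs := max 0 (max C1 C2)
  have hC1 : C1 ≤ Cs := (le_max_left _ _).trans (le_max_right _ _)
  have hC2 : C2 ≤ Cs := (le_max_right _ _).trans (le_max_right _ _)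
  have hC0 : (0 : ℝ) ≤ Cs := le_max_left _ _
  refine ⟨Cs, hC0, fun dd hdd K hK ρ hρ ec hec => ?_⟩
  obtain ⟨QS, hne, hQS, hsel⟩ := h1 dd hdd K hK ρ hρ ec hec
  refine ⟨QS, hne, fun qS h => ⟨(hQS qS h).1, (hQS qS h).2.1,
    fun l hl => ((hQS qS h).2.2 l hl).trans hC1⟩, ?_⟩
  intro N M L J εa ν a hL Jp x Q hN hQ η θ εl ee ηr hη hθ hηr hεl hec'
  have hπ : 0 < pi0 K := by rw [pi0]; positivity
  set π := penPrior (γ := γ) hτ (basicCoeffs d) a hL J
  have hresp := respGap_select (γ := γ) (J := J) P hτ hB (basicCoeffs d) a hL (M := M) (dd := dd)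
    (B1 := τ * B + Cs) hec.1 (le_add_of_nonneg_right hC0) hηr QS
    (fun qS h => ⟨(hQS qS h).1, fun l hl => ((hQS qS h).2.2 l hl).trans
      (hC1.trans (le_add_of_nonneg_left (mul_nonneg hτ hB))), (hQS qS h).2.1⟩) Jp x
  filter_upwards [hresp, eventually_gt_atTop 0] with n hr hn
  intro hq hdev hlaw rA m e T
  choose q hq0 hqstep hqB hsync htop hnet using hq
  have hp : ∀ t, ∃ (q' : ℕ → Matrix (Fin t.card) (Fin t.card) ℝ) (sN : ℝ), q' ∈ Q t ∧
      (Occupied γ t → |sN - tfrac γ t| ≤ 2 / (N : ℝ) ∧ tfrac γ t / 2 ≤ sN ∧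
        lmean (gridM K) K (fun l => q' l - extPath (fun u => sN⁻¹ • subM t (q t u)) l) ≤ η ∧
        lmean (gridM K) K (fun l => extPath (fun u : Fin (K + 1) =>
            subM t ((pi0 K)⁻¹ • Matrix.of (rowMean n P π (noFac N d K) (oldC (M := M) Jp x) u))) l
          - bestPath (gridM K) K (typD γ dd t) q' l) ≤ η) := fun t => by
    by_cases ht : Occupied γ t
    · obtain ⟨q', h', sN, r⟩ := hnet t ht
      exact ⟨q', sN, h', fun _ => r⟩
    · obtain ⟨q', h'⟩ := hQ t
      exact ⟨q', 0, h', fun h => absurd h ht⟩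
  choose q' sN hmem hq' using hp
  obtain ⟨qS, hqS, hgap, hsyncF⟩ := hsel (J := J) (basicCoeffs d) a hL hn (oldC (M := M) Jp x)
    (noFac N d K) q θ ee εl hq0 hqstep hqB hsync htop hdev hlaw (by linarith) hec'
  have hraw := h2 (J := J) (basicCoeffs d) a hL hn hN (oldC (M := M) Jp x) (noFac N d K) q q' sN
    θ η εl hθ hη hqB hsync hlaw hεl
    fun t ht => ⟨(hq' t ht).1, (hq' t ht).2.1, (hq' t ht).2.2.1⟩
  have hσ : vmpair n P π (noFac N d K) (oldC (M := M) Jp x)
      (fun _ => syncF π (oldPhi N K qS)) ≤ Cs * (ρ + θ + pi0 K) :=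
    (hsyncF (oldPhi N K qS) fun u k l => rowCum_oldPhi (hQS qS hqS).1 u k l).trans
      (mul_le_mul_of_nonneg_right hC1 (by positivity))
  refine ⟨(qS, q'), Finset.mem_product.2 ⟨hqS, Fintype.mem_piFinset.2 hmem⟩, ?_, ?_, hσ⟩
  · refine (rowGap_le_raw (fun u => ∑ t, q t u)).trans (add_le_add ?_ ?_)
    · exact hgap.trans (mul_le_mul_of_nonneg_right hC1 (by positivity))
    · exact hraw.trans (mul_le_mul_of_nonneg_right hC2 (by positivity))
  · exact hr qS hqS q' rA (Cs * (ρ + θ + pi0 K)) ee η hσ hdev fun t ht => (hq' t ht).2.2.2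

end Vale.Agent.P166.Casc
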