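import Vale.Agent.P166.Casc.VStepPoint
import Vale.Agent.P166.Casc.Atoms
import Vale.Agent.P166.Formula.PathNet

/-!
The finite nets of paths of a cavity step and, for a finite family of such paths, fine atoms of the
block on which all their responses are worth their spins.
-/

open MeasureTheory ProbabilityTheory Filter Topology
open Matrix hiding comp
open scoped MatrixOrder

namespace Vale.Agent.P166.Casc

open Vale.Agent.P157.Casc Vale.Agent.P166.Pen
open Vale.Agent.P166.Formula (TPath tfrac typD tmat IsPath bestPath bestTilt gridM tLam tT cum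
  lmean resid ent spinVal)

variable {d m K : ℕ} {γ : Fin d → ℝ} {dd : OIdx d → ℝ}

/-- The conditions on a path of one type under which fine atoms of a block are worth its spins. -/
def BlockPath (γ : Fin d → ℝ) (dd : OIdx d → ℝ) (K : ℕ) (c Bp μ : ℝ) (t : Finset (Fin d))
    (q : ℕ → Matrix (Fin t.card) (Fin t.card) ℝ) : Prop :=
  IsPath K (bestPath (gridM K) K (typD γ dd t) q) ∧
    (typD γ dd t).transpose = typD γ dd t ∧
    (∀ l, l ≤ K → tLam (gridM K) K (bestTilt (gridM K) K (typD γ dd t) q)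
        (bestPath (gridM K) K (typD γ dd t) q) l * tT (gridM K) K (typD γ dd t) q l = 1) ∧
    q 0 = tT (gridM K) K (typD γ dd t) q 0 * bestPath (gridM K) K (typD γ dd t) q 0
      * tT (gridM K) K (typD γ dd t) q 0 ∧
    (∀ l, l ≤ K → (tLam (gridM K) K (bestTilt (gridM K) K (typD γ dd t) q)
        (bestPath (gridM K) K (typD γ dd t) q) l
      - c • (1 : Matrix (Fin t.card) (Fin t.card) ℝ)).PosSemidef) ∧
    mabs (bestPath (gridM K) K (typD γ dd t) q K) ≤ Bp ∧
    mabs (bestTilt (gridM K) K (typD γ dd t) q) ≤ Bp ∧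
    (∀ l, l ≤ K → gridM K l < μ → bestPath (gridM K) K (typD γ dd t) q l = 0)

/-- A nonnegative matrix without components. -/
theorem psd_empty {t : Finset (Fin d)} (h : t = ∅) (A : Matrix (Fin t.card) (Fin t.card) ℝ) :
    A.PosSemidef := by
  subst h
  have e : A = 0 := Matrix.ext fun b => absurd b.isLt (by simp)
  rw [e]
  exact Matrix.PosSemidef.zero

theorem typD_transpose {κ L : ℝ} (hd : GoodCentre γ κ L dd) (t : Finset (Fin d)) :
    (typD γ dd t).transpose = typD γ dd t := by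
  ext b b'
  simp only [Matrix.transpose_apply, typD, Matrix.smul_apply, tmat, Matrix.of_apply]
  rw [hd.1.1 t]

/-- The self-overlaps of a type per site are definite with the margin of the centre. -/
theorem typD_margin {κ L : ℝ} (hκ : 0 < κ) (hγ : ∀ k, 0 < γ k ∧ γ k ≤ 1)
    (hd : GoodCentre γ κ L dd) {t : Finset (Fin d)} (ht : t = ∅ ∨ Occupied γ t) :
    (typD γ dd t - κ • (1 : Matrix (Fin t.card) (Fin t.card) ℝ)).PosSemidef := by
  rcases ht with ht | ht
  · exact psd_empty ht _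
  · exact Formula.smul_one_mono (Formula.typD_posDef hκ hγ hd ht)
      (le_div_self hκ.le (Formula.tfrac_pos hγ ht) (Formula.tfrac_le_one γ t))

/-- Finite nets of the paths of all types, with uniform margins and sizes. -/
theorem exists_step_nets {τ κ L : ℝ} (hτ : 0 < τ) (hκ : 0 < κ)
    (hγ : ∀ k, 0 < γ k ∧ γ k ≤ 1) (hd : GoodCentre γ κ L dd) (Bw : ℝ) :
    ∃ c Bp : ℝ, 0 < c ∧ 1 ≤ Bp ∧ (∀ t, t = ∅ ∨ Occupied γ t → mabs (typD γ dd t) ≤ Bp) ∧
      ∀ η > 0, ∃ μ ∈ Set.Ioc (0 : ℝ) 1, ∃ δ0 > 0, ∃ S : ℝ, ∃ K0 : ℕ, ∀ K ≥ K0,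
        ∃ Q : (t : Finset (Fin d)) → Finset (ℕ → Matrix (Fin t.card) (Fin t.card) ℝ),
          (∀ t, (Q t).Nonempty) ∧
          (∀ q : TPath d, (∀ t, t = ∅ ∨ Occupied γ t → q t ∈ Q t) →
            StepPaths γ dd K Bp q ∧
            (∀ t, t = ∅ ∨ Occupied γ t → |ent (gridM K) K τ (typD γ dd t) (q t)| ≤ S) ∧
            ∀ t, t = ∅ ∨ Occupied γ t → BlockPath γ dd K c Bp μ t (q t)) ∧
          ∀ t, Occupied γ t → ∀ Lt w q,
            Lt * typD γ dd t + cum (gridM K) w q (K + 1) = 1 →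
            lmean (gridM K) K (resid (gridM K) K Lt (typD γ dd t) w q) ≤ δ0 →
            (∀ l, l ≤ K → mabs (w l) ≤ Bw) → IsPath K q → (∀ l, l ≤ K → mabs (q l) ≤ Bw) →
            (typD γ dd t - q K + δ0 • (1 : Matrix (Fin t.card) (Fin t.card) ℝ)).PosSemidef →
            ∃ q' ∈ Q t, lmean (gridM K) K (fun l => q' l - q l) ≤ η ∧
              lmean (gridM K) K
                (fun l => w l - bestPath (gridM K) K (typD γ dd t) q' l) ≤ η := by
  classical
  set B := 1 + |Bw| + ∑ t : Finset (Fin d), mabs (typD γ dd t)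
  have hsum : 0 ≤ ∑ t : Finset (Fin d), mabs (typD γ dd t) :=
    Finset.sum_nonneg fun t _ => mabs_nonneg _
  have hB : 1 ≤ B := by linarith [abs_nonneg Bw]
  have hBw : Bw ≤ B := by linarith [le_abs_self Bw]
  have hBD : ∀ t : Finset (Fin d), mabs (typD γ dd t) ≤ B := fun t => by
    have := Finset.single_le_sum (f := fun t : Finset (Fin d) => mabs (typD γ dd t))
      (fun t _ => mabs_nonneg _) (Finset.mem_univ t)
    linarith [abs_nonneg Bw]
  choose c0 Bp0 hc0 hnet using fun t : Finset (Fin d) =>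
    Formula.exists_response_net t.card hκ hB
  obtain ⟨t0, -, ht0⟩ := Finset.univ.exists_min_image c0 ⟨∅, Finset.mem_univ _⟩
  set c := c0 t0
  set Bp := B + ∑ t : Finset (Fin d), |Bp0 t|
  have hBp0 : ∀ t, Bp0 t ≤ Bp := fun t => by
    have := Finset.single_le_sum (f := fun t : Finset (Fin d) => |Bp0 t|)
      (fun t _ => abs_nonneg _) (Finset.mem_univ t)
    linarith [le_abs_self (Bp0 t)]
  have hBBp : B ≤ Bp := le_add_of_nonneg_right (Finset.sum_nonneg fun t _ => abs_nonneg _)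
  refine ⟨c, Bp, hc0 t0, hB.trans hBBp, fun t _ => (hBD t).trans hBBp, fun η hη => ?_⟩
  choose μ0 hμ0 δ00 hδ00 K00 hK00 using fun t : Finset (Fin d) => hnet t η hη
  obtain ⟨t1, -, ht1⟩ := Finset.univ.exists_min_image μ0 ⟨∅, Finset.mem_univ _⟩
  obtain ⟨t2, -, ht2⟩ := Finset.univ.exists_min_image δ00 ⟨∅, Finset.mem_univ _⟩
  choose S0 hS0 using fun t : Finset (Fin d) =>
    Formula.abs_ent_le t.card (B := Bp) (hμ0 t).1 (hc0 t) hτ
  refine ⟨μ0 t1, hμ0 t1, δ00 t2, hδ00 t2, ∑ t, |S0 t|, ∑ t, K00 t, fun K hK => ?_⟩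
  have hm : Formula.Levels (gridM K) K := Formula.gridM_levels K
  have hKt : ∀ t, K00 t ≤ K := fun t =>
    (Finset.single_le_sum (fun i _ => Nat.zero_le (K00 i)) (Finset.mem_univ t)).trans hK
  choose Q hQne hQ using fun t : Finset (Fin d) => show
      ∃ Q : Finset (ℕ → Matrix (Fin t.card) (Fin t.card) ℝ), Q.Nonempty ∧
        (t = ∅ ∨ Occupied γ t →
          (∀ q ∈ Q, (IsPath K q ∧ (typD γ dd t - q K - c0 t • (1 : Matrix _ _ ℝ)).PosSemidef ∧
              (∀ l, l ≤ K → mabs (q l) ≤ Bp0 t) ∧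
              (∀ l, l ≤ K → gridM K l < μ0 t → q l = 0) ∧
              IsPath K (bestPath (gridM K) K (typD γ dd t) q) ∧
              (∀ l, l ≤ K → mabs (bestPath (gridM K) K (typD γ dd t) q l) ≤ Bp0 t) ∧
              mabs (bestTilt (gridM K) K (typD γ dd t) q) ≤ Bp0 t ∧
              (∀ l, l ≤ K → (tLam (gridM K) K (bestTilt (gridM K) K (typD γ dd t) q)
                  (bestPath (gridM K) K (typD γ dd t) q) l - c0 t • (1 : Matrix _ _ ℝ)).PosSemidef) ∧
              (∀ l, l ≤ K → gridM K l < μ0 t →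
                bestPath (gridM K) K (typD γ dd t) q l = 0))) ∧
          ∀ Lt w q, Lt * typD γ dd t + cum (gridM K) w q (K + 1) = 1 →
            lmean (gridM K) K (resid (gridM K) K Lt (typD γ dd t) w q) ≤ δ00 t →
            (∀ l, l ≤ K → mabs (w l) ≤ B) → IsPath K q → (∀ l, l ≤ K → mabs (q l) ≤ B) →
            (typD γ dd t - q K + δ00 t • (1 : Matrix _ _ ℝ)).PosSemidef →
            ∃ q' ∈ Q, lmean (gridM K) K (fun l => q' l - q l) ≤ η ∧
              lmean (gridM K) K (fun l => w l - bestPath (gridM K) K (typD γ dd t) q' l) ≤ η) from by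
    by_cases ht : t = ∅ ∨ Occupied γ t
    · obtain ⟨Q, h1, h2⟩ := hK00 t K (hKt t) (typD γ dd t) (typD_transpose hd t)
        (typD_margin hκ hγ hd ht) (hBD t)
      exact ⟨Q, h1, fun _ => h2⟩
    · exact ⟨{fun _ => 0}, Finset.singleton_nonempty _, fun h => absurd h ht⟩
  refine ⟨Q, hQne, fun q hq => ?_, fun t ht Lt w q h1 h2 h3 h4 h5 h6 => ?_⟩
  · have key := fun t ht => (hQ t ht).1 (q t) (hq t ht)
    have hpd : ∀ t, t = ∅ ∨ Occupied γ t → (typD γ dd t - q t K).PosDef := fun t ht =>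
      (Formula.mabs_inv_le (hc0 t) (key t ht).2.1).1
    have h0 : gridM K 0 = 0 := hm.zero
    refine ⟨⟨fun t ht => (key t ht).1, hpd, fun t ht l hl => ((key t ht).2.2.1 l hl).trans (hBp0 t),
      fun t ht => ⟨(key t ht).2.2.2.2.1, (key t ht).2.2.2.2.2.2.2.2 0 (Nat.zero_le K)
        (by rw [h0]; exact (hμ0 t).1), fun l hl => ((key t ht).2.2.2.2.2.1 l hl).trans (hBp0 t)⟩,
      fun t ht => (hBD t).trans hBBp⟩, fun t ht => ?_, fun t ht => ?_⟩
    · refine (hS0 t (gridM K) K hm _ _ ((hBD t).trans hBBp) (key t ht).1 (key t ht).2.1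
        (key t ht).2.2.2.1).trans ((le_abs_self _).trans ?_)
      exact Finset.single_le_sum (fun i _ => abs_nonneg (S0 i)) (Finset.mem_univ t)
    · obtain ⟨hp, -, -, -, hP, hPb, hTb, hLam, hPz⟩ := key t ht
      exact ⟨hP, typD_transpose hd t, Formula.bestPath_mul_eq_one hm hp (hpd t ht),
        Formula.bestPath_root hm hp (hpd t ht),
        fun l hl => Formula.smul_one_mono (hLam l hl) (ht0 t (Finset.mem_univ t)),
        (hPb K le_rfl).trans (hBp0 t), hTb.trans (hBp0 t),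
        fun l hl h => hPz l hl (h.trans_le (ht1 t (Finset.mem_univ t)))⟩
  · refine (hQ t (Or.inr ht)).2 Lt w q h1 (h2.trans (ht2 t (Finset.mem_univ t)))
      (fun l hl => (h3 l hl).trans hBw) h4 (fun l hl => (h5 l hl).trans hBw) ?_
    have := h6.add (Matrix.PosSemidef.one.smul (sub_nonneg.2 (ht2 t (Finset.mem_univ t))))
    convert this using 1
    module

/-- The type of a site has a positive fraction. -/
theorem tfrac_typ_pos (hγ : ∀ k, 0 < γ k ∧ γ k ≤ 1) {N : ℕ} (j : Fin N) :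
    0 < tfrac γ (typ γ j) := by
  rcases typ_nonocc γ j with h | h
  · have hN : (0 : ℝ) < N := Nat.cast_pos.2 (Nat.zero_lt_of_lt j.isLt)
    have hk : ∀ k, γ k < 1 := fun k => by
      have h1 : blk γ N k ≤ j.val := not_lt.1 fun hh => Finset.notMem_empty k
        (h ▸ Finset.mem_filter.2 ⟨Finset.mem_univ _, hh⟩ : k ∈ (∅ : Finset (Fin d)))
      rw [blk] at h1
      have h2 := Nat.lt_of_le_of_lt h1 j.isLt
      have h3 := Nat.lt_floor_add_one (γ k * N)
      have h4 : ((⌊γ k * (N : ℝ)⌋₊ : ℕ) : ℝ) + 1 ≤ N := by exact_mod_cast h2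
      by_contra hc
      have h5 := mul_le_mul_of_nonneg_right (not_lt.1 hc) hN.le
      linarith
    rw [h]
    refine lt_max_of_lt_right (sub_pos.2 ?_)
    rw [Formula.tHi, Finset.fold_empty, Formula.tLo]
    exact (Finset.fold_max_lt _).2 ⟨one_pos, fun k _ => hk k⟩
  · exact Formula.tfrac_pos hγ h

/-- The trace of the self-overlaps of a type per site. -/
theorem mul_trace_typD {κ L : ℝ} (hd : GoodCentre γ κ L dd) {t : Finset (Fin d)}
    (ht : tfrac γ t ≠ 0) : tfrac γ t * (typD γ dd t).trace = ∑ k, dd (t, k, k) := by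
  rw [typD, Matrix.trace_smul, smul_eq_mul, ← mul_assoc, mul_inv_cancel₀ ht, one_mul,
    ← Finset.sum_subset (Finset.subset_univ t)
      fun k _ hk => hd.1.2 t k k fun h => hk h.2.1, sum_comp_eq]
  rfl

/-- The centre leaves room in the cut for the shells of a large block. -/
theorem step_act_le {τ B κ L es : ℝ} (hτ : 0 < τ) (hγ : ∀ k, 0 < γ k ∧ γ k ≤ 1)
    (hd : GoodCentre γ κ L dd) (hes4 : es ≤ 1 / 4)
    (hB : ((∑ t, ∑ k, dd (t, k, k)) + d) / τ + 2 * d ≤ B)
    (T : Fin m → Finset (Fin d)) (hT : ∀ i, 0 < tfrac γ (T i))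
    (hcnt : ∀ t, |(typSize T t : ℝ) - m * tfrac γ t| ≤ 2)
    (hm : 4 * ∑ t : Finset (Fin d), |(typD γ dd t).trace| ≤ m) :
    (∑ i, actB τ es (cenM γ dd) (T i)) + 2 * ((d : ℝ) * m) ≤ B * m := by
  set C := ∑ t : Finset (Fin d), |(typD γ dd t).trace|
  have hC : 0 ≤ C := Finset.sum_nonneg fun t _ => abs_nonneg _
  have htr : ∑ i, (typD γ dd (T i)).trace ≤ m * (∑ t, ∑ k, dd (t, k, k)) + 2 * C := by
    rw [← Finset.sum_fiberwise (Finset.univ : Finset (Fin m)) T, Finset.mul_sum, Finset.mul_sum,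
      ← Finset.sum_add_distrib]
    refine Finset.sum_le_sum fun t _ => ?_
    rw [Finset.sum_congr rfl fun i hi => by rw [(Finset.mem_filter.1 hi).2], Finset.sum_const,
      nsmul_eq_mul]
    change (typSize T t : ℝ) * _ ≤ _
    by_cases ht : tfrac γ t = 0
    · have hs : typSize T t = 0 := Finset.card_eq_zero.2 <| Finset.filter_eq_empty_iff.2
        fun i _ hi => (hT i).ne' (hi ▸ ht)
      have hz : ∀ k, dd (t, k, k) = 0 := fun k => hd.1.2 t k k fun h =>
        (Formula.tfrac_pos hγ h.1).ne' ht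
      simp [hs, hz]
    · rw [← mul_trace_typD hd ht, ← mul_assoc]
      have h1 : ((typSize T t : ℝ) - m * tfrac γ t) * (typD γ dd t).trace
          ≤ 2 * |(typD γ dd t).trace| := by
        refine (le_abs_self _).trans ?_
        rw [abs_mul]
        exact mul_le_mul_of_nonneg_right (hcnt t) (abs_nonneg _)
      linarith
  have hact : ∑ i, actB τ es (cenM γ dd) (T i)
      ≤ ((m : ℝ) * (∑ t, ∑ k, dd (t, k, k)) + 2 * C + m * (d / 4)) / τ := by
    simp only [actB, cenM_sub, ← Finset.sum_div]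
    refine div_le_div_of_nonneg_right ?_ hτ.le
    rw [Finset.sum_add_distrib]
    refine add_le_add htr ((Finset.sum_le_sum (g := fun _ => (d : ℝ) / 4) fun i _ => ?_).trans_eq
      (by simp))
    have hc : ((T i).card : ℝ) ≤ d := by
      exact_mod_cast (Finset.card_le_univ (T i)).trans_eq (Fintype.card_fin d)
    have := mul_le_mul_of_nonneg_left hes4 (Nat.cast_nonneg (α := ℝ) (T i).card)
    linarith
  have hC2 : 2 * C ≤ (m : ℝ) * (3 * d / 4) := by
    rcases Nat.eq_zero_or_pos d with h | h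
    · subst h
      have h0 : ∀ t : Finset (Fin 0), (typD γ dd t).trace = 0 := fun t =>
        Finset.sum_eq_zero fun b _ => absurd b.isLt (by simp [Finset.eq_empty_of_isEmpty t])
      simp [C, h0]
    · have h1 : (m : ℝ) * 1 ≤ m * d :=
        mul_le_mul_of_nonneg_left (by exact_mod_cast h) (Nat.cast_nonneg m)
      have h2 : (0 : ℝ) ≤ m := Nat.cast_nonneg m
      linarith
  have h3 : ((m : ℝ) * (∑ t, ∑ k, dd (t, k, k)) + 2 * C + m * (d / 4)) / τ
      ≤ (m : ℝ) * (((∑ t, ∑ k, dd (t, k, k)) + d) / τ) := by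
    refine (div_le_div_of_nonneg_right ?_ hτ.le).trans_eq (mul_div_assoc _ _ _)
    linarith
  have h4 := mul_le_mul_of_nonneg_left hB (Nat.cast_nonneg (α := ℝ) m)
  linarith

/-- For a finite family of paths there are arbitrarily fine atoms of a large block on which all
responses are worth their spins. -/
theorem exists_step_atoms {τ B κ L es η c Bp μ : ℝ} (hτ : 0 < τ) (hes : 0 < es)
    (hes4 : es ≤ 1 / 4) (hη : 0 < η) (hμ : 0 < μ) (hμ1 : μ ≤ 1) (hc : 0 < c)
    (hγ : ∀ k, 0 < γ k ∧ γ k ≤ 1) (hd : GoodCentre γ κ L dd)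
    (hB : ((∑ t, ∑ k, dd (t, k, k)) + d) / τ + 2 * d ≤ B) :
    ∃ m0 : ℕ, ∀ m ≥ m0, ∀ T : Fin m → Finset (Fin d), (∀ i, 0 < tfrac γ (T i)) →
      (∀ t, |(typSize T t : ℝ) - m * tfrac γ t| ≤ 2) →
      ∀ (K : ℕ) (I : Finset (TPath d)), I.Nonempty →
      (∀ q ∈ I, ∀ t, t = ∅ ∨ Occupied γ t → BlockPath γ dd K c Bp μ t (q t)) →
      ∀ δ > 0, ∃ εb : ℝ, εb ≤ δ ∧
        ∃ aW : Atoms ((spinLaw d m).restrict (shellSet T τ es B (cenM γ dd)))
          (shellSet T τ es B (cenM γ dd)) εb,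
        ∀ q ∈ I, ∑ j, (spinVal (gridM K) K τ
              ((cenM γ dd (T j)).submatrix (comp (T j)) (comp (T j)))
              (bestTilt (gridM K) K (typD γ dd (T j)) (q (T j))) (respP γ dd K q (T j))
            - ((Bp + d / τ) * es / 2 + η))
          ≤ atomVal (atomBlock T τ aW) (siteFac T K (respP γ dd K q)) := by
  classical
  obtain ⟨n0, hn0⟩ := block_atoms_lower d (c := c) (Bp := Bp) hτ hes hμ hμ1 hc hη
  set C := ∑ t : Finset (Fin d), |(typD γ dd t).trace|
  refine ⟨⌈4 * C⌉₊ + (∑ t : Finset (Fin d), ⌈((n0 : ℝ) + 2) / tfrac γ t⌉₊) + 1,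
    fun m hm T hT hcnt K I hI hok δ hδ => ?_⟩
  have hm0 : 0 < m := by omega
  have hT' : ∀ i, T i = ∅ ∨ Occupied γ (T i) := fun i => hcen_occ hγ (hT i).ne'
  have hsize : ∀ i, n0 ≤ typSize T (T i) := fun i => by
    have h1 : ⌈((n0 : ℝ) + 2) / tfrac γ (T i)⌉₊ ≤ m := by
      have := Finset.single_le_sum
        (f := fun t : Finset (Fin d) => ⌈((n0 : ℝ) + 2) / tfrac γ t⌉₊)
        (fun _ _ => Nat.zero_le _) (Finset.mem_univ (T i))
      omega
    have h2 : ((n0 : ℝ) + 2) / tfrac γ (T i) ≤ m := (Nat.le_ceil _).trans (by exact_mod_cast h1)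
    rw [div_le_iff₀ (hT i)] at h2
    have h3 := (abs_le.1 (hcnt (T i))).1
    exact_mod_cast (show (n0 : ℝ) ≤ typSize T (T i) by linarith)
  have hroom := step_act_le (es := es) hτ hγ hd hes4 hB T hT hcnt (by
    have h1 : ⌈4 * C⌉₊ ≤ m := by omega
    exact (Nat.le_ceil _).trans (by exact_mod_cast h1))
  have happ := fun (q : TPath d) (hq : q ∈ I) =>
    hn0 m T B (cenM γ dd) hm0 hsize hroom K
      (fun t => bestTilt (gridM K) K (typD γ dd t) (q t)) (respP γ dd K q) q
      (siteFac T K (respP γ dd K q))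
      (fun t ht => by
        obtain ⟨i, -, rfl⟩ := Finset.mem_image.1 ht
        rw [cenM_sub]
        exact hok q hq _ (hT' i))
      (siteFac_spec T fun i => (hok q hq _ (hT' i)).1).1
      (siteFac_spec T fun i => (hok q hq _ (hT' i)).1).2
  obtain ⟨q0, hq0⟩ := hI
  set X := shellSet T τ es B (cenM γ dd)
  have hpos := (happ q0 hq0).1
  have hν : (spinLaw d m).restrict X ≠ 0 := fun h0 => by
    rw [h0] at hpos
    simp at hpos
  have hne : X.Nonempty := Set.nonempty_iff_ne_empty.2 fun h0 => hν (by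
    rw [h0, Measure.restrict_empty])
  have aW : ∀ W : ℕ, Atoms ((spinLaw d m).restrict X) X (δ / ((W : ℝ) + 1)) := fun W =>
    (exists_atoms ((spinLaw d m).restrict X) hν (isCompact_shellSet T τ es B (cenM γ dd)) hne
      (show 0 < δ / ((W : ℝ) + 1) by positivity)).some
  have hlim : Tendsto (fun W : ℕ => δ / ((W : ℝ) + 1)) atTop (𝓝 0) := by
    simpa [div_eq_mul_inv] using
      (tendsto_one_div_add_atTop_nhds_zero_nat (𝕜 := ℝ)).const_mul δ
  obtain ⟨W, hW⟩ := ((Finset.eventually_all I).2 fun q hq =>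
    (happ q hq).2 hlim aW).exists
  refine ⟨δ / ((W : ℝ) + 1), div_le_self hδ.le (le_add_of_nonneg_left (Nat.cast_nonneg W)),
    aW W, fun q hq => ?_⟩
  exact (Finset.sum_le_sum fun j _ => (sub_add_eq_sub_sub _ _ _).le).trans (hW q hq)

end Vale.Agent.P166.Casc
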