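import Vale.Agent.P166.Casc.VUpperType
import Vale.Agent.P166.Casc.VRowMean

/-!
The synchronised overlaps of one type and the level means of the gradients of the rows, of the
penalised system with rows only, nearly solve the stationarity equations of the type.
-/

open MeasureTheory ProbabilityTheory Filter Topology Set

namespace Vale.Agent.P166.Casc

open Vale.Agent.P157.Casc Vale.Agent.P166.Pen
open Vale.Agent.P166.Formula (tfrac typD tmat IsPath gridM cum lmean resid)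

section Grid

variable {m K : ℕ} {μ ν : ℕ → ℝ} (h : ∀ l, l ≤ K + 1 → μ l = ν l)
include h

theorem cum_congr_levels (p q : ℕ → Matrix (Fin m) (Fin m) ℝ) {j : ℕ} (hj : j ≤ K + 1) :
    cum μ p q j = cum ν p q j := by
  refine Finset.sum_congr rfl fun i hi => ?_
  have := Finset.mem_range.1 hi
  rw [h (i + 1) (by omega), h i (by omega)]

theorem tail_congr_levels (x : ℕ → Matrix (Fin m) (Fin m) ℝ) {l : ℕ} (hl : l ≤ K) :
    Formula.tail μ K x l = Formula.tail ν K x l := by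
  simp only [Formula.tail, h (l + 1) (by omega)]
  congr 1
  refine Finset.sum_congr rfl fun i hi => ?_
  have := (Finset.mem_Ioc.1 hi).2
  rw [h (i + 1) (by omega), h i (by omega)]

theorem lmean_resid_congr (L D : Matrix (Fin m) (Fin m) ℝ)
    (w q : ℕ → Matrix (Fin m) (Fin m) ℝ) :
    lmean μ K (resid μ K L D w q) = lmean ν K (resid ν K L D w q) := by
  refine Finset.sum_congr rfl fun l hl => ?_
  have hl' : l ≤ K := Nat.le_of_lt_succ (Finset.mem_range.1 hl)
  simp only [Formula.dmAt, resid, Formula.tLam, Formula.tT, tail_congr_levels h _ hl',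
    cum_congr_levels h _ _ (show l ≤ K + 1 by omega), h (l + 1) (by omega), h l (by omega)]

end Grid

variable {d : ℕ}

/-- The variances of the rows and of the perturbations are bounded. -/
theorem exists_rowc_box (N M d R D K : ℕ) :
    ∃ Cb : ℝ, ∀ y : Fin R × Fin N → ℝ, (∀ p, y p ∈ Icc (1 : ℝ) 2) →
      ∀ q, vsys (rowc 1 : VCIdx N M d R D K → ℝ) y q ∈ Icc (0 : ℝ) Cb := by
  obtain ⟨Cb, hCb⟩ := (isCompact_vsysSet (R := R) (isCompact_singleton
    (x := (rowc 1 : VCIdx N M d R D K → ℝ)))).exists_bound_of_continuousOn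
    (f := fun x => x) continuousOn_id
  refine ⟨Cb, fun y hy q => ⟨add_nonneg ?_ (vpert_nonneg _ _ q), ?_⟩⟩
  · rcases q with (q | q) | ⟨l, u | u | u⟩ <;> simp [rowc, vfldc]
  · have h := hCb _ (mem_vsysSet (mem_singleton _) hy)
    exact (le_abs_self _).trans ((Real.norm_eq_abs _).symm.trans_le ((norm_le_pi_norm _ q).trans h))

/-- The parameters: the error of the synchronisation, then for each number of levels the error of
the levels. -/
theorem response_params (d m : ℕ) {B1 a δ0 : ℝ} (hB1 : 1 ≤ B1) (ha : 0 < a) (hδ0 : 0 < δ0) :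
    ∃ θ : ℝ, 0 < θ ∧ (∀ av : ℝ, a / 2 ≤ av → (θ + θ + θ) / av ≤ δ0) ∧
      ∀ K : ℕ, ∃ e : ℝ, 0 < e ∧ e ≤ pi0 K ∧ ∀ av r : ℝ, a / 2 ≤ av → r ≤ 2 * e →
        |av⁻¹| ^ 2 * (B1 ^ 3 * ((d : ℝ) ^ 2 * r + (θ + θ) * (4 * (2 * B1) ^ 2)
              + e * (2 * ((K : ℝ) + 1) * (2 * B1) ^ 2))
            + B1 * (((K : ℝ) + 1) * ((d : ℝ) ^ 2 * r) + (θ + θ) * (13 * (2 * B1) ^ 2)
              + e * (((K : ℝ) + 1) * sdC K m (2 * B1)))) ≤ δ0 := by
  set C1 := (2 / a) ^ 2 * (B1 ^ 3 * (4 * (2 * B1) ^ 2) + B1 * (13 * (2 * B1) ^ 2))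
  have hC1 : 0 < C1 := by positivity
  set θ := min (δ0 / (4 * C1)) (δ0 * a / 6)
  have hθ : 0 < θ := lt_min (by positivity) (by positivity)
  refine ⟨θ, hθ, fun av hav => ?_, fun K => ?_⟩
  · have h1 : θ ≤ δ0 * a / 6 := min_le_right _ _
    have h2 := mul_le_mul_of_nonneg_left hav hδ0.le
    rw [div_le_iff₀ (lt_of_lt_of_le (half_pos ha) hav)]
    linarith
  have hπ0 : 0 < pi0 K := by rw [pi0]; positivity
  set C2 := (2 / a) ^ 2 * (B1 ^ 3 * (2 * (d : ℝ) ^ 2 + 2 * ((K : ℝ) + 1) * (2 * B1) ^ 2)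
    + B1 * (((K : ℝ) + 1) * (2 * (d : ℝ) ^ 2) + ((K : ℝ) + 1) * |sdC K m (2 * B1)|)) + 1
  have hC2 : 0 < C2 := by positivity
  set e := min (pi0 K) (δ0 / (2 * C2))
  have he : 0 < e := lt_min hπ0 (by positivity)
  refine ⟨e, he, min_le_left _ _, fun av r hav hr => ?_⟩
  have hav' : 0 < av := lt_of_lt_of_le (half_pos ha) hav
  have hinv : |av⁻¹| ≤ 2 / a := by
    rw [abs_inv, abs_of_pos hav', inv_le_iff_one_le_mul₀ hav', div_mul_eq_mul_div,
      le_div_iff₀ ha]
    linarith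
  have hθC : 2 * θ * C1 ≤ δ0 / 2 := by
    have h1 : θ ≤ δ0 / (4 * C1) := min_le_left _ _
    rw [le_div_iff₀ (by positivity)] at h1
    linarith
  have heC : e * C2 ≤ δ0 / 2 := by
    have h1 : e ≤ δ0 / (2 * C2) := min_le_right _ _
    rw [le_div_iff₀ (by positivity)] at h1
    linarith
  calc |av⁻¹| ^ 2 * (B1 ^ 3 * ((d : ℝ) ^ 2 * r + (θ + θ) * (4 * (2 * B1) ^ 2)
            + e * (2 * ((K : ℝ) + 1) * (2 * B1) ^ 2))
          + B1 * (((K : ℝ) + 1) * ((d : ℝ) ^ 2 * r) + (θ + θ) * (13 * (2 * B1) ^ 2)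
            + e * (((K : ℝ) + 1) * sdC K m (2 * B1))))
      ≤ |av⁻¹| ^ 2 * (B1 ^ 3 * ((d : ℝ) ^ 2 * (2 * e) + (θ + θ) * (4 * (2 * B1) ^ 2)
            + e * (2 * ((K : ℝ) + 1) * (2 * B1) ^ 2))
          + B1 * (((K : ℝ) + 1) * ((d : ℝ) ^ 2 * (2 * e)) + (θ + θ) * (13 * (2 * B1) ^ 2)
            + e * (((K : ℝ) + 1) * |sdC K m (2 * B1)|))) := by
        gcongr
        exact le_abs_self _
    _ ≤ (2 / a) ^ 2 * (B1 ^ 3 * ((d : ℝ) ^ 2 * (2 * e) + (θ + θ) * (4 * (2 * B1) ^ 2)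
            + e * (2 * ((K : ℝ) + 1) * (2 * B1) ^ 2))
          + B1 * (((K : ℝ) + 1) * ((d : ℝ) ^ 2 * (2 * e)) + (θ + θ) * (13 * (2 * B1) ^ 2)
            + e * (((K : ℝ) + 1) * |sdC K m (2 * B1)|))) :=
        mul_le_mul_of_nonneg_right (pow_le_pow_left₀ (abs_nonneg _) hinv 2) (by positivity)
    _ = 2 * θ * C1 + e * (C2 - 1) := by simp only [C1, C2]; ring
    _ ≤ δ0 := by linarith

/-- Large systems: the size of the type is near its fraction and the perturbations are small. -/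
theorem response_size {γ : Fin d → ℝ} (hγ : ∀ k, 0 < γ k ∧ γ k ≤ 1) (t : Finset (Fin d))
    (ha : 0 < tfrac γ t) (R : ℕ) (B' T : ℝ) (hT : 0 ≤ T) {θ e : ℝ} (hθ : 0 < θ) (he : 0 < e) :
    ∀ᶠ N : ℕ in atTop, 0 < N ∧ 2 / (N : ℝ) * B' ≤ θ ∧
      |(((typS γ N t).card : ℝ) - 1) / N - tfrac γ t| ≤ 2 / (N : ℝ) ∧
      tfrac γ t / 2 ≤ (((typS γ N t).card : ℝ) - 1) / N ∧
      (((typS γ N t).card : ℝ) - 1) / N ≤ 1 ∧ 2 ≤ (typS γ N t).card ∧
      ∀ (K D : ℕ) (y : Fin R × Fin N → ℝ), (∀ p, y p ∈ Icc (1 : ℝ) 2) →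
        e + 4 * (pertSize (ePert (K := K) (D := D) y) * T) / N ≤ 2 * e := by
  have h2 : Tendsto (fun N : ℕ => 2 / (N : ℝ)) atTop (𝓝 0) :=
    tendsto_const_div_atTop_nhds_zero_nat 2
  have h3 : Tendsto (fun N : ℕ => 2 / (N : ℝ) * B') atTop (𝓝 0) := by
    simpa using h2.mul_const B'
  have h4 : Tendsto (fun N : ℕ => 4 * ((R : ℝ) * 2 ^ 2 * T) * (N : ℝ) ^ (-((1 : ℝ) / 4)))
      atTop (𝓝 0) := by
    have := ((tendsto_rpow_neg_atTop (show (0 : ℝ) < 1 / 4 by norm_num)).comp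
      (tendsto_natCast_atTop_atTop (R := ℝ))).const_mul (4 * ((R : ℝ) * 2 ^ 2 * T))
    simpa [Function.comp_def] using this
  filter_upwards [eventually_gt_atTop 0, h2.eventually (eventually_le_nhds (half_pos ha)),
    h3.eventually (eventually_le_nhds hθ), h4.eventually (eventually_le_nhds he)]
    with N hN hN2 hN3 hN4
  have hN' : (0 : ℝ) < N := Nat.cast_pos.2 hN
  have h := abs_le.1 (Formula.count_typ hγ hN t)
  have hc : ((typS γ N t).card : ℝ) ≤ N :=
    Nat.cast_le.2 ((Finset.card_le_univ _).trans_eq (Fintype.card_fin N))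
  change -(1 / (N : ℝ)) ≤ ((typS γ N t).card : ℝ) / N - tfrac γ t
    ∧ ((typS γ N t).card : ℝ) / N - tfrac γ t ≤ 1 / N at h
  set cc := ((typS γ N t).card : ℝ) with hcc
  have e1 : (cc - 1) / N = cc / N - 1 / N := sub_div _ _ _
  have e2 : (2 : ℝ) / N = 1 / N + 1 / N := by ring
  have e3 : (0 : ℝ) ≤ 1 / N := by positivity
  have hlo : tfrac γ t / 2 ≤ (cc - 1) / N := by rw [e1]; linarith
  refine ⟨hN, hN3, abs_le.2 ⟨by rw [e1, e2]; linarith, by rw [e1, e2]; linarith⟩, hlo,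
    (div_le_one hN').2 (by linarith), ?_, fun K D y hy => ?_⟩
  · have h0 : 0 < cc - 1 := by
      have := mul_pos (lt_of_lt_of_le (half_pos ha) hlo) hN'
      rwa [div_mul_cancel₀ _ hN'.ne'] at this
    have : (1 : ℝ) < cc := by linarith
    rw [hcc] at this
    exact_mod_cast this
  have hy' : ∀ p, |y p| ≤ 2 := fun p => abs_le.2 ⟨by linarith [(hy p).1], (hy p).2⟩
  have h1 := mul_le_mul_of_nonneg_right (pertSize_ePert_le (K := K) (D := D) y hy') hT
  have h5 : 4 * ((R : ℝ) * (2 ^ 2 * (N : ℝ) ^ ((3 : ℝ) / 4)) * T) / N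
      = 4 * ((R : ℝ) * 2 ^ 2 * T) * (N : ℝ) ^ (-((1 : ℝ) / 4)) := by
    rw [show (-((1 : ℝ) / 4)) = (3 : ℝ) / 4 - 1 by norm_num, Real.rpow_sub_one hN'.ne']
    ring
  have h6 := div_le_div_of_nonneg_right (mul_le_mul_of_nonneg_left h1
    (show (0 : ℝ) ≤ 4 by norm_num)) hN'.le
  linarith

/-- The level means of the covariance of the moves with rows only are those of the gradients. -/
theorem levMean_rows {N M R D K n : ℕ} (P : VPot d) (π : VPrior N d R D) (Φ : VFac N d K)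
    (c : VCIdx N M d R D K → ℝ) (t : Finset (Fin d)) (l : Fin (K + 1)) :
    levMean (venv N M d R D K n) (vposW P π Φ c) (vlev π)
        (fun ω x z => subM t (cmat P π Φ c 1 (fun _ _ _ => 0) ω.2 x z)) l
      = subM t ((pi0 K)⁻¹ • Matrix.of (rowMean n P π Φ c l)) := by
  ext b b'
  simp only [levMean, mexp, subM, Matrix.smul_apply, Matrix.submatrix_apply, Matrix.of_apply,
    smul_eq_mul, rowMean, vmpair_eq_reavg]
  congr 2
  funext ω x
  by_cases h : vlev π (x 0) (x 1) = l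
  · rw [onLev, if_pos h, if_pos h]
    simp [cmat, rC]
  · rw [onLev, if_neg h, if_neg h]
    rfl

/-- The rescaled path of one type. -/
theorem isPath_typ {K : ℕ} (t : Finset (Fin d)) {av : ℝ} (hav : 0 < av)
    {q : Fin (K + 1) → Matrix (Fin d) (Fin d) ℝ} (hq0 : (q 0).PosSemidef)
    (hqstep : ∀ l : Fin K, (q l.succ - q l.castSucc).PosSemidef) :
    IsPath K (extPath fun j => av⁻¹ • subM t (q j)) := by
  refine ⟨?_, fun l hl => ?_⟩
  · exact ((hq0.submatrix _).smul (inv_nonneg.2 hav.le) :)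
  · have e1 := extPath_val (fun j => av⁻¹ • subM t (q j)) (Fin.succ ⟨l, hl⟩)
    have e2 := extPath_val (fun j => av⁻¹ • subM t (q j)) (Fin.castSucc ⟨l, hl⟩)
    simp only [Fin.val_succ, Fin.val_castSucc] at e1 e2
    rw [e1, e2, ← smul_sub]
    exact ((hqstep ⟨l, hl⟩).submatrix _).smul (inv_nonneg.2 hav.le)

/-- The top of the rescaled path, from that of the mean self-overlap. -/
theorem typ_top {K : ℕ} (t : Finset (Fin d)) {av θ e δ0 : ℝ} (hav : 0 < av)
    {D : Matrix (Fin t.card) (Fin t.card) ℝ} (hD : D.IsHermitian)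
    {E : Matrix (Fin d) (Fin d) ℝ} (hE : E.transpose = E)
    (he : mabs (subM t E - av • D) ≤ e) {q : Fin (K + 1) → Matrix (Fin d) (Fin d) ℝ}
    (h : (E + θ • (1 : Matrix (Fin d) (Fin d) ℝ) - q (Fin.last K)).PosSemidef)
    (hle : (e + θ) / av ≤ δ0) :
    (D - extPath (fun j => av⁻¹ • subM t (q j)) K
      + δ0 • (1 : Matrix (Fin t.card) (Fin t.card) ℝ)).PosSemidef := by
  have hsymm : (subM t E).IsHermitian := by
    refine Matrix.IsHermitian.ext fun i j => ?_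
    exact congrFun (congrFun hE (comp t i)) (comp t j)
  have hup := top_psd (δ := θ) hav hD hsymm (q := subM t (q (Fin.last K))) he (by
    have h' := h.submatrix (comp t)
    convert h' using 1
    ext i j
    simp [subM, Matrix.one_apply, (comp t).injective.eq_iff])
  have hlast : extPath (fun j => av⁻¹ • subM t (q j)) K = av⁻¹ • subM t (q (Fin.last K)) :=
    extPath_val (fun j => av⁻¹ • subM t (q j)) (Fin.last K)
  rw [hlast]
  convert hup.add (Matrix.PosSemidef.one.smul (sub_nonneg.2 hle)) using 1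
  module

/-- Finite synchronisation data of one type give an approximately stationary pair of the type, with
a bound which does not depend on the accuracy, the levels or the size. -/
theorem type_response {τ B κ Lb a0 : ℝ} (hτ : 0 < τ) (hB : 0 < B) {γ : Fin d → ℝ}
    (hγ : ∀ k, 0 < γ k ∧ γ k ≤ 1) (hκ : 0 < κ) (P : VPot d)
    (hh : ∀ k k' y, P.h k k' y = P.h k' k y) {dd : OIdx d → ℝ} (hd : GoodCentre γ κ Lb dd)
    {t : Finset (Fin d)} (ht : Occupied γ t) :
    ∃ Bw : ℝ, 1 ≤ Bw ∧ ∀ δ0 > 0, ∃ θ > 0, ∀ K : ℕ, ∃ εl > 0, ∃ N0 : ℕ, ∀ N ≥ N0,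
      ∀ M : ℕ, (M : ℝ) ≤ a0 * N → ∀ lam : ℝ, 0 ≤ lam → ∀ (L : ℕ) (hL : 0 < L) (J : ℕ),
      ∃ δa > 0, ∀ {εa : ℝ} (a : Atoms (spinMeas τ γ B lam dd N) (cutSet B d N) εa), εa ≤ δa →
      ∀ n : ℕ, 0 < n → ∀ y : Fin (nker d (d * d)) × Fin N → ℝ, (∀ p, y p ∈ Icc (1 : ℝ) 2) →
      let π := penPrior (γ := γ) hτ.le (basicCoeffs d) a hL J
      let Φ : VFac N d K := noFac N d K
      let c : VCIdx N M d (nker d (d * d)) (N + L + J) K → ℝ := vsys (rowc 1) y
      let μ := venv N M d (nker d (d * d)) (N + L + J) K n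
      ∀ q : Fin (K + 1) → Matrix (Fin d) (Fin d) ℝ,
      (∀ l, (q l).transpose = q l) → (q 0).PosSemidef →
      (∀ l : Fin K, (q l.succ - q l.castSucc).PosSemidef) →
      (∀ l, mabs (q l) ≤ 2 * (d : ℝ) ^ 2 * (τ * B) + 1) →
      reavg μ (vposW P π Φ c) 2 (fun _ x =>
        mabs (gov (penX hτ.le (basicCoeffs d) a hL J t) (x 0).1 (x 1).1
          - q (vlev π (x 0) (x 1)))) ≤ θ →
      (mexp μ (vposW P π Φ c) 1 (fun _ x =>
          gov (penX hτ.le (basicCoeffs d) a hL J t) (x 0).1 (x 0).1)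
        + θ • (1 : Matrix (Fin d) (Fin d) ℝ) - q (Fin.last K)).PosSemidef →
      vmpair n P π Φ c (fun _ x _ => ovlDev τ γ dd (a.x (finProdFinEquiv.symm x.1).1)) ≤ θ →
      (∀ l, |levLaw μ (vposW P π Φ c) (vlev π) l - pi0 K| ≤ εl) →
      (∀ (l : Fin (K + 1)) (F : (Node K n → ℝ) × (VGIdx N M d (nker d (d * d)) (N + L + J) K n → ℝ) →
          (Fin 2 → VState π K n) → ℝ), PertFree F →
        |rdef μ (vmbw P π Φ c) (fun x z => if vlev π x z = l then 1 else 0) 1 F| ≤ εl) →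
      let sN : ℝ := (((typS γ N t).card : ℝ) - 1) / N
      let w := extPath fun u => subM t ((pi0 K)⁻¹ • Matrix.of (rowMean n P π Φ c u))
      let qh := extPath fun u => sN⁻¹ • subM t (q u)
      |sN - tfrac γ t| ≤ 2 / (N : ℝ) ∧ tfrac γ t / 2 ≤ sN ∧
      ∃ Lt, Lt * typD γ dd t + cum (gridM K) w qh (K + 1) = 1 ∧
        lmean (gridM K) K (resid (gridM K) K Lt (typD γ dd t) w qh) ≤ δ0 ∧
        (∀ l, l ≤ K → mabs (w l) ≤ Bw) ∧ IsPath K qh ∧ (∀ l, l ≤ K → mabs (qh l) ≤ Bw) ∧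
        (typD γ dd t - qh K + δ0 • (1 : Matrix (Fin t.card) (Fin t.card) ℝ)).PosSemidef := by
  set at0 := tfrac γ t
  have hat : 0 < at0 := Formula.tfrac_pos hγ ht
  have hat1 : at0 ≤ 1 := Formula.tfrac_le_one γ t
  set D := typD γ dd t
  obtain ⟨hDpd, hDi0⟩ := Formula.mabs_inv_le (div_pos hκ hat) (Formula.typD_posDef hκ hγ hd ht)
  set Bq := 2 * (d : ℝ) ^ 2 * (τ * B) + 1
  set B1 := 1 + mabs D + mabs D⁻¹ + (d : ℝ) ^ 2 * (τ * B) + (d : ℝ) ^ 2 * (|a0| * P.b1 ^ 2)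
    + 2 / at0 * Bq with hB1def
  have hτB : 0 ≤ τ * B := by positivity
  have hBq : 1 ≤ Bq := le_add_of_nonneg_left (by positivity)
  obtain ⟨z1, z2, z3, z4, z5⟩ : 0 ≤ mabs D ∧ 0 ≤ mabs D⁻¹ ∧ 0 ≤ (d : ℝ) ^ 2 * (τ * B) ∧
      0 ≤ (d : ℝ) ^ 2 * (|a0| * P.b1 ^ 2) ∧ 0 ≤ 2 / at0 * Bq :=
    ⟨mabs_nonneg _, mabs_nonneg _, by positivity, by positivity, by positivity⟩
  have hB1 : 1 ≤ B1 := by linarith
  have hBqB : Bq ≤ B1 := by
    have : Bq ≤ 2 / at0 * Bq :=
      le_mul_of_one_le_left (by linarith) (by rw [le_div_iff₀ hat]; linarith)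
    linarith
  refine ⟨2 * B1, by linarith, fun δ0 hδ0 => ?_⟩
  obtain ⟨θ, hθ, htop, hK⟩ := response_params d t.card hB1 hat hδ0
  refine ⟨θ, hθ, fun K => ?_⟩
  obtain ⟨e, he, heπ, hnum⟩ := hK K
  refine ⟨e, he, ?_⟩
  obtain ⟨N0, hN0⟩ := eventually_atTop.1
    (response_size hγ t hat (nker d (d * d)) B1 (τ * B) hτB hθ he)
  refine ⟨N0, fun N hNN M hM lam hlam L hL J => ?_⟩
  obtain ⟨hN, hN3, hava, hav, hav1, hS2, hpert⟩ := hN0 N hNN
  have hN' : (0 : ℝ) < N := Nat.cast_pos.2 hN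
  set S := typS γ N t
  set av := ((S.card : ℝ) - 1) / N
  have hav' : 0 < av := lt_of_lt_of_le (half_pos hat) hav
  obtain ⟨Cb, hCb⟩ := exists_rowc_box N M d (nker d (d * d)) (N + L + J) K
  obtain ⟨δa, hδa, hstat⟩ := stat_pen_typ (K' := K) (J := J) (B := B) hτ.le hlam dd
    (basicCoeffs d) hL P hh (noFac N d K) hN Cb S t (fun u hu => (Finset.mem_filter.1 hu).2) hS2
    e he
  refine ⟨δa, hδa, fun {εa} a hεa n hn y hy => ?_⟩
  intro π Φ c μ q hqs hq0 hqstep hqb hsync hupd hdev hlaw hgg sN w qh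
  have : Nonempty (VState π K n) := ⟨(⟨0, π.c_pos⟩, fun _ => ⟨0, hn⟩)⟩
  set u := vposW (n := n) P π Φ c
  have hm := measurable_vposW (n := n) P π Φ c
  have hpos := vposW_pos (n := n) P π Φ c
  set pF := fun (_ : Fin (K + 1)) (_ _ : Fin d) => (0 : ℝ)
  set R := fun x z : VState π K n => subM t (rmat π S x z)
  set U := vlev (K := K) (n := n) π
  have hgov : ∀ x z : VState π K n,
      gov (penX hτ.le (basicCoeffs d) a hL J t) x.1 z.1 = rmat π S x z := fun x z => by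
    ext k l
    exact gov_typX (penAtom hτ.le (basicCoeffs d) a hL J) t x.1 z.1 k l
  simp only [hgov] at hsync hupd
  have hrb : ∀ x z : VState π K n, mabs (rmat π S x z) ≤ B1 := fun x z => by
    refine (mabs_le_of_entry (b := τ * B) fun k l => ?_).trans (by linarith)
    rw [← hgov]
    exact abs_gov_typX_le hτ.le (penAtom hτ.le (basicCoeffs d) a hL J) (fun σ => a.mem _) hN t
      x.1 z.1 k l
  have hcm : ∀ G (x z : VState π K n), cmat P π Φ c 1 pF G x z = pmat P π Φ c G x z :=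
    fun G x z => by
      ext k l
      simp [cmat, rC, pmat, pF]
  have hcb : ∀ G (x z : VState π K n), mabs (cmat P π Φ c 1 pF G x z) ≤ B1 := fun G x z => by
    rw [hcm]
    refine (mabs_pmat_le P π Φ c G x z).trans (le_trans (mul_le_mul_of_nonneg_left
      (show (M : ℝ) * P.b1 ^ 2 / N ≤ |a0| * P.b1 ^ 2 from ?_) (sq_nonneg _)) (by linarith))
    rw [div_le_iff₀ hN', mul_assoc, mul_comm (P.b1 ^ 2), ← mul_assoc]
    exact mul_le_mul_of_nonneg_right (hM.trans (mul_le_mul_of_nonneg_right (le_abs_self a0)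
      hN'.le)) (sq_nonneg _)
  have hRb : ∀ x z, mabs (R x z) ≤ B1 := fun x z => (mabs_subM_le t _).trans (hrb x z)
  set q' := fun l => subM t (q l)
  have hqb' : ∀ l, mabs (q' l) ≤ B1 := fun l =>
    ((mabs_subM_le t _).trans (hqb l)).trans hBqB
  have hqh : ∀ j, mabs (av⁻¹ • q' j) ≤ B1 := fun j => by
    rw [mabs_smul, abs_inv, abs_of_pos hav']
    have hinv : av⁻¹ ≤ 2 / at0 := by
      rw [inv_le_iff_one_le_mul₀ hav', div_mul_eq_mul_div, le_div_iff₀ hat]; linarith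
    exact (mul_le_mul hinv ((mabs_subM_le t _).trans (hqb j)) (mabs_nonneg _)
      (by positivity)).trans (by linarith)
  have hdiff : at0 • D = tmat dd t := by
    simp only [D, typD, smul_smul, at0, mul_inv_cancel₀ (show tfrac γ t ≠ 0 from hat.ne'), one_smul]
  rw [vmpair_eq_reavg] at hdev
  have hself : reavg μ u 1 (fun _ x => mabs (R (x 0) (x 0) - av • D)) ≤ θ + θ :=
    reavg_le_add (X := fun x => ovlDev τ γ dd (penAtom hτ.le (basicCoeffs d) a hL J x.1))
      (f := fun x => mabs (R x x - av • D)) hm hpos (fun x => by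
        have e1 : R x x - av • D = (R x x - tmat dd t) + (at0 - av) • D := by
          rw [sub_smul, hdiff]; abel
        rw [e1]
        refine (mabs_add _ _).trans (add_le_add (mabs_self_le hτ.le _ a hL t dd x) ?_)
        rw [mabs_smul, abs_sub_comm]
        exact (mul_le_mul hava (show mabs D ≤ B1 by linarith) (mabs_nonneg _)
          (by positivity)).trans hN3) hdev
  have hsync' : reavg μ u 2 (fun _ x => mabs (R (x 0) (x 1) - q' (U (x 0) (x 1)))) ≤ θ := by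
    refine (reavg_mono hm hpos (A := 2 * B1) (bTest_const _ fun x => ?_)
      (bTest_const (B := 2 * B1) _ fun x => ?_)
      (g := fun _ x => mabs (rmat π S (x 0) (x 1) - q (U (x 0) (x 1)))) fun _ x => ?_).trans hsync
    · rw [abs_of_nonneg (mabs_nonneg _)]
      exact (mabs_sub _ _).trans ((add_le_add (hRb _ _) (hqb' _)).trans_eq (by ring))
    · rw [abs_of_nonneg (mabs_nonneg _)]
      exact (mabs_sub _ _).trans ((add_le_add (hrb _ _) ((hqb _).trans hBqB)).trans_eq (by ring))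
    · exact mabs_subM_le t (rmat π S (x 0) (x 1) - q (U (x 0) (x 1)))
  have hdet : (av • D).det ≠ 0 := by
    rw [Matrix.det_smul]; exact mul_ne_zero (pow_ne_zero _ hav'.ne') hDpd.det_pos.ne'
  have hq's : ∀ l, (q' l).transpose = q' l := fun l => by
    simp only [q', subM, Matrix.transpose_submatrix, hqs]
  obtain ⟨hw, hres⟩ := hstat a hεa n hn c (hCb y hy)
    (fun v => by simp [c, vsys, vpert, rowc, vfldc]) 1 pF (ePert y)
    (typeVar_vsys (fun _ _ => rfl) (fun _ _ _ => rfl)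
      (fun _ _ _ _ _ => by simp [rowc, vfldc, pF]) y)
    (fun _ _ _ => rfl) (av • D) q' B1 B1 (θ + θ) e hB1 hdet hq's
    (by
      rw [mabs_smul, abs_of_pos hav']
      exact (mul_le_of_le_one_left (mabs_nonneg _) hav1).trans (by linarith))
    hqb' (by rw [inv_smul_smul₀ hav'.ne' D]; linarith) hqh
    (by rw [abs_of_pos hav']; linarith) hrb hcb he.le heπ (by linarith)
    hself (hsync'.trans (by linarith)) hlaw (fun l F hF => by rw [rdef_vposW]; exact hgg l F hF)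
  rw [inv_smul_smul₀ hav'.ne' D] at hres
  set p := levMean μ u U fun ω x z => subM t (cmat P π Φ c 1 pF ω.2 x z)
  have hwp : extPath p = w := congrArg extPath (funext fun l => levMean_rows P π Φ c t l)
  have hqhp : extPath (fun j => av⁻¹ • q' j) = qh := rfl
  have hg : ∀ l, l ≤ K + 1 → ulev K l = gridM K l := fun l hl => ulev_eq_gridM hl
  rw [hwp, hqhp, lmean_resid_congr hg] at hres
  have hdiag := diag_sdL (m := ulev K) hav'.ne' hdet p q'
  rw [inv_smul_smul₀ hav'.ne' D, hwp, hqhp, cum_congr_levels hg _ _ le_rfl] at hdiag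
  refine ⟨hava, hav, _, hdiag, hres.trans ?_, fun l _ => ?_, isPath_typ t hav' hq0 hqstep,
    fun l _ => ?_, ?_⟩
  · exact hnum av _ hav (hpert K _ y hy)
  · rw [← hwp]
    exact (hw _).2
  · exact (hqh _).trans (by linarith)
  · have hsymm : (mexp μ u 1 fun _ x => rmat π S (x 0) (x 0)).transpose
        = mexp μ u 1 fun _ x => rmat π S (x 0) (x 0) := by
      rw [← mexp_transpose]
      simp only [rmat_transpose]
    exact typ_top t hav' hDpd.isHermitian hsymm (mexp_near hm hpos (R := fun x => R x x) hself)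
      hupd (htop av hav)

end Vale.Agent.P166.Casc
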