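import Vale.Agent.P166.Casc.VStepSync
import Vale.Agent.P166.Casc.VStepChoose
import Vale.Agent.P166.Casc.VStepNets
import Vale.Agent.P166.Casc.VStepType

/-!
The responses of all types at one accuracy, and the choice of the index of a step from the
synchronisation data at two accuracies.
-/

open MeasureTheory ProbabilityTheory Filter Topology
open Matrix hiding comp
open scoped MatrixOrder

namespace Vale.Agent.P166.Casc

open Vale.Agent.P157.Casc Vale.Agent.P166.Formula Vale.Agent.P166.Pen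

variable {d : ℕ} {γ : Fin d → ℝ} {κ L0 τ B : ℝ}

/-- The synchronisation paths of a type as input of the responses. -/
structure TypeData {N M L J K n : ℕ} {εa : ℝ} {ν : Measure (Fin d → Fin N → ℝ)} (P : VPot d)
    (γ : Fin d → ℝ) (hτ : 0 ≤ τ) (a : Atoms ν (cutSet B d N) εa) (hL : 0 < L)
    (c : VCIdx N M d (nker d (d * d)) (N + L + J) K → ℝ) (t : Finset (Fin d)) (θ : ℝ)
    (q : Fin (K + 1) → Matrix (Fin d) (Fin d) ℝ) : Prop where
  symm : ∀ l, (q l).transpose = q l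
  root : (q 0).PosSemidef
  step : ∀ l : Fin K, (q l.succ - q l.castSucc).PosSemidef
  bound : ∀ l, mabs (q l) ≤ 2 * (d : ℝ) ^ 2 * (τ * B) + 1
  sync : reavg (venv N M d (nker d (d * d)) (N + L + J) K n)
      (vposW P (penPrior (γ := γ) hτ (basicCoeffs d) a hL J) (noFac N d K) c) 2 (fun _ z =>
        mabs (gov (penX hτ (basicCoeffs d) a hL J t) (z 0).1 (z 1).1
          - q (vlev (penPrior (γ := γ) hτ (basicCoeffs d) a hL J) (z 0) (z 1)))) ≤ θ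
  top : (mexp (venv N M d (nker d (d * d)) (N + L + J) K n)
      (vposW P (penPrior (γ := γ) hτ (basicCoeffs d) a hL J) (noFac N d K) c) 1
        (fun _ z => gov (penX hτ (basicCoeffs d) a hL J t) (z 0).1 (z 0).1)
      + θ • (1 : Matrix (Fin d) (Fin d) ℝ) - q (Fin.last K)).PosSemidef

/-- The levels and the self-overlaps of the old system at given accuracies. -/
structure LevData {N M L J K : ℕ} {εa : ℝ} {ν : Measure (Fin d → Fin N → ℝ)} (P : VPot d)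
    (γ : Fin d → ℝ) (hτ : 0 ≤ τ) (dd : OIdx d → ℝ) (a : Atoms ν (cutSet B d N) εa) (hL : 0 < L)
    (c : VCIdx N M d (nker d (d * d)) (N + L + J) K → ℝ) (n : ℕ) (ee εl : ℝ) : Prop where
  dev : vmpair n P (penPrior (γ := γ) hτ (basicCoeffs d) a hL J) (noFac N d K) c
      (fun _ st _ => ovlDev τ γ dd (a.x (finProdFinEquiv.symm st.1).1)) ≤ ee
  law : ∀ u, |levLaw (venv N M d (nker d (d * d)) (N + L + J) K n)
      (vposW P (penPrior (γ := γ) hτ (basicCoeffs d) a hL J) (noFac N d K) c)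
      (vlev (penPrior (γ := γ) hτ (basicCoeffs d) a hL J)) u - pi0 K| ≤ εl
  gg : ∀ (l : Fin (K + 1))
      (F : (Node K n → ℝ) × (VGIdx N M d (nker d (d * d)) (N + L + J) K n → ℝ) →
        (Fin 2 → VState (penPrior (γ := γ) hτ (basicCoeffs d) a hL J) K n) → ℝ), PertFree F →
      |rdef (venv N M d (nker d (d * d)) (N + L + J) K n)
        (vmbw P (penPrior (γ := γ) hτ (basicCoeffs d) a hL J) (noFac N d K) c)
        (fun x z => if vlev (penPrior (γ := γ) hτ (basicCoeffs d) a hL J) x z = l then 1 else 0)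
        1 F| ≤ εl

/-- A response of a type near the means of the rows. -/
def RespNear {N M L J K : ℕ} {εa : ℝ} {ν : Measure (Fin d → Fin N → ℝ)} (P : VPot d)
    (γ : Fin d → ℝ) (hτ : 0 ≤ τ) (dd : OIdx d → ℝ) (a : Atoms ν (cutSet B d N) εa) (hL : 0 < L)
    (c : VCIdx N M d (nker d (d * d)) (N + L + J) K → ℝ) (n : ℕ) (t : Finset (Fin d))
    (Qt : Finset (ℕ → Matrix (Fin t.card) (Fin t.card) ℝ)) (η : ℝ)
    (q : Fin (K + 1) → Matrix (Fin d) (Fin d) ℝ) : Prop :=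
  ∃ q' ∈ Qt, ∃ sN : ℝ, |sN - tfrac γ t| ≤ 2 / (N : ℝ) ∧ tfrac γ t / 2 ≤ sN ∧
    lmean (gridM K) K (fun l => q' l - extPath (fun u => sN⁻¹ • subM t (q u)) l) ≤ η ∧
    lmean (gridM K) K (fun l => extPath (fun u : Fin (K + 1) =>
        subM t ((pi0 K)⁻¹ • Matrix.of (rowMean n P
          (penPrior (γ := γ) hτ (basicCoeffs d) a hL J) (noFac N d K) c u))) l
      - bestPath (gridM K) K (typD γ dd t) q' l) ≤ η

/-- Finitely many positive numbers have a common positive lower bound. -/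
theorem exists_pos_lb {ι : Type*} [Finite ι] {f : ι → ℝ} (hf : ∀ i, 0 < f i) :
    ∃ x : ℝ, 0 < x ∧ ∀ i, x ≤ f i :=
  ((eventually_all.2 fun i => (eventually_le_nhds (hf i)).filter_mono nhdsWithin_le_nhds).and
    (eventually_mem_nhdsWithin (a := (0 : ℝ)) (s := Set.Ioi 0))).exists.imp fun _ h => ⟨h.2, h.1⟩

/-- Bounds for all types at once: one accuracy, and finite nets which respond to it. -/
theorem step_resp {a0 : ℝ} (hτ : 0 < τ) (hB : 0 < B) (hγ : ∀ k, 0 < γ k ∧ γ k ≤ 1) (hκ : 0 < κ)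
    (P : VPot d) (hh : ∀ k k' y, P.h k k' y = P.h k' k y) {dd : OIdx d → ℝ}
    (hd : GoodCentre γ κ L0 dd) :
    ∃ c Bp : ℝ, 0 < c ∧ 1 ≤ Bp ∧ ∀ η > 0, ∃ μ ∈ Set.Ioc (0 : ℝ) 1, ∃ S : ℝ, ∃ θ0 > 0, ∃ K0 : ℕ,
      ∀ K ≥ K0, ∃ Q : (t : Finset (Fin d)) → Finset (ℕ → Matrix (Fin t.card) (Fin t.card) ℝ),
        (∀ t, (Q t).Nonempty) ∧
        (∀ q : TPath d, (∀ t, t = ∅ ∨ Occupied γ t → q t ∈ Q t) →
          StepPaths γ dd K Bp q ∧
          (∀ t, t = ∅ ∨ Occupied γ t → |ent (gridM K) K τ (typD γ dd t) (q t)| ≤ S) ∧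
          ∀ t, t = ∅ ∨ Occupied γ t → BlockPath γ dd K c Bp μ t (q t)) ∧
        ∃ εl0 > 0, ∀ θ ≤ θ0, ∀ ee ≤ θ0, ∀ εl ≤ εl0, ∃ N0 : ℕ, ∀ N ≥ N0,
          ∀ M : ℕ, (M : ℝ) ≤ a0 * N → ∀ lam : ℝ, 0 ≤ lam → ∀ (L : ℕ) (hL : 0 < L) (J : ℕ),
          ∃ δa > 0, ∀ {εa : ℝ} (a : Atoms (spinMeas τ γ B lam dd N) (cutSet B d N) εa), εa ≤ δa →
          ∀ (n : ℕ), 0 < n → ∀ y : Fin (nker d (d * d)) × Fin N → ℝ,
            (∀ p, y p ∈ Set.Icc (1 : ℝ) 2) →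
            LevData (J := J) (M := M) (K := K) P γ hτ.le dd a hL (vsys (rowc 1) y) n ee εl →
            ∀ t, Occupied γ t → ∀ q : Fin (K + 1) → Matrix (Fin d) (Fin d) ℝ,
              TypeData (J := J) (M := M) (n := n) P γ hτ.le a hL (vsys (rowc 1) y) t θ q →
              RespNear (J := J) (M := M) (K := K) P γ hτ.le dd a hL (vsys (rowc 1) y) n t (Q t) η q := by
  classical
  have hBw : ∀ t : Finset (Fin d), ∃ Bw : ℝ, 0 ≤ Bw ∧ (Occupied γ t → ∀ δ0 > 0, ∃ θ > 0,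
      ∀ K : ℕ, ∃ εl > 0, ∃ N0 : ℕ, ∀ N ≥ N0, ∀ M : ℕ, (M : ℝ) ≤ a0 * N → ∀ lam : ℝ, 0 ≤ lam →
      ∀ (L : ℕ) (hL : 0 < L) (J : ℕ), ∃ δa > 0,
      ∀ {εa : ℝ} (a : Atoms (spinMeas τ γ B lam dd N) (cutSet B d N) εa), εa ≤ δa →
      ∀ n : ℕ, 0 < n → ∀ y : Fin (nker d (d * d)) × Fin N → ℝ, (∀ p, y p ∈ Set.Icc (1 : ℝ) 2) →
      ∀ q : Fin (K + 1) → Matrix (Fin d) (Fin d) ℝ,
      TypeData (J := J) (M := M) (n := n) P γ hτ.le a hL (vsys (rowc 1) y) t θ q →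
      LevData (J := J) (M := M) (K := K) P γ hτ.le dd a hL (vsys (rowc 1) y) n θ εl →
      ∃ sN : ℝ, |sN - tfrac γ t| ≤ 2 / (N : ℝ) ∧ tfrac γ t / 2 ≤ sN ∧
        ∃ Lm : Matrix (Fin t.card) (Fin t.card) ℝ,
        Lm * typD γ dd t + cum (gridM K) (extPath fun u => subM t ((pi0 K)⁻¹ • Matrix.of (rowMean n P
          (penPrior (γ := γ) hτ.le (basicCoeffs d) a hL J) (noFac N d K)
          (vsys (M := M) (rowc 1) y) u))) (extPath fun u => sN⁻¹ • subM t (q u)) (K + 1) = 1 ∧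
        lmean (gridM K) K (resid (gridM K) K Lm (typD γ dd t)
          (extPath fun u => subM t ((pi0 K)⁻¹ • Matrix.of (rowMean n P
            (penPrior (γ := γ) hτ.le (basicCoeffs d) a hL J) (noFac N d K)
            (vsys (M := M) (rowc 1) y) u))) (extPath fun u => sN⁻¹ • subM t (q u))) ≤ δ0 ∧
        (∀ l, l ≤ K → mabs (extPath (fun u : Fin (K + 1) => subM t ((pi0 K)⁻¹ • Matrix.of (rowMean n P
          (penPrior (γ := γ) hτ.le (basicCoeffs d) a hL J) (noFac N d K)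
          (vsys (M := M) (rowc 1) y) u))) l) ≤ Bw) ∧
        IsPath K (extPath fun u => sN⁻¹ • subM t (q u)) ∧
        (∀ l, l ≤ K → mabs (extPath (fun u : Fin (K + 1) => sN⁻¹ • subM t (q u)) l) ≤ Bw) ∧
        (typD γ dd t - extPath (fun u => sN⁻¹ • subM t (q u)) K
          + δ0 • (1 : Matrix (Fin t.card) (Fin t.card) ℝ)).PosSemidef) := fun t => by
    by_cases ht : Occupied γ t
    · obtain ⟨Bw, h1, h2⟩ := type_response (a0 := a0) hτ hB hγ hκ P hh hd ht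
      refine ⟨Bw, by linarith, fun _ δ0 hδ0 => ?_⟩
      obtain ⟨θ, hθ, h3⟩ := h2 δ0 hδ0
      refine ⟨θ, hθ, fun K => ?_⟩
      obtain ⟨εl, hεl, N0, h4⟩ := h3 K
      refine ⟨εl, hεl, N0, fun N hN M hM lam hlam L hL J => ?_⟩
      obtain ⟨δa, hδa, h5⟩ := h4 N hN M hM lam hlam L hL J
      refine ⟨δa, hδa, fun {εa} a hεa n hn y hy q hq hl => ?_⟩
      obtain ⟨g1, g2, Lm, r⟩ := h5 a hεa n hn y hy q hq.symm hq.root hq.step hq.bound hq.sync hq.top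
        hl.dev hl.law hl.gg
      exact ⟨_, g1, g2, Lm, r⟩
    · exact ⟨0, le_rfl, fun h => absurd h ht⟩
  choose Bw hBw0 hBw' using hBw
  obtain ⟨c, Bp, hc, hBp, -, hnets⟩ := exists_step_nets hτ hκ hγ hd (∑ t, Bw t)
  refine ⟨c, Bp, hc, hBp, fun η hη => ?_⟩
  obtain ⟨μ, hμ, δ0, hδ0, S, K0, hK0⟩ := hnets η hη
  choose θt hθt hK using fun t : {t : Finset (Fin d) // Occupied γ t} => hBw' t.1 t.2 δ0 hδ0
  obtain ⟨θ0, hθ0, hθle⟩ : ∃ θ0 : ℝ, 0 < θ0 ∧ ∀ t, θ0 ≤ θt t :=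
    exists_pos_lb hθt
  refine ⟨μ, hμ, S, θ0, hθ0, K0, fun K hKK => ?_⟩
  obtain ⟨Q, hQ, hQ1, hQ2⟩ := hK0 K hKK
  choose εt hεt Nt hN using fun t => hK t K
  obtain ⟨εl0, hεl0, hεle⟩ : ∃ εl0 : ℝ, 0 < εl0 ∧ ∀ t, εl0 ≤ εt t :=
    exists_pos_lb hεt
  refine ⟨Q, hQ, hQ1, εl0, hεl0, fun θ hθ ee hee εl hεl => ⟨∑ t, Nt t, fun N hNN M hM lam hlam L hL J => ?_⟩⟩
  choose δt hδt hδ using fun t => hN t N
    ((Finset.single_le_sum (f := Nt) (fun _ _ => Nat.zero_le _) (Finset.mem_univ t)).trans hNN)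
    M hM lam hlam L hL J
  obtain ⟨δa, hδa, hδle⟩ : ∃ δa : ℝ, 0 < δa ∧ ∀ t, δa ≤ δt t :=
    exists_pos_lb hδt
  refine ⟨δa, hδa, fun {εa} a hεa n hn y hy hl t ht q hq => ?_⟩
  have hθt' : θ ≤ θt ⟨t, ht⟩ := hθ.trans (hθle _)
  have hεt' : εl ≤ εt ⟨t, ht⟩ := hεl.trans (hεle _)
  obtain ⟨sN, g1, g2, Lm, r1, r2, r3, r4, r5, r6⟩ := hδ ⟨t, ht⟩ a (hεa.trans (hδle _)) n hn y hy q
    ⟨hq.symm, hq.root, hq.step, hq.bound, hq.sync.trans hθt', by
      have h := hq.top.add (Matrix.PosSemidef.one.smul (sub_nonneg.2 hθt'))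
      convert h using 1
      simp only [sub_smul]
      abel⟩
    ⟨hl.dev.trans (hee.trans (hθle _)), fun u => (hl.law u).trans hεt',
      fun l F hF => (hl.gg l F hF).trans hεt'⟩
  have hle : Bw t ≤ ∑ t, Bw t := Finset.single_le_sum (fun s _ => hBw0 s) (Finset.mem_univ t)
  obtain ⟨q', hq', e1, e2⟩ := hQ2 t ht Lm _ _ r1 r2 (fun l hl => (r3 l hl).trans hle) r4
    (fun l hl => (r5 l hl).trans hle) r6
  exact ⟨q', hq', sN, g1, g2, e1, e2⟩

end Vale.Agent.P166.Casc
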