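import Vale.Agent.P166.Casc.VStepSizes
import Vale.Agent.P166.Casc.VStepDev
import Vale.Agent.P166.Casc.VStepResp

/-!
The accounts of a step: every error is small with the parameters, and the synchronisation data at
small errors select an index with small errors.
-/

open MeasureTheory ProbabilityTheory Filter Topology
open Matrix hiding comp
open scoped MatrixOrder

namespace Vale.Agent.P166.Casc

open Vale.Agent.P157.Casc Vale.Agent.P166.Formula Vale.Agent.P166.Pen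

variable {d : ℕ}

/-- A multiple by a number below a scale. -/
theorem mul_le_scale {a x ν C : ℝ} (hν : 0 ≤ ν) (hx : |x| ≤ ν) (ha : |a| ≤ C) : a * x ≤ C * ν :=
  (le_abs_self _).trans ((abs_mul a x).trans_le (mul_le_mul ha hx (abs_nonneg _)
    ((abs_nonneg a).trans ha)))

/-- All errors of a step, at one scale. -/
theorem step_scale (P : VPot d) (τ α B1 Cs Bp Bd : ℝ) (hα : 0 ≤ α) (hτ : 0 ≤ τ) :
    ∃ C : ℝ, 1 ≤ C ∧ ∀ ν : ℝ, 0 ≤ ν → ∀ ρ θ π0 ηn iN ee ec es im ηr r rA : ℝ,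
      0 ≤ ρ → ρ ≤ ν → 0 ≤ θ → θ ≤ ν → 0 ≤ π0 → π0 ≤ ν → 0 ≤ ηn → ηn ≤ ν → 0 ≤ iN → iN ≤ ν →
      0 ≤ ee → ee ≤ ν → 0 ≤ ec → ec ≤ 2 * ν → 0 ≤ es → es ≤ ν → 0 ≤ im → im ≤ ν → 0 ≤ ηr → ηr ≤ ν →
      0 ≤ r → r ≤ α + 1 → |rA - r| ≤ 2 * ν →
      (|Cs| * (ρ + π0) + |Cs| * (θ + ηn + iN) ≤ C * ν) ∧
      (ηn + (r * ((d : ℝ) ^ 2 * (decK P Bd * (|Cs| * (ρ + θ + π0) + (ee + d * ec)))) + ηr)
        + |rA - r| * ((d : ℝ) ^ 2 * (3 * rowB P ^ 2)) ≤ C * ν) ∧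
      ((d : ℝ) ^ 2 * ((2 : ℝ) ^ d * (2 * B1) * im + es + ec) ≤ C * ν) ∧
      ((Bp + d / τ) * es / 2 + ν ≤ C * ν) ∧
      (2 * (d * ec) ≤ C * ν) ∧
      (ee + d * ec + 4 * (d : ℝ) ^ 2 * gainB d B1 * iN ≤ C * ν) := by
  set D := |decK P Bd|
  set G := (d : ℝ) ^ 2 * (3 * rowB P ^ 2)
  set C1 := 5 * |Cs|
  set C2 := 1 + (α + 1) * ((d : ℝ) ^ 2 * (D * (3 * |Cs| + (1 + 2 * d)))) + 1 + 2 * G
  set C3 := (d : ℝ) ^ 2 * ((2 : ℝ) ^ d * (2 * |B1|) + 1 + 2)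
  set C4 := (|Bp| + d / τ) / 2 + 1
  set C5 := 4 * (d : ℝ)
  set C6 := 1 + 2 * (d : ℝ) + 4 * (d : ℝ) ^ 2 * |gainB d B1|
  have hG : 0 ≤ G := by positivity
  have hD : 0 ≤ D := abs_nonneg _
  have hdτ : (0 : ℝ) ≤ d / τ := div_nonneg (Nat.cast_nonneg d) hτ
  have p1 : 0 ≤ C1 := by positivity
  have p2 : 0 ≤ C2 := by positivity
  have p3 : 0 ≤ C3 := by positivity
  have p4 : 0 ≤ C4 := by positivity
  have p5 : 0 ≤ C5 := by positivity
  have p6 : 0 ≤ C6 := by positivity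
  refine ⟨1 + C1 + C2 + C3 + C4 + C5 + C6, by linarith, ?_⟩
  intro ν hν ρ θ π0 ηn iN ee ec es im ηr r rA a1 b1 a2 b2 a3 b3 a4 b4 a5 b5 a6 b6 a7 b7 a8 b8 a9 b9
    a10 b10 r1 r2 h3
  have hup : ∀ Ci, Ci ≤ 1 + C1 + C2 + C3 + C4 + C5 + C6 →
      Ci * ν ≤ (1 + C1 + C2 + C3 + C4 + C5 + C6) * ν :=
    fun Ci h => mul_le_mul_of_nonneg_right h hν
  have hd0 : (0 : ℝ) ≤ d := Nat.cast_nonneg d
  have hdec : (d : ℝ) * ec ≤ d * (2 * ν) := mul_le_mul_of_nonneg_left b7 hd0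
  refine ⟨?_, ?_, ?_, ?_, ?_, ?_⟩
  · refine le_trans ?_ (hup C1 (by linarith))
    rw [← mul_add, show C1 * ν = |Cs| * (5 * ν) by simp only [C1]; ring]
    exact mul_le_mul_of_nonneg_left (by linarith) (abs_nonneg _)
  · refine le_trans ?_ (hup C2 (by linarith))
    have e1 : |Cs| * (ρ + θ + π0) + (ee + d * ec) ≤ |Cs| * (3 * ν) + (1 + 2 * d) * ν :=
      add_le_add (mul_le_mul_of_nonneg_left (by linarith) (abs_nonneg _)) (by linarith)
    have e0 : 0 ≤ |Cs| * (ρ + θ + π0) + (ee + d * ec) := by positivity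
    have e2 : decK P Bd * (|Cs| * (ρ + θ + π0) + (ee + d * ec))
        ≤ D * (|Cs| * (3 * ν) + (1 + 2 * d) * ν) :=
      (mul_le_mul_of_nonneg_right (le_abs_self _) e0).trans (mul_le_mul_of_nonneg_left e1 hD)
    have e3 : r * ((d : ℝ) ^ 2 * (decK P Bd * (|Cs| * (ρ + θ + π0) + (ee + d * ec))))
        ≤ (α + 1) * ((d : ℝ) ^ 2 * (D * (|Cs| * (3 * ν) + (1 + 2 * d) * ν))) :=
      (mul_le_mul_of_nonneg_left (mul_le_mul_of_nonneg_left e2 (sq_nonneg _)) r1).trans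
        (mul_le_mul_of_nonneg_right r2 (by positivity))
    have e4 := mul_le_mul_of_nonneg_right h3 hG
    calc _ ≤ ν + ((α + 1) * ((d : ℝ) ^ 2 * (D * (|Cs| * (3 * ν) + (1 + 2 * d) * ν))) + ν)
          + 2 * ν * G := add_le_add (add_le_add b4 (add_le_add e3 b10)) e4
      _ = C2 * ν := by simp only [C2]; ring
  · refine le_trans ?_ (hup C3 (by linarith))
    have e1 : (2 : ℝ) ^ d * (2 * B1) * im ≤ (2 : ℝ) ^ d * (2 * |B1|) * ν :=
      mul_le_scale hν (by rwa [abs_of_nonneg a9]) (by rw [abs_mul, abs_mul]; simp)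
    calc _ ≤ (d : ℝ) ^ 2 * ((2 : ℝ) ^ d * (2 * |B1|) * ν + ν + 2 * ν) :=
          mul_le_mul_of_nonneg_left (by linarith) (sq_nonneg _)
      _ = C3 * ν := by simp only [C3]; ring
  · refine le_trans ?_ (hup C4 (by linarith))
    have e1 : (Bp + d / τ) * es ≤ (|Bp| + d / τ) * ν :=
      mul_le_scale hν (by rwa [abs_of_nonneg a8])
        ((abs_add_le _ _).trans (by rw [abs_of_nonneg hdτ]))
    have e2 : C4 * ν = (|Bp| + d / τ) * ν / 2 + ν := by simp only [C4]; ring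
    linarith
  · refine le_trans ?_ (hup C5 (by linarith))
    have e2 : C5 * ν = 2 * (d * (2 * ν)) := by simp only [C5]; ring
    linarith
  · refine le_trans ?_ (hup C6 (by linarith))
    have e1 : 4 * (d : ℝ) ^ 2 * gainB d B1 * iN ≤ 4 * (d : ℝ) ^ 2 * |gainB d B1| * ν :=
      mul_le_scale hν (by rwa [abs_of_nonneg a5]) (by rw [abs_mul, abs_of_nonneg (by positivity : (0:ℝ) ≤ 4 * (d : ℝ) ^ 2)])
    have e2 : C6 * ν = ν + d * (2 * ν) + 4 * (d : ℝ) ^ 2 * |gainB d B1| * ν := by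
      simp only [C6]; ring
    linarith

theorem transG_gain_nonneg (P : VPot d) {B1 A0 : ℝ} (hA0 : 0 ≤ A0) :
    0 ≤ transG P (gainB d B1) A0 := by
  have : 0 ≤ gainB d B1 := by unfold gainB; positivity
  unfold transG
  positivity

/-- The crude error of a step does not depend on the levels or the size. -/
theorem step_crude (P : VPot d) {B1 A0 α S X CR ec εT εd : ℝ} (hB1 : 1 ≤ B1) (hA0 : 0 ≤ A0)
    (hα : 0 ≤ α) (hCR : 0 ≤ CR) (m : ℕ) :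
    ∃ C0 : ℝ, 0 ≤ C0 ∧ ∀ K N : ℕ, 0 < K → ∀ rA : ℝ, 0 ≤ rA → rA ≤ α + 1 → |rA - α| ≤ 1 →
      stepErr P B1 A0 α S X CR ec εT εd rA (2 * ((d : ℝ) * (d * gainB d B1)))
        (B1 + (2 : ℝ) ^ d * ((d : ℝ) ^ 2 * B1))
        (B1 + rA * ((d : ℝ) ^ 2 * (3 * rowB P ^ 2))) K m N ≤ C0 := by
  have hB0 : 0 ≤ B1 := zero_le_one.trans hB1
  set σc := 2 * ((d : ℝ) * (d * gainB d B1))
  set u0 := |X| + 2 * |P.bF| + (B1 + (2 : ℝ) ^ d * ((d : ℝ) ^ 2 * B1)) + |2 * (d * ec)|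
    + (B1 + (α + 1) * ((d : ℝ) ^ 2 * (3 * rowB P ^ 2))) + |gainS P B1 S * (1 / m)|
    + (|3 * Real.exp (6 * (transG P (gainB d B1) A0 * m)) * σc| + |εd|
      + 4 * (d : ℝ) ^ 2 * gainB d B1) + |εT| with hu0
  have q2 : (0 : ℝ) ≤ 4 * (d : ℝ) ^ 2 * gainB d B1 := by unfold gainB; positivity
  have q3 : (0 : ℝ) ≤ B1 + (2 : ℝ) ^ d * ((d : ℝ) ^ 2 * B1) := by positivity
  have q4 : (0 : ℝ) ≤ B1 + (α + 1) * ((d : ℝ) ^ 2 * (3 * rowB P ^ 2)) := by positivity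
  refine ⟨u0 * (2 + α * (1 + 2 * CR) + 3 * gainC P B1 α + 2 * incC P B1 A0),
    mul_nonneg (by positivity) (by
      have := (gainC_nonneg P hB1 hα).1
      have := incC_nonneg P (B1 := B1) hA0
      positivity), fun K N hK rA h0 h1 h2 => ?_⟩
  have hK' : 2 * |P.bF| / (K : ℝ) ≤ 2 * |P.bF| :=
    div_le_self (by positivity) (by exact_mod_cast hK)
  have hη2 : B1 + rA * ((d : ℝ) ^ 2 * (3 * rowB P ^ 2))
      ≤ B1 + (α + 1) * ((d : ℝ) ^ 2 * (3 * rowB P ^ 2)) :=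
    add_le_add le_rfl (mul_le_mul_of_nonneg_right h1 (by positivity))
  have hm : ((m : ℝ) / ((N + m : ℕ) : ℝ)) ≤ 1 :=
    div_le_one_of_le₀ (by exact_mod_cast Nat.le_add_left m N) (Nat.cast_nonneg _)
  have hinc : incX d P (gainB d B1) A0 σc εd m (N + m)
      ≤ |3 * Real.exp (6 * (transG P (gainB d B1) A0 * m)) * σc| + |εd|
        + 4 * (d : ℝ) ^ 2 * gainB d B1 :=
    add_le_add (add_le_add (le_abs_self _) (le_abs_self _))
      (mul_le_of_le_one_right q2 hm)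
  have p1 := abs_nonneg X
  have p2 := abs_nonneg P.bF
  have p3 := abs_nonneg (2 * ((d : ℝ) * ec))
  have p4 := abs_nonneg (gainS P B1 S * (1 / m))
  have p5 := abs_nonneg (3 * Real.exp (6 * (transG P (gainB d B1) A0 * m)) * σc)
  have p6 := abs_nonneg εd
  have p7 := abs_nonneg εT
  refine stepErr_le P hB1 hA0 hα hCR q3 ?_ ?_ ?_ ?_ h2 ?_ ?_ ?_ ?_ <;>
    simp only [hu0] <;>
    linarith [le_abs_self X, le_abs_self εT, le_abs_self (gainS P B1 S * (1 / m)),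
      le_abs_self (2 * ((d : ℝ) * ec))]

variable {γ : Fin d → ℝ} {κ L0 τ B : ℝ}

/-- The synchronisation data at small errors select an index with small errors. -/
theorem step_pick (P : VPot d) (hκ : 0 < κ) (hγ : ∀ k, 0 < γ k ∧ γ k ≤ 1) (hτ : 0 ≤ τ)
    (hB : 0 ≤ B) :
    ∃ Cs : ℝ, 0 ≤ Cs ∧ ∀ dd, GoodCentre γ κ L0 dd → ∀ K : ℕ, 0 < K → ∀ ρ > 0,
      ∀ ec ∈ Set.Icc (0 : ℝ) 1, ∃ QS : Finset (ℕ → Matrix (Fin d) (Fin d) ℝ), QS.Nonempty ∧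
        (∀ qS ∈ QS, IsPath K qS ∧ qS K = dTot dd + ec • (1 : Matrix (Fin d) (Fin d) ℝ) ∧
          ∀ l, l ≤ K → mabs (qS l) ≤ Cs) ∧
        ∀ {N M L J : ℕ} {εa : ℝ} {ν : Measure (Fin d → Fin N → ℝ)}
          (a : Atoms ν (cutSet B d N) εa) (hL : 0 < L)
          (Q : (t : Finset (Fin d)) → Finset (ℕ → Matrix (Fin t.card) (Fin t.card) ℝ)),
          0 < N → (∀ t, (Q t).Nonempty) → ∀ η θ εl ee ηr : ℝ, 0 ≤ η → 0 ≤ θ → 0 < ηr →
          εl ≤ pi0 K / 2 → ee + (2 : ℝ) ^ d * θ ≤ ec →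
          ∀ y : Fin (nker d (d * d)) × Fin N → ℝ, ∀ᶠ n in atTop,
            LevData (J := J) (M := M) (K := K) P γ hτ dd a hL (vsys (rowc 1) y) n ee εl →
            (∀ t, ∃ q : Fin (K + 1) → Matrix (Fin d) (Fin d) ℝ,
              TypeData (J := J) (M := M) (n := n) P γ hτ a hL (vsys (rowc 1) y) t θ q ∧
              (Occupied γ t → RespNear (J := J) (M := M) (K := K) P γ hτ dd a hL (vsys (rowc 1) y)
                n t (Q t) η q)) →
            ∀ (rA : ℝ) {m : ℕ} (e : Fin N ⊕ Fin m ≃ Fin (N + m)) (T : Fin m → Finset (Fin d)),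
              ∃ i ∈ QS ×ˢ Fintype.piFinset Q,
                rowGap γ K i ≤ Cs * (ρ + pi0 K) + Cs * (θ + η + 1 / (N : ℝ)) ∧
                RespGap P γ dd rA K
                  (η + ((M : ℝ) / N * ((d : ℝ) ^ 2 * (decK P (τ * B + Cs)
                      * (Cs * (ρ + θ + pi0 K) + (ee + d * ec)))) + ηr)
                    + |rA - (M : ℝ) / N| * ((d : ℝ) ^ 2 * (3 * rowB P ^ 2))) i ∧
                vmpair n P (penPrior (γ := γ) hτ (basicCoeffs d) a hL J) (noFac N d K)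
                    (oldC (M := M) N (vext y))
                    (fun _ => syncF (penPrior (γ := γ) hτ (basicCoeffs d) a hL J)
                      (stepFac (K := K) e T i.1 (respP γ dd K i.2)))
                  ≤ Cs * (ρ + θ + pi0 K) := by
  obtain ⟨Cs, hCs, h⟩ := step_choose (L0 := L0) P hκ hγ hτ hB (2 * (d : ℝ) ^ 2 * (τ * B) + 1)
  refine ⟨Cs, hCs, fun dd hdd K hK ρ hρ ec hec => ?_⟩
  obtain ⟨QS, h1, h2, h3⟩ := h dd hdd K hK ρ hρ ec hec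
  refine ⟨QS, h1, h2, fun {N M L J εa ν} a hL Q hN hQ η θ εl ee ηr hη hθ hηr hεl hee y => ?_⟩
  filter_upwards [h3 (M := M) (J := J) a hL N (vext y) Q hN hQ η θ εl ee ηr hη hθ hηr hεl hee]
    with n hn hlev ht
  refine hn (fun t => ?_) hlev.dev hlev.law
  obtain ⟨q, hq, hr⟩ := ht t
  exact ⟨q, hq.root, hq.step, hq.bound, hq.sync, hq.top, hr⟩

end Vale.Agent.P166.Casc
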