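import Vale.Agent.P166.Casc.VSlot
import Vale.Agent.P166.Formula.PathLip

/-!
The gain of one cavity step for given paths of the rows and of the types: the increment, the atoms
of the block and the exact identity of the entropy give the value of the paths, up to the errors of
the synchronisation.
-/

open MeasureTheory ProbabilityTheory Filter Topology
open Matrix hiding comp
open scoped MatrixOrder

namespace Vale.Agent.P166.Casc

open Vale.Agent.P157.Casc Vale.Agent.P166.Formula Vale.Agent.P166.Pen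
open Vale.Agent.P150.Fast.Dom (arrMap)

variable {d N N' m M mr R D K n : ℕ}

/-- The centre of the shell of a type, on all components. -/
noncomputable def cenM (γ : Fin d → ℝ) (dd : OIdx d → ℝ) (t : Finset (Fin d)) :
    Matrix (Fin d) (Fin d) ℝ :=
  Formula.liftM t (typD γ dd t)

theorem cenM_sub (γ : Fin d → ℝ) (dd : OIdx d → ℝ) (t : Finset (Fin d)) :
    (cenM γ dd t).submatrix (comp t) (comp t) = typD γ dd t := by
  ext b b'
  exact liftM_apply_comp _ b b'

/-- The responses of a family of paths. -/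
noncomputable def respP (γ : Fin d → ℝ) (dd : OIdx d → ℝ) (K : ℕ) (q : TPath d) : TPath d :=
  fun t => bestPath (gridM K) K (typD γ dd t) (q t)

/-- A row slot along a path, on no sites. -/
noncomputable def slotPhi (K : ℕ) (q : ℕ → Matrix (Fin d) (Fin d) ℝ) : VFac 0 d K :=
  (fun z l => if z = 0 then slotFac q l else fun _ _ => 0, fun _ j => j.elim0, fun j => j.elim0)

/-- The matrices of the level means of a slot along a path. -/
noncomputable def slotM (P : VPot d) (K : ℕ) (q : ℕ → Matrix (Fin d) (Fin d) ℝ)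
    (u : Fin (K + 1)) : Matrix (Fin d) (Fin d) ℝ :=
  Matrix.of (slotLev P (slotPhi K q) u)

theorem slotLev_stepFac (P : VPot d) (e : Fin N ⊕ Fin m ≃ Fin N') (T : Fin m → Finset (Fin d))
    (q : ℕ → Matrix (Fin d) (Fin d) ℝ)
    (p : (t : Finset (Fin d)) → ℕ → Matrix (Fin t.card) (Fin t.card) ℝ) (u : Fin (K + 1))
    (k l : Fin d) : slotLev P (stepFac e T q p) u k l = slotM P K q u k l := rfl

theorem abs_liftM_le (t : Finset (Fin d)) (X : Matrix (Fin t.card) (Fin t.card) ℝ) (k l : Fin d) :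
    |Formula.liftM t X k l| ≤ mabs X := by
  by_cases h : k ∈ t ∧ l ∈ t
  · obtain ⟨b, rfl⟩ := exists_comp h.1
    obtain ⟨b', rfl⟩ := exists_comp h.2
    rw [liftM_apply_comp]
    exact abs_le_mabs _ b b'
  · have h0 : Formula.liftM t X k l = 0 := by
      rw [liftM_apply]
      exact Finset.sum_eq_zero fun b _ => Finset.sum_eq_zero fun b' _ =>
        if_neg fun h' : comp t b = k ∧ comp t b' = l => h ⟨h'.1 ▸ comp_mem t b, h'.2 ▸ comp_mem t b'⟩
    rw [h0, abs_zero]
    exact mabs_nonneg _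

theorem sum_mul_liftM (A : Matrix (Fin d) (Fin d) ℝ) (t : Finset (Fin d))
    (X : Matrix (Fin t.card) (Fin t.card) ℝ) :
    ∑ k, ∑ l, A k l * Formula.liftM t X k l = ∑ b, ∑ b', A (comp t b) (comp t b') * X b b' := by
  simp only [liftM_apply, Finset.mul_sum, mul_ite, mul_zero]
  rw [Finset.sum_congr rfl fun k _ => Finset.sum_comm, Finset.sum_comm]
  refine Finset.sum_congr rfl fun b _ => ?_
  rw [Finset.sum_congr rfl fun k _ => Finset.sum_comm, Finset.sum_comm]
  exact Finset.sum_congr rfl fun b' _ => by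
    simp [ite_and, Finset.sum_ite_irrel, Finset.sum_ite_eq]

theorem abs_pair_le {ι κ : Type*} [Fintype ι] [Fintype κ] (A X : Matrix ι κ ℝ) {a : ℝ}
    (ha : ∀ k l, |A k l| ≤ a) : |∑ k, ∑ l, A k l * X k l| ≤ a * ∑ k, ∑ l, |X k l| := by
  simp only [Finset.mul_sum]
  refine (Finset.abs_sum_le_sum_abs _ _).trans (Finset.sum_le_sum fun k _ =>
    (Finset.abs_sum_le_sum_abs _ _).trans (Finset.sum_le_sum fun l _ => ?_))
  rw [abs_mul]
  exact mul_le_mul_of_nonneg_right (ha k l) (abs_nonneg _)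

theorem sum_abs_mul_le {ι : Type*} [Fintype ι] {x y : ι → ℝ} {A : ℝ} (hx : ∑ i, x i ^ 2 ≤ A)
    (hy : ∑ i, y i ^ 2 ≤ A) : ∑ i, |x i| * |y i| ≤ A := by
  have h : ∀ i, |x i| * |y i| ≤ (x i ^ 2 + y i ^ 2) / 2 := fun i => by
    nlinarith [sq_nonneg (|x i| - |y i|), sq_abs (x i), sq_abs (y i)]
  refine (Finset.sum_le_sum fun i _ => h i).trans ?_
  rw [← Finset.sum_div, Finset.sum_add_distrib]
  linarith

theorem sum_cfgOf_col {τ B : ℝ} (hτ : 0 ≤ τ) (γ : Fin d → ℝ) {ω : Fin d → Fin N → ℝ}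
    (hω : ω ∈ cutSet B d N) (k : Fin d) : ∑ j, cfgOf τ γ ω j k ^ 2 ≤ τ * B * N := by
  refine (Finset.sum_le_sum (g := fun j => τ * ω k j ^ 2) fun j _ => ?_).trans ?_
  · unfold cfgOf
    split_ifs
    · rw [mul_pow, Real.sq_sqrt hτ]
    · simp; positivity
  · rw [← Finset.mul_sum, mul_assoc]
    exact mul_le_mul_of_nonneg_left ((Finset.single_le_sum (f := fun k => ∑ j, ω k j ^ 2)
      (fun k _ => Finset.sum_nonneg fun j _ => sq_nonneg _) (Finset.mem_univ k)).trans hω) hτ

theorem sum_mask_col {τ B : ℝ} (hτ : 0 ≤ τ) (T : Fin m → Finset (Fin d))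
    {ω : Fin d → Fin m → ℝ} (hω : ω ∈ cutSet B d m) (k : Fin d) :
    ∑ i, maskCfg T τ ω i k ^ 2 ≤ τ * B * m := by
  refine (Finset.sum_le_sum (g := fun i => τ * ω k i ^ 2) fun i _ => ?_).trans ?_
  · unfold maskCfg
    split_ifs
    · rw [mul_pow, Real.sq_sqrt hτ]
    · simp; positivity
  · rw [← Finset.mul_sum, mul_assoc]
    exact mul_le_mul_of_nonneg_left ((Finset.single_le_sum (f := fun k => ∑ j, ω k j ^ 2)
      (fun k _ => Finset.sum_nonneg fun j _ => sq_nonneg _) (Finset.mem_univ k)).trans hω) hτ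

theorem abs_oldOv_pen {τ B ε : ℝ} {γ : Fin d → ℝ} {ν : Measure (Fin d → Fin N → ℝ)} {nA L J : ℕ}
    (hτ : 0 ≤ τ) (hB : 0 ≤ B) (A : Coeffs d nA) (a : Atoms ν (cutSet B d N) ε) (hL : 0 < L)
    (k l : Fin d) (σ σ' : Fin (penPrior (γ := γ) hτ A a hL J).c) :
    |oldOv (penPrior (γ := γ) hτ A a hL J) k l σ σ'| ≤ τ * B := by
  unfold oldOv
  rcases Nat.eq_zero_or_pos N with h | h
  · subst h
    simp only [Finset.univ_eq_empty, Finset.sum_empty, zero_div, abs_zero]
    positivity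
  have hN : (0 : ℝ) < N := Nat.cast_pos.2 h
  rw [abs_div, abs_of_pos hN, div_le_iff₀ hN]
  refine (Finset.abs_sum_le_sum_abs _ _).trans ?_
  simp only [abs_mul]
  exact sum_abs_mul_le (sum_cfgOf_col hτ γ (a.mem _) k) (sum_cfgOf_col hτ γ (a.mem _) l)

theorem dmAt_gridM (K l : ℕ) : dmAt (gridM K) l = pi0 K := by
  simp only [dmAt, gridM, pi0, ← sub_div]
  push_cast
  ring

theorem lmean_gridM (K : ℕ) {s : ℕ} (x : ℕ → Matrix (Fin s) (Fin s) ℝ) :
    lmean (gridM K) K x = pi0 K * ∑ u : Fin (K + 1), mabs (x u.val) := by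
  simp only [lmean, dmAt_gridM, Finset.mul_sum]
  exact (Fin.sum_univ_eq_sum_range (fun l => pi0 K * mabs (x l)) (K + 1)).symm

theorem pairing_gridM (K : ℕ) {s : ℕ} (p q : ℕ → Matrix (Fin s) (Fin s) ℝ) :
    pairing (gridM K) K p q = pi0 K * ∑ u : Fin (K + 1), ∑ b, ∑ b', p u.val b b' * q u.val b' b := by
  have h : ∀ l, gridM K (l + 1) - gridM K l = pi0 K := dmAt_gridM K
  simp only [pairing, cum, h, Matrix.trace_sum, Matrix.trace_smul, smul_eq_mul, Finset.mul_sum]
  rw [← Fin.sum_univ_eq_sum_range (fun l => pi0 K * (p l * q l).trace) (K + 1)]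
  refine Finset.sum_congr rfl fun u _ => ?_
  simp only [Matrix.trace, Matrix.diag_apply, Matrix.mul_apply, Finset.mul_sum]

theorem abs_rowCasc_le (P : VPot d) {J : Type} [Fintype J] (A0 : Fin d → J → ℝ)
    (S : Fin K → Fin d → J → ℝ) : |rowCasc P.f A0 S| ≤ |P.bF| := by
  have key : ∀ z, |casc (gaus J) K (mlev K) (fun y => P.f (rowFld S (arrMap A0 z) y))| ≤ |P.bF| :=
    fun z => P157.Casc.casc_bdd _ _ (P157.Casc.grid_mlev K).pos (P.cf.measurable.comp
      ((continuous_rowFld S).measurable.comp measurable_prodMk_left))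
      fun y => (P.hF _).trans (le_abs_self _)
  rw [rowCasc, ← Real.norm_eq_abs]
  refine (norm_integral_le_of_norm_le_const (C := |P.bF|) (ae_of_all _ fun z =>
    (Real.norm_eq_abs _).trans_le (key z))).trans_eq ?_
  simp

/-- The bound used for the overlaps and pairs of a step. -/
noncomputable def gainB (d : ℕ) (B1 : ℝ) : ℝ := ((d : ℝ) ^ 2 + 1) * B1 ^ 2

/-- The bound of the self-overlaps of a block from the end of the path. -/
noncomputable def gainT (d : ℕ) (B1 es ec : ℝ) (m : ℕ) : ℝ :=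
  (d : ℝ) ^ 2 * ((2 : ℝ) ^ d * (2 * B1) / m + es + ec)

variable {τ B εa : ℝ} {γ : Fin d → ℝ} {ν : Measure (Fin d → Fin N → ℝ)} {nA L J0 : ℕ}

/-- The conditions on a family of paths of the types and on their responses. -/
structure StepPaths (γ : Fin d → ℝ) (dd : OIdx d → ℝ) (K : ℕ) (B1 : ℝ) (q : TPath d) : Prop where
  path : ∀ t, t = ∅ ∨ Occupied γ t → IsPath K (q t)
  top : ∀ t, t = ∅ ∨ Occupied γ t → (typD γ dd t - q t K).PosDef
  bound : ∀ t, t = ∅ ∨ Occupied γ t → ∀ l, l ≤ K → mabs (q t l) ≤ B1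
  resp : ∀ t, t = ∅ ∨ Occupied γ t → IsPath K (respP γ dd K q t) ∧ respP γ dd K q t 0 = 0 ∧
    ∀ l, l ≤ K → mabs (respP γ dd K q t l) ≤ B1
  cen : ∀ t, t = ∅ ∨ Occupied γ t → mabs (typD γ dd t) ≤ B1

theorem hcen_occ (hγ : ∀ k, 0 < γ k ∧ γ k ≤ 1) {t : Finset (Fin d)} (h : tfrac γ t ≠ 0) :
    t = ∅ ∨ Occupied γ t := by
  rcases t.eq_empty_or_nonempty with h' | h'
  · exact Or.inl h'
  · exact Or.inr (by_contra fun ho => h (tfrac_eq_zero hγ h' ho))

theorem typSize_eq_zero (T : Fin m → Finset (Fin d)) {t : Finset (Fin d)}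
    (ht : t ∉ Finset.univ.image T) : typSize T t = 0 := by
  rw [typSize, Finset.card_eq_zero, typSet, Finset.filter_eq_empty_iff]
  exact fun i _ h => ht (h ▸ Finset.mem_image_of_mem T (Finset.mem_univ i))

theorem sum_typSize (T : Fin m → Finset (Fin d)) : ∑ t, (typSize T t : ℝ) = m := by
  rw [← Nat.cast_sum]
  congr 1
  simp only [typSize, typSet]
  rw [← Finset.card_eq_sum_card_fiberwise (fun i _ => Finset.mem_univ _)]
  simp

variable {N' : ℕ} (e : Fin N ⊕ Fin m ≃ Fin N') (T : Fin m → Finset (Fin d))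
  (qS : ℕ → Matrix (Fin d) (Fin d) ℝ) {εb es B1 : ℝ}
  {D0 : Finset (Fin d) → Matrix (Fin d) (Fin d) ℝ}
  (aW : Atoms ((spinLaw d m).restrict (shellSet T τ es B D0)) (shellSet T τ es B D0) εb)
  {dd : OIdx d → ℝ} {q : TPath d}

theorem pair_le_block (hτ : 0 ≤ τ) (hm : 0 < m) (s s' : Fin (atomBlock T τ aW).c) (k l : Fin d)
    (c : Fin m → ℝ) {b : ℝ} (hc : ∀ i, |c i| ≤ b) :
    |∑ i, (atomBlock T τ aW).cfg s i k * (atomBlock T τ aW).cfg s' i l * c i|
      ≤ m * (τ * B * b) := by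
  have h := sum_abs_mul_le (sum_mask_col hτ T ((aW.mem s).1) k) (sum_mask_col hτ T ((aW.mem s').1) l)
  have hb : 0 ≤ b := (abs_nonneg _).trans (hc ⟨0, hm⟩)
  refine (Finset.abs_sum_le_sum_abs _ _).trans ?_
  refine (Finset.sum_le_sum (g := fun i => |(atomBlock T τ aW).cfg s i k| * |(atomBlock T τ aW).cfg s' i l| * b) fun i _ => ?_).trans ?_
  · rw [abs_mul, abs_mul]
    exact mul_le_mul_of_nonneg_left (hc i) (by positivity)
  · rw [← Finset.sum_mul]
    calc (∑ i, |(atomBlock T τ aW).cfg s i k| * |(atomBlock T τ aW).cfg s' i l|) * b ≤ τ * B * m * b :=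
          mul_le_mul_of_nonneg_right h hb
      _ = _ := by ring

/-- The bounds of a step. -/
theorem cavB_step (hτ : 0 ≤ τ) (hB : 0 ≤ B) (hB1 : 1 ≤ B1) (hτB : τ * B ≤ B1)
    (A : Coeffs d nA) (a : Atoms ν (cutSet B d N) εa) (hL : 0 < L) (hm : 0 < m) {M mr : ℕ} {A0 : ℝ}
    (hA0 : ((M + mr : ℕ) : ℝ) ≤ A0 * N') (hA0' : (mr : ℝ) ≤ A0 * m)
    (hT : ∀ i, T i = ∅ ∨ Occupied γ (T i)) (hqS : IsPath K qS)
    (hqSb : ∀ l, l ≤ K → mabs (qS l) ≤ B1) (hq : StepPaths γ dd K B1 q) :
    CavB (penPrior (γ := γ) hτ A a hL J0) (atomBlock T τ aW) e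
      (stepFac (K := K) e T qS (respP γ dd K q)) M mr (gainB d B1) A0 := by
  set π := penPrior (γ := γ) hτ A a hL J0
  set p := respP γ dd K q
  have hm' : (0 : ℝ) < m := Nat.cast_pos.2 hm
  have hA0n : 0 ≤ A0 := by
    by_contra h
    nlinarith [(Nat.cast_nonneg (α := ℝ) mr)]
  have hBc : B1 ≤ gainB d B1 := by
    unfold gainB
    nlinarith [mul_le_mul_of_nonneg_right hB1 (zero_le_one.trans hB1), sq_nonneg ((d : ℝ) * B1)]
  have hrow := fun u k l => rowCum_stepFac e T qS p hqS u k l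
  have hspin := fun i u k l => spinCum_stepFac e T qS p (fun i => (hq.resp _ (hT i)).1)
    (fun i => (hq.resp _ (hT i)).2.1) i u k l
  have hpair := fun s s' k l (c : Fin m → ℝ) b => pair_le_block T aW hτ hm s s' k l c (b := b)
  refine ⟨le_trans (by linarith) hBc, hA0n, fun k l s s' =>
    ((abs_oldOv_pen hτ hB A a hL k l s s').trans hτB).trans hBc, fun k l s s' => ?_,
    fun u k l => ?_, fun u s s' => ?_, hA0, hA0'⟩
  · unfold newOv
    rw [abs_div, abs_of_pos hm', div_le_iff₀ hm']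
    have h := hpair s s' k l (fun _ => 1) 1 fun _ => by simp
    simp only [mul_one] at h
    nlinarith
  · rw [hrow]
    exact (abs_le_mabs _ k l).trans ((hqSb _ (Nat.lt_succ_iff.1 u.isLt)).trans hBc)
  · simp only [spinPair]
    rw [Finset.sum_comm]
    refine (Finset.abs_sum_le_sum_abs _ _).trans
      ((Finset.sum_le_sum (g := fun _ => (d : ℝ) * (m * (τ * B * B1))) fun k _ => ?_).trans ?_)
    · rw [Finset.sum_comm]
      refine (Finset.abs_sum_le_sum_abs _ _).trans ((Finset.sum_le_sum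
        (g := fun _ => (m : ℝ) * (τ * B * B1)) fun l _ => hpair s s' k l _ B1 fun i => ?_).trans_eq
          (by simp))
      rw [hspin]
      exact (abs_liftM_le _ _ _ _).trans ((hq.resp _ (hT i)).2.2 _ (Nat.lt_succ_iff.1 u.isLt))
    · simp only [Finset.sum_const, Finset.card_univ, Fintype.card_fin, nsmul_eq_mul, gainB]
      have h1 : τ * B * B1 ≤ B1 ^ 2 := by nlinarith
      nlinarith [mul_le_mul_of_nonneg_left h1 (mul_nonneg (mul_nonneg (Nat.cast_nonneg (α := ℝ) d)
        (Nat.cast_nonneg (α := ℝ) d)) hm'.le), mul_nonneg hm'.le (sq_nonneg B1)]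

/-- The defect of the responses from the means of the slot. -/
noncomputable def stepDev (P : VPot d) (γ : Fin d → ℝ) (dd : OIdx d → ℝ) (rA : ℝ)
    (qS : ℕ → Matrix (Fin d) (Fin d) ℝ) (q : TPath d) (t : Finset (Fin d)) (u : Fin (K + 1)) :
    Matrix (Fin t.card) (Fin t.card) ℝ :=
  respP γ dd K q t u.val - rA • (slotM P K qS u).submatrix (comp t) (comp t)

theorem dp_step (P : VPot d) (hτ : 0 ≤ τ) (hB1 : 1 ≤ B1) (hτB : τ * B ≤ B1) (hm : 0 < m)
    (rA : ℝ) (hT : ∀ i, T i = ∅ ∨ Occupied γ (T i)) (hq : StepPaths γ dd K B1 q)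
    (u : Fin (K + 1)) (s s' : Fin (atomBlock T τ aW).c) :
    |spinPair (atomBlock T τ aW) e (stepFac (K := K) e T qS (respP γ dd K q)) u s s' - rA * (m *
        ∑ k, ∑ l, slotLev P (stepFac (K := K) e T qS (respP γ dd K q)) u k l
          * newOv (atomBlock T τ aW) k l s s')|
      ≤ m * ((d : ℝ) ^ 2 * B1 * ∑ t ∈ Finset.univ.image T, mabs (stepDev P γ dd rA qS q t u)) := by
  set p := respP γ dd K q
  set Φ := stepFac (K := K) e T qS p
  set TT := Finset.univ.image T
  set dev := fun t (u : Fin (K + 1)) => stepDev P γ dd rA qS q t u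
  have hm' : (0 : ℝ) < m := Nat.cast_pos.2 hm
  have hspin := fun i u k l => spinCum_stepFac e T qS p (fun i => (hq.resp _ (hT i)).1)
    (fun i => (hq.resp _ (hT i)).2.1) i u k l
  have hpair := fun s s' k l (c : Fin m → ℝ) b => pair_le_block T aW hτ hm s s' k l c (b := b)
  have e1 : spinPair (atomBlock T τ aW) e Φ u s s' - rA * (m * ∑ k, ∑ l, slotLev P Φ u k l * newOv (atomBlock T τ aW) k l s s')
      = ∑ k, ∑ l, ∑ i, (atomBlock T τ aW).cfg s i k * (atomBlock T τ aW).cfg s' i l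
          * (Formula.liftM (T i) (p (T i) u.val) k l - rA * slotM P K qS u k l) := by
    simp only [spinPair, mul_sub, Finset.sum_sub_distrib]
    congr 1
    · rw [Finset.sum_comm]
      refine Finset.sum_congr rfl fun k _ => ?_
      rw [Finset.sum_comm]
      exact Finset.sum_congr rfl fun l _ => Finset.sum_congr rfl fun i _ => by rw [hspin]
    · simp only [Finset.mul_sum, newOv,
        show ∀ k l, slotLev P Φ u k l = slotM P K qS u k l from fun _ _ => rfl]
      refine Finset.sum_congr rfl fun k _ => Finset.sum_congr rfl fun l _ => ?_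
      rw [Finset.sum_div, Finset.mul_sum, Finset.mul_sum, Finset.mul_sum]
      exact Finset.sum_congr rfl fun i _ => by field_simp
  refine (le_of_eq (congrArg abs e1)).trans ?_
  have hone : ∀ k l, |∑ i, (atomBlock T τ aW).cfg s i k * (atomBlock T τ aW).cfg s' i l
      * (Formula.liftM (T i) (p (T i) u.val) k l - rA * slotM P K qS u k l)|
      ≤ m * (τ * B * ∑ t ∈ TT, mabs (dev t u)) := fun k l => by
    have e2 : ∀ i, (atomBlock T τ aW).cfg s i k * (atomBlock T τ aW).cfg s' i l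
        * (Formula.liftM (T i) (p (T i) u.val) k l - rA * slotM P K qS u k l)
        = (atomBlock T τ aW).cfg s i k * (atomBlock T τ aW).cfg s' i l
          * (if k ∈ T i ∧ l ∈ T i then
              Formula.liftM (T i) (p (T i) u.val) k l - rA * slotM P K qS u k l else 0) := by
      intro i
      split_ifs with h
      · rfl
      · rcases not_and_or.1 h with h | h <;> simp [atomBlock, maskCfg, h]
    rw [Finset.sum_congr rfl fun i _ => e2 i]
    refine hpair s s' k l _ _ fun i => ?_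
    refine le_trans ?_ (Finset.single_le_sum (f := fun t => mabs (dev t u))
      (fun t _ => mabs_nonneg _) (Finset.mem_image_of_mem T (Finset.mem_univ i)))
    split_ifs with h
    · obtain ⟨b, rfl⟩ := exists_comp h.1
      obtain ⟨b', rfl⟩ := exists_comp h.2
      rw [liftM_apply_comp]
      exact abs_le_mabs (dev (T i) u) b b'
    · simpa using mabs_nonneg _
  refine (Finset.abs_sum_le_sum_abs _ _).trans ((Finset.sum_le_sum fun k _ =>
    (Finset.abs_sum_le_sum_abs _ _).trans (Finset.sum_le_sum fun l _ => hone k l)).trans ?_)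
  simp only [Finset.sum_const, Finset.card_univ, Fintype.card_fin, nsmul_eq_mul]
  have h0 : 0 ≤ ∑ t ∈ TT, mabs (dev t u) := Finset.sum_nonneg fun t _ => mabs_nonneg _
  nlinarith [mul_le_mul_of_nonneg_left (mul_le_mul_of_nonneg_right hτB h0)
    (mul_nonneg (mul_nonneg (Nat.cast_nonneg (α := ℝ) d) (Nat.cast_nonneg (α := ℝ) d)) hm'.le)]

theorem devT_step (hγ : ∀ k, 0 < γ k ∧ γ k ≤ 1) (hdd : Clean γ dd) (hB1 : 1 ≤ B1) (hm : 0 < m)
    (hes : 0 ≤ es) (hD0 : D0 = cenM γ dd) {ec : ℝ} (hec : 0 ≤ ec) (hT : ∀ i, T i = ∅ ∨ Occupied γ (T i))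
    (hcnt : ∀ t, |(typSize T t : ℝ) - m * tfrac γ t| ≤ 2) (hqS : IsPath K qS)
    (htop : qS K = dTot dd + ec • (1 : Matrix (Fin d) (Fin d) ℝ)) (hq : StepPaths γ dd K B1 q)
    (s : Fin (atomBlock T τ aW).c) :
    devT (atomBlock T τ aW) (stepFac (K := K) e T qS (respP γ dd K q)) s ≤ gainT d B1 es ec m := by
  subst hD0
  set p := respP γ dd K q
  set TT := Finset.univ.image T
  have hm' : (0 : ℝ) < m := Nat.cast_pos.2 hm
  have hrow := fun u k l => rowCum_stepFac e T qS p hqS u k l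
  have hTT : ∀ t ∈ TT, t = ∅ ∨ Occupied γ t := fun t ht => by
    obtain ⟨i, -, rfl⟩ := Finset.mem_image.1 ht
    exact hT i
  have hcen : ∀ t, tfrac γ t ≠ 0 → t = ∅ ∨ Occupied γ t := fun t => hcen_occ hγ
  have hsz : ∀ t ∉ TT, typSize T t = 0 := fun t => typSize_eq_zero T
  have hsum := sum_typSize T
  simp only [devT, gainT]
  refine (Finset.sum_le_sum (g := fun _ => (d : ℝ) * ((2 : ℝ) ^ d * (2 * B1) / m + es + ec))
    fun k _ => (Finset.sum_le_sum (g := fun _ => (2 : ℝ) ^ d * (2 * B1) / m + es + ec) fun l _ => ?_).trans_eq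
      (by simp; ring)).trans_eq (by simp; ring)
  rw [hrow, Fin.val_last, htop, dTot_eq hγ hdd]
  have e1 : newOv (atomBlock T τ aW) k l s s = ∑ t, (typSize T t : ℝ) / m * typeOv T τ (aW.x s) t k l := by
    simp only [newOv, atomBlock, typeOv, typSet, typSize]
    rw [Finset.sum_div, ← Finset.sum_fiberwise_of_maps_to (g := T) (t := Finset.univ)
      fun i _ => Finset.mem_univ _]
    refine Finset.sum_congr rfl fun t _ => ?_
    rw [← Finset.sum_div]
    rcases Nat.eq_zero_or_pos (Finset.univ.filter fun i => T i = t).card with h | h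
    · rw [Finset.card_eq_zero] at h
      simp [h]
    · field_simp
  have hclose : ∀ t, |(typSize T t : ℝ) / m * typeOv T τ (aW.x s) t k l
      - tfrac γ t * cenM γ dd t k l| ≤ 2 * B1 / m + (typSize T t : ℝ) / m * es := fun t => by
    have hc : |cenM γ dd t k l| * |(typSize T t : ℝ) / m - tfrac γ t| ≤ 2 * B1 / m := by
      rcases eq_or_ne (tfrac γ t) 0 with h0 | h0
      · rcases eq_or_ne (typSize T t) 0 with h1 | h1
        · simp [h0, h1]; positivity
        · have ht : t ∈ TT := by_contra fun h => h1 (hsz t h)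
          refine (mul_le_mul ((abs_liftM_le _ _ _ _).trans (hq.cen t (hTT t ht))) le_rfl
            (abs_nonneg _) (by linarith)).trans ?_
          rw [show (typSize T t : ℝ) / m - tfrac γ t = ((typSize T t : ℝ) - m * tfrac γ t) / m by
            field_simp, abs_div, abs_of_pos hm']
          have := div_le_div_of_nonneg_right (hcnt t) hm'.le
          have h2 := mul_le_mul_of_nonneg_left this (show 0 ≤ B1 by linarith)
          calc B1 * (|(typSize T t : ℝ) - m * tfrac γ t| / m) ≤ B1 * (2 / m) := h2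
            _ = _ := by ring
      · refine (mul_le_mul ((abs_liftM_le _ _ _ _).trans (hq.cen t (hcen t h0))) le_rfl
          (abs_nonneg _) (by linarith)).trans ?_
        rw [show (typSize T t : ℝ) / m - tfrac γ t = ((typSize T t : ℝ) - m * tfrac γ t) / m by
          field_simp, abs_div, abs_of_pos hm']
        have := div_le_div_of_nonneg_right (hcnt t) hm'.le
        have h2 := mul_le_mul_of_nonneg_left this (show 0 ≤ B1 by linarith)
        calc B1 * (|(typSize T t : ℝ) - m * tfrac γ t| / m) ≤ B1 * (2 / m) := h2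
          _ = _ := by ring
    have hs : |typeOv T τ (aW.x s) t k l - cenM γ dd t k l| * ((typSize T t : ℝ) / m)
        ≤ (typSize T t : ℝ) / m * es := by
      rw [mul_comm]
      rcases eq_or_ne (typSize T t) 0 with h1 | h1
      · simp [h1]
      refine mul_le_mul_of_nonneg_left ?_ (by positivity)
      have ht : t ∈ TT := by_contra fun h => h1 (hsz t h)
      obtain ⟨i, -, rfl⟩ := Finset.mem_image.1 ht
      by_cases h : k ∈ T i ∧ l ∈ T i
      · exact (aW.mem s).2 i k h.1 l h.2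
      · have z1 : typeOv T τ (aW.x s) (T i) k l = 0 := by
          rw [typeOv, Finset.sum_eq_zero fun j hj => ?_, zero_div]
          rw [typSet, Finset.mem_filter] at hj
          rcases not_and_or.1 h with h | h <;> simp [maskCfg, hj.2, h]
        have z2 : cenM γ dd (T i) k l = 0 := by
          rw [cenM, liftM_apply]
          exact Finset.sum_eq_zero fun b _ => Finset.sum_eq_zero fun b' _ => if_neg fun h' : comp (T i) b = k ∧ comp (T i) b' = l =>
            h ⟨h'.1 ▸ comp_mem _ b, h'.2 ▸ comp_mem _ b'⟩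
        simp [z1, z2, hes]
    calc |(typSize T t : ℝ) / m * typeOv T τ (aW.x s) t k l - tfrac γ t * cenM γ dd t k l|
        = |(typeOv T τ (aW.x s) t k l - cenM γ dd t k l) * ((typSize T t : ℝ) / m)
            + cenM γ dd t k l * ((typSize T t : ℝ) / m - tfrac γ t)| := by ring_nf
      _ ≤ _ := (abs_add_le _ _).trans (by
          rw [abs_mul, abs_mul, abs_of_nonneg (by positivity : (0 : ℝ) ≤ (typSize T t : ℝ) / m)]
          linarith)
  rw [e1, Matrix.add_apply, Matrix.sum_apply, ← sub_sub, ← Finset.sum_sub_distrib]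
  refine (abs_sub _ _).trans (add_le_add ?_ ?_)
  · refine (Finset.abs_sum_le_sum_abs _ _).trans ((Finset.sum_le_sum fun t _ => hclose t).trans_eq ?_)
    rw [Finset.sum_add_distrib, ← Finset.sum_mul]
    simp only [← Finset.sum_div, hsum, div_self hm'.ne']
    simp [mul_div_assoc]
  · rw [Matrix.smul_apply, Matrix.one_apply, smul_eq_mul, abs_mul, abs_of_nonneg hec]
    exact mul_le_of_le_one_right hec (by split_ifs <;> norm_num)

/-- The atoms of the block give the values of the tilted spins of the types. -/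
theorem block_step (hγ : ∀ k, 0 < γ k ∧ γ k ≤ 1) (hD0 : D0 = cenM γ dd) {S X : ℝ}
    (hT : ∀ i, T i = ∅ ∨ Occupied γ (T i))
    (hcnt : ∀ t, |(typSize T t : ℝ) - m * tfrac γ t| ≤ 2) (hq : StepPaths γ dd K B1 q)
    (hent : ∀ t, t = ∅ ∨ Occupied γ t → |ent (gridM K) K τ (typD γ dd t) (q t)| ≤ S)
    (hatom : ∑ i, (spinVal (gridM K) K τ ((D0 (T i)).submatrix (comp (T i)) (comp (T i)))
          (bestTilt (gridM K) K (typD γ dd (T i)) (q (T i))) (respP γ dd K q (T i)) - X)
        ≤ atomVal (atomBlock T τ aW) (siteFac T K (respP γ dd K q))) :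
    (m : ℝ) * (∑ t, tfrac γ t * ent (gridM K) K τ (typD γ dd t) (q t))
        - m / 2 * (∑ t, tfrac γ t * pairing (gridM K) K (respP γ dd K q t) (q t))
        - (2 : ℝ) ^ d * (2 * (|S| + B1 ^ 2)) - m * X
      ≤ atomVal (atomBlock T τ aW) (blkS (stepFac (K := K) e T qS (respP γ dd K q)) e) := by
  subst hD0
  set p := respP γ dd K q
  set Φ := stepFac (K := K) e T qS p
  set TT := Finset.univ.image T
  have hπ0 : 0 ≤ pi0 K := by rw [pi0]; positivity
  have hTT : ∀ t ∈ TT, t = ∅ ∨ Occupied γ t := fun t ht => by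
    obtain ⟨i, -, rfl⟩ := Finset.mem_image.1 ht
    exact hT i
  have hcen : ∀ t, tfrac γ t ≠ 0 → t = ∅ ∨ Occupied γ t := fun t => hcen_occ hγ
  have hsz : ∀ t ∉ TT, typSize T t = 0 := fun t => typSize_eq_zero T
  have hsp : ∀ t, t = ∅ ∨ Occupied γ t → |ent (gridM K) K τ (typD γ dd t) (q t)
      - pairing (gridM K) K (p t) (q t) / 2| ≤ |S| + B1 ^ 2 := fun t ht => by
    have hB0 : 0 ≤ B1 := (mabs_nonneg _).trans (hq.cen t ht)
    refine (abs_sub _ _).trans (add_le_add ((hent t ht).trans (le_abs_self S)) ?_)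
    rw [pairing_gridM, abs_div, abs_mul, abs_of_nonneg hπ0, abs_two]
    have h1 : ∀ u : Fin (K + 1), |∑ b, ∑ b', p t u.val b b' * q t u.val b' b| ≤ B1 * B1 :=
      fun u => (Finset.abs_sum_le_sum_abs _ _).trans ((Finset.sum_le_sum fun b _ =>
        (Finset.abs_sum_le_sum_abs _ _).trans (Finset.sum_le_sum (g := fun b' => |p t u.val b b'| * B1)
          fun b' _ => by
            rw [abs_mul]
            exact mul_le_mul_of_nonneg_left ((abs_le_mabs _ b' b).trans
              (hq.bound t ht _ (Nat.lt_succ_iff.1 u.isLt))) (abs_nonneg _))).trans (by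
        simp only [← Finset.sum_mul]
        exact mul_le_mul_of_nonneg_right ((hq.resp t ht).2.2 _ (Nat.lt_succ_iff.1 u.isLt))
          (by linarith)))
    have h2 := mul_le_mul_of_nonneg_left ((Finset.abs_sum_le_sum_abs _ _).trans
      (Finset.sum_le_sum fun u (_ : u ∈ Finset.univ) => h1 u)) hπ0
    rw [Finset.sum_const, Finset.card_univ, Fintype.card_fin, nsmul_eq_mul, ← mul_assoc] at h2
    have h3 : pi0 K * ((K + 1 : ℕ) : ℝ) = 1 := by
      rw [pi0]; push_cast; field_simp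
    rw [h3, one_mul] at h2
    nlinarith [mul_nonneg hπ0 (abs_nonneg (∑ u : Fin (K + 1), ∑ b, ∑ b', p t u.val b b' * q t u.val b' b))]
  set sv := fun t => ent (gridM K) K τ (typD γ dd t) (q t) - pairing (gridM K) K (p t) (q t) / 2
  have hlin : (m : ℝ) * (∑ t, tfrac γ t * ent (gridM K) K τ (typD γ dd t) (q t))
      - m / 2 * (∑ t, tfrac γ t * pairing (gridM K) K (p t) (q t))
      = (m : ℝ) * ∑ t, tfrac γ t * sv t := by
    simp only [sv, mul_sub, Finset.sum_sub_distrib, Finset.mul_sum]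
    congr 1
    exact Finset.sum_congr rfl fun t _ => by ring
  rw [hlin]
  rw [show blkS Φ e = siteFac T K p from funext fun i => blkS_stepFac e T qS p i]
  refine le_trans ?_ hatom
  rw [Finset.sum_sub_distrib, Finset.sum_const, Finset.card_univ, Fintype.card_fin, nsmul_eq_mul]
  refine sub_le_sub_right ?_ _
  have e2 : ∀ i, spinVal (gridM K) K τ ((cenM γ dd (T i)).submatrix (comp (T i)) (comp (T i)))
      (bestTilt (gridM K) K (typD γ dd (T i)) (q (T i))) (p (T i)) = sv (T i) := fun i => by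
    rw [cenM_sub]
    have h := bestPath_eq_ent (gridM_levels K) τ (hq.path _ (hT i)) (hq.top _ (hT i))
    simp only [sv, p, respP]
    linarith
  have e3 : ∑ i, sv (T i) = ∑ t, (typSize T t : ℝ) * sv t := by
    rw [← Finset.sum_fiberwise_of_maps_to (g := T) (t := Finset.univ) fun i _ => Finset.mem_univ _]
    refine Finset.sum_congr rfl fun t _ => ?_
    rw [Finset.sum_congr rfl fun i hi => congrArg sv (Finset.mem_filter.1 hi).2, Finset.sum_const,
      nsmul_eq_mul]
    rfl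
  rw [Finset.sum_congr rfl fun i _ => e2 i, e3, Finset.mul_sum]
  have hd : ∀ t, (m : ℝ) * (tfrac γ t * sv t) - 2 * (|S| + B1 ^ 2)
      ≤ (typSize T t : ℝ) * sv t := fun t => by
    by_cases ht : t = ∅ ∨ Occupied γ t
    · have h := (abs_mul _ _).trans_le (mul_le_mul (hcnt t) (hsp t ht) (abs_nonneg _) zero_le_two)
      simp only [sv]
      linarith [(abs_le.1 h).1]
    · rw [show tfrac γ t = 0 from by_contra fun h => ht (hcen t h),
        hsz t fun h => ht (hTT t h)]
      have : 0 ≤ |S| + B1 ^ 2 := by positivity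
      simp only [zero_mul, mul_zero, Nat.cast_zero, zero_sub]
      linarith
  have := Finset.sum_le_sum fun t (_ : t ∈ Finset.univ) => hd t
  rw [Finset.sum_sub_distrib, Finset.sum_const, Finset.card_univ, Fintype.card_finset,
    Fintype.card_fin, nsmul_eq_mul] at this
  push_cast at this
  linarith

/-- The pairing of the slot with the means of its gradient. -/
theorem pair_step (P : VPot d) (hγ : ∀ k, 0 < γ k ∧ γ k ≤ 1) (hB1 : 1 ≤ B1) {rA α η1 η2 : ℝ}
    (hrA : 0 ≤ rA) (hqS : IsPath K qS) (hq : StepPaths γ dd K B1 q)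
    (hη1 : pi0 K * ∑ u : Fin (K + 1), mabs (qS u.val - qTot γ q u.val) ≤ η1)
    (hη2 : ∀ t, Occupied γ t → pi0 K * ∑ u : Fin (K + 1), mabs (stepDev P γ dd rA qS q t u) ≤ η2) :
    ∑ t, tfrac γ t * pairing (gridM K) K (respP γ dd K q t) (q t)
      - ((rA + |rA - α|) * (3 * rowB P ^ 2) * max η1 0 + (2 : ℝ) ^ d * B1 * max η2 0)
      ≤ pi0 K * (rA * ∑ u, ∑ k, ∑ l, rowCum (stepFac (K := K) e T qS (respP γ dd K q)) u k l
          * slotLev P (stepFac (K := K) e T qS (respP γ dd K q)) u k l) := by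
  set G := 3 * rowB P ^ 2
  have hG : 0 ≤ G := by positivity
  have hπ0 : 0 ≤ pi0 K := by rw [pi0]; positivity
  set p := respP γ dd K q
  set Φ := stepFac (K := K) e T qS p
  set dev := fun t (u : Fin (K + 1)) => stepDev P γ dd rA qS q t u
  have hrow := fun u k l => rowCum_stepFac e T qS p hqS u k l
  have hcen : ∀ t, tfrac γ t ≠ 0 → t = ∅ ∨ Occupied γ t := fun t => hcen_occ hγ
  have hSb : ∀ u k l, |slotM P K qS u k l| ≤ G := fun u k l => abs_slotLev_le P _ u k l
  have h1 : |pi0 K * ∑ u : Fin (K + 1), ∑ k, ∑ l, (qS u.val - qTot γ q u.val) k l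
      * slotM P K qS u k l| ≤ G * max η1 0 := by
    rw [abs_mul, abs_of_nonneg hπ0]
    refine (mul_le_mul_of_nonneg_left ((Finset.abs_sum_le_sum_abs _ _).trans
      (Finset.sum_le_sum (g := fun u : Fin (K + 1) => G * mabs (qS u.val - qTot γ q u.val))
        fun u _ => ?_)) hπ0).trans ?_
    · rw [mul_comm G]
      simp only [mabs, Finset.sum_mul]
      refine (Finset.abs_sum_le_sum_abs _ _).trans (Finset.sum_le_sum fun k _ =>
        (Finset.abs_sum_le_sum_abs _ _).trans (Finset.sum_le_sum fun l _ => ?_))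
      rw [abs_mul]
      exact mul_le_mul_of_nonneg_left (hSb u k l) (abs_nonneg _)
    · rw [← Finset.mul_sum, ← mul_assoc, mul_comm _ G, mul_assoc]
      exact mul_le_mul_of_nonneg_left (hη1.trans (le_max_left _ _)) hG
  have h2 : ∀ t, tfrac γ t * pairing (gridM K) K (p t) (q t)
      - rA * (pi0 K * ∑ u : Fin (K + 1), ∑ k, ∑ l,
        tfrac γ t * Formula.liftM t (q t u.val) k l * slotM P K qS u k l) ≤ B1 * max η2 0 := by
    intro t
    rcases eq_or_ne (tfrac γ t) 0 with h0 | h0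
    · simp only [h0, zero_mul, Finset.sum_const_zero, mul_zero, sub_zero]
      exact mul_nonneg (by linarith) (le_max_right _ _)
    rcases hcen t h0 with h | h
    · subst h
      have hz : ∀ (u : Fin (K + 1)) k l, Formula.liftM ∅ (q ∅ u.val) k l = 0 := fun u k l => by
        rw [liftM_apply]
        exact Finset.sum_eq_zero fun b _ => absurd b.isLt (by simp)
      have hz' : pairing (gridM K) K (p ∅) (q ∅) = 0 := by
        rw [pairing, Matrix.trace]
        exact Finset.sum_eq_zero fun b _ => absurd b.isLt (by simp)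
      simp only [hz, hz', mul_zero, zero_mul, Finset.sum_const_zero, sub_zero]
      exact mul_nonneg (by linarith) (le_max_right _ _)
    have hsym : ∀ u : Fin (K + 1), ∀ b b', q t u.val b' b = q t u.val b b' := fun u b b' => by
      simpa using ((hq.path t (Or.inr h)).psd (Nat.lt_succ_iff.1 u.isLt)).isHermitian.apply b b'
    have e1 : ∀ u : Fin (K + 1), ∑ k, ∑ l, tfrac γ t * Formula.liftM t (q t u.val) k l
        * slotM P K qS u k l
        = tfrac γ t * ∑ b, ∑ b', slotM P K qS u (comp t b) (comp t b') * q t u.val b b' := fun u => by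
      rw [← sum_mul_liftM, Finset.mul_sum]
      exact Finset.sum_congr rfl fun k _ => by
        rw [Finset.mul_sum]
        exact Finset.sum_congr rfl fun l _ => by ring
    have e2 : tfrac γ t * pairing (gridM K) K (p t) (q t)
        - rA * (pi0 K * ∑ u : Fin (K + 1), ∑ k, ∑ l,
          tfrac γ t * Formula.liftM t (q t u.val) k l * slotM P K qS u k l)
        = tfrac γ t * (pi0 K * ∑ u, ∑ b, ∑ b', q t u.val b b' * dev t u b b') := by
      simp only [pairing_gridM, e1, Finset.mul_sum, ← Finset.sum_sub_distrib]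
      refine Finset.sum_congr rfl fun u _ => Finset.sum_congr rfl fun b _ =>
        Finset.sum_congr rfl fun b' _ => ?_
      simp only [dev, stepDev, p, Matrix.sub_apply, Matrix.smul_apply, Matrix.submatrix_apply,
        smul_eq_mul]
      rw [hsym u b b']
      ring
    rw [e2]
    refine (le_abs_self _).trans ?_
    rw [abs_mul, abs_of_nonneg (tfrac_nonneg γ t), abs_mul, abs_of_nonneg hπ0]
    refine (mul_le_of_le_one_left (mul_nonneg hπ0 (abs_nonneg _)) (tfrac_le_one γ t)).trans ?_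
    refine (mul_le_mul_of_nonneg_left ((Finset.abs_sum_le_sum_abs _ _).trans (Finset.sum_le_sum
      (g := fun u => B1 * mabs (dev t u)) fun u _ => abs_pair_le _ _ fun b b' =>
        (abs_le_mabs _ b b').trans (hq.bound t (Or.inr h) _ (Nat.lt_succ_iff.1 u.isLt)))) hπ0).trans ?_
    rw [← Finset.mul_sum, ← mul_assoc, mul_comm _ B1, mul_assoc]
    refine mul_le_mul_of_nonneg_left ?_ (by linarith)
    exact (hη2 t h).trans (le_max_left _ _)
  have h3 := Finset.sum_le_sum fun t (_ : t ∈ Finset.univ) => h2 t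
  rw [Finset.sum_const, Finset.card_univ, Fintype.card_finset, Fintype.card_fin, nsmul_eq_mul,
    Finset.sum_sub_distrib] at h3
  push_cast at h3
  have e4 : pi0 K * ∑ u, ∑ k, ∑ l, rowCum Φ u k l * slotLev P Φ u k l
      = (∑ t, pi0 K * ∑ u : Fin (K + 1), ∑ k, ∑ l,
          tfrac γ t * Formula.liftM t (q t u.val) k l * slotM P K qS u k l)
        + pi0 K * ∑ u : Fin (K + 1), ∑ k, ∑ l, (qS u.val - qTot γ q u.val) k l
          * slotM P K qS u k l := by
    have e5 : ∀ (u : Fin (K + 1)) (k l : Fin d), rowCum Φ u k l * slotLev P Φ u k l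
        = (∑ t, tfrac γ t * Formula.liftM t (q t u.val) k l * slotM P K qS u k l)
          + (qS u.val - qTot γ q u.val) k l * slotM P K qS u k l := fun u k l => by
      rw [show rowCum Φ u k l = qS u.val k l from hrow u k l,
        show slotLev P Φ u k l = slotM P K qS u k l from rfl]
      simp only [qTot, Matrix.sub_apply, Matrix.sum_apply, Matrix.smul_apply, smul_eq_mul,
        ← Finset.sum_mul]
      ring
    simp only [e5, Finset.sum_add_distrib, mul_add]
    congr 1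
    rw [← Finset.mul_sum]
    congr 1
    symm
    rw [Finset.sum_comm]
    refine Finset.sum_congr rfl fun u _ => ?_
    rw [Finset.sum_comm]
    refine Finset.sum_congr rfl fun k _ => ?_
    rw [Finset.sum_comm]
  rw [mul_left_comm (pi0 K), e4, mul_add, Finset.mul_sum]
  have h4 := mul_le_mul_of_nonneg_left (neg_le_of_abs_le h1) hrA
  have h5 : 0 ≤ |rA - α| * (G * max η1 0) :=
    mul_nonneg (abs_nonneg _) (mul_nonneg hG (le_max_right _ _))
  linarith

/-- The constant of the errors of the paths in the gain of a step. -/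
noncomputable def gainC (P : VPot d) (B1 α : ℝ) : ℝ :=
  (α + 1) * (3 * rowB P ^ 2) + (2 : ℝ) ^ d * B1 * ((d : ℝ) ^ 2 * B1 + 1)

/-- The constant of the rounding of the sizes in the gain of a step. -/
noncomputable def gainS (P : VPot d) (B1 S : ℝ) : ℝ :=
  |P.bF| + (2 : ℝ) ^ d * (2 * (|S| + B1 ^ 2))

theorem step_err (P : VPot d) {B1 S α rA η1 η2 : ℝ} {M : ℝ} (hM : 0 < M) (hB : 1 ≤ B1)
    (hrA : 0 ≤ rA) (hα : 0 ≤ α) (hrα : rA ≤ α + 1) (h1 : 0 ≤ η1) (h2 : 0 ≤ η2) :
    |P.bF| + (2 : ℝ) ^ d * (2 * (|S| + B1 ^ 2))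
        + M * ((rA + |rA - α|) * (3 * rowB P ^ 2) * η1 + (2 : ℝ) ^ d * B1 * η2
          + (d : ℝ) ^ 2 * B1 * (2 : ℝ) ^ d * η2)
      ≤ M * (gainC P B1 α * (η1 * (1 + |rA - α|) + η2) + gainS P B1 S * (1 / M)) := by
  have hS : gainS P B1 S = |P.bF| + (2 : ℝ) ^ d * (2 * (|S| + B1 ^ 2)) := rfl
  set cG := (α + 1) * (3 * rowB P ^ 2) with hcG
  set cH := (2 : ℝ) ^ d * B1 * ((d : ℝ) ^ 2 * B1 + 1) with hcH
  have hC : gainC P B1 α = cG + cH := rfl
  have hB0 : 0 ≤ B1 := zero_le_one.trans hB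
  have hG : 0 ≤ 3 * rowB P ^ 2 := by positivity
  have hcG0 : 0 ≤ cG := by positivity
  have hcH0 : 0 ≤ cH := by positivity
  set w := η1 * (1 + |rA - α|) with hw
  have hw0 : 0 ≤ w := by positivity
  have e1 : (rA + |rA - α|) * (3 * rowB P ^ 2) * η1 ≤ cG * w := by
    have h : rA + |rA - α| ≤ (α + 1) * (1 + |rA - α|) := by
      have h' : |rA - α| ≤ (α + 1) * |rA - α| :=
        le_mul_of_one_le_left (abs_nonneg _) (by linarith)
      rw [mul_add, mul_one]
      linarith
    exact (mul_le_mul_of_nonneg_right (mul_le_mul_of_nonneg_right h hG) h1).trans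
      (le_of_eq (by rw [hcG, hw]; ring))
  have e2 : (2 : ℝ) ^ d * B1 * η2 + (d : ℝ) ^ 2 * B1 * (2 : ℝ) ^ d * η2 ≤ cH * η2 := by
    rw [← add_mul]
    refine mul_le_mul_of_nonneg_right ?_ h2
    have h' : (d : ℝ) ^ 2 * B1 * (2 : ℝ) ^ d ≤ (2 : ℝ) ^ d * B1 * ((d : ℝ) ^ 2 * B1) := by
      calc (d : ℝ) ^ 2 * B1 * (2 : ℝ) ^ d = (2 : ℝ) ^ d * B1 * ((d : ℝ) ^ 2 * 1) := by ring
        _ ≤ _ := by gcongr
    rw [hcH]
    linarith
  rw [hC, hS]
  set cA := |P.bF| + (2 : ℝ) ^ d * (2 * (|S| + B1 ^ 2))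
  have e3 : M * (cA * (1 / M)) = cA := by field_simp
  have e4 : (rA + |rA - α|) * (3 * rowB P ^ 2) * η1 + (2 : ℝ) ^ d * B1 * η2
      + (d : ℝ) ^ 2 * B1 * (2 : ℝ) ^ d * η2 ≤ (cG + cH) * (w + η2) := by
    nlinarith [mul_nonneg hcG0 h2, mul_nonneg hcH0 hw0]
  have e5 := mul_le_mul_of_nonneg_left e4 hM.le
  linarith

/-- The gain of a step along given paths. -/
theorem step_gain (P : VPot d) (hτ : 0 ≤ τ) (hB : 0 ≤ B) (hγ : ∀ k, 0 < γ k ∧ γ k ≤ 1)
    (hdd : Clean γ dd) (hB1 : 1 ≤ B1) (hτB : τ * B ≤ B1) {α : ℝ} (hα : 0 ≤ α)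
    (A : Coeffs d nA) (a : Atoms ν (cutSet B d N) εa) (hL : 0 < L)
    (hD0 : D0 = cenM γ dd) (hN : 0 < N) (hm : 0 < m) (hes : 0 ≤ es)
    {M mr : ℕ} (hM : 0 < M + mr) {A0 : ℝ}
    (hA0 : ((M + mr : ℕ) : ℝ) ≤ A0 * N') (hA0' : (mr : ℝ) ≤ A0 * m)
    (hmr : |(mr : ℝ) - α * m| ≤ 1) (hrα : ((M + mr : ℕ) : ℝ) / N' ≤ α + 1)
    (hT : ∀ i, T i = ∅ ∨ Occupied γ (T i))
    (hcnt : ∀ t, |(typSize T t : ℝ) - m * tfrac γ t| ≤ 2)
    (hqS : IsPath K qS) (hqSb : ∀ l, l ≤ K → mabs (qS l) ≤ B1) {ec : ℝ} (hec : 0 ≤ ec)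
    (htop : qS K = dTot dd + ec • (1 : Matrix (Fin d) (Fin d) ℝ))
    (hq : StepPaths γ dd K B1 q) {S X η1 η2 : ℝ}
    (hent : ∀ t, t = ∅ ∨ Occupied γ t → |ent (gridM K) K τ (typD γ dd t) (q t)| ≤ S)
    (hη1 : pi0 K * ∑ u : Fin (K + 1), mabs (qS u.val - qTot γ q u.val) ≤ η1) (hη2n : 0 ≤ η2)
    (hη2 : ∀ t, Occupied γ t → pi0 K * ∑ u : Fin (K + 1),
      mabs (stepDev P γ dd (((M + mr : ℕ) : ℝ) / N') qS q t u) ≤ η2)
    (hatom : ∑ i, (spinVal (gridM K) K τ ((D0 (T i)).submatrix (comp (T i)) (comp (T i)))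
          (bestTilt (gridM K) K (typD γ dd (T i)) (q (T i))) (respP γ dd K q (T i)) - X)
        ≤ atomVal (atomBlock T τ aW) (siteFac T K (respP γ dd K q)))
    (J : ℕ) (x : Fin (nker d nA) → ℕ → ℝ) {σ εd : ℝ} {F : Filter ℕ} [F.NeBot] (hF : F ≤ atTop)
    (hσ : ∀ᶠ n in F, vmpair n P (penPrior (γ := γ) hτ A a hL J0) (noFac N d K)
      (oldC (M := M) J x) (fun _ => syncF (penPrior (γ := γ) hτ A a hL J0)
        (stepFac (K := K) e T qS (respP γ dd K q))) ≤ σ)
    (hd1 : ∀ᶠ n in F, ∀ t ∈ Set.Icc (0 : ℝ) 1, vmpair n P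
      (prodPrior (penPrior (γ := γ) hτ A a hL J0) (atomBlock T τ aW) e)
      (stepFac (K := K) e T qS (respP γ dd K q)) (seg1C M mr e J x t)
      (fun _ st _ => devS (penPrior (γ := γ) hτ A a hL J0) (stepFac (K := K) e T qS (respP γ dd K q))
        (oldCfg (penPrior (γ := γ) hτ A a hL J0) (atomBlock T τ aW) e st.1)) ≤ εd)
    (hd2 : ∀ᶠ n in F, ∀ t ∈ Set.Icc (0 : ℝ) 1, vmpair n P
      (prodPrior (penPrior (γ := γ) hτ A a hL J0) (atomBlock T τ aW) e)
      (stepFac (K := K) e T qS (respP γ dd K q)) (seg2C M mr e J x t)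
      (fun _ st _ => devS (penPrior (γ := γ) hτ A a hL J0) (stepFac (K := K) e T qS (respP γ dd K q))
        (oldCfg (penPrior (γ := γ) hτ A a hL J0) (atomBlock T τ aW) e st.1)) ≤ εd) :
    vcasc P (penPrior (γ := γ) hτ A a hL J0) (noFac N d K) (oldC (M := M) J x)
        + m * (α * rowCasc P.f (slotFac qS (0 : Fin (K + 1))) (fun l : Fin K => slotFac qS l.succ)
          + ∑ t, tfrac γ t * ent (gridM K) K τ (typD γ dd t) (q t))
        - m * (X + (gainC P B1 α * (η1 * (1 + |((M + mr : ℕ) : ℝ) / N' - α|) + η2)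
            + gainS P B1 S * (1 / m))
          + (4 * A0 * rowB P ^ 2 + (2 * A0 * (d : ℝ) ^ 2 * gainB d B1 + gainB d B1)
              * decK P (gainB d B1))
            * (incX d P (gainB d B1) A0 σ εd m N' + gainT d B1 es ec m))
      ≤ vcasc P (prodPrior (penPrior (γ := γ) hτ A a hL J0) (atomBlock T τ aW) e)
          (stepFac (K := K) e T qS (respP γ dd K q)) (fun i => ptFull M mr i + vpert J x i) := by
  set π := penPrior (γ := γ) hτ A a hL J0
  set p := respP γ dd K q
  set Φ := stepFac (K := K) e T qS p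
  set rA := ((M + mr : ℕ) : ℝ) / N'
  set dp := fun u : Fin (K + 1) => (d : ℝ) ^ 2 * B1
    * ∑ t ∈ Finset.univ.image T, mabs (stepDev P γ dd rA qS q t u)
  have hm' : (0 : ℝ) < m := Nat.cast_pos.2 hm
  have hπ0 : 0 ≤ pi0 K := by rw [pi0]; positivity
  have hrA : 0 ≤ rA := by positivity
  have hη1n : 0 ≤ η1 :=
    le_trans (mul_nonneg hπ0 (Finset.sum_nonneg fun u _ => mabs_nonneg _)) hη1
  have hdp2 : pi0 K * ∑ u, dp u ≤ (d : ℝ) ^ 2 * B1 * (2 : ℝ) ^ d * η2 := by
    have e1 : pi0 K * ∑ u, dp u = (d : ℝ) ^ 2 * B1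
        * ∑ t ∈ Finset.univ.image T, pi0 K * ∑ u : Fin (K + 1), mabs (stepDev P γ dd rA qS q t u) := by
      simp only [dp, ← Finset.mul_sum]
      rw [Finset.sum_comm]
      ring
    rw [e1, mul_assoc _ ((2 : ℝ) ^ d)]
    refine mul_le_mul_of_nonneg_left ((Finset.sum_le_sum (g := fun _ => η2) fun t ht => ?_).trans ?_)
      (by positivity)
    · obtain ⟨i, -, rfl⟩ := Finset.mem_image.1 ht
      rcases hT i with h | h
      · have hz : ∀ u : Fin (K + 1), mabs (stepDev P γ dd rA qS q (T i) u) = 0 := fun u =>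
          Finset.sum_eq_zero fun (b : Fin (T i).card) _ => absurd b.isLt (by simp [h])
        rw [Finset.sum_eq_zero fun u _ => hz u, mul_zero]
        exact hη2n
      · exact hη2 _ h
    · rw [Finset.sum_const, nsmul_eq_mul]
      refine mul_le_mul_of_nonneg_right ?_ hη2n
      exact_mod_cast (Finset.card_le_univ _).trans_eq (by simp)
  have hinc := vcasc_inc π (atomBlock T τ aW) e Φ J x (noFac N d K) P
    (cavB_step e T qS aW hτ hB hB1 hτB A a hL hm hA0 hA0' hT hqS hqSb hq) hN hM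
    (fun u s s' => dp_step e T qS aW P hτ hB1 hτB hm rA hT hq u s s') hF hσ hd1 hd2
    fun s => devT_step e T qS aW hγ hdd hB1 hm hes hD0 hec hT hcnt hqS htop hq s
  have hblock := block_step e T qS aW hγ hD0 hT hcnt hq hent hatom
  have hpair := pair_step e T qS P hγ hB1 (α := α) hrA hqS hq hη1 hη2
  rw [max_eq_left hη1n, max_eq_left hη2n] at hpair
  set V := rowCasc P.f (slotFac qS (0 : Fin (K + 1))) fun l : Fin K => slotFac qS l.succ
  have e0 : rowCasc P.f (Φ.1 0 0) (fun l => Φ.1 0 l.succ) = V := by simp [Φ, stepFac, V]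
  have hrows : m * (α * V) - |P.bF| ≤ mr * V := by
    have h := (abs_mul _ _).trans_le (mul_le_mul hmr
      (abs_rowCasc_le P (slotFac qS (0 : Fin (K + 1))) fun l : Fin K => slotFac qS l.succ)
      (abs_nonneg _) zero_le_one)
    linarith [(abs_le.1 h).1]
  have hgain : m / 2 * (∑ t, tfrac γ t * pairing (gridM K) K (p t) (q t))
      - m * ((rA + |rA - α|) * (3 * rowB P ^ 2) * η1 + (2 : ℝ) ^ d * B1 * η2
        + (d : ℝ) ^ 2 * B1 * (2 : ℝ) ^ d * η2)
      ≤ incGain (m := m) Φ M mr P dp := by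
    rw [incGain, mul_sub (pi0 K)]
    have h := mul_le_mul_of_nonneg_left (sub_le_sub hpair hdp2) (show (0 : ℝ) ≤ m / 2 by positivity)
    have h0 : 0 ≤ (rA + |rA - α|) * (3 * rowB P ^ 2) * η1 + (2 : ℝ) ^ d * B1 * η2
        + (d : ℝ) ^ 2 * B1 * (2 : ℝ) ^ d * η2 := by positivity
    linarith [mul_nonneg hm'.le h0]
  rw [e0] at hinc
  have herr := step_err P (S := S) (η1 := η1) (η2 := η2) hm' hB1 hrA hα hrα
    hη1n hη2n
  linarith

end Vale.Agent.P166.Casc
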