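import Vale.Agent.P166.Casc.VStepPoint
import Vale.Agent.P166.Casc.VStepAvg

/-!
The mean over the perturbation parameters of the deficit of one step, from a selection of indices
at every point of the parameters.
-/

open MeasureTheory ProbabilityTheory Filter Topology
open Matrix hiding comp
open scoped MatrixOrder

namespace Vale.Agent.P166.Casc

open Vale.Agent.P157.Casc Vale.Agent.P166.Formula Vale.Agent.P166.Pen

variable {d N m K : ℕ} {γ : Fin d → ℝ} {dd : OIdx d → ℝ} {τ B εa : ℝ}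
  {ν : Measure (Fin d → Fin N → ℝ)} {L J : ℕ}
variable (e : Fin N ⊕ Fin m ≃ Fin (N + m)) (T : Fin m → Finset (Fin d)) {εb es : ℝ}
  (aW : Atoms ((spinLaw d m).restrict (shellSet T τ es B (cenM γ dd))) (shellSet T τ es B (cenM γ dd))
    εb)

/-- The mean deficit of a step. -/
theorem step_mean (P : VPot d) {CR : ℝ} (hCR0 : 0 ≤ CR)
    (hCR : ∀ K, 0 < K → ∀ (D : Matrix (Fin d) (Fin d) ℝ) (q : ℕ → Matrix (Fin d) (Fin d) ℝ),
      IsPath K q → (D - q K).PosSemidef → ∀ A : Fin (K + 1) → Fin d → Fin d → ℝ,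
        rowVal P.f K D q ≤ rowCasc P.f (A 0) (fun l => A l.succ) + 2 * P.bF / K
          + CR * (pi0 K * (∑ u : Fin (K + 1), ∑ k, ∑ l,
              |facCum A u k l - (if u.val = K then D else q u.val) k l|)
            + ∑ k, ∑ l, |facCum A (Fin.last K) k l - D k l|))
    (hτ : 0 ≤ τ) (hB : 0 ≤ B) (hγ : ∀ k, 0 < γ k ∧ γ k ≤ 1) (hdd : Clean γ dd) {B1 : ℝ}
    (hB1 : 1 ≤ B1) (hτB : τ * B ≤ B1) {α : ℝ} (hα : 0 ≤ α) (hK : 0 < K)
    (a : Atoms ν (cutSet B d N) εa) (hL : 0 < L) (hN : 0 < N) (hm : 0 < m)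
    (hes : 0 ≤ es) {M mr : ℕ} (hM : 0 < M + mr) {A0 : ℝ}
    (hA0 : ((M + mr : ℕ) : ℝ) ≤ A0 * (N + m : ℕ)) (hA0' : (mr : ℝ) ≤ A0 * m)
    (hmr : |(mr : ℝ) - α * m| ≤ 1) (hrα : ((M + mr : ℕ) : ℝ) / (N + m : ℕ) ≤ α + 1)
    (hT : ∀ i, T i = ∅ ∨ Occupied γ (T i))
    (hcnt : ∀ t, |(typSize T t : ℝ) - m * tfrac γ t| ≤ 2) {ec : ℝ} (hec : 0 ≤ ec) {S X : ℝ}
    (I : Finset (PIndex d)) (hI : I.Nonempty)
    (hok : ∀ i ∈ I, IndexOK γ dd K B1 ec S X τ T (atomBlock T τ aW) i)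
    {G : ℝ} (hG : ∀ q : TPath d, Formula.Adm γ dd K q → G ≤ pathVal τ P.f γ α dd K q)
    {εd : ℝ}
    (hd : ∀ y : Fin (nker d (d * d)) × Fin N → ℝ, (∀ p, y p ∈ Set.Icc (1 : ℝ) 2) → ∀ i ∈ I,
      ∀ᶠ n in atTop, ∀ t ∈ Set.Icc (0 : ℝ) 1,
        vmpair n P (prodPrior (penPrior (γ := γ) hτ (basicCoeffs d) a hL J) (atomBlock T τ aW) e)
          (stepFac (K := K) e T i.1 (respP γ dd K i.2)) (seg1C M mr e N (vext y) t)
          (fun _ st _ => devS (penPrior (γ := γ) hτ (basicCoeffs d) a hL J)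
            (stepFac (K := K) e T i.1 (respP γ dd K i.2))
            (oldCfg (penPrior (γ := γ) hτ (basicCoeffs d) a hL J) (atomBlock T τ aW) e st.1)) ≤ εd ∧
        vmpair n P (prodPrior (penPrior (γ := γ) hτ (basicCoeffs d) a hL J) (atomBlock T τ aW) e)
          (stepFac (K := K) e T i.1 (respP γ dd K i.2)) (seg2C M mr e N (vext y) t)
          (fun _ st _ => devS (penPrior (γ := γ) hτ (basicCoeffs d) a hL J)
            (stepFac (K := K) e T i.1 (respP γ dd K i.2))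
            (oldCfg (penPrior (γ := γ) hτ (basicCoeffs d) a hL J) (atomBlock T τ aW) e st.1)) ≤ εd)
    {δ : ℕ → (Fin (nker d (d * d)) × Fin N → ℝ) → ℝ} {ε : ℝ}
    (hδ : ∀ᶠ n in atTop, Integrable (δ n) (vxlaw (nker d (d * d)) N) ∧ (∀ y, 0 ≤ δ n y) ∧
      ∫ y, δ n y ∂vxlaw (nker d (d * d)) N ≤ ε) {η1 η2 σ η : ℝ} (hη : 0 ≤ η) (hη2n : 0 ≤ η2)
    (hsel : ∀ y : Fin (nker d (d * d)) × Fin N → ℝ, (∀ p, y p ∈ Set.Icc (1 : ℝ) 2) →
      ∀ᶠ n in atTop, δ n y ≤ 1 → ∃ i ∈ I, rowGap γ K i ≤ η1 ∧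
        RespGap P γ dd (((M + mr : ℕ) : ℝ) / (N + m : ℕ)) K η2 i ∧
        vmpair n P (penPrior (γ := γ) hτ (basicCoeffs d) a hL J) (noFac N d K)
          (oldC (M := M) N (vext y))
          (fun _ => syncF (penPrior (γ := γ) hτ (basicCoeffs d) a hL J)
            (stepFac (K := K) e T i.1 (respP γ dd K i.2))) ≤ σ)
    (herr : stepErr P B1 A0 α S X CR ec (gainT d B1 es ec m) εd
      (((M + mr : ℕ) : ℝ) / (N + m : ℕ)) σ η1 η2 K m N ≤ η)
    {C0 : ℝ} (hC0 : 0 ≤ C0) (hcrude : stepErr P B1 A0 α S X CR ec (gainT d B1 es ec m) εd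
        (((M + mr : ℕ) : ℝ) / (N + m : ℕ)) (2 * ((d : ℝ) * (d * gainB d B1)))
        (B1 + (2 : ℝ) ^ d * ((d : ℝ) ^ 2 * B1))
        (B1 + ((M + mr : ℕ) : ℝ) / (N + m : ℕ) * ((d : ℝ) ^ 2 * (3 * rowB P ^ 2))) K m N ≤ C0) :
    ∫ y, (vcasc P (penPrior (γ := γ) hτ (basicCoeffs d) a hL J) (noFac N d K)
        (vsys (rowc (M := M) 1) y) + m * (G - η)
      - vcasc P (prodPrior (penPrior (γ := γ) hτ (basicCoeffs d) a hL J) (atomBlock T τ aW) e)
          (noFac (N + m) d K) (fun i => ptFull M mr i + vpert N (vext y) i))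
        ∂vxlaw (nker d (d * d)) N ≤ m * C0 * ε := by
  set π := penPrior (γ := γ) hτ (basicCoeffs d) a hL J
  have hi1 : Integrable (fun y : Fin (nker d (d * d)) × Fin N → ℝ =>
      vcasc P π (noFac N d K) (vsys (rowc (M := M) 1) y)) (vxlaw (nker d (d * d)) N) :=
    integrable_cube (continuous_vcasc_pert (M := M) P π (noFac N d K) N (rowc 1))
  have hi2 : Integrable (fun y : Fin (nker d (d * d)) × Fin N → ℝ =>
      vcasc P (prodPrior π (atomBlock T τ aW) e) (noFac (N + m) d K)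
        (fun i => ptFull M mr i + vpert N (vext y) i)) (vxlaw (nker d (d * d)) N) :=
    integrable_cube (continuous_vcasc_pert (M := M + mr) P _ _ N (ptFull M mr))
  refine integral_le_of_eventually ((hi1.add (integrable_const _)).sub hi2) (by positivity) hδ ?_
  filter_upwards [ae_cube (nker d (d * d)) N] with y hy
  have h := step_point e T aW P hCR0 hCR hτ hB hγ hdd hB1 hτB hα hK (basicCoeffs d) a hL hN hm hes
    hM hA0 hA0' hmr hrα hT hcnt hec I hI hok hG N (vext y) (J0 := J)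
    (fun i hi => (hd y hy i hi).mono fun n h t ht => (h t ht).1)
    (fun i hi => (hd y hy i hi).mono fun n h t ht => (h t ht).2)
    (δ := fun n => δ n y) (hδ.mono fun n h => h.2.1 y) hη hη2n (hsel y hy) herr
  filter_upwards [h, hδ] with n hn hn'
  refine hn.trans (mul_le_mul_of_nonneg_right ?_ (hn'.2.1 y))
  exact max_le (by positivity) (mul_le_mul_of_nonneg_left hcrude (Nat.cast_nonneg m))

end Vale.Agent.P166.Casc
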