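import Vale.Agent.P166.Casc.VStepGain
import Vale.Agent.P166.Casc.VRowLip

/-!
The cavity step at one point of the parameters of the perturbation: the values of the paths of a
finite set of indices bound the increase from below, and where some index is frequently synchronised
the errors are small.
-/

open MeasureTheory ProbabilityTheory Filter Topology
open Matrix hiding comp
open scoped MatrixOrder

namespace Vale.Agent.P166.Casc

open Vale.Agent.P157.Casc Vale.Agent.P166.Formula Vale.Agent.P166.Pen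

variable {d N m K : ℕ} {γ : Fin d → ℝ} {dd : OIdx d → ℝ} {τ B εa : ℝ}
  {ν : Measure (Fin d → Fin N → ℝ)} {nA L J0 : ℕ}

/-- A path of the rows and paths of the types. -/
abbrev PIndex (d : ℕ) : Type := (ℕ → Matrix (Fin d) (Fin d) ℝ) × TPath d

/-- The distance of the path of the rows from the paths of the types. -/
noncomputable def rowGap (γ : Fin d → ℝ) (K : ℕ) (i : PIndex d) : ℝ :=
  pi0 K * ∑ u : Fin (K + 1), mabs (i.1 u.val - qTot γ i.2 u.val)

/-- The largest distance of the responses from the means of the slot. -/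
def RespGap (P : VPot d) (γ : Fin d → ℝ) (dd : OIdx d → ℝ) (rA : ℝ) (K : ℕ) (η : ℝ)
    (i : PIndex d) : Prop :=
  ∀ t, Occupied γ t → pi0 K * ∑ u : Fin (K + 1), mabs (stepDev P γ dd rA i.1 i.2 t u) ≤ η

/-- An index with bounded paths whose responses are worth their spins on the atoms of the block. -/
structure IndexOK (γ : Fin d → ℝ) (dd : OIdx d → ℝ) (K : ℕ) (B1 ec S X τ : ℝ)
    (T : Fin m → Finset (Fin d)) (β : Block m d) (i : PIndex d) : Prop where
  rowPath : IsPath K i.1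
  rowBound : ∀ l, l ≤ K → mabs (i.1 l) ≤ B1
  rowTop : i.1 K = dTot dd + ec • (1 : Matrix (Fin d) (Fin d) ℝ)
  types : StepPaths γ dd K B1 i.2
  entB : ∀ t, t = ∅ ∨ Occupied γ t → |ent (gridM K) K τ (typD γ dd t) (i.2 t)| ≤ S
  atom : ∑ j, (spinVal (gridM K) K τ ((cenM γ dd (T j)).submatrix (comp (T j)) (comp (T j)))
      (bestTilt (gridM K) K (typD γ dd (T j)) (i.2 (T j))) (respP γ dd K i.2 (T j)) - X)
    ≤ atomVal β (siteFac T K (respP γ dd K i.2))

/-- The constant of the increment of a step. -/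
noncomputable def incC (P : VPot d) (B1 A0 : ℝ) : ℝ :=
  4 * A0 * rowB P ^ 2 + (2 * A0 * (d : ℝ) ^ 2 * gainB d B1 + gainB d B1) * decK P (gainB d B1)

/-- The error of a step at given errors of the paths and of the synchronisation. -/
noncomputable def stepErr (P : VPot d) (B1 A0 α S X CR ec εT εd rA σ η1 η2 : ℝ) (K m N : ℕ) : ℝ :=
  X + α * (2 * |P.bF| / K + CR * (η1 + 2 * (d * ec)))
    + (gainC P B1 α * (η1 * (1 + |rA - α|) + η2) + gainS P B1 S * (1 / m))
    + incC P B1 A0 * (incX d P (gainB d B1) A0 σ εd m (N + m) + εT)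

theorem sum_ec_le {ec : ℝ} (hec : 0 ≤ ec) :
    ∑ k : Fin d, ∑ l : Fin d, |(ec • (1 : Matrix (Fin d) (Fin d) ℝ)) k l| ≤ d * ec := by
  simp only [Matrix.smul_apply, Matrix.one_apply, smul_eq_mul, abs_mul, abs_of_nonneg hec]
  simp [apply_ite]

theorem mabs_liftM_le (t : Finset (Fin d)) (X : Matrix (Fin t.card) (Fin t.card) ℝ) :
    mabs (Formula.liftM t X) ≤ (d : ℝ) ^ 2 * mabs X := by
  refine (Finset.sum_le_sum fun k _ => Finset.sum_le_sum fun l _ => abs_liftM_le t X k l).trans_eq ?_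
  simp
  ring

theorem rowGap_le {B1 : ℝ} (hγ : ∀ k, 0 < γ k ∧ γ k ≤ 1) {i : PIndex d}
    (hr : ∀ l, l ≤ K → mabs (i.1 l) ≤ B1) (hq : StepPaths γ dd K B1 i.2) :
    rowGap γ K i ≤ B1 + (2 : ℝ) ^ d * ((d : ℝ) ^ 2 * B1) := by
  have hπ0 : 0 ≤ pi0 K := by rw [pi0]; positivity
  have hB0 : 0 ≤ B1 := (mabs_nonneg _).trans (hr 0 (Nat.zero_le K))
  have hu : ∀ u : Fin (K + 1),
      mabs (i.1 u.val - qTot γ i.2 u.val) ≤ B1 + (2 : ℝ) ^ d * ((d : ℝ) ^ 2 * B1) := fun u => by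
    refine (mabs_sub _ _).trans (add_le_add (hr _ (Nat.lt_succ_iff.1 u.isLt)) ?_)
    refine (mabs_sum _ _).trans ((Finset.sum_le_sum (g := fun _ => (d : ℝ) ^ 2 * B1)
      fun t _ => ?_).trans_eq (by simp))
    rcases eq_or_ne (tfrac γ t) 0 with h | h
    · rw [h, zero_smul, mabs_zero]
      positivity
    rw [mabs_smul, abs_of_nonneg (tfrac_nonneg γ t)]
    refine (mul_le_of_le_one_left (mabs_nonneg _) (tfrac_le_one γ t)).trans ?_
    exact (mabs_liftM_le t _).trans (mul_le_mul_of_nonneg_left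
      (hq.bound t (hcen_occ hγ h) _ (Nat.lt_succ_iff.1 u.isLt)) (by positivity))
  refine (mul_le_mul_of_nonneg_left (Finset.sum_le_sum fun u _ => hu u) hπ0).trans_eq ?_
  rw [Finset.sum_const, Finset.card_univ, Fintype.card_fin, nsmul_eq_mul, ← mul_assoc, pi0]
  push_cast
  field_simp

theorem respGap_le (P : VPot d) {B1 rA : ℝ} (hrA : 0 ≤ rA) {i : PIndex d}
    (hq : StepPaths γ dd K B1 i.2) :
    RespGap P γ dd rA K (B1 + rA * ((d : ℝ) ^ 2 * (3 * rowB P ^ 2))) i := by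
  intro t ht
  have hπ0 : 0 ≤ pi0 K := by rw [pi0]; positivity
  have hc : ((t.card : ℕ) : ℝ) ≤ d := by
    exact_mod_cast (Finset.card_le_univ t).trans_eq (Fintype.card_fin d)
  have hu : ∀ u : Fin (K + 1), mabs (stepDev P γ dd rA i.1 i.2 t u)
      ≤ B1 + rA * ((d : ℝ) ^ 2 * (3 * rowB P ^ 2)) := fun u => by
    refine (mabs_sub _ _).trans (add_le_add ((hq.resp t (Or.inr ht)).2.2 _
      (Nat.lt_succ_iff.1 u.isLt)) ?_)
    rw [mabs_smul, abs_of_nonneg hrA]
    refine mul_le_mul_of_nonneg_left ?_ hrA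
    refine (Finset.sum_le_sum fun b _ => Finset.sum_le_sum fun b' _ =>
      (abs_slotLev_le P (slotPhi K i.1) u (comp t b) (comp t b') :
        |(slotM P K i.1 u).submatrix (comp t) (comp t) b b'| ≤ 3 * rowB P ^ 2)).trans ?_
    simp only [Finset.sum_const, Finset.card_univ, Fintype.card_fin, nsmul_eq_mul, ← mul_assoc]
    gcongr
    nlinarith [Nat.cast_nonneg (α := ℝ) t.card]
  refine (mul_le_mul_of_nonneg_left (Finset.sum_le_sum fun u _ => hu u) hπ0).trans_eq ?_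
  rw [Finset.sum_const, Finset.card_univ, Fintype.card_fin, nsmul_eq_mul, ← mul_assoc, pi0]
  push_cast
  field_simp

variable (e : Fin N ⊕ Fin m ≃ Fin (N + m)) (T : Fin m → Finset (Fin d)) {εb es : ℝ}
  (aW : Atoms ((spinLaw d m).restrict (shellSet T τ es B (cenM γ dd))) (shellSet T τ es B (cenM γ dd))
    εb)

/-- The increase of a step along one index. -/
theorem step_value (P : VPot d) {CR : ℝ} (hCR0 : 0 ≤ CR)
    (hCR : ∀ K, 0 < K → ∀ (D : Matrix (Fin d) (Fin d) ℝ) (q : ℕ → Matrix (Fin d) (Fin d) ℝ),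
      IsPath K q → (D - q K).PosSemidef → ∀ A : Fin (K + 1) → Fin d → Fin d → ℝ,
        rowVal P.f K D q ≤ rowCasc P.f (A 0) (fun l => A l.succ) + 2 * P.bF / K
          + CR * (pi0 K * (∑ u : Fin (K + 1), ∑ k, ∑ l,
              |facCum A u k l - (if u.val = K then D else q u.val) k l|)
            + ∑ k, ∑ l, |facCum A (Fin.last K) k l - D k l|))
    (hτ : 0 ≤ τ) (hB : 0 ≤ B) (hγ : ∀ k, 0 < γ k ∧ γ k ≤ 1) (hdd : Clean γ dd) {B1 : ℝ}
    (hB1 : 1 ≤ B1) (hτB : τ * B ≤ B1) {α : ℝ} (hα : 0 ≤ α) (hK : 0 < K)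
    (A : Coeffs d nA) (a : Atoms ν (cutSet B d N) εa) (hL : 0 < L) (hN : 0 < N) (hm : 0 < m)
    (hes : 0 ≤ es) {M mr : ℕ} (hM : 0 < M + mr) {A0 : ℝ}
    (hA0 : ((M + mr : ℕ) : ℝ) ≤ A0 * (N + m : ℕ)) (hA0' : (mr : ℝ) ≤ A0 * m)
    (hmr : |(mr : ℝ) - α * m| ≤ 1) (hrα : ((M + mr : ℕ) : ℝ) / (N + m : ℕ) ≤ α + 1)
    (hT : ∀ i, T i = ∅ ∨ Occupied γ (T i))
    (hcnt : ∀ t, |(typSize T t : ℝ) - m * tfrac γ t| ≤ 2) {ec : ℝ} (hec : 0 ≤ ec) {S X : ℝ}
    {i : PIndex d} (hi : IndexOK γ dd K B1 ec S X τ T (atomBlock T τ aW) i) {η1 η2 : ℝ}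
    (hη1 : rowGap γ K i ≤ η1) (hη2n : 0 ≤ η2)
    (hη2 : RespGap P γ dd (((M + mr : ℕ) : ℝ) / (N + m : ℕ)) K η2 i)
    {G : ℝ} (hG : ∀ q : TPath d, Formula.Adm γ dd K q → G ≤ pathVal τ P.f γ α dd K q)
    (J : ℕ) (x : Fin (nker d nA) → ℕ → ℝ) {σ εd : ℝ} {F : Filter ℕ} [F.NeBot] (hF : F ≤ atTop)
    (hσ : ∀ᶠ n in F, vmpair n P (penPrior (γ := γ) hτ A a hL J0) (noFac N d K)
      (oldC (M := M) J x) (fun _ => syncF (penPrior (γ := γ) hτ A a hL J0)
        (stepFac (K := K) e T i.1 (respP γ dd K i.2))) ≤ σ)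
    (hd1 : ∀ᶠ n in F, ∀ t ∈ Set.Icc (0 : ℝ) 1, vmpair n P
      (prodPrior (penPrior (γ := γ) hτ A a hL J0) (atomBlock T τ aW) e)
      (stepFac (K := K) e T i.1 (respP γ dd K i.2)) (seg1C M mr e J x t)
      (fun _ st _ => devS (penPrior (γ := γ) hτ A a hL J0)
        (stepFac (K := K) e T i.1 (respP γ dd K i.2))
        (oldCfg (penPrior (γ := γ) hτ A a hL J0) (atomBlock T τ aW) e st.1)) ≤ εd)
    (hd2 : ∀ᶠ n in F, ∀ t ∈ Set.Icc (0 : ℝ) 1, vmpair n P
      (prodPrior (penPrior (γ := γ) hτ A a hL J0) (atomBlock T τ aW) e)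
      (stepFac (K := K) e T i.1 (respP γ dd K i.2)) (seg2C M mr e J x t)
      (fun _ st _ => devS (penPrior (γ := γ) hτ A a hL J0)
        (stepFac (K := K) e T i.1 (respP γ dd K i.2))
        (oldCfg (penPrior (γ := γ) hτ A a hL J0) (atomBlock T τ aW) e st.1)) ≤ εd) :
    vcasc P (penPrior (γ := γ) hτ A a hL J0) (noFac N d K) (oldC (M := M) J x) + m * G
        - m * stepErr P B1 A0 α S X CR ec (gainT d B1 es ec m) εd
            (((M + mr : ℕ) : ℝ) / (N + m : ℕ)) σ η1 η2 K m N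
      ≤ vcasc P (prodPrior (penPrior (γ := γ) hτ A a hL J0) (atomBlock T τ aW) e)
          (noFac (N + m) d K) (fun j => ptFull M mr j + vpert J x j) := by
  have hgain := step_gain e T i.1 aW P hτ hB hγ hdd hB1 hτB hα A a hL rfl hN hm hes hM hA0 hA0'
    hmr hrα hT hcnt hi.rowPath hi.rowBound hec hi.rowTop hi.types hi.entB hη1 hη2n hη2 hi.atom
    J x hF hσ hd1 hd2
  have hns : NoSlot (fun j => ptFull (N' := N + m) (d := d) (R := nker d nA) (D := N + L + J0)
      (K := K) M mr j + vpert J x j) :=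
    ⟨fun j => by simp [ptFull, segc, vfldc, vpert],
      fun l v => by simp [ptFull, segc, vfldc, vpert],
      fun l v => by simp [ptFull, segc, vfldc, vpert]⟩
  rw [vcasc_noSlot P _ _ (noFac (N + m) d K) hns] at hgain
  have hadm : Formula.Adm γ dd K i.2 :=
    ⟨fun t ht => hi.types.path t (Or.inr ht), fun t ht => hi.types.top t (Or.inr ht)⟩
  have hval := hG i.2 hadm
  have hrow := hCR K hK (dTot dd) (qTot γ i.2) (qTot_isPath hγ hadm.path) (qTot_top hγ hdd hadm)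
    (slotFac i.1)
  have hπ0 : 0 ≤ pi0 K := by rw [pi0]; positivity
  have hπ1 : pi0 K ≤ 1 := by
    rw [pi0, div_le_one (by positivity)]; linarith [Nat.cast_nonneg (α := ℝ) K]
  have hf : ∀ (u : Fin (K + 1)) k l, facCum (slotFac i.1) u k l = i.1 u.val k l := fun u k l =>
    cum_slotFac hi.rowPath u k l
  have htop : ∀ k l, |i.1 K k l - dTot dd k l| = |(ec • (1 : Matrix (Fin d) (Fin d) ℝ)) k l| :=
    fun k l => by rw [hi.rowTop, Matrix.add_apply, add_sub_cancel_left]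
  have hsum : pi0 K * (∑ u : Fin (K + 1), ∑ k, ∑ l,
        |facCum (slotFac i.1) u k l - (if u.val = K then dTot dd else qTot γ i.2 u.val) k l|)
      + ∑ k, ∑ l, |facCum (slotFac i.1) (Fin.last K) k l - dTot dd k l| ≤ η1 + 2 * (d * ec) := by
    simp only [hf, Fin.val_last, htop]
    have he := sum_ec_le (d := d) hec
    have h1 : ∀ u : Fin (K + 1), ∑ k, ∑ l,
        |i.1 u.val k l - (if u.val = K then dTot dd else qTot γ i.2 u.val) k l|
        ≤ mabs (i.1 u.val - qTot γ i.2 u.val) + if u = Fin.last K then (d : ℝ) * ec else 0 := by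
      intro u
      by_cases h : u.val = K
      · rw [if_pos h, if_pos (Fin.ext h), h]
        simp only [htop]
        linarith [mabs_nonneg (i.1 K - qTot γ i.2 K)]
      · rw [if_neg h, if_neg fun h' => h (by rw [h']; rfl), add_zero]
        exact le_of_eq rfl
    have h2 := mul_le_mul_of_nonneg_left (Finset.sum_le_sum fun u (_ : u ∈ Finset.univ) => h1 u) hπ0
    rw [Finset.sum_add_distrib, Finset.sum_ite_eq', if_pos (Finset.mem_univ _), mul_add] at h2
    have h3 : pi0 K * ((d : ℝ) * ec) ≤ d * ec := mul_le_of_le_one_left (by positivity) hπ1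
    unfold rowGap at hη1
    linarith
  have hb : 2 * P.bF / K ≤ 2 * |P.bF| / K :=
    div_le_div_of_nonneg_right (by linarith [le_abs_self P.bF]) (Nat.cast_nonneg K)
  have h5 := mul_le_mul_of_nonneg_left (hrow.trans (add_le_add (add_le_add le_rfl hb)
    (mul_le_mul_of_nonneg_left hsum hCR0))) hα
  simp only [pathVal] at hval
  have h6 := mul_le_mul_of_nonneg_left (show G ≤ α * (rowCasc P.f (slotFac i.1 (0 : Fin (K + 1)))
      (fun l : Fin K => slotFac i.1 l.succ) + 2 * |P.bF| / K + CR * (η1 + 2 * (d * ec)))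
      + ∑ t, tfrac γ t * ent (gridM K) K τ (typD γ dd t) (i.2 t) by linarith)
    (Nat.cast_nonneg (α := ℝ) m)
  simp only [stepErr, incC]
  linarith

/-- Where some index is frequently synchronised the errors of a step are small; elsewhere they are
bounded and the mean of the synchronisation error is small. -/
theorem step_point (P : VPot d) {CR : ℝ} (hCR0 : 0 ≤ CR)
    (hCR : ∀ K, 0 < K → ∀ (D : Matrix (Fin d) (Fin d) ℝ) (q : ℕ → Matrix (Fin d) (Fin d) ℝ),
      IsPath K q → (D - q K).PosSemidef → ∀ A : Fin (K + 1) → Fin d → Fin d → ℝ,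
        rowVal P.f K D q ≤ rowCasc P.f (A 0) (fun l => A l.succ) + 2 * P.bF / K
          + CR * (pi0 K * (∑ u : Fin (K + 1), ∑ k, ∑ l,
              |facCum A u k l - (if u.val = K then D else q u.val) k l|)
            + ∑ k, ∑ l, |facCum A (Fin.last K) k l - D k l|))
    (hτ : 0 ≤ τ) (hB : 0 ≤ B) (hγ : ∀ k, 0 < γ k ∧ γ k ≤ 1) (hdd : Clean γ dd) {B1 : ℝ}
    (hB1 : 1 ≤ B1) (hτB : τ * B ≤ B1) {α : ℝ} (hα : 0 ≤ α) (hK : 0 < K)
    (A : Coeffs d nA) (a : Atoms ν (cutSet B d N) εa) (hL : 0 < L) (hN : 0 < N) (hm : 0 < m)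
    (hes : 0 ≤ es) {M mr : ℕ} (hM : 0 < M + mr) {A0 : ℝ}
    (hA0 : ((M + mr : ℕ) : ℝ) ≤ A0 * (N + m : ℕ)) (hA0' : (mr : ℝ) ≤ A0 * m)
    (hmr : |(mr : ℝ) - α * m| ≤ 1) (hrα : ((M + mr : ℕ) : ℝ) / (N + m : ℕ) ≤ α + 1)
    (hT : ∀ i, T i = ∅ ∨ Occupied γ (T i))
    (hcnt : ∀ t, |(typSize T t : ℝ) - m * tfrac γ t| ≤ 2) {ec : ℝ} (hec : 0 ≤ ec) {S X : ℝ}
    (I : Finset (PIndex d)) (hI : I.Nonempty)
    (hok : ∀ i ∈ I, IndexOK γ dd K B1 ec S X τ T (atomBlock T τ aW) i)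
    {G : ℝ} (hG : ∀ q : TPath d, Formula.Adm γ dd K q → G ≤ pathVal τ P.f γ α dd K q)
    (J : ℕ) (x : Fin (nker d nA) → ℕ → ℝ) {εd : ℝ}
    (hd1 : ∀ i ∈ I, ∀ᶠ n in atTop, ∀ t ∈ Set.Icc (0 : ℝ) 1, vmpair n P
      (prodPrior (penPrior (γ := γ) hτ A a hL J0) (atomBlock T τ aW) e)
      (stepFac (K := K) e T i.1 (respP γ dd K i.2)) (seg1C M mr e J x t)
      (fun _ st _ => devS (penPrior (γ := γ) hτ A a hL J0)
        (stepFac (K := K) e T i.1 (respP γ dd K i.2))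
        (oldCfg (penPrior (γ := γ) hτ A a hL J0) (atomBlock T τ aW) e st.1)) ≤ εd)
    (hd2 : ∀ i ∈ I, ∀ᶠ n in atTop, ∀ t ∈ Set.Icc (0 : ℝ) 1, vmpair n P
      (prodPrior (penPrior (γ := γ) hτ A a hL J0) (atomBlock T τ aW) e)
      (stepFac (K := K) e T i.1 (respP γ dd K i.2)) (seg2C M mr e J x t)
      (fun _ st _ => devS (penPrior (γ := γ) hτ A a hL J0)
        (stepFac (K := K) e T i.1 (respP γ dd K i.2))
        (oldCfg (penPrior (γ := γ) hτ A a hL J0) (atomBlock T τ aW) e st.1)) ≤ εd)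
    {δ : ℕ → ℝ} (hδ : ∀ᶠ n in atTop, 0 ≤ δ n) {η1 η2 σ η : ℝ} (hη : 0 ≤ η) (hη2n : 0 ≤ η2)
    (hsel : ∀ᶠ n in atTop, δ n ≤ 1 → ∃ i ∈ I, rowGap γ K i ≤ η1 ∧
      RespGap P γ dd (((M + mr : ℕ) : ℝ) / (N + m : ℕ)) K η2 i ∧
      vmpair n P (penPrior (γ := γ) hτ A a hL J0) (noFac N d K) (oldC (M := M) J x)
        (fun _ => syncF (penPrior (γ := γ) hτ A a hL J0)
          (stepFac (K := K) e T i.1 (respP γ dd K i.2))) ≤ σ)
    (herr : stepErr P B1 A0 α S X CR ec (gainT d B1 es ec m) εd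
      (((M + mr : ℕ) : ℝ) / (N + m : ℕ)) σ η1 η2 K m N ≤ η) :
    ∀ᶠ n in atTop,
      vcasc P (penPrior (γ := γ) hτ A a hL J0) (noFac N d K) (oldC (M := M) J x) + m * (G - η)
          - vcasc P (prodPrior (penPrior (γ := γ) hτ A a hL J0) (atomBlock T τ aW) e)
              (noFac (N + m) d K) (fun j => ptFull M mr j + vpert J x j)
        ≤ max 0 (m * stepErr P B1 A0 α S X CR ec (gainT d B1 es ec m) εd
            (((M + mr : ℕ) : ℝ) / (N + m : ℕ)) (2 * ((d : ℝ) * (d * gainB d B1)))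
            (B1 + (2 : ℝ) ^ d * ((d : ℝ) ^ 2 * B1))
            (B1 + ((M + mr : ℕ) : ℝ) / (N + m : ℕ) * ((d : ℝ) ^ 2 * (3 * rowB P ^ 2))) K m N)
          * δ n := by
  set π := penPrior (γ := γ) hτ A a hL J0
  set rA := ((M + mr : ℕ) : ℝ) / (N + m : ℕ)
  set Cb := max 0 (m * stepErr P B1 A0 α S X CR ec (gainT d B1 es ec m) εd rA
    (2 * ((d : ℝ) * (d * gainB d B1))) (B1 + (2 : ℝ) ^ d * ((d : ℝ) ^ 2 * B1))
    (B1 + rA * ((d : ℝ) ^ 2 * (3 * rowB P ^ 2))) K m N)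
  set D := vcasc P π (noFac N d K) (oldC (M := M) J x) + m * (G - η)
    - vcasc P (prodPrior π (atomBlock T τ aW) e) (noFac (N + m) d K)
        (fun j => ptFull M mr j + vpert J x j)
  have hrA : 0 ≤ rA := by positivity
  have hmη : 0 ≤ (m : ℝ) * η := by positivity
  have hcrude : D ≤ Cb := by
    obtain ⟨i, hi⟩ := hI
    have hcav := cavB_step e T i.1 aW hτ hB hB1 hτB A a hL hm (J0 := J0) hA0 hA0' hT
      (hok i hi).rowPath (hok i hi).rowBound (hok i hi).types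
    have hσ : ∀ᶠ n in atTop, vmpair n P π (noFac N d K) (oldC (M := M) J x)
        (fun _ => syncF π (stepFac (K := K) e T i.1 (respP γ dd K i.2)))
        ≤ 2 * ((d : ℝ) * (d * gainB d B1)) := by
      filter_upwards [eventually_gt_atTop 0] with n hn
      refine (vmpair_mono P _ _ hn (goodObs_const _) (goodObs_const fun _ _ =>
        2 * ((d : ℝ) * (d * gainB d B1)) * 1) fun G st st' => ?_).trans_eq ?_
      · simpa using (syncF_nonneg π (atomBlock T τ aW) e _ hcav st st').2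
      · rw [vmpair_smul P _ _ hn (goodObs_const fun _ _ => (1 : ℝ)), vmpair_one P _ _ hn, mul_one]
    have h := step_value e T aW P hCR0 hCR hτ hB hγ hdd hB1 hτB hα hK A a hL hN hm hes hM hA0 hA0'
      hmr hrα hT hcnt hec (hok i hi) (rowGap_le hγ (hok i hi).rowBound (hok i hi).types)
      (add_nonneg (zero_le_one.trans hB1) (by positivity)) (respGap_le P hrA (hok i hi).types) hG J x
      le_rfl hσ (hd1 i hi) (hd2 i hi)
    refine le_trans ?_ (le_max_right _ _)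
    simp only [D]
    linarith
  by_contra hne
  have hfreq : ∃ᶠ n in atTop, ¬D ≤ Cb * δ n := not_eventually.1 hne
  have hCb : 0 ≤ Cb := le_max_left _ _
  have hfreq' : ∃ᶠ n in atTop, ∃ i ∈ I, rowGap γ K i ≤ η1 ∧ RespGap P γ dd rA K η2 i ∧
      vmpair n P π (noFac N d K) (oldC (M := M) J x)
        (fun _ => syncF π (stepFac (K := K) e T i.1 (respP γ dd K i.2))) ≤ σ :=
    (hfreq.and_eventually hsel).mono fun n hn => hn.2 (by
      by_contra hd
      exact hn.1 (hcrude.trans (le_mul_of_one_le_right hCb (not_le.1 hd).le)))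
  have hex : ∃ i ∈ I, ∃ᶠ n in atTop, rowGap γ K i ≤ η1 ∧ RespGap P γ dd rA K η2 i ∧
      vmpair n P π (noFac N d K) (oldC (M := M) J x)
        (fun _ => syncF π (stepFac (K := K) e T i.1 (respP γ dd K i.2))) ≤ σ := by
    by_contra hno
    push Not at hno
    have hall := (Finset.eventually_all I).2 fun i hi => hno i hi
    exact hfreq' (hall.mono fun n hn ⟨i, hi, h1, h2, h3⟩ => not_le.2 (hn i hi h1 h2) h3)
  obtain ⟨i, hi, hif⟩ := hex
  obtain ⟨n, h1, h2, -⟩ := hif.exists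
  set Good := {n | vmpair n P π (noFac N d K) (oldC (M := M) J x)
    (fun _ => syncF π (stepFac (K := K) e T i.1 (respP γ dd K i.2))) ≤ σ}
  have : (atTop ⊓ 𝓟 Good).NeBot := frequently_mem_iff_neBot.1 (hif.mono fun n hn => hn.2.2)
  have h := step_value e T aW P hCR0 hCR hτ hB hγ hdd hB1 hτB hα hK A a hL hN hm hes hM hA0 hA0'
    hmr hrα hT hcnt hec (hok i hi) h1 hη2n h2 hG J x (F := atTop ⊓ 𝓟 Good) inf_le_left
    (mem_inf_of_right (mem_principal.2 fun n hn => hn))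
    ((hd1 i hi).filter_mono inf_le_left) ((hd2 i hi).filter_mono inf_le_left)
  obtain ⟨n, hn, hn'⟩ := (hfreq.and_eventually hδ).exists
  refine hn (le_trans ?_ (mul_nonneg hCb hn'))
  have := mul_le_mul_of_nonneg_left herr (Nat.cast_nonneg (α := ℝ) m)
  simp only [D]
  linarith

end Vale.Agent.P166.Casc
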