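import Vale.Agent.P166.Casc.VStepPoint
import Vale.Agent.P166.Casc.VStat
import Vale.Agent.P166.Casc.VMass

/-!
From the synchronisation of the old system at one degree of the tree to an index of a step: the
responses of the types are close to the means of the slot of the rows.
-/

open MeasureTheory ProbabilityTheory Filter Topology
open Matrix hiding comp
open scoped MatrixOrder

namespace Vale.Agent.P166.Casc

open Vale.Agent.P157.Casc Vale.Agent.P166.Formula Vale.Agent.P166.Pen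

variable {d N N' m M R D K n : ℕ}

/-- The factors of a step on the old sites. -/
noncomputable def oldPhi (N K : ℕ) (q : ℕ → Matrix (Fin d) (Fin d) ℝ) : VFac N d K :=
  (fun z l => if z = 0 then slotFac q l else fun _ _ => 0, (noFac N d K).2)

theorem syncF_oldPhi (π : VPrior N d R D) (e : Fin N ⊕ Fin m ≃ Fin N')
    (T : Fin m → Finset (Fin d)) (q : ℕ → Matrix (Fin d) (Fin d) ℝ)
    (p : (t : Finset (Fin d)) → ℕ → Matrix (Fin t.card) (Fin t.card) ℝ) (st st' : VState π K n) :
    syncF π (stepFac e T q p) st st' = syncF π (oldPhi N K q) st st' := rfl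

theorem rowMean_noSlot (P : VPot d) (π : VPrior N d R D) (Φ Φ' : VFac N d K)
    {c : VCIdx N M d R D K → ℝ} (hc : NoSlot c) (u : Fin (K + 1)) (k l : Fin d) :
    rowMean n P π Φ c u k l = rowMean n P π Φ' c u k l := by
  simp only [rowMean]
  rw [vmpair_noSlot P π Φ Φ' hc]
  congr 1
  funext G st st'
  simp only [vovP, vfld_noSlot π Φ Φ' hc]

variable {τ B ε : ℝ} {γ : Fin d → ℝ} {ν : Measure (Fin d → Fin N → ℝ)} {L J : ℕ} {nA : ℕ}

theorem oldOv_self_eq (hτ : 0 ≤ τ) (A : Coeffs d nA) (a : Atoms ν (cutSet B d N) ε) (hL : 0 < L)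
    (σ : Fin (penPrior (γ := γ) hτ A a hL J).c) (k l : Fin d) :
    oldOv (penPrior (γ := γ) hτ A a hL J) k l σ σ
      = ∑ t, ovl τ γ (a.x (finProdFinEquiv.symm σ).1) (t, k, l) := by
  set ω := a.x (finProdFinEquiv.symm σ).1
  have hc : ∀ (j : Fin N) k, cfgOf τ γ ω j k = if k ∈ typ γ j then √τ * ω k j else 0 := fun j k => by
    simp [cfgOf, typ]
  show (∑ j, cfgOf τ γ ω j k * cfgOf τ γ ω j l) / N = _
  rw [Finset.sum_div, ← Finset.sum_fiberwise_of_maps_to (g := fun j : Fin N => typ γ j)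
    (t := Finset.univ) fun j _ => Finset.mem_univ _]
  refine Finset.sum_congr rfl fun t _ => ?_
  simp only [ovl]
  split_ifs with h
  · rw [Finset.mul_sum]
    refine Finset.sum_congr rfl fun j hj => ?_
    rw [hc, hc, (Finset.mem_filter.1 hj).2, if_pos h.1, if_pos h.2]
    rw [show √τ * ω k j * (√τ * ω l j) = √τ * √τ * (ω k j * ω l j) by ring,
      Real.mul_self_sqrt hτ]
    ring
  · refine Finset.sum_eq_zero fun j hj => ?_
    rw [hc, hc, (Finset.mem_filter.1 hj).2]
    rcases not_and_or.1 h with h | h <;> simp [h]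

/-- An old self-overlap is as far from the end of the path as from the centre, up to the margin. -/
theorem devS_old_le (hτ : 0 ≤ τ) (A : Coeffs d nA) (a : Atoms ν (cutSet B d N) ε) (hL : 0 < L)
    {Φ : VFac N' d K} {dd : OIdx d → ℝ} {ec : ℝ} (hec : 0 ≤ ec)
    (htop : ∀ k l, rowCum Φ (Fin.last K) k l
      = (dTot dd + ec • (1 : Matrix (Fin d) (Fin d) ℝ)) k l)
    (σ : Fin (penPrior (γ := γ) hτ A a hL J).c) :
    devS (penPrior (γ := γ) hτ A a hL J) Φ σ
      ≤ ovlDev τ γ dd (a.x (finProdFinEquiv.symm σ).1) + d * ec := by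
  set ω := a.x (finProdFinEquiv.symm σ).1
  have h : ∀ k l, |oldOv (penPrior (γ := γ) hτ A a hL J) k l σ σ - rowCum Φ (Fin.last K) k l|
      ≤ (∑ t, |ovl τ γ ω (t, k, l) - dd (t, k, l)|)
        + |(ec • (1 : Matrix (Fin d) (Fin d) ℝ)) k l| := fun k l => by
    rw [oldOv_self_eq, htop, Matrix.add_apply, ← sub_sub]
    simp only [dTot, Matrix.of_apply, ← Finset.sum_sub_distrib]
    exact (abs_sub _ _).trans (add_le_add (Finset.abs_sum_le_sum_abs _ _) le_rfl)
  refine (Finset.sum_le_sum fun k _ => Finset.sum_le_sum fun l _ => h k l).trans ?_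
  simp only [Finset.sum_add_distrib]
  refine add_le_add (le_of_eq ?_) (sum_ec_le hec)
  simp only [ovlDev, Fintype.sum_prod_type]
  rw [Finset.sum_congr rfl fun k _ => Finset.sum_comm, Finset.sum_comm]

/-- The responses are close to the means of the slot when they are close to the means of the rows. -/
theorem respGap_of_means (P : VPot d) (π : VPrior N d R D) {dd : OIdx d → ℝ} {Jp : ℕ}
    {x : Fin R → ℕ → ℝ} {rA η E : ℝ} {i : PIndex d}
    (hw : ∀ t, Occupied γ t → lmean (gridM K) K (fun l =>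
      extPath (fun u : Fin (K + 1) => subM t ((pi0 K)⁻¹ • Matrix.of
        (rowMean n P π (noFac N d K) (oldC (M := M) Jp x) u))) l - respP γ dd K i.2 t l) ≤ η)
    (hclose : ∑ u, ∑ k, ∑ l, |rowMean n P π (oldPhi N K i.1) (oldC (M := M) Jp x) u k l
      - (M : ℝ) / N * (pi0 K * slotLev P (oldPhi N K i.1) u k l)| ≤ E) :
    RespGap P γ dd rA K
      (η + E + |rA - (M : ℝ) / N| * ((d : ℝ) ^ 2 * (3 * rowB P ^ 2))) i := by
  intro t ht
  have hπ : 0 < pi0 K := by rw [pi0]; positivity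
  set c := oldC (N := N) (M := M) (d := d) (R := R) (D := D) (K := K) Jp x
  set Φ0 := oldPhi N K i.1
  set G := 3 * rowB P ^ 2
  set r0 := (M : ℝ) / N
  set rm := fun u => Matrix.of (rowMean n P π Φ0 c u)
  have hrm : ∀ u, Matrix.of (rowMean n P π (noFac N d K) c u) = rm u := fun u => by
    ext k l
    exact rowMean_noSlot P π _ _ (noSlot_oldC Jp x) u k l
  have hsl : ∀ u k l, slotM P K i.1 u k l = slotLev P Φ0 u k l := fun u k l => rfl
  have hu : ∀ u : Fin (K + 1), pi0 K * mabs (stepDev P γ dd rA i.1 i.2 t u)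
      ≤ pi0 K * mabs (subM t ((pi0 K)⁻¹ • rm u) - respP γ dd K i.2 t u.val)
        + (∑ k, ∑ l, |rm u k l - r0 * (pi0 K * slotLev P Φ0 u k l)|)
        + pi0 K * (|rA - r0| * ((d : ℝ) ^ 2 * G)) := fun u => by
    set Z := subM t ((pi0 K)⁻¹ • rm u - r0 • slotM P K i.1 u)
    set W := subM t (slotM P K i.1 u)
    have e1 : stepDev P γ dd rA i.1 i.2 t u
        = -(subM t ((pi0 K)⁻¹ • rm u) - respP γ dd K i.2 t u.val) + Z - (rA - r0) • W := by
      ext b b'
      simp only [stepDev, Z, W, subM, Matrix.sub_apply, Matrix.add_apply, Matrix.neg_apply,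
        Matrix.smul_apply, Matrix.submatrix_apply, smul_eq_mul]
      ring
    have h2 : pi0 K * mabs Z ≤ ∑ k, ∑ l, |rm u k l - r0 * (pi0 K * slotLev P Φ0 u k l)| := by
      refine (mul_le_mul_of_nonneg_left (mabs_subM_le t _) hπ.le).trans_eq ?_
      simp only [mabs, Finset.mul_sum, Matrix.sub_apply, Matrix.smul_apply, smul_eq_mul, hsl]
      refine Finset.sum_congr rfl fun k _ => Finset.sum_congr rfl fun l _ => ?_
      have e2 : rm u k l - r0 * (pi0 K * slotLev P Φ0 u k l)
          = pi0 K * ((pi0 K)⁻¹ * rm u k l - r0 * slotLev P Φ0 u k l) := by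
        field_simp
      rw [e2, abs_mul, abs_of_pos hπ]
    have h3 : mabs W ≤ (d : ℝ) ^ 2 * G := by
      refine (mabs_subM_le t _).trans ((Finset.sum_le_sum fun k _ => Finset.sum_le_sum fun l _ =>
        (abs_slotLev_le P (slotPhi K i.1) u k l : |slotM P K i.1 u k l| ≤ G)).trans_eq ?_)
      simp
      ring
    rw [e1]
    refine (mul_le_mul_of_nonneg_left ((mabs_sub _ _).trans
      (add_le_add (mabs_add _ _) le_rfl)) hπ.le).trans ?_
    rw [mabs_neg, mabs_smul, mul_add, mul_add]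
    exact add_le_add (add_le_add le_rfl h2)
      (mul_le_mul_of_nonneg_left (mul_le_mul_of_nonneg_left h3 (abs_nonneg _)) hπ.le)
  have hw' := hw t ht
  rw [lmean_gridM] at hw'
  simp only [extPath_val, hrm] at hw'
  have hs := Finset.sum_le_sum fun u (_ : u ∈ Finset.univ) => hu u
  simp only [Finset.sum_add_distrib, ← Finset.mul_sum, Finset.sum_const, Finset.card_univ,
    Fintype.card_fin, nsmul_eq_mul] at hs
  have hone : pi0 K * (|rA - r0| * ((d : ℝ) ^ 2 * (((K + 1 : ℕ) : ℝ) * G)))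
      = |rA - r0| * ((d : ℝ) ^ 2 * G) := by
    rw [pi0]
    push_cast
    field_simp
  rw [hone] at hs
  have hclose' : ∑ u, ∑ k, ∑ l, |rm u k l - r0 * (pi0 K * slotLev P Φ0 u k l)| ≤ E := hclose
  linarith

theorem rowCum_oldPhi {q : ℕ → Matrix (Fin d) (Fin d) ℝ} (hq : IsPath K q) (u : Fin (K + 1))
    (k l : Fin d) : rowCum (oldPhi N K q) u k l = q u.val k l := by
  rw [← cum_slotFac hq u k l]
  simp [rowCum, oldPhi]

/-- The slot of the rows of a step sees the old system as the old factors do. -/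
theorem syncF_stepFac_mean (P : VPot d) (π : VPrior N d R D) (e : Fin N ⊕ Fin m ≃ Fin N')
    (T : Fin m → Finset (Fin d)) (q : ℕ → Matrix (Fin d) (Fin d) ℝ)
    (p : (t : Finset (Fin d)) → ℕ → Matrix (Fin t.card) (Fin t.card) ℝ)
    {c : VCIdx N M d R D K → ℝ} (hc : NoSlot c) :
    vmpair n P π (noFac N d K) c (fun _ => syncF π (stepFac (K := K) e T q p))
      = vmpair n P π (oldPhi N K q) c (fun _ => syncF π (oldPhi N K q)) := by
  rw [vmpair_noSlot P π (oldPhi N K q) (noFac N d K) hc]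
  rfl

/-- The distance of a slot from the paths of the types, through the raw paths. -/
theorem rowGap_le_raw {i : PIndex d} (X : Fin (K + 1) → Matrix (Fin d) (Fin d) ℝ) :
    rowGap γ K i ≤ pi0 K * (∑ u : Fin (K + 1), mabs (i.1 u.val - X u))
      + pi0 K * ∑ u : Fin (K + 1), mabs (X u - qTot γ i.2 u.val) := by
  have hπ : 0 ≤ pi0 K := by rw [pi0]; positivity
  rw [rowGap, ← mul_add, ← Finset.sum_add_distrib]
  refine mul_le_mul_of_nonneg_left (Finset.sum_le_sum fun u _ => ?_) hπ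
  rw [← sub_add_sub_cancel (i.1 u.val) (X u) (qTot γ i.2 u.val)]
  exact mabs_add _ _

/-- For large trees the responses of the types are close to the means of every slot of a finite
family which is synchronised with the old system. -/
theorem respGap_select (P : VPot d) (hτ : 0 ≤ τ) (hB : 0 ≤ B) (A : Coeffs d nA)
    (a : Atoms ν (cutSet B d N) ε) (hL : 0 < L) {dd : OIdx d → ℝ} {ec B1 ηr : ℝ} (hec : 0 ≤ ec)
    (hB1 : τ * B ≤ B1) (hηr : 0 < ηr) (QS : Finset (ℕ → Matrix (Fin d) (Fin d) ℝ))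
    (hQS : ∀ qS ∈ QS, IsPath K qS ∧ (∀ l, l ≤ K → mabs (qS l) ≤ B1) ∧
      qS K = dTot dd + ec • (1 : Matrix (Fin d) (Fin d) ℝ))
    (Jp : ℕ) (x : Fin (nker d nA) → ℕ → ℝ) :
    ∀ᶠ n in atTop, ∀ qS ∈ QS, ∀ q : TPath d, ∀ (rA σ e η : ℝ),
      vmpair n P (penPrior (γ := γ) hτ A a hL J) (noFac N d K) (oldC (M := M) Jp x)
        (fun _ => syncF (penPrior (γ := γ) hτ A a hL J) (oldPhi N K qS)) ≤ σ →
      vmpair n P (penPrior (γ := γ) hτ A a hL J) (noFac N d K) (oldC (M := M) Jp x)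
        (fun _ st _ => ovlDev τ γ dd (a.x (finProdFinEquiv.symm st.1).1)) ≤ e →
      (∀ t, Occupied γ t → lmean (gridM K) K (fun l =>
        extPath (fun u : Fin (K + 1) => subM t ((pi0 K)⁻¹ • Matrix.of
          (rowMean n P (penPrior (γ := γ) hτ A a hL J) (noFac N d K) (oldC (M := M) Jp x) u))) l
        - respP γ dd K q t l) ≤ η) →
      RespGap P γ dd rA K
        (η + ((M : ℝ) / N * ((d : ℝ) ^ 2 * (decK P B1 * (σ + (e + d * ec)))) + ηr)
          + |rA - (M : ℝ) / N| * ((d : ℝ) ^ 2 * (3 * rowB P ^ 2))) (qS, q) := by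
  set π := penPrior (γ := γ) hτ A a hL J
  set c := oldC (N := N) (M := M) (d := d) (R := nker d nA) (D := N + L + J) (K := K) Jp x
  have hns : NoSlot c := noSlot_oldC Jp x
  have hrow : ∀ qS ∈ QS, ∀ u k l, |rowCum (oldPhi N K qS) u k l| ≤ B1 := fun qS hq u k l => by
    rw [rowCum_oldPhi (hQS qS hq).1]
    exact (abs_le_mabs _ k l).trans ((hQS qS hq).2.1 _ (Nat.lt_succ_iff.1 u.isLt))
  have hB0 : 0 ≤ B1 := (mul_nonneg hτ hB).trans hB1
  have hov : ∀ k l σ σ', |oldOv π k l σ σ'| ≤ B1 := fun k l σ σ' =>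
    (abs_oldOv_pen hτ hB A a hL k l σ σ').trans hB1
  have hall : ∀ qS ∈ QS, ∀ᶠ n in atTop, ∀ σ εd : ℝ,
      vmpair n P π (oldPhi N K qS) c (fun _ => syncF π (oldPhi N K qS)) ≤ σ →
      vmpair n P π (oldPhi N K qS) c (fun _ st _ => devS π (oldPhi N K qS) st.1) ≤ εd →
      ∑ u, ∑ k, ∑ l, |rowMean n P π (oldPhi N K qS) c u k l
          - (M : ℝ) / N * (pi0 K * slotLev P (oldPhi N K qS) u k l)|
        ≤ (M : ℝ) / N * ((d : ℝ) ^ 2 * (decK P B1 * (σ + εd))) + ηr := fun qS hq => by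
    obtain ⟨n0, hn0⟩ := rowMean_close P π (oldPhi N K qS) (M := M) Jp x hB0 hov (hrow qS hq) hηr
    exact eventually_atTop.2 ⟨n0, hn0⟩
  filter_upwards [(Finset.eventually_all QS).2 hall, eventually_gt_atTop 0] with n hn hn0
  intro qS hq q rA σ e η hσ he hw
  refine respGap_of_means P π (i := (qS, q)) (Jp := Jp) (x := x) hw
    (hn qS hq σ (e + d * ec) ?_ ?_)
  · rw [vmpair_noSlot P π (noFac N d K) (oldPhi N K qS) hns] at hσ
    exact hσ
  · rw [vmpair_noSlot P π (noFac N d K) (oldPhi N K qS) hns] at he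
    set W : Fin π.c → ℝ := fun s => ovlDev τ γ dd (a.x (finProdFinEquiv.symm s).1)
    have hpt : ∀ s, devS π (oldPhi N K qS) s ≤ W s + d * ec := fun s =>
      devS_old_le (γ := γ) (J := J) hτ A a hL hec (Φ := oldPhi N K qS) (fun k l => by
        rw [rowCum_oldPhi (hQS qS hq).1, Fin.val_last, (hQS qS hq).2.2]) s
    have g0 : GoodObs (M := M) (n := n) (π := π) (K := K)
        (fun _ (_ _ : VState π K n) => (d : ℝ) * ec) := goodObs_const fun _ _ => (d : ℝ) * ec
    have h1 := vmpair_mono P (oldPhi N K qS) c hn0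
      (goodObs_const (π := π) (K := K) (n := n) fun st _ => devS π (oldPhi N K qS) st.1)
      (goodObs_const (π := π) (K := K) (n := n) fun st _ => W st.1 + d * ec)
      (fun _ st _ => hpt st.1)
    rw [vmpair_add P (oldPhi N K qS) c hn0
      (goodObs_const (π := π) (K := K) (n := n) fun st _ => W st.1) g0] at h1
    have h2 := vmpair_smul P (oldPhi N K qS) c hn0 (π := π) (O := fun _ _ _ => (1 : ℝ))
      (goodObs_const fun _ _ => (1 : ℝ)) ((d : ℝ) * ec)
    simp only [mul_one, vmpair_one P (oldPhi N K qS) c hn0] at h2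
    rw [h2] at h1
    exact h1.trans (add_le_add he le_rfl)

end Vale.Agent.P166.Casc
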