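import Vale.Agent.P166.Casc.VStep
import Vale.Agent.P166.Casc.VStepPoint

/-!
Sizes in one step of the lower bound: numbers of rows at a ratio, centres of the shells of the
block against the centre of the penalty, and the error of a step.
-/

open MeasureTheory ProbabilityTheory Filter Topology
open Matrix hiding comp

namespace Vale.Agent.P166.Casc

open Vale.Agent.P157.Casc Vale.Agent.P166.Formula Vale.Agent.P166.Pen

variable {d N m : ℕ}

theorem rowsN_mem {α : ℝ} (hα : 0 ≤ α) (N : ℕ) :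
    (rowsN α N : ℝ) ≤ α * N ∧ α * N < rowsN α N + 1 :=
  ⟨Nat.floor_le (by positivity), Nat.lt_floor_add_one _⟩

/-- The rows added by a step and the ratios of the rows. -/
theorem rowsN_step {α : ℝ} (hα : 0 ≤ α) (hN : 0 < N) :
    rowsN α N + (rowsN α (N + m) - rowsN α N) = rowsN α (N + m) ∧
      |((rowsN α (N + m) - rowsN α N : ℕ) : ℝ) - α * m| ≤ 1 ∧
      |((rowsN α (N + m) : ℕ) : ℝ) / ((N + m : ℕ) : ℝ) - α| ≤ 1 / N ∧
      |(rowsN α N : ℝ) / N - α| ≤ 1 / N := by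
  have hle : rowsN α N ≤ rowsN α (N + m) :=
    Nat.floor_le_floor (mul_le_mul_of_nonneg_left (by exact_mod_cast Nat.le_add_right N m) hα)
  obtain ⟨a1, a2⟩ := rowsN_mem hα N
  obtain ⟨b1, b2⟩ := rowsN_mem hα (N + m)
  have hN' : (0 : ℝ) < N := Nat.cast_pos.2 hN
  have hNm : (N : ℝ) ≤ ((N + m : ℕ) : ℝ) := by exact_mod_cast Nat.le_add_right N m
  have key : ∀ (R : ℝ) (n : ℝ), 0 < n → R ≤ α * n → α * n < R + 1 → |R / n - α| ≤ 1 / n := by
    intro R n hn h1 h2
    rw [div_sub' hn.ne', abs_div, abs_of_pos hn]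
    refine div_le_div_of_nonneg_right ?_ hn.le
    exact abs_le.2 ⟨by linarith, by linarith⟩
  refine ⟨Nat.add_sub_cancel' hle, ?_, ?_, key _ _ hN' a1 a2⟩
  · rw [Nat.cast_sub hle]
    push_cast at b1 b2 ⊢
    exact abs_le.2 ⟨by linarith, by linarith⟩
  · exact (key _ _ (hN'.trans_le hNm) b1 b2).trans (one_div_le_one_div_of_le hN' hNm)

/-- The centres of the shells against the centre of the penalty. -/
theorem cen_glue {γ : Fin d → ℝ} (hγ : ∀ k, 0 < γ k ∧ γ k ≤ 1) {dd : OIdx d → ℝ} {L : ℝ}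
    (hL : ∀ i, |dd i| ≤ L) (hm : 0 < m) (T : Fin m → Finset (Fin d))
    (hcnt : ∀ t, |(typSize T t : ℝ) - m * tfrac γ t| ≤ 2) (t : Finset (Fin d)) (ht : Occupied γ t)
    (k : Fin d) (hk : k ∈ t) (l : Fin d) (hl : l ∈ t) :
    |cenM γ dd t k l * typSize T t / m - dd (t, k, l)| ≤ (∑ s, 2 * |L| / tfrac γ s) / m := by
  have ha := tfrac_pos hγ ht
  have hm' : (0 : ℝ) < m := Nat.cast_pos.2 hm
  have e : cenM γ dd t k l = dd (t, k, l) / tfrac γ t := by
    obtain ⟨b, rfl⟩ := exists_comp hk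
    obtain ⟨b', rfl⟩ := exists_comp hl
    simp only [cenM, liftM_apply_comp, typD, tmat, Matrix.smul_apply, Matrix.of_apply, smul_eq_mul]
    ring
  rw [e, show dd (t, k, l) / tfrac γ t * typSize T t / m - dd (t, k, l)
      = dd (t, k, l) * ((typSize T t : ℝ) - m * tfrac γ t) / tfrac γ t / m by field_simp,
    abs_div, abs_div, abs_of_pos hm', abs_of_pos ha, abs_mul]
  refine div_le_div_of_nonneg_right ?_ hm'.le
  refine le_trans ?_ (Finset.single_le_sum (f := fun s => 2 * |L| / tfrac γ s)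
    (fun s _ => div_nonneg (by positivity) (tfrac_nonneg γ s)) (Finset.mem_univ t))
  refine div_le_div_of_nonneg_right ?_ ha.le
  calc |dd (t, k, l)| * |(typSize T t : ℝ) - m * tfrac γ t| ≤ |L| * 2 :=
        mul_le_mul ((hL _).trans (le_abs_self L)) (hcnt t) (abs_nonneg _) (abs_nonneg _)
    _ = 2 * |L| := mul_comm _ _

theorem gainC_nonneg (P : VPot d) {B1 α : ℝ} (hB1 : 1 ≤ B1) (hα : 0 ≤ α) :
    0 ≤ gainC P B1 α ∧ ∀ S, 0 ≤ gainS P B1 S := by
  have : 0 ≤ B1 := zero_le_one.trans hB1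
  exact ⟨by unfold gainC; positivity, fun S => by unfold gainS; positivity⟩

theorem incC_nonneg (P : VPot d) {B1 A0 : ℝ} (hA0 : 0 ≤ A0) : 0 ≤ incC P B1 A0 := by
  have h1 : 0 ≤ gainB d B1 := by unfold gainB; positivity
  have h2 : 0 ≤ decK P (gainB d B1) := mul_nonneg (rowC_nonneg P) (by positivity)
  unfold incC; positivity

/-- The error of a step is small when every part is small. -/
theorem stepErr_le (P : VPot d) {B1 A0 α S X CR ec εT εd rA σ η1 η2 : ℝ} {K m N : ℕ}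
    (hB1 : 1 ≤ B1) (hA0 : 0 ≤ A0) (hα : 0 ≤ α) (hCR : 0 ≤ CR) (h1 : 0 ≤ η1) {u : ℝ}
    (hX : X ≤ u) (hK : 2 * |P.bF| / K ≤ u) (hη1 : η1 ≤ u) (hec : 2 * (d * ec) ≤ u)
    (hr : |rA - α| ≤ 1) (hη2 : η2 ≤ u) (hS : gainS P B1 S * (1 / m) ≤ u)
    (hinc : incX d P (gainB d B1) A0 σ εd m (N + m) ≤ u) (hT : εT ≤ u) :
    stepErr P B1 A0 α S X CR ec εT εd rA σ η1 η2 K m N
      ≤ u * (2 + α * (1 + 2 * CR) + 3 * gainC P B1 α + 2 * incC P B1 A0) := by
  have hc := (gainC_nonneg P hB1 hα).1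
  have hi := incC_nonneg P (B1 := B1) hA0
  have e1 : α * (2 * |P.bF| / K + CR * (η1 + 2 * (d * ec))) ≤ α * (u + CR * (u + u)) :=
    mul_le_mul_of_nonneg_left (add_le_add hK (mul_le_mul_of_nonneg_left (add_le_add hη1 hec) hCR)) hα
  have e2 : η1 * (1 + |rA - α|) + η2 ≤ u * 2 + u :=
    add_le_add ((mul_le_mul_of_nonneg_left (by linarith : 1 + |rA - α| ≤ 2) h1).trans
      (mul_le_mul_of_nonneg_right hη1 zero_le_two)) hη2
  have e3 := mul_le_mul_of_nonneg_left e2 hc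
  have e4 := mul_le_mul_of_nonneg_left (add_le_add hinc hT) hi
  simp only [stepErr]
  linarith

end Vale.Agent.P166.Casc
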