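import Vale.Agent.P166.Casc.VSyncPen

/-!
Synchronisation data of the old system of a step at two accuracies: the paths of the types at an
accuracy fixed before the number of levels, the levels at an accuracy fixed after it.
-/

open MeasureTheory ProbabilityTheory Filter Topology Set

namespace Vale.Agent.P166.Casc

open Vale.Agent.P157.Casc Vale.Agent.P166.Pen

variable {d : ℕ}

/-- The synchronisation data of the penalised system with rows at two accuracies. -/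
theorem step_sync {τ B : ℝ} (hτ : 0 < τ) (hB : 0 < B) (hd : 0 < d) (P : VPot d) (a0 : ℝ) {ε1 : ℝ}
    (hε1 : 0 < ε1) :
    ∃ K0 : ℕ, 0 < K0 ∧ ∀ K ≥ K0, ∀ ε2 > 0, ∀ εl > 0, ∃ Nmin : ℕ, ∀ N ≥ Nmin,
      ∀ M : ℕ, (M : ℝ) ≤ a0 * N → ∃ L0 : ℕ, ∀ L ≥ L0, ∀ (hL : 0 < L) (J : ℕ) (γ : Fin d → ℝ)
        (ν : Measure (Fin d → Fin N → ℝ)) (εa : ℝ) (a : Atoms ν (cutSet B d N) εa),
      ∃ n0, 0 < n0 ∧ ∀ n ≥ n0, ∃ δ1 δ2 : (Fin (nker d (d * d)) × Fin N → ℝ) → ℝ,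
        (Integrable δ1 (vxlaw (nker d (d * d)) N) ∧ (∀ y, 0 ≤ δ1 y) ∧
          ∫ y, δ1 y ∂vxlaw (nker d (d * d)) N ≤ ε1) ∧
        (Integrable δ2 (vxlaw (nker d (d * d)) N) ∧ (∀ y, 0 ≤ δ2 y) ∧
          ∫ y, δ2 y ∂vxlaw (nker d (d * d)) N ≤ ε2) ∧
        ∀ y : Fin (nker d (d * d)) × Fin N → ℝ, (∀ p, y p ∈ Icc (1 : ℝ) 2) →
          let π := penPrior (γ := γ) hτ.le (basicCoeffs d) a hL J
          let Φ := noFac N d K
          let c : VCIdx N M d (nker d (d * d)) (N + L + J) K → ℝ := vsys (rowc 1) y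
          let μ := venv N M d (nker d (d * d)) (N + L + J) K n
          (∀ l, |levLaw μ (vposW P π Φ c) (vlev π) l - pi0 K| ≤ εl) ∧
          (∀ (l : Fin (K + 1))
            (F : (Node K n → ℝ) × (VGIdx N M d (nker d (d * d)) (N + L + J) K n → ℝ) →
              (Fin 2 → VState π K n) → ℝ), PertFree F →
            |rdef μ (vmbw P π Φ c) (fun a b => if vlev π a b = l then 1 else 0) 1 F| ≤ δ2 y) ∧
          ∀ t : Finset (Fin d), ∃ q : Fin (K + 1) → Matrix (Fin d) (Fin d) ℝ,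
            (∀ l, (q l).transpose = q l) ∧ (q 0).PosSemidef ∧
            (∀ l : Fin K, (q l.succ - q l.castSucc).PosSemidef) ∧
            (∀ l, mabs (q l) ≤ 2 * (d : ℝ) ^ 2 * (τ * B) + ε1) ∧
            reavg μ (vposW P π Φ c) 2 (fun _ x =>
              mabs (gov (penX hτ.le (basicCoeffs d) a hL J t) (x 0).1 (x 1).1
                - q (vlev π (x 0) (x 1)))) ≤ δ1 y ∧
            (mexp μ (vposW P π Φ c) 1 (fun _ x =>
                gov (penX hτ.le (basicCoeffs d) a hL J t) (x 0).1 (x 0).1)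
              + δ1 y • (1 : Matrix (Fin d) (Fin d) ℝ) - q (Fin.last K)).PosSemidef := by
  obtain ⟨K0, hK0⟩ := pen_sync hτ hB P a0 hε1
  refine ⟨K0 + 1, K0.succ_pos, fun K hK ε2 hε2 εl hεl => ?_⟩
  obtain ⟨N1, hN1⟩ := hK0 K (by omega) (d * d) (Nat.mul_pos hd hd)
  obtain ⟨N2, hN2⟩ := vsync P (|a0| * (τ * |B|)) (nker d (d * d)) (show 0 < K by omega) hε2
  refine ⟨N1 + N2 + 1, fun N hN M hM => ?_⟩
  obtain ⟨L0, hL0⟩ := hN1 N (by omega) M hM
  refine ⟨L0, fun L hLL hL J γ ν εa a => ?_⟩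
  set π := penPrior (γ := γ) hτ.le (basicCoeffs d) a hL J
  obtain ⟨n1, hn1, h1⟩ := hL0 L hLL hL J γ (basicCoeffs d) basicCoeffs_spec ν εa a (noFac N d K)
  obtain ⟨n2, -, h2⟩ := hN2 N (by omega) M (nker d (d * d)) (N + L + J) le_rfl (by omega) π
    (noFac N d K) {rowc 1} isCompact_singleton (by
      rintro _ rfl
      exact ⟨fun _ _ => rfl, rowc_sized hτ.le (basicCoeffs d) a hL _ (by omega) hM⟩)
  obtain ⟨n3, h3⟩ := pairLev_uniform P π (noFac N d K)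
    (isCompact_vsysSet (R := nker d (d * d))
      (isCompact_singleton (x := (rowc 1 : VCIdx N M d (nker d (d * d)) (N + L + J) K → ℝ)))) 1 hεl
  refine ⟨n1 + n2 + n3, by omega, fun n hn => ?_⟩
  obtain ⟨δ1, i1, p1, e1, f1⟩ := h1 n (by omega)
  obtain ⟨δ2, i2, p2, e2, f2⟩ := h2 n (by omega) (rowc 1) (mem_singleton _)
  refine ⟨δ1, δ2, ⟨i1, p1, e1⟩, ⟨i2, p2, e2⟩, fun y hy => ?_⟩
  intro π' Φ c μ
  have κ0 : Fin (nker d (d * d)) :=
    Fintype.equivFin (Finset (Fin d) × Fin (d * d)) (∅, ⟨0, Nat.mul_pos hd hd⟩)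
  refine ⟨fun l => ?_, fun l F hF => (f2 y hy κ0).2 l 1 F hF, (f1 y hy).2.2⟩
  rw [levLaw_eq_pairLev P π' Φ (show 0 < n by omega)]
  exact (h3 n (by omega) (vsys (rowc 1) y) (mem_vsysSet (mem_singleton _) hy)).1 l

end Vale.Agent.P166.Casc
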