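import Vale.Agent.P166.Casc.VStepBudget
import Vale.Agent.P166.Casc.VStepMean

/-!
The cavity step: for a large penalty, many levels, a large block, large systems and many labels, a
block of sites raises the averaged free energy by at least the value of the best paths per site.
-/

open MeasureTheory ProbabilityTheory Filter Topology
open Matrix hiding comp
open scoped MatrixOrder

namespace Vale.Agent.P166.Casc

open Vale.Agent.P157.Casc Vale.Agent.P166.Formula Vale.Agent.P166.Pen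

variable {d : ℕ}

/-- A positive number dominated by a root of a large number. -/
theorem div_sqrt_le {C ee lam : ℝ} (hee : 0 < ee) (hlam : max 1 ((|C| / ee) ^ 2) ≤ lam) :
    C / √lam ≤ ee := by
  have h1 : (1 : ℝ) ≤ lam := (le_max_left _ _).trans hlam
  have h0 : 0 < √lam := Real.sqrt_pos.2 (by linarith)
  have h2 : |C| / ee ≤ √lam := Real.le_sqrt_of_sq_le ((le_max_right _ _).trans hlam)
  rw [div_le_iff₀ hee] at h2
  rw [div_le_iff₀ h0]
  linarith [le_abs_self C]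

set_option maxHeartbeats 600000 in
/-- **The cavity step.** -/
theorem exists_stepUp {τ : ℝ} (hτ : 0 < τ) {γ : Fin d → ℝ} (hγ : ∀ k, 0 < γ k ∧ γ k ≤ 1)
    (hd : 0 < d) (P : VPot d) (hh : ∀ k k' y, P.h k k' y = P.h k' k y) {κ L : ℝ} (hκ : 0 < κ)
    {dd : OIdx d → ℝ} (hdd : GoodCentre γ κ L dd) {α : ℝ} (hα : 0 < α) {B : ℝ} (hB0 : 0 < B)
    (hB : ((∑ t, ∑ k, dd (t, k, k)) + d) / τ + 2 * d ≤ B) :
    ∀ η > 0, ∃ lam0 : ℝ, 1 ≤ lam0 ∧ ∀ lam ≥ lam0, ∃ K0 : ℕ, ∀ K ≥ K0, ∀ G : ℝ,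
      (∀ q, Formula.Adm γ dd K q → G ≤ pathVal τ P.f γ α dd K q) →
      ∃ m : ℕ, 0 < m ∧ ∃ N0 : ℕ, ∀ N ≥ N0, ∃ L0 : ℕ, ∀ L ≥ L0,
        StepUp hτ.le P γ B lam dd α K m N L (G - η) := by
  classical
  intro η hη
  have hα0 : 0 ≤ α := hα.le
  -- constants
  obtain ⟨CR, hCR0, hCR⟩ := rowVal_slot_le P
  obtain ⟨Cd, hdev⟩ := step_dev (L := L) (B := B) (a0 := α + 1) hτ hγ hκ P
  obtain ⟨c, Bp, hc, hBp, hresp⟩ := step_resp (a0 := α + 1) hτ hB0 hγ hκ P hh hdd
  obtain ⟨Cs, hCs, hpick⟩ := step_pick (L0 := L) P hκ hγ hτ.le hB0.le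
  have hτB0 : 0 ≤ τ * B := mul_nonneg hτ.le hB0.le
  set B1 := Bp + τ * B + Cs + 1 with hB1def
  have hB1 : 1 ≤ B1 := by linarith
  have hτB : τ * B ≤ B1 := by linarith
  set W := 2 + α * (1 + 2 * CR) + 3 * gainC P B1 α + 2 * incC P B1 (α + 1)
  have hW : 0 < W := by
    have := (gainC_nonneg P hB1 hα0).1
    have := incC_nonneg P (B1 := B1) (show (0 : ℝ) ≤ α + 1 by linarith)
    positivity
  set u := η / 2 / W with hu
  have hu0 : 0 < u := by positivity
  have huW : u * W = η / 2 := by rw [hu, div_mul_cancel₀ _ hW.ne']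
  obtain ⟨C, hC1, hscale⟩ := step_scale P τ α B1 Cs Bp (τ * B + Cs) hα0 hτ.le
  -- the scale, then the nets
  set ν := min (1 / 4) (u / (2 * C)) with hνdef
  have hν : 0 < ν := lt_min (by norm_num) (by positivity)
  have hν4 : ν ≤ 1 / 4 := min_le_left _ _
  have hCν : C * ν ≤ u / 2 := by
    refine (mul_le_mul_of_nonneg_left (min_le_right _ _) (by linarith : (0 : ℝ) ≤ C)).trans_eq ?_
    field_simp
  obtain ⟨μ, hμ, S, θ0, hθ0, Kn, hnets⟩ := hresp ν hν
  set ee := min ν θ0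
  have hee : 0 < ee := lt_min hν hθ0
  set ec := 2 * ee with hecdef
  have hec0 : 0 ≤ ec := by linarith
  have hecν : ec ≤ 2 * ν := by linarith [min_le_left ν θ0]
  have hec1 : ec ≤ 1 := by linarith
  refine ⟨max 1 ((|Cd| / ee) ^ 2), le_max_left _ _, fun lam hlam => ?_⟩
  have hlam1 : (1 : ℝ) ≤ lam := (le_max_left _ _).trans hlam
  have hCd : Cd / √lam ≤ ee := div_sqrt_le hee hlam
  -- the shells and the block
  set cd : ℝ := (Fintype.card (OIdx d) : ℝ)
  set es := min ν (η / (24 * (lam * cd + 1)))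
  have hlc : 0 ≤ lam * cd := mul_nonneg (by linarith) (Nat.cast_nonneg _)
  have hes : 0 < es := lt_min hν (by positivity)
  have hesν : es ≤ ν := min_le_left _ _
  obtain ⟨m1, hm1⟩ := exists_step_atoms (τ := τ) (B := B) (es := es) (η := ν) (c := c) (Bp := Bp)
    (μ := μ) hτ hes (hesν.trans hν4) hν hμ.1 hμ.2 hc hγ hdd hB
  obtain ⟨m2, hm2⟩ := exists_glue hγ
  set Ce := ∑ s, 2 * |L| / tfrac γ s
  obtain ⟨m, hm1', hm2', hm, hmν, hmS, hme⟩ : ∃ m : ℕ, m1 ≤ m ∧ m2 ≤ m ∧ 0 < m ∧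
      1 / (m : ℝ) ≤ ν ∧ gainS P B1 S * (1 / m) ≤ u ∧ Ce / m ≤ es := by
    have hz : Tendsto (fun m : ℕ => 1 / (m : ℝ)) atTop (𝓝 0) := tendsto_one_div_atTop_nhds_zero_nat
    refine (((eventually_ge_atTop m1).and ((eventually_ge_atTop m2).and ((eventually_gt_atTop 0).and
      ((hz.eventually (eventually_le_nhds hν)).and (Filter.Eventually.and ?_ ?_)))))).exists
    · have hz' : Tendsto (fun m : ℕ => gainS P B1 S * (1 / (m : ℝ))) atTop (𝓝 0) := by
        simpa using hz.const_mul (gainS P B1 S)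
      exact hz'.eventually (eventually_le_nhds hu0)
    · exact (tendsto_const_div_atTop_nhds_zero_nat Ce).eventually (eventually_le_nhds hes)
  have hm' : (0 : ℝ) < m := Nat.cast_pos.2 hm
  -- the synchronisation
  set A0 := α + 1 with hA0def
  set Ex := Real.exp (6 * (transG P (gainB d B1) A0 * m))
  set ν2 := min ν (u / (2 * (9 * Ex * Cs + 1))) with hν2def
  have hν2 : 0 < ν2 := lt_min hν (by positivity)
  have hν2ν : ν2 ≤ ν := min_le_left _ _
  set θ := min ν2 (min θ0 (ee / 2 ^ d))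
  have hθ : 0 < θ := lt_min hν2 (lt_min hθ0 (by positivity))
  have hθν2 : θ ≤ ν2 := min_le_left _ _
  have hθ0' : θ ≤ θ0 := (min_le_right _ _).trans (min_le_left _ _)
  have hθee : ee + (2 : ℝ) ^ d * θ ≤ ec := by
    have h : θ ≤ ee / 2 ^ d := (min_le_right _ _).trans (min_le_right _ _)
    rw [le_div_iff₀ (by positivity)] at h
    linarith
  set εd := ee + d * ec with hεd
  set εT := gainT d B1 es ec m
  set X := (Bp + d / τ) * es / 2 + ν
  obtain ⟨C0, hC0, hcrude⟩ := step_crude P (A0 := A0) (S := S) (X := X) (ec := ec) (εT := εT)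
    (εd := εd) hB1 (by positivity) hα0 hCR0 m
  set ν3 := η / (24 * (C0 + 1))
  have hν3 : 0 < ν3 := by positivity
  obtain ⟨Ks, hKs0, hsync⟩ := step_sync hτ hB0 hd P (α + 1) (ε1 := min 1 (θ * ν3))
    (lt_min one_pos (mul_pos hθ hν3))
  obtain ⟨Kb, hKb⟩ : ∃ Kb : ℕ, ∀ K ≥ Kb, pi0 K ≤ ν2 ∧ 2 * |P.bF| / (K : ℝ) ≤ u := by
    refine eventually_atTop.1 (Filter.Eventually.and ?_ ?_)
    · have : Tendsto (fun K : ℕ => pi0 K) atTop (𝓝 0) := by
        simpa [pi0, one_div] using (tendsto_one_div_add_atTop_nhds_zero_nat (𝕜 := ℝ))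
      exact this.eventually (eventually_le_nhds hν2)
    · exact (tendsto_const_div_atTop_nhds_zero_nat _).eventually (eventually_le_nhds hu0)
  refine ⟨Ks + Kn + Kb, fun K hK G hG => ⟨m, hm, ?_⟩⟩
  have hK0 : 0 < K := by omega
  obtain ⟨hπν, hKu⟩ := hKb K (by omega)
  have hπ : 0 < pi0 K := by rw [pi0]; positivity
  obtain ⟨Q, hQne, hQ, εl0, hεl0, hQresp⟩ := hnets K (by omega)
  obtain ⟨QS, hQSne, hQS, hQSpick⟩ := hpick dd hdd K hK0 ν2 hν2 ec ⟨hec0, hec1⟩
  set εl := min εl0 (pi0 K / 2)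
  have hεl : 0 < εl := lt_min hεl0 (by positivity)
  obtain ⟨N1, hN1⟩ := hsync K (by omega) (εl * ν3) (mul_pos hεl hν3) εl hεl
  obtain ⟨N2, hN2⟩ := hQresp θ hθ0' ee (min_le_right _ _) εl (min_le_left _ _)
  set Rk : ℝ := (nker d (d * d) : ℝ)
  obtain ⟨N0, hN0⟩ : ∃ N0 : ℕ, ∀ N ≥ N0, 0 < N ∧ (m : ℝ) / N ≤ ν ∧ α * m ≤ N ∧ 1 ≤ α * N ∧
      6 * Rk / (N : ℝ) ^ ((1 : ℝ) / 4) ≤ η / 6 ∧ N1 ≤ N ∧ N2 ≤ N ∧
      ∃ del : ℝ, 0 < del ∧
        ∀ {εa : ℝ} (a : Atoms (spinMeas τ γ B lam dd N) (cutSet B d N) εa), εa ≤ del →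
        ∀ {nL J : ℕ} (A : Coeffs d (d * d)) (hL : 0 < nL)
          (y : Fin (nker d (d * d)) × Fin N → ℝ), (∀ p, y p ∈ Set.Icc (1 : ℝ) 2) →
        (∀ {M K n : ℕ} (Φ : VFac N d K), 0 < n → (M : ℝ) ≤ (α + 1) * N →
          vmpair n P (penPrior (γ := γ) hτ.le A a hL J) Φ (vsys (M := M) (rowc 1) y)
              (fun _ st _ => ovlDev τ γ dd (a.x (finProdFinEquiv.symm st.1).1)) ≤ Cd / √lam) ∧
        (∀ {N' M mr K n : ℕ} (e : Fin N ⊕ Fin m ≃ Fin N') (T : Fin m → Finset (Fin d))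
          {es εb : ℝ} {D0 : Finset (Fin d) → Matrix (Fin d) (Fin d) ℝ}
          (aW : Atoms ((spinLaw d m).restrict (shellSet T τ es B D0)) (shellSet T τ es B D0) εb)
          (qS : ℕ → Matrix (Fin d) (Fin d) ℝ) (q : TPath d) {ec : ℝ}, 0 ≤ ec → IsPath K qS →
          qS K = dTot dd + ec • (1 : Matrix (Fin d) (Fin d) ℝ) →
          (∀ i, T i = ∅ ∨ Occupied γ (T i)) → StepPaths γ dd K B1 q → 0 < n →
          ((M + mr : ℕ) : ℝ) ≤ (α + 1) * N → ∀ t ∈ Set.Icc (0 : ℝ) 1,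
          vmpair n P (prodPrior (penPrior (γ := γ) hτ.le A a hL J) (atomBlock T τ aW) e)
              (stepFac (K := K) e T qS (respP γ dd K q)) (seg1C M mr e N (vext y) t)
              (fun _ st _ => devS (penPrior (γ := γ) hτ.le A a hL J)
                (stepFac (K := K) e T qS (respP γ dd K q))
                (oldCfg (penPrior (γ := γ) hτ.le A a hL J) (atomBlock T τ aW) e st.1))
            ≤ Cd / √lam + d * ec ∧
          vmpair n P (prodPrior (penPrior (γ := γ) hτ.le A a hL J) (atomBlock T τ aW) e)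
              (stepFac (K := K) e T qS (respP γ dd K q)) (seg2C M mr e N (vext y) t)
              (fun _ st _ => devS (penPrior (γ := γ) hτ.le A a hL J)
                (stepFac (K := K) e T qS (respP γ dd K q))
                (oldCfg (penPrior (γ := γ) hτ.le A a hL J) (atomBlock T τ aW) e st.1))
            ≤ Cd / √lam + d * ec) := by
    refine eventually_atTop.1 ?_
    have hz : Tendsto (fun N : ℕ => 6 * Rk / (N : ℝ) ^ ((1 : ℝ) / 4)) atTop (𝓝 0) :=
      Tendsto.div_atTop tendsto_const_nhds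
        ((tendsto_rpow_atTop (by norm_num : (0 : ℝ) < 1 / 4)).comp tendsto_natCast_atTop_atTop)
    exact (eventually_gt_atTop 0).and
      (((tendsto_const_div_atTop_nhds_zero_nat (m : ℝ)).eventually (eventually_le_nhds hν)).and
      ((tendsto_natCast_atTop_atTop.eventually (eventually_ge_atTop (α * m))).and
      (((tendsto_natCast_atTop_atTop.const_mul_atTop hα).eventually (eventually_ge_atTop 1)).and
      ((hz.eventually (eventually_le_nhds (by positivity))).and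
      ((eventually_ge_atTop N1).and ((eventually_ge_atTop N2).and
      (hdev dd hdd hB lam hlam1 (d * d) m B1)))))))
  refine ⟨N0, fun N hN => ?_⟩
  obtain ⟨hNpos, hmN, hαm, hαN, hR, hNN1, hNN2, del, hdel, hdevN⟩ := hN0 N hN
  have hN' : (0 : ℝ) < N := Nat.cast_pos.2 hNpos
  obtain ⟨hrows, hmr, hrA, hr0⟩ := rowsN_step (α := α) (m := m) hα0 hNpos
  set M := rowsN α N
  set mr := rowsN α (N + m) - rowsN α N
  obtain ⟨hMle, -⟩ := rowsN_mem hα0 N
  obtain ⟨hMmle, -⟩ := rowsN_mem hα0 (N + m)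
  have hMa : (M : ℝ) ≤ (α + 1) * N := by linarith
  obtain ⟨L0, hL0⟩ := hN1 N hNN1 M hMa
  refine ⟨L0, fun L' hL' hL J δ' hδ' => ⟨0, ?_⟩⟩
  obtain ⟨δa, hδa, hrespA⟩ := hN2 N hNN2 M hMa lam (by linarith) L' hL J
  refine ⟨min δ' (min δa del), lt_min hδ' (lt_min hδa hdel), fun ε a hε => ?_⟩
  have hεδ' : ε ≤ δ' := hε.trans (min_le_left _ _)
  have hεa : ε ≤ δa := hε.trans ((min_le_right _ _).trans (min_le_left _ _))
  have hεdel : ε ≤ del := hε.trans ((min_le_right _ _).trans (min_le_right _ _))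
  obtain ⟨e, he, hT, hcnt⟩ := hm2 m hm2' N hNpos
  set T := fun i => typ γ (e (Sum.inr i))
  obtain ⟨εb, hεb, aW, haW⟩ := hm1 m hm1' T (fun i => tfrac_typ_pos hγ _) hcnt K
    (Fintype.piFinset Q) (Fintype.piFinset_nonempty.2 hQne)
    (fun q hq => (hQ q fun t _ => Fintype.mem_piFinset.1 hq t).2.2) δ' hδ'
  obtain ⟨n0, -, hn0⟩ := hL0 L' hL' hL J γ (spinMeas τ γ B lam dd N) ε a
  choose! δ1 δ2 hδ1 hδ2 hdata using hn0
  set π := penPrior (γ := γ) hτ.le (basicCoeffs d) a hL J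
  set I := QS ×ˢ Fintype.piFinset Q
  have hmem : ∀ i ∈ I, i.1 ∈ QS ∧ ∀ t, i.2 t ∈ Q t := fun i hi =>
    ⟨(Finset.mem_product.1 hi).1, Fintype.mem_piFinset.1 (Finset.mem_product.1 hi).2⟩
  have hok : ∀ i ∈ I, IndexOK γ dd K B1 ec S X τ T (atomBlock T τ aW) i := fun i hi => by
    obtain ⟨h1, h2⟩ := hmem i hi
    obtain ⟨hp, hS, -⟩ := hQ i.2 fun t _ => h2 t
    refine ⟨(hQS _ h1).1, fun l hl => ((hQS _ h1).2.2 l hl).trans (by linarith), (hQS _ h1).2.1,
      ⟨hp.path, hp.top, fun t ht l hl => (hp.bound t ht l hl).trans (by linarith),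
        fun t ht => ⟨(hp.resp t ht).1, (hp.resp t ht).2.1,
          fun l hl => ((hp.resp t ht).2.2 l hl).trans (by linarith)⟩,
        fun t ht => (hp.cen t ht).trans (by linarith)⟩, hS,
      haW i.2 (Fintype.mem_piFinset.2 h2)⟩
  set rA := ((M + mr : ℕ) : ℝ) / (N + m : ℕ) with hrAdef
  have hrAα : |rA - α| ≤ 1 / N := by rw [hrAdef, hrows]; exact hrA
  have hm1R : (1 : ℝ) ≤ m := by exact_mod_cast hm
  have hN1ν : 1 / (N : ℝ) ≤ (m : ℝ) / N := div_le_div_of_nonneg_right hm1R hN'.le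
  have hrA1 : |rA - α| ≤ 1 := by linarith
  have hrA0 : 0 ≤ rA := by positivity
  have hrr : |rA - (M : ℝ) / N| ≤ 2 * ν := by
    have := abs_sub_le rA α ((M : ℝ) / N)
    rw [abs_sub_comm α] at this
    linarith
  obtain ⟨s1, s2, s3, s4, s5, s6⟩ := hscale ν hν.le ν2 θ (pi0 K) ν ((m : ℝ) / N) ee ec es (1 / m) ν
    ((M : ℝ) / N) rA hν2.le hν2ν hθ.le (hθν2.trans hν2ν) hπ.le (hπν.trans hν2ν) hν.le le_rfl
    (by positivity) hmN hee.le (min_le_left _ _) hec0 hecν hes.le hesν (by positivity) hmν hν.le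
    le_rfl (by positivity) (by rw [div_le_iff₀ hN']; exact hMa) hrr
  rw [abs_of_nonneg hCs] at s1 s2
  set σ := Cs * (3 * ν2)
  have hinc : incX d P (gainB d B1) A0 σ εd m (N + m) ≤ u := by
    have h1 : 3 * Ex * σ ≤ u / 2 := by
      have h2 : ν2 * (2 * (9 * Ex * Cs + 1)) ≤ u :=
        (le_div_iff₀ (by positivity)).1 (min_le_right _ _)
      simp only [σ]
      linarith
    have h3 : 4 * (d : ℝ) ^ 2 * gainB d B1 * ((m : ℝ) / ((N + m : ℕ) : ℝ))
        ≤ 4 * (d : ℝ) ^ 2 * gainB d B1 * ((m : ℝ) / N) := by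
      refine mul_le_mul_of_nonneg_left ?_ (by unfold gainB; positivity)
      exact div_le_div_of_nonneg_left hm'.le hN' (by exact_mod_cast Nat.le_add_right N m)
    simp only [incX, εd]
    linarith
  have herr : stepErr P B1 A0 α S X CR ec εT εd rA σ (u / 2) (u / 2) K m N ≤ η / 2 := by
    rw [← huW]
    refine stepErr_le P hB1 (by positivity) hα0 hCR0 (by positivity) ?_ hKu (by linarith) ?_ hrA1
      (by linarith) hmS hinc ?_
    · simp only [X]
      linarith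
    · linarith
    · simp only [εT, gainT]
      rw [← mul_one_div ((2 : ℝ) ^ d * (2 * B1)) (m : ℝ)]
      linarith
  have hmr' : (mr : ℝ) ≤ A0 * m := by
    have := (abs_le.1 hmr).2
    rw [hA0def]
    linarith
  have hMmr : 0 < M + mr := by
    rw [hrows]
    exact Nat.floor_pos.2 (hαN.trans (mul_le_mul_of_nonneg_left
      (by exact_mod_cast Nat.le_add_right N m) hα0))
  have hMmA : ((M + mr : ℕ) : ℝ) ≤ A0 * (N + m : ℕ) := by
    rw [hrows, hA0def]
    push_cast at hMmle ⊢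
    linarith
  have hMmN : ((M + mr : ℕ) : ℝ) ≤ (α + 1) * N := by
    rw [hrows]
    push_cast at hMmle
    linarith
  have hlev : ∀ y : Fin (nker d (d * d)) × Fin N → ℝ, (∀ p, y p ∈ Set.Icc (1 : ℝ) 2) →
      ∀ n, n0 ≤ n → 0 < n → δ2 n y ≤ εl →
        LevData (J := J) (M := M) (K := K) P γ hτ.le dd a hL (vsys (rowc 1) y) n ee εl :=
    fun y hy n hn hn1 hd2 =>
      ⟨((hdevN a hεdel (J := J) (basicCoeffs d) hL y hy).1 (noFac N d K) hn1 hMa).trans hCd,
        (hdata n hn y hy).1, fun l F hF => ((hdata n hn y hy).2.1 l F hF).trans hd2⟩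
  have hmean := step_mean (L := L') (J := J) e T aW P hCR0 hCR hτ.le hB0.le hγ hdd.1 hB1 hτB hα0
    hK0 a hL hNpos hm hes.le hMmr hMmA hmr' hmr (by linarith [(abs_le.1 hrA1).2]) hT hcnt hec0
    (S := S) (X := X) I (hQSne.product (Fintype.piFinset_nonempty.2 hQne)) hok hG (εd := εd)
    (fun y hy i hi => (eventually_gt_atTop 0).mono fun n hn t ht => by
      obtain ⟨a1, a2⟩ := (hdevN a hεdel (J := J) (basicCoeffs d) hL y hy).2 e T aW i.1 i.2
        (K := K) hec0 (hok i hi).rowPath (hok i hi).rowTop hT (hok i hi).types hn hMmN t ht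
      simp only [εd]
      exact ⟨a1.trans (add_le_add hCd le_rfl), a2.trans (add_le_add hCd le_rfl)⟩)
    (δ := fun n y => δ1 n y / θ + δ2 n y / εl) (ε := 2 * ν3)
    (eventually_atTop.2 ⟨n0, fun n hn => ⟨((hδ1 n hn).1.div_const θ).add ((hδ2 n hn).1.div_const εl),
      fun y => add_nonneg (div_nonneg ((hδ1 n hn).2.1 y) hθ.le) (div_nonneg ((hδ2 n hn).2.1 y) hεl.le),
      by
        rw [integral_add ((hδ1 n hn).1.div_const θ) ((hδ2 n hn).1.div_const εl),
          integral_div, integral_div]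
        have h1 := div_le_div_of_nonneg_right ((hδ1 n hn).2.2.trans (min_le_right _ _)) hθ.le
        have h2 := div_le_div_of_nonneg_right (hδ2 n hn).2.2 hεl.le
        rw [mul_div_cancel_left₀ _ hθ.ne'] at h1
        rw [mul_div_cancel_left₀ _ hεl.ne'] at h2
        linarith⟩⟩)
    (η1 := u / 2) (η2 := u / 2) (σ := σ) (η := η / 2) (by positivity) (by positivity)
    (fun y hy => by
      filter_upwards [hQSpick (M := M) (J := J) a hL Q hNpos hQne ν θ εl ee ν hν.le hθ.le hν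
        (min_le_right _ _) hθee y, eventually_ge_atTop n0, eventually_gt_atTop 0]
        with n hn hn0' hn1 hδ
      have p1 := (hδ1 n hn0').2.1 y
      have p2 := (hδ2 n hn0').2.1 y
      have d1 : δ1 n y ≤ θ := (div_le_one hθ).1 (by linarith [div_nonneg p2 hεl.le])
      have d2 : δ2 n y ≤ εl := (div_le_one hεl).1 (by linarith [div_nonneg p1 hθ.le])
      have hl := hlev y hy n hn0' hn1 d2
      obtain ⟨i, hi, g1, g2, g3⟩ := hn hl (fun t => by
        obtain ⟨q, q1, q2, q3, q4, q5, q6⟩ := (hdata n hn0' y hy).2.2 t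
        have htd : TypeData (J := J) (M := M) (n := n) P γ hτ.le a hL (vsys (rowc 1) y) t θ q := by
          refine ⟨q1, q2, q3, fun l => (q4 l).trans (by linarith [min_le_left 1 (θ * ν3)]),
            q5.trans d1, ?_⟩
          have h := q6.add (Matrix.PosSemidef.one.smul (sub_nonneg.2 d1))
          convert h using 1
          simp only [sub_smul]
          abel
        exact ⟨q, htd, fun ht => hrespA a hεa n hn1 y hy hl t ht q htd⟩) rA e T
      refine ⟨i, hi, g1.trans ?_, fun t ht => (g2 t ht).trans (s2.trans hCν), g3.trans ?_⟩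
      · refine le_trans ?_ (s1.trans hCν)
        exact add_le_add le_rfl (mul_le_mul_of_nonneg_left (add_le_add le_rfl hN1ν) hCs)
      · exact mul_le_mul_of_nonneg_left (by linarith) hCs)
    herr hC0 (hcrude K N hK0 rA hrA0 (by linarith [(abs_le.1 hrA1).2]) hrA1)
  have hD : ∀ t, Occupied γ t → ∀ k ∈ t, ∀ l ∈ t,
      |cenM γ dd t k l * typSize T t / m - dd (t, k, l)| ≤ Ce / m := fun t ht k hk l hl =>
    cen_glue hγ hdd.2.1 hm T hcnt t ht k hk l hl
  have hCe : 0 ≤ Ce / (m : ℝ) := div_nonneg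
    (Finset.sum_nonneg fun s _ => div_nonneg (by positivity) (tfrac_nonneg γ s)) hm'.le
  obtain ⟨a', ha'⟩ := avg_step P hτ hB0 (show 0 ≤ lam by linarith) hNpos hm e he hdd.1 hes.le hCe
    (cenM γ dd) hD hδ' a aW hL J 0 M mr K hmean
  refine ⟨_, a', max_le (max_le hεδ' hεb) le_rfl, ?_⟩
  rw [hrows] at ha'
  refine le_trans ?_ ha'
  have hcost1 : lam * m * cd * (es + Ce / m) ^ 2 ≤ (m : ℝ) * (η / 6) := by
    have h1 : es * (24 * (lam * cd + 1)) ≤ η :=
      (le_div_iff₀ (by positivity)).1 (min_le_right _ _)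
    have h2 : (es + Ce / m) ^ 2 ≤ 4 * es ^ 2 :=
      (pow_le_pow_left₀ (by positivity) (by linarith : es + Ce / m ≤ 2 * es) 2).trans_eq (by ring)
    have h3 : es ^ 2 ≤ es := by rw [sq]; exact mul_le_of_le_one_left hes.le (by linarith)
    have h4 := mul_le_mul_of_nonneg_left (h2.trans (mul_le_mul_of_nonneg_left h3 zero_le_four)) hlc
    have h5 : lam * cd * (es + Ce / m) ^ 2 ≤ η / 6 := by linarith
    have := mul_le_mul_of_nonneg_left h5 hm'.le
    linarith
  have hcost2 : 6 * Rk * m / (N : ℝ) ^ ((1 : ℝ) / 4) ≤ (m : ℝ) * (η / 6) := by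
    rw [mul_comm (6 * Rk), mul_div_assoc]
    exact mul_le_mul_of_nonneg_left hR hm'.le
  have hcost3 : (m : ℝ) * C0 * (2 * ν3) ≤ (m : ℝ) * (η / 6) := by
    rw [mul_assoc]
    refine mul_le_mul_of_nonneg_left ?_ hm'.le
    have h2 : ν3 * (24 * (C0 + 1)) = η := div_mul_cancel₀ η (by positivity)
    linarith
  linarith

end Vale.Agent.P166.Casc
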