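import Mathlib

/-!
Overlap matrices of independent configurations: if the diagonal overlaps are nearly constant, the
antisymmetric part is small in mean square.
-/

open Finset

namespace Vale.Agent.P166.Casc

variable {S ι : Type*} [Fintype S] [Fintype ι] {d : ℕ}

/-- Second moments of a weighted family of vectors. -/
def smom {P : Type*} [Fintype P] (a : P → ℝ) (u : P → ι → ℝ) (j j' : ι) : ℝ :=
  ∑ p, a p * (u p j * u p j')

theorem sum_sq_eq_smom {P Q : Type*} [Fintype P] [Fintype Q] (a : P → ℝ) (b : Q → ℝ)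
    (u : P → ι → ℝ) (v : Q → ι → ℝ) :
    ∑ p, ∑ q, a p * b q * (∑ j, u p j * v q j) ^ 2
      = ∑ j, ∑ j', smom a u j j' * smom b v j j' := by
  set T : ι → ι → P → Q → ℝ := fun j j' p q =>
    a p * (u p j * u p j') * (b q * (v q j * v q j'))
  have e : ∀ p q, a p * b q * (∑ j, u p j * v q j) ^ 2 = ∑ j, ∑ j', T j j' p q := fun p q => by
    rw [pow_two, sum_mul_sum, mul_sum]
    refine sum_congr rfl fun j _ => ?_
    rw [mul_sum]
    exact sum_congr rfl fun j' _ => by simp only [T]; ring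
  have e' : ∀ j j', smom a u j j' * smom b v j j' = ∑ p, ∑ q, T j j' p q := fun j j' => by
    rw [smom, smom, sum_mul_sum]
  simp only [e, e']
  rw [sum_comm_cycle]
  exact sum_congr rfl fun j _ => sum_comm_cycle

/-- Cauchy-Schwarz for the mean squares of inner products. -/
theorem sum_sq_le {P Q : Type*} [Fintype P] [Fintype Q] (a : P → ℝ) (b : Q → ℝ) (u : P → ι → ℝ)
    (v : Q → ι → ℝ) {θ : ℝ} (hθ : 0 < θ) :
    ∑ p, ∑ q, a p * b q * (∑ j, u p j * v q j) ^ 2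
      ≤ (∑ p, ∑ p', a p * a p' * (∑ j, u p j * u p' j) ^ 2) / (2 * θ)
        + θ / 2 * ∑ q, ∑ q', b q * b q' * (∑ j, v q j * v q' j) ^ 2 := by
  simp only [sum_sq_eq_smom]
  rw [sum_div, mul_sum, ← sum_add_distrib]
  refine sum_le_sum fun j _ => ?_
  rw [sum_div, mul_sum, ← sum_add_distrib]
  refine sum_le_sum fun j' _ => ?_
  set x := smom a u j j'
  set y := smom b v j j'
  rw [div_add' _ _ _ (by positivity : (2 * θ : ℝ) ≠ 0), le_div_iff₀ (by positivity)]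
  nlinarith [sq_nonneg (x - θ * y)]

section Simplex

variable {a : S → ℝ}

theorem sum_pair_fst (h1 : ∑ σ, a σ = 1) (g : S → ℝ) :
    ∑ q : S × S, a q.1 * a q.2 * g q.1 = ∑ τ, a τ * g τ := by
  rw [Fintype.sum_prod_type]
  refine sum_congr rfl fun τ _ => ?_
  simp only [mul_assoc, mul_comm (a _) (g τ), ← mul_sum, h1, mul_one]

theorem sum_pair_snd (h1 : ∑ σ, a σ = 1) (g : S → ℝ) :
    ∑ q : S × S, a q.1 * a q.2 * g q.2 = ∑ τ, a τ * g τ := by
  rw [Fintype.sum_prod_type, ← one_mul (∑ τ, a τ * g τ), ← h1, sum_mul]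
  exact sum_congr rfl fun τ _ => by rw [mul_sum]; exact sum_congr rfl fun τ' _ => by ring

variable (h0 : ∀ σ, 0 ≤ a σ) (h1 : ∑ σ, a σ = 1)
include h0 h1

/-- The mean square of the inner products of differences. -/
theorem diff_sq_le (u : S → ι → ℝ) (q : ℝ) :
    ∑ p : S × S, ∑ p' : S × S, a p.1 * a p.2 * (a p'.1 * a p'.2)
        * (∑ j, (u p.1 j - u p.2 j) * (u p'.1 j - u p'.2 j)) ^ 2
      ≤ 16 * ∑ σ, ∑ τ, a σ * a τ * ((∑ j, u σ j * u τ j) - q) ^ 2 := by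
  set f : S → S → ℝ := fun σ τ => ((∑ j, u σ j * u τ j) - q) ^ 2
  set e := ∑ σ, ∑ τ, a σ * a τ * f σ τ
  set w : S × S → ℝ := fun p => a p.1 * a p.2
  have hpt : ∀ p p' : S × S, (∑ j, (u p.1 j - u p.2 j) * (u p'.1 j - u p'.2 j)) ^ 2
      ≤ 4 * (f p.1 p'.1 + f p.1 p'.2 + f p.2 p'.1 + f p.2 p'.2) := fun p p' => by
    simp only [f, sub_mul, mul_sub, sum_sub_distrib]
    set x := ∑ j, u p.1 j * u p'.1 j
    set y := ∑ j, u p.1 j * u p'.2 j
    set z := ∑ j, u p.2 j * u p'.1 j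
    set w := ∑ j, u p.2 j * u p'.2 j
    nlinarith [sq_nonneg ((x - q) + (y - q)), sq_nonneg ((x - q) + (z - q)),
      sq_nonneg ((x - q) - (w - q)), sq_nonneg ((y - q) - (z - q)),
      sq_nonneg ((y - q) + (w - q)), sq_nonneg ((z - q) + (w - q))]
  have hw : ∀ p, 0 ≤ w p := fun p => mul_nonneg (h0 _) (h0 _)
  refine (sum_le_sum fun p _ => sum_le_sum fun p' _ =>
    mul_le_mul_of_nonneg_left (hpt p p') (mul_nonneg (hw p) (hw p'))).trans (le_of_eq ?_)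
  have e11 : ∑ p : S × S, w p * ∑ p' : S × S, w p' * f p.1 p'.1 = e := by
    simp only [w]
    rw [sum_congr rfl fun p (_ : p ∈ univ) => by rw [sum_pair_fst h1 (f p.1)],
      sum_pair_fst h1 (fun σ => ∑ τ, a τ * f σ τ)]
    simp only [e, mul_sum, mul_assoc]
  have e12 : ∑ p : S × S, w p * ∑ p' : S × S, w p' * f p.1 p'.2 = e := by
    simp only [w]
    rw [sum_congr rfl fun p (_ : p ∈ univ) => by rw [sum_pair_snd h1 (f p.1)],
      sum_pair_fst h1 (fun σ => ∑ τ, a τ * f σ τ)]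
    simp only [e, mul_sum, mul_assoc]
  have e21 : ∑ p : S × S, w p * ∑ p' : S × S, w p' * f p.2 p'.1 = e := by
    simp only [w]
    rw [sum_congr rfl fun p (_ : p ∈ univ) => by rw [sum_pair_fst h1 (f p.2)],
      sum_pair_snd h1 (fun σ => ∑ τ, a τ * f σ τ)]
    simp only [e, mul_sum, mul_assoc]
  have e22 : ∑ p : S × S, w p * ∑ p' : S × S, w p' * f p.2 p'.2 = e := by
    simp only [w]
    rw [sum_congr rfl fun p (_ : p ∈ univ) => by rw [sum_pair_snd h1 (f p.2)],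
      sum_pair_snd h1 (fun σ => ∑ τ, a τ * f σ τ)]
    simp only [e, mul_sum, mul_assoc]
  have e4 : ∀ g : S × S → S × S → ℝ, ∑ p, ∑ p', w p * w p' * g p p'
      = ∑ p, w p * ∑ p', w p' * g p p' := fun g => by simp only [mul_sum, mul_assoc]
  simp only [mul_left_comm _ (4 : ℝ), ← mul_sum, mul_add, sum_add_distrib]
  change 4 * (∑ p, ∑ p', w p * w p' * f p.1 p'.1) + 4 * (∑ p, ∑ p', w p * w p' * f p.1 p'.2)
    + 4 * (∑ p, ∑ p', w p * w p' * f p.2 p'.1) + 4 * (∑ p, ∑ p', w p * w p' * f p.2 p'.2) = 16 * e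
  rw [e4, e4, e4, e4, e11, e12, e21, e22]
  ring

/-- Differences of one family against the other. -/
theorem cross_sq_le (u v : S → ι → ℝ) (q : ℝ) {B θ : ℝ} (hθ : 0 < θ)
    (hB : ∀ σ τ, |∑ j, v σ j * v τ j| ≤ B) :
    ∑ p : S × S, ∑ τ, a p.1 * a p.2 * a τ * (∑ j, (u p.1 j - u p.2 j) * v τ j) ^ 2
      ≤ 8 / θ * (∑ σ, ∑ τ, a σ * a τ * ((∑ j, u σ j * u τ j) - q) ^ 2) + θ / 2 * B ^ 2 := by
  refine (sum_sq_le (fun p : S × S => a p.1 * a p.2) a (fun p j => u p.1 j - u p.2 j) v hθ).trans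
    (add_le_add ?_ (mul_le_mul_of_nonneg_left ?_ (by positivity)))
  · rw [div_le_iff₀ (by positivity)]
    refine (diff_sq_le h0 h1 u q).trans_eq ?_
    field_simp
    ring
  · refine (sum_le_sum fun σ _ => sum_le_sum fun τ _ => mul_le_mul_of_nonneg_left
      (sq_le_sq.2 ((hB σ τ).trans (le_abs_self B))) (mul_nonneg (h0 σ) (h0 τ))).trans (le_of_eq ?_)
    simp [← sum_mul, ← mul_sum, h1]

/-- The antisymmetric part is small when the diagonal overlaps are nearly constant. -/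
theorem antisym_sq_le (u v : S → ι → ℝ) (qu qv : ℝ) {B θ : ℝ} (hθ : 0 < θ)
    (hu : ∀ σ τ, |∑ j, u σ j * u τ j| ≤ B) (hv : ∀ σ τ, |∑ j, v σ j * v τ j| ≤ B) :
    ∑ σ, ∑ τ, a σ * a τ * ((∑ j, u σ j * v τ j) - ∑ j, v σ j * u τ j) ^ 2
      ≤ 32 / θ * ((∑ σ, ∑ τ, a σ * a τ * ((∑ j, u σ j * u τ j) - qu) ^ 2)
          + ∑ σ, ∑ τ, a σ * a τ * ((∑ j, v σ j * v τ j) - qv) ^ 2) + 4 * θ * B ^ 2 := by
  set A : S → S → ℝ := fun σ τ => (∑ j, u σ j * v τ j) - ∑ j, v σ j * u τ j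
  set w : S × S → ℝ := fun p => a p.1 * a p.2
  have hA : ∀ σ τ, A τ σ = -A σ τ := fun σ τ => by
    simp only [A, neg_sub]
    congr 1 <;> exact sum_congr rfl fun j _ => mul_comm _ _
  have hw : ∀ p, 0 ≤ w p := fun p => mul_nonneg (h0 _) (h0 _)
  have hw1 : ∑ p, w p = 1 := by
    simp only [w]; rw [Fintype.sum_prod_type, ← sum_mul_sum, h1, one_mul]
  have hzero : ∑ p, w p * A p.1 p.2 = 0 := by
    have hneg : ∀ p : S × S, w p.swap * A p.swap.1 p.swap.2 = -(w p * A p.1 p.2) := fun p => by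
      simp only [w, Prod.fst_swap, Prod.snd_swap, hA p.1 p.2]
      ring
    have h := Equiv.sum_comp (Equiv.prodComm S S) fun p : S × S => w p * A p.1 p.2
    simp only [Equiv.prodComm_apply, hneg, sum_neg_distrib] at h
    linarith
  -- twice the mean square is the mean square of the difference of two copies
  have hvar : ∑ p, ∑ p', w p * w p' * (A p.1 p.2 - A p'.1 p'.2) ^ 2
      = 2 * ∑ p, w p * A p.1 p.2 ^ 2 := by
    have e : ∀ p p', w p * w p' * (A p.1 p.2 - A p'.1 p'.2) ^ 2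
        = w p' * (w p * A p.1 p.2 ^ 2) + w p * (w p' * A p'.1 p'.2 ^ 2)
          - 2 * ((w p * A p.1 p.2) * (w p' * A p'.1 p'.2)) := fun p p' => by ring
    simp only [e, sum_sub_distrib, sum_add_distrib, ← sum_mul, ← mul_sum, hw1, hzero]
    ring
  set T1 := ∑ p : S × S, ∑ τ, a p.1 * a p.2 * a τ * (∑ j, (u p.1 j - u p.2 j) * v τ j) ^ 2
  set T2 := ∑ p : S × S, ∑ τ, a p.1 * a p.2 * a τ * (∑ j, (v p.1 j - v p.2 j) * u τ j) ^ 2
  have hpt : ∀ p p' : S × S, (A p.1 p.2 - A p'.1 p'.2) ^ 2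
      ≤ 4 * ((∑ j, (u p.1 j - u p'.1 j) * v p.2 j) ^ 2
        + (∑ j, (v p.2 j - v p'.2 j) * u p'.1 j) ^ 2
        + (∑ j, (v p.1 j - v p'.1 j) * u p.2 j) ^ 2
        + (∑ j, (u p.2 j - u p'.2 j) * v p'.1 j) ^ 2) := fun p p' => by
    set x1 := ∑ j, (u p.1 j - u p'.1 j) * v p.2 j
    set x2 := ∑ j, (v p.2 j - v p'.2 j) * u p'.1 j
    set x3 := ∑ j, (v p.1 j - v p'.1 j) * u p.2 j
    set x4 := ∑ j, (u p.2 j - u p'.2 j) * v p'.1 j
    have e : A p.1 p.2 - A p'.1 p'.2 = x1 + x2 - x3 - x4 := by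
      simp only [A, x1, x2, x3, x4, sub_mul, sum_sub_distrib, mul_comm (v p.2 _),
        mul_comm (v p'.2 _), mul_comm (u p.2 _), mul_comm (u p'.2 _)]
      ring
    rw [e]
    nlinarith [sq_nonneg (x1 - x2), sq_nonneg (x1 + x3), sq_nonneg (x1 + x4),
      sq_nonneg (x2 + x3), sq_nonneg (x2 + x4), sq_nonneg (x3 - x4)]
  -- reduce to three independent configurations
  have r1 : ∀ g : S → S → S → ℝ, ∑ p, ∑ p', w p * w p' * g p.1 p'.1 p.2
      = ∑ p : S × S, ∑ τ, a p.1 * a p.2 * a τ * g p.1 p.2 τ := fun g => by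
    have e : ∀ σ τ σ', ∑ τ', a σ * a τ * (a σ' * a τ') * g σ σ' τ
        = a σ * a σ' * a τ * g σ σ' τ := fun σ τ σ' => by
      rw [← sum_mul, ← mul_sum, ← mul_sum, h1]
      ring
    simp only [w, Fintype.sum_prod_type, e]
    exact sum_congr rfl fun σ _ => sum_comm
  have r2 : ∀ g : S → S → S → ℝ, ∑ p, ∑ p', w p * w p' * g p.2 p'.2 p'.1
      = ∑ p : S × S, ∑ τ, a p.1 * a p.2 * a τ * g p.1 p.2 τ := fun g => by
    have e : ∀ τ τ' σ', ∑ σ, a σ * a τ * (a σ' * a τ') * g τ τ' σ'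
        = a τ * a τ' * a σ' * g τ τ' σ' := fun τ τ' σ' => by
      rw [← sum_mul, ← sum_mul, ← sum_mul, h1]
      ring
    simp only [w, Fintype.sum_prod_type]
    rw [sum_comm]
    refine sum_congr rfl fun τ _ => ?_
    rw [sum_comm_cycle]
    refine sum_congr rfl fun τ' _ => ?_
    rw [sum_comm]
    exact sum_congr rfl fun σ' _ => e τ τ' σ'
  have hb1 := cross_sq_le h0 h1 u v qu hθ hv
  have hb2 := cross_sq_le h0 h1 v u qv hθ hu
  have hmain : ∑ p, ∑ p', w p * w p' * (A p.1 p.2 - A p'.1 p'.2) ^ 2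
      ≤ 4 * (T1 + T2 + T2 + T1) := by
    refine (sum_le_sum fun p _ => sum_le_sum fun p' _ =>
      mul_le_mul_of_nonneg_left (hpt p p') (mul_nonneg (hw p) (hw p'))).trans (le_of_eq ?_)
    simp only [mul_left_comm _ (4 : ℝ), ← mul_sum, mul_add, sum_add_distrib]
    rw [r1 (fun x y z => (∑ j, (u x j - u y j) * v z j) ^ 2),
      r2 (fun x y z => (∑ j, (v x j - v y j) * u z j) ^ 2),
      r1 (fun x y z => (∑ j, (v x j - v y j) * u z j) ^ 2),
      r2 (fun x y z => (∑ j, (u x j - u y j) * v z j) ^ 2)]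
  rw [hvar] at hmain
  have e0 : ∑ σ, ∑ τ, a σ * a τ * ((∑ j, u σ j * v τ j) - ∑ j, v σ j * u τ j) ^ 2
      = ∑ p, w p * A p.1 p.2 ^ 2 := by
    rw [Fintype.sum_prod_type]
  have e8 : ∀ e : ℝ, 32 / θ * e = 4 * (8 / θ * e) := fun e => by ring
  rw [e0, e8]
  linarith

end Simplex

end Vale.Agent.P166.Casc
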