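import Vale.Agent.P166.Casc.VSync
import Vale.Agent.P166.Casc.VSyncAlg
import Vale.Agent.P166.Casc.VMexp

/-!
Synchronisation of an overlap matrix with the levels from that of finitely many of its quadratic
forms, with predictions that form an increasing path of nonnegative matrices.
-/

open MeasureTheory ProbabilityTheory Filter Topology Set

namespace Vale.Agent.P166.Casc

open Vale.Agent.P157.Casc

variable {N M d R D K n e0 : ℕ}

/-- The overlap matrix of a family of arrays. -/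
def gov {S ι : Type*} [Fintype ι] (X : S → ι → Fin e0 → ℝ) (σ τ : S) :
    Matrix (Fin e0) (Fin e0) ℝ :=
  Matrix.of fun k l => ∑ j, X σ j k * X τ j l

/-- A quadratic form of the overlap matrix. -/
def gq {S ι : Type*} [Fintype ι] (X : S → ι → Fin e0 → ℝ) (v : Fin e0 → ℝ) (σ τ : S) : ℝ :=
  ∑ j, (∑ k, v k * X σ j k) * ∑ k, v k * X τ j k

/-- The coefficient vectors that determine a symmetric form. -/
def bvec (k l : Fin e0) (i : Fin e0) : ℝ := if i = k ∨ i = l then 1 else 0

/-- The bound on the observables that enter the positivity of the levels. -/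
noncomputable def syncB (e0 : ℕ) (B θ : ℝ) : ℝ :=
  4 * θ * B ^ 2 + 576 / θ * B ^ 2 + 4 * B ^ 2 + 2 * ((e0 : ℝ) ^ 2 * B) + 1

section Alg

variable {S ι : Type*} [Fintype ι] (X : S → ι → Fin e0 → ℝ)

theorem gov_swap (σ τ : S) (k l : Fin e0) : gov X τ σ k l = gov X σ τ l k := by
  simp only [gov, Matrix.of_apply, mul_comm]

theorem gq_eq_sum (v : Fin e0 → ℝ) (σ τ : S) :
    gq X v σ τ = ∑ k, ∑ l, v k * v l * gov X σ τ k l := by
  simp only [gq]
  rw [Finset.sum_congr rfl fun j _ => Finset.sum_mul_sum ..]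
  simp only [gov, Matrix.of_apply, Finset.mul_sum]
  rw [Finset.sum_comm]
  refine Finset.sum_congr rfl fun k _ => ?_
  rw [Finset.sum_comm]
  exact Finset.sum_congr rfl fun l _ => Finset.sum_congr rfl fun j _ => by ring

theorem gq_bvec_self (k : Fin e0) (σ τ : S) : gq X (bvec k k) σ τ = gov X σ τ k k := by
  simp [gq_eq_sum, bvec, ite_mul]

theorem gq_bvec (k l : Fin e0) (h : k ≠ l) (σ τ : S) :
    gq X (bvec k l) σ τ = gov X σ τ k k + gov X σ τ l l + (gov X σ τ k l + gov X σ τ l k) := by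
  have e : ∀ i, bvec k l i = (if i = k then 1 else 0) + if i = l then (1 : ℝ) else 0 := fun i => by
    unfold bvec
    by_cases hk : i = k <;> by_cases hl : i = l <;> simp_all
  simp [gq_eq_sum, e, add_mul, mul_add, Finset.sum_add_distrib, ite_mul]
  ring

theorem abs_gq_le {B : ℝ} (hB : ∀ σ τ k l, |gov X σ τ k l| ≤ B) {v : Fin e0 → ℝ}
    (hv : ∀ k, |v k| ≤ 1) (σ τ : S) : |gq X v σ τ| ≤ (e0 : ℝ) ^ 2 * B := by
  rw [gq_eq_sum]
  refine (Finset.abs_sum_le_sum_abs _ _).trans
    ((Finset.sum_le_sum fun k _ => (Finset.abs_sum_le_sum_abs _ _).trans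
      (Finset.sum_le_sum (g := fun _ => B) fun l _ => ?_)).trans_eq (by simp; ring))
  rw [abs_mul]
  exact (mul_le_of_le_one_left (abs_nonneg _) (by
    rw [abs_mul]; exact mul_le_one₀ (hv k) (abs_nonneg _) (hv l))).trans (hB σ τ k l)

theorem abs_bvec_le (k l i : Fin e0) : |bvec k l i| ≤ 1 := by
  unfold bvec; split_ifs <;> simp

theorem abs_proj_le {B : ℝ} (hB : ∀ σ τ k l, |gov X σ τ k l| ≤ B) {v : Fin e0 → ℝ}
    (hv : ∀ k, |v k| ≤ 1) (j : ι) (σ : S) : |∑ k, v k * X σ j k| ≤ (e0 : ℝ) ^ 2 * B + 1 := by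
  have h2 : (∑ k, v k * X σ j k) ^ 2 ≤ gq X v σ σ := by
    rw [pow_two, gq]
    exact Finset.single_le_sum (f := fun j => (∑ k, v k * X σ j k) * ∑ k, v k * X σ j k)
      (fun j _ => mul_self_nonneg _) (Finset.mem_univ j)
  have h3 := (le_abs_self _).trans (abs_gq_le X hB hv σ σ)
  have := sq_nonneg (|∑ k, v k * X σ j k| - 1)
  rw [sub_sq, sq_abs] at this
  nlinarith [abs_nonneg (∑ k, v k * X σ j k)]

theorem gq_simplex_nonneg [Fintype S] (v : Fin e0 → ℝ) (a : S → ℝ) :
    0 ≤ ∑ σ, ∑ τ, gq X v σ τ * (a σ * a τ) := by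
  set f : S → ι → ℝ := fun σ j => ∑ k, v k * X σ j k
  have e : ∑ σ, ∑ τ, gq X v σ τ * (a σ * a τ) = ∑ j, (∑ σ, a σ * f σ j) ^ 2 := by
    change ∑ σ, ∑ τ, (∑ j, f σ j * f τ j) * (a σ * a τ) = _
    rw [Finset.sum_congr rfl fun j (_ : j ∈ Finset.univ) => (pow_two _).trans (Finset.sum_mul_sum ..)]
    simp only [Finset.sum_mul]
    rw [Finset.sum_comm_cycle]
    exact Finset.sum_congr rfl fun j _ => Finset.sum_congr rfl fun σ _ =>
      Finset.sum_congr rfl fun τ _ => by ring
  rw [e]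
  exact Finset.sum_nonneg fun j _ => sq_nonneg _

end Alg

section Lev

variable (P : VPot d) (π : VPrior N d R D) (Φ : VFac N d K) (c : VCIdx N M d R D K → ℝ)
variable (hn : 0 < n)
include hn

theorem pairLev_sum {κ : Type*} (t : Finset κ) (O : κ → Fin π.c → Fin π.c → ℝ) (l : Fin (K + 1)) :
    pairLev n P π Φ c (fun σ τ => ∑ i ∈ t, O i σ τ) l = ∑ i ∈ t, pairLev n P π Φ c (O i) l := by
  have := vstate_nonempty (K := K) π hn
  simp only [pairLev_eq_reavg P π Φ hn]
  rw [← reavg_sum (measurable_vposW P π Φ c) (vposW_pos P π Φ c) t fun i _ =>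
    bTest_const (fun x => levO π (O i) l x) (B := ∑ x, |levO (n := n) π (O i) l x|) fun x =>
      Finset.single_le_sum (f := fun x => |levO π (O i) l x|) (fun _ _ => abs_nonneg _)
        (Finset.mem_univ x)]
  congr 1
  funext _ x
  simp only [levO, onLev]
  split_ifs <;> simp

theorem pairLev_smul (a : ℝ) (O : Fin π.c → Fin π.c → ℝ) (l : Fin (K + 1)) :
    pairLev n P π Φ c (fun σ τ => a * O σ τ) l = a * pairLev n P π Φ c O l := by
  simp only [pairLev_eq_reavg P π Φ hn]
  rw [← reavg_smul]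
  congr 1
  funext _ x
  simp only [levO, onLev]
  split_ifs <;> simp

theorem pairLev_add (O O' : Fin π.c → Fin π.c → ℝ) (l : Fin (K + 1)) :
    pairLev n P π Φ c (fun σ τ => O σ τ + O' σ τ) l
      = pairLev n P π Φ c O l + pairLev n P π Φ c O' l := by
  simpa [Fintype.sum_bool] using
    pairLev_sum P π Φ c hn (Finset.univ : Finset Bool) (fun b => if b then O else O') l

theorem pairLev_sub (O O' : Fin π.c → Fin π.c → ℝ) (l : Fin (K + 1)) :
    pairLev n P π Φ c (fun σ τ => O σ τ - O' σ τ) l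
      = pairLev n P π Φ c O l - pairLev n P π Φ c O' l := by
  have h := pairLev_add P π Φ c hn (fun σ τ => O σ τ - O' σ τ) O' l
  simp only [sub_add_cancel] at h
  linarith

theorem pairLev_const (a : ℝ) (l : Fin (K + 1)) :
    pairLev n P π Φ c (fun _ _ => a) l = a * pairLev n P π Φ c (fun _ _ => 1) l := by
  rw [← pairLev_smul P π Φ c hn]; simp

theorem pairLev_mono {O O' : Fin π.c → Fin π.c → ℝ} (h : ∀ σ τ, O σ τ ≤ O' σ τ)
    (l : Fin (K + 1)) : pairLev n P π Φ c O l ≤ pairLev n P π Φ c O' l := by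
  have := vstate_nonempty (K := K) π hn
  simp only [pairLev_eq_reavg P π Φ hn]
  refine eavg_mono' (measurable_vposW P π Φ c) (vposW_pos P π Φ c) fun x => ?_
  simp only [levO, onLev]
  split_ifs
  · exact h _ _
  · exact le_rfl

theorem abs_pairLev_le (O : Fin π.c → Fin π.c → ℝ) (l : Fin (K + 1)) :
    |pairLev n P π Φ c O l| ≤ pairLev n P π Φ c (fun σ τ => |O σ τ|) l := by
  refine abs_le.2 ⟨?_, pairLev_mono P π Φ c hn (fun σ τ => le_abs_self _) l⟩
  rw [neg_le, ← neg_one_mul, ← pairLev_smul P π Φ c hn]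
  exact pairLev_mono P π Φ c hn (fun σ τ => by rw [neg_one_mul]; exact neg_le_abs _) l

theorem abs_pairLev_le_mul {O : Fin π.c → Fin π.c → ℝ} {B : ℝ} (h : ∀ σ τ, |O σ τ| ≤ B)
    (l : Fin (K + 1)) :
    |pairLev n P π Φ c O l| ≤ B * pairLev n P π Φ c (fun _ _ => 1) l := by
  rw [← pairLev_const P π Φ c hn B]
  exact (abs_pairLev_le P π Φ c hn O l).trans (pairLev_mono P π Φ c hn h l)

theorem sum_pairLev (O : Fin (K + 1) → Fin π.c → Fin π.c → ℝ) :
    ∑ l, pairLev n P π Φ c (O l) l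
      = reavg (venv N M d R D K n) (vposW P π Φ c) 2
          fun _ x => O (vlev π (x 0) (x 1)) (x 0).1 (x 1).1 := by
  have := vstate_nonempty (K := K) π hn
  simp only [pairLev_eq_reavg P π Φ hn]
  rw [← reavg_sum (measurable_vposW P π Φ c) (vposW_pos P π Φ c) _ fun l _ =>
    bTest_const (fun x => levO π (O l) l x) (B := ∑ x, |levO (n := n) π (O l) l x|) fun x =>
      Finset.single_le_sum (f := fun x => |levO π (O l) l x|) (fun _ _ => abs_nonneg _)
        (Finset.mem_univ x)]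
  congr 1
  funext _ x
  simp [levO, onLev]

theorem sum_pairLev_const (a : ℝ) :
    ∑ l : Fin (K + 1), pairLev n P π Φ c (fun _ _ => a) l = a := by
  have := vstate_nonempty (K := K) π hn
  rw [sum_pairLev P π Φ c hn]
  simp [reavg, avg_const' (vposW_pos P π Φ c _)]

/-- Any prediction by the level gives the prediction by the normalised level average. -/
theorem pred_mean (f : Fin π.c → Fin π.c → ℝ) (g : Fin (K + 1) → ℝ) {F η : ℝ}
    (hf : ∀ σ τ, |f σ τ| ≤ F) (hη : η ≤ pi0 K)
    (hlaw : ∀ l, |pairLev n P π Φ c (fun _ _ => 1) l - pi0 K| ≤ η) :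
    ∑ l, pairLev n P π Φ c (fun σ τ => |f σ τ - pairLev n P π Φ c f l / pi0 K|) l
      ≤ 2 * (∑ l, pairLev n P π Φ c (fun σ τ => |f σ τ - g l|) l)
        + ((K : ℝ) + 1) * (2 * F * η) := by
  have hπ : 0 < pi0 K := by rw [pi0]; positivity
  have hF : 0 ≤ F := (abs_nonneg _).trans (hf ⟨0, π.c_pos⟩ ⟨0, π.c_pos⟩)
  have hl : ∀ l, pairLev n P π Φ c (fun σ τ => |f σ τ - pairLev n P π Φ c f l / pi0 K|) l
      ≤ 2 * pairLev n P π Φ c (fun σ τ => |f σ τ - g l|) l + 2 * F * η := fun l => by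
    set p := pairLev n P π Φ c f l
    set L := pairLev n P π Φ c (fun _ _ => 1) l
    set E := pairLev n P π Φ c (fun σ τ => |f σ τ - g l|) l
    obtain ⟨h1, h2⟩ := abs_le.1 (hlaw l)
    have hp : |p| ≤ F * L := abs_pairLev_le_mul P π Φ c hn hf l
    have hgl : |g l * L - p| ≤ E := by
      have := abs_pairLev_le P π Φ c hn (fun σ τ => f σ τ - g l) l
      rwa [pairLev_sub P π Φ c hn, pairLev_const P π Φ c hn, abs_sub_comm] at this
    have hL : 0 ≤ L := by linarith
    calc pairLev n P π Φ c (fun σ τ => |f σ τ - p / pi0 K|) l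
        ≤ pairLev n P π Φ c (fun σ τ => |f σ τ - g l| + |g l - p / pi0 K|) l :=
          pairLev_mono P π Φ c hn (fun σ τ => abs_sub_le _ _ _) l
      _ = E + |g l - p / pi0 K| * L := by rw [pairLev_add P π Φ c hn, pairLev_const P π Φ c hn]
      _ ≤ E + (E + 2 * F * η) := by
          refine add_le_add le_rfl ?_
          rw [← abs_of_nonneg hL, ← abs_mul,
            show (g l - p / pi0 K) * L = (g l * L - p) + p * ((pi0 K - L) / pi0 K) by
              field_simp; ring]
          refine (abs_add_le _ _).trans (add_le_add hgl ?_)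
          rw [abs_mul, abs_div, abs_of_pos hπ, mul_div_assoc', div_le_iff₀ hπ]
          refine (mul_le_mul hp ((abs_sub_comm _ _).trans_le (hlaw l)) (abs_nonneg _)
            (mul_nonneg hF hL)).trans ?_
          have := mul_le_mul_of_nonneg_left (show L ≤ 2 * pi0 K by linarith)
            (mul_nonneg hF ((abs_nonneg _).trans (hlaw l)))
          linarith
      _ = 2 * E + 2 * F * η := by ring
  refine (Finset.sum_le_sum fun l _ => hl l).trans_eq ?_
  rw [Finset.sum_add_distrib, ← Finset.mul_sum]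
  simp

end Lev

variable {P : VPot d} {π : VPrior N d R D} {Φ : VFac N d K} {c : VCIdx N M d R D K → ℝ}
variable {ι : Type} [Fintype ι]

/-- Symmetrised level means of an overlap matrix. -/
noncomputable def qsym (n : ℕ) (P : VPot d) (π : VPrior N d R D) (Φ : VFac N d K)
    (c : VCIdx N M d R D K → ℝ) (X : Fin π.c → ι → Fin e0 → ℝ) (l : Fin (K + 1)) :
    Matrix (Fin e0) (Fin e0) ℝ :=
  Matrix.of fun k k' => (pairLev n P π Φ c (fun σ τ => gov X σ τ k k') l
    + pairLev n P π Φ c (fun σ τ => gov X σ τ k' k) l) / (2 * pi0 K)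

/-- The predicted path. -/
noncomputable def qpath (n : ℕ) (P : VPot d) (π : VPrior N d R D) (Φ : VFac N d K)
    (c : VCIdx N M d R D K → ℝ) (X : Fin π.c → ι → Fin e0 → ℝ) (η : ℝ) (l : Fin (K + 1)) :
    Matrix (Fin e0) (Fin e0) ℝ :=
  qsym n P π Φ c X l + ((((Fintype.card ι : ℝ) + 1) * η / pi0 K) * ((l : ℕ) + 1)) •
    (1 : Matrix (Fin e0) (Fin e0) ℝ)

variable (hn : 0 < n) (X : Fin π.c → ι → Fin e0 → ℝ)

theorem qsym_symm (l : Fin (K + 1)) :
    (qsym n P π Φ c X l).transpose = qsym n P π Φ c X l := by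
  ext k k'
  simp only [qsym, Matrix.transpose_apply, Matrix.of_apply, add_comm]

include hn in
theorem qsym_quad (v : Fin e0 → ℝ) (l : Fin (K + 1)) :
    ∑ k, ∑ k', v k * v k' * qsym n P π Φ c X l k k'
      = pairLev n P π Φ c (gq X v) l / pi0 K := by
  have e : ∀ f : Fin e0 → Fin e0 → ℝ, ∑ k, ∑ k', v k * v k' * ((f k k' + f k' k) / (2 * pi0 K))
      = (∑ k, ∑ k', v k * v k' * f k k') / pi0 K := fun f => by
    simp only [add_div, mul_add, Finset.sum_add_distrib]
    rw [Finset.sum_comm (f := fun k k' => v k * v k' * (f k' k / (2 * pi0 K)))]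
    simp only [mul_comm (v _) (v _), Finset.sum_div, ← Finset.sum_add_distrib]
    exact Finset.sum_congr rfl fun k _ => Finset.sum_congr rfl fun k' _ => by ring
  rw [show gq X v = fun σ τ => ∑ k, ∑ k', v k * v k' * gov X σ τ k k' from
    funext₂ (gq_eq_sum X v), pairLev_sum P π Φ c hn]
  simp only [pairLev_sum P π Φ c hn, pairLev_smul P π Φ c hn]
  exact e fun k k' => pairLev n P π Φ c (fun σ τ => gov X σ τ k k') l

variable {B η θ : ℝ} (hB : ∀ σ τ k l, |gov X σ τ k l| ≤ B)
  (hlaw : ∀ l, |pairLev n P π Φ c (fun _ _ => 1) l - pi0 K| ≤ η)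
  (hpos : ∀ O : Fin π.c → Fin π.c → ℝ, (∀ σ τ, |O σ τ| ≤ syncB e0 B θ) →
    (∀ a : Fin π.c → ℝ, (∀ σ, 0 ≤ a σ) → ∑ σ, a σ = 1 → 0 ≤ ∑ σ, ∑ τ, O σ τ * (a σ * a τ)) →
    ∀ l, -η ≤ pairLev n P π Φ c O l)

include hn hB hlaw hpos in
/-- Synchronisation of one entry from that of three quadratic forms. -/
theorem entry_sync (hθ : 0 < θ) (hη : η ≤ pi0 K) {e s : ℝ} (hs : 0 < s)
    (hsync : ∀ k l : Fin e0, ∃ g : Fin (K + 1) → ℝ,
      ∑ n', pairLev n P π Φ c (fun σ τ => |gq X (bvec k l) σ τ - g n'|) n' ≤ e)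
    (k l : Fin e0) :
    ∑ n', pairLev n P π Φ c (fun σ τ => |gov X σ τ k l - qsym n P π Φ c X n' k l|) n'
      ≤ 2 * (2 * e + ((K : ℝ) + 1) * (8 * B * η))
        + (4 * θ * B ^ 2 + 192 * B / θ * (2 * e + ((K : ℝ) + 1) * (8 * B * η))
          + ((K : ℝ) + 1) * η) / (4 * s) + s / 4 := by
  have hπ : 0 < pi0 K := by rw [pi0]; positivity
  have hB0 : 0 ≤ B := (abs_nonneg _).trans (hB ⟨0, π.c_pos⟩ ⟨0, π.c_pos⟩ k k)
  have hη0 : 0 ≤ η := (abs_nonneg _).trans (hlaw 0)
  set e' := 2 * e + ((K : ℝ) + 1) * (8 * B * η) with he'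
  -- prediction by the normalised means
  have hmean : ∀ k l : Fin e0, ∑ n', pairLev n P π Φ c (fun σ τ =>
      |gq X (bvec k l) σ τ - pairLev n P π Φ c (gq X (bvec k l)) n' / pi0 K|) n' ≤ e' := fun k l => by
    obtain ⟨g, hg⟩ := hsync k l
    have h4 : ∀ σ τ, |gq X (bvec k l) σ τ| ≤ 4 * B := fun σ τ => by
      by_cases h : k = l
      · subst h; rw [gq_bvec_self]; linarith [hB σ τ k k]
      · rw [gq_bvec X k l h]
        have := hB σ τ k k; have := hB σ τ l l; have := hB σ τ k l; have := hB σ τ l k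
        rw [abs_le] at *
        constructor <;> linarith
    refine (pred_mean P π Φ c hn _ g h4 hη hlaw).trans ?_
    rw [he']
    linarith
  have hdiag : ∀ k : Fin e0, ∑ n', pairLev n P π Φ c (fun σ τ =>
      |gov X σ τ k k - qsym n P π Φ c X n' k k|) n' ≤ e' := fun k => by
    refine le_of_eq_of_le (Finset.sum_congr rfl fun n' _ => ?_) (hmean k k)
    simp only [gq_bvec_self, show gq X (bvec k k) = fun σ τ => gov X σ τ k k from
      funext₂ (gq_bvec_self X k)]
    simp only [qsym, Matrix.of_apply, ← two_mul, mul_div_mul_left _ _ (two_ne_zero (α := ℝ))]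
  have he0 : 0 ≤ e' := le_trans (Finset.sum_nonneg fun n' _ => by
    have := pairLev_mono P π Φ c hn (O := fun _ _ => 0)
      (O' := fun σ τ => |gov X σ τ k k - qsym n P π Φ c X n' k k|) (fun σ τ => abs_nonneg _) n'
    rwa [pairLev_const P π Φ c hn, zero_mul] at this) (hdiag k)
  by_cases hkl : k = l
  · subst hkl
    refine (hdiag k).trans ?_
    have : 0 ≤ 192 * B / θ * e' := by positivity
    have h1 : 0 ≤ (4 * θ * B ^ 2 + 192 * B / θ * e' + ((K : ℝ) + 1) * η) / (4 * s) := by positivity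
    linarith
  -- the antisymmetric part
  set A : Fin π.c → Fin π.c → ℝ := fun σ τ => gov X σ τ k l - gov X σ τ l k
  have hq2 : ∀ n' i, |qsym n P π Φ c X n' i i| ≤ 2 * B := fun n' i => by
    simp only [qsym, Matrix.of_apply, ← two_mul, mul_div_mul_left _ _ (two_ne_zero (α := ℝ))]
    rw [abs_div, abs_of_pos hπ, div_le_iff₀ hπ]
    refine (abs_pairLev_le_mul P π Φ c hn (fun σ τ => hB σ τ i i) n').trans ?_
    have := mul_le_mul_of_nonneg_left (show pairLev n P π Φ c (fun _ _ => 1) n' ≤ 2 * pi0 K by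
      linarith [(abs_le.1 (hlaw n')).2]) hB0
    linarith
  set O : Fin (K + 1) → Fin π.c → Fin π.c → ℝ := fun n' σ τ =>
    4 * θ * B ^ 2 + 32 / θ * ((gov X σ τ k k - qsym n P π Φ c X n' k k) ^ 2
      + (gov X σ τ l l - qsym n P π Φ c X n' l l) ^ 2) - A σ τ ^ 2
  have hO : ∀ n', -η ≤ pairLev n P π Φ c (O n') n' := fun n' => by
    refine hpos (O n') (fun σ τ => ?_) (fun a h0 h1 => ?_) n'
    · have hx : ∀ i, (gov X σ τ i i - qsym n P π Φ c X n' i i) ^ 2 ≤ 9 * B ^ 2 := fun i => by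
        rw [show (9 : ℝ) * B ^ 2 = (3 * B) ^ 2 by ring, sq_le_sq, abs_of_nonneg (a := 3 * B) (by positivity)]
        exact (abs_sub _ _).trans (by linarith [hB σ τ i i, hq2 n' i])
      have hA : A σ τ ^ 2 ≤ 4 * B ^ 2 := by
        rw [show (4 : ℝ) * B ^ 2 = (2 * B) ^ 2 by ring, sq_le_sq, abs_of_nonneg (a := 2 * B) (by positivity)]
        exact (abs_sub _ _).trans (by linarith [hB σ τ k l, hB σ τ l k])
      have h32 : 0 ≤ 32 / θ := by positivity
      have := mul_le_mul_of_nonneg_left (add_le_add (hx k) (hx l)) h32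
      have h0 : 0 ≤ 32 / θ * ((gov X σ τ k k - qsym n P π Φ c X n' k k) ^ 2
        + (gov X σ τ l l - qsym n P π Φ c X n' l l) ^ 2) := by positivity
      have h576 : 32 / θ * (9 * B ^ 2 + 9 * B ^ 2) = 576 / θ * B ^ 2 := by ring
      have : 0 ≤ 4 * θ * B ^ 2 := by positivity
      have : 0 ≤ (e0 : ℝ) ^ 2 * B := by positivity
      have := sq_nonneg (A σ τ)
      simp only [O, syncB]
      rw [abs_le]
      constructor <;> linarith
    · have h := antisym_sq_le h0 h1 (fun σ j => X σ j k) (fun σ j => X σ j l)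
        (qsym n P π Φ c X n' k k) (qsym n P π Φ c X n' l l) hθ (fun σ τ => hB σ τ k k)
        (fun σ τ => hB σ τ l l)
      have e1 : ∑ σ, ∑ τ, O n' σ τ * (a σ * a τ) = 4 * θ * B ^ 2
          + 32 / θ * ((∑ σ, ∑ τ, a σ * a τ * (gov X σ τ k k - qsym n P π Φ c X n' k k) ^ 2)
            + ∑ σ, ∑ τ, a σ * a τ * (gov X σ τ l l - qsym n P π Φ c X n' l l) ^ 2)
          - ∑ σ, ∑ τ, a σ * a τ * A σ τ ^ 2 := by
        simp only [O, sub_mul, add_mul, mul_add, Finset.sum_sub_distrib, Finset.sum_add_distrib,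
          Finset.mul_sum]
        congr 1
        · congr 1
          · simp [← Finset.mul_sum, h1]
          · congr 1 <;> exact Finset.sum_congr rfl fun σ _ => Finset.sum_congr rfl fun τ _ => by ring
        · exact Finset.sum_congr rfl fun σ _ => Finset.sum_congr rfl fun τ _ => by ring
      rw [e1]
      simp only [A, gov, Matrix.of_apply] at h ⊢
      linarith
  have hA2 : ∑ n', pairLev n P π Φ c (fun σ τ => A σ τ ^ 2) n'
      ≤ 4 * θ * B ^ 2 + 192 * B / θ * e' + ((K : ℝ) + 1) * η := by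
    have hs2 : ∀ i : Fin e0, ∑ n', pairLev n P π Φ c
        (fun σ τ => (gov X σ τ i i - qsym n P π Φ c X n' i i) ^ 2) n' ≤ 3 * B * e' := fun i => by
      refine (Finset.sum_le_sum fun n' _ => (pairLev_mono P π Φ c hn (O' := fun σ τ =>
        3 * B * |gov X σ τ i i - qsym n P π Φ c X n' i i|) (fun σ τ => ?_) n')).trans ?_
      · rw [← sq_abs, pow_two]
        exact mul_le_mul_of_nonneg_right
          ((abs_sub _ _).trans (by linarith [hB σ τ i i, hq2 n' i])) (abs_nonneg _)
      · simp only [pairLev_smul P π Φ c hn, ← Finset.mul_sum]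
        exact mul_le_mul_of_nonneg_left (hdiag i) (by positivity)
    have hsum : -(((K : ℝ) + 1) * η) ≤ ∑ n', pairLev n P π Φ c (O n') n' := by
      refine le_trans (le_of_eq ?_) (Finset.sum_le_sum fun n' _ => hO n')
      simp
    simp only [O, pairLev_sub P π Φ c hn, pairLev_add P π Φ c hn, pairLev_smul P π Φ c hn,
      mul_add, Finset.sum_sub_distrib, Finset.sum_add_distrib, ← Finset.mul_sum,
      sum_pairLev_const P π Φ c hn] at hsum
    have := mul_le_mul_of_nonneg_left (hs2 k) (show 0 ≤ 32 / θ by positivity)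
    have := mul_le_mul_of_nonneg_left (hs2 l) (show 0 ≤ 32 / θ by positivity)
    have : 32 / θ * (3 * B * e') * 2 = 192 * B / θ * e' := by ring
    linarith
  -- assemble
  have hpt : ∀ n' σ τ, |gov X σ τ k l - qsym n P π Φ c X n' k l|
      ≤ (1 / 2) * |gq X (bvec k l) σ τ - pairLev n P π Φ c (gq X (bvec k l)) n' / pi0 K|
        + ((1 / 2) * |gov X σ τ k k - qsym n P π Φ c X n' k k|
          + ((1 / 2) * |gov X σ τ l l - qsym n P π Φ c X n' l l|
            + (1 / (4 * s) * A σ τ ^ 2 + s / 4))) := fun n' σ τ => by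
    have hq : pairLev n P π Φ c (gq X (bvec k l)) n' / pi0 K = qsym n P π Φ c X n' k k
        + qsym n P π Φ c X n' l l + 2 * qsym n P π Φ c X n' k l := by
      rw [show gq X (bvec k l) = fun σ τ => gov X σ τ k k + gov X σ τ l l
        + (gov X σ τ k l + gov X σ τ l k) from funext₂ (gq_bvec X k l hkl)]
      simp only [pairLev_add P π Φ c hn, qsym, Matrix.of_apply]
      ring
    rw [hq, gq_bvec X k l hkl]
    have hA' : |A σ τ| / 2 ≤ 1 / (4 * s) * A σ τ ^ 2 + s / 4 := by
      have := mul_nonneg (sq_nonneg (|A σ τ| - s)) (inv_nonneg.2 (mul_pos four_pos hs).le)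
      rw [sub_sq, sq_abs, sub_add_eq_add_sub, sub_mul, add_mul] at this
      have e1 : 2 * |A σ τ| * s * (4 * s)⁻¹ = |A σ τ| / 2 := by field_simp; ring
      have e2 : s ^ 2 * (4 * s)⁻¹ = s / 4 := by field_simp
      rw [e1, e2] at this
      rw [one_div, mul_comm]
      linarith
    simp only [A] at hA' ⊢
    set r := gov X σ τ k l
    set r' := gov X σ τ l k
    set x := gov X σ τ k k - qsym n P π Φ c X n' k k
    set y := gov X σ τ l l - qsym n P π Φ c X n' l l
    set q := qsym n P π Φ c X n' k l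
    have := le_abs_self x; have := neg_le_abs x
    have := le_abs_self y; have := neg_le_abs y
    have := le_abs_self (r - r'); have := neg_le_abs (r - r')
    set z := gov X σ τ k k + gov X σ τ l l + (r + r')
      - (qsym n P π Φ c X n' k k + qsym n P π Φ c X n' l l + 2 * q) with hz
    have := le_abs_self z; have := neg_le_abs z
    have : z = x + y + (r + r' - 2 * q) := by rw [hz]; simp only [x, y]; ring
    rw [abs_le]
    constructor <;> linarith
  refine (Finset.sum_le_sum fun n' _ => pairLev_mono P π Φ c hn (hpt n') n').trans ?_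
  simp only [pairLev_add P π Φ c hn, pairLev_smul P π Φ c hn, Finset.sum_add_distrib,
    ← Finset.mul_sum, sum_pairLev_const P π Φ c hn]
  have := mul_le_mul_of_nonneg_left hA2 (show 0 ≤ 1 / (4 * s) by positivity)
  simp only [one_div_mul_eq_div] at this ⊢
  have := hmean k l; have := hdiag k; have := hdiag l
  linarith

end Vale.Agent.P166.Casc
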