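import Vale.Agent.P166.Casc.VSyncMat
import Mathlib.LinearAlgebra.Matrix.PosDef

/-!
An overlap matrix synchronised with the levels along an increasing path of nonnegative matrices.
-/

open MeasureTheory ProbabilityTheory Filter Topology Set

namespace Vale.Agent.P166.Casc

open Vale.Agent.P157.Casc

variable {N M d R D K n e0 : ℕ}

/-- A quadratic form as a double sum. -/
def quad (A : Matrix (Fin e0) (Fin e0) ℝ) (v : Fin e0 → ℝ) : ℝ := ∑ k, ∑ l, v k * v l * A k l

theorem quad_add (A A' : Matrix (Fin e0) (Fin e0) ℝ) (v : Fin e0 → ℝ) :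
    quad (A + A') v = quad A v + quad A' v := by
  simp only [quad, Matrix.add_apply, mul_add, Finset.sum_add_distrib]

theorem quad_sub (A A' : Matrix (Fin e0) (Fin e0) ℝ) (v : Fin e0 → ℝ) :
    quad (A - A') v = quad A v - quad A' v := by
  simp only [quad, Matrix.sub_apply, mul_sub, Finset.sum_sub_distrib]

theorem quad_smul_one (t : ℝ) (v : Fin e0 → ℝ) :
    quad (t • (1 : Matrix (Fin e0) (Fin e0) ℝ)) v = t * ∑ k, v k ^ 2 := by
  simp [quad, Matrix.one_apply, Finset.mul_sum]
  exact Finset.sum_congr rfl fun k _ => by ring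

theorem posSemidef_of_quad {A : Matrix (Fin e0) (Fin e0) ℝ} (hs : A.transpose = A)
    (h : ∀ v, 0 ≤ quad A v) : A.PosSemidef := by
  refine Matrix.PosSemidef.of_dotProduct_mulVec_nonneg ?_ fun v => ?_
  · rw [Matrix.IsHermitian, Matrix.conjTranspose_eq_transpose_of_trivial, hs]
  · refine (h v).trans_eq ?_
    simp only [quad, dotProduct, Matrix.mulVec, star_trivial, Finset.mul_sum]
    exact Finset.sum_congr rfl fun k _ => Finset.sum_congr rfl fun l _ => by ring

/-- A bound on unit vectors gives one on all vectors. -/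
theorem quad_nonneg_of_box {A : Matrix (Fin e0) (Fin e0) ℝ} {γ : ℝ} (hγ : 0 ≤ γ)
    (h : ∀ w : Fin e0 → ℝ, (∀ k, |w k| ≤ 1) → -γ ≤ quad A w) (v : Fin e0 → ℝ) :
    0 ≤ quad A v + γ * ∑ k, v k ^ 2 := by
  set Q := ∑ k, v k ^ 2
  have hQ : 0 ≤ Q := Finset.sum_nonneg fun k _ => sq_nonneg _
  rcases hQ.eq_or_lt with h0 | h0
  · have : v = 0 := funext fun k => sq_eq_zero_iff.1
      ((Finset.sum_eq_zero_iff_of_nonneg fun k _ => sq_nonneg _).1 h0.symm k (Finset.mem_univ k))
    simp [quad, this]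
    positivity
  have hr : 0 < √Q := Real.sqrt_pos.2 h0
  have hw := h (fun k => v k / √Q) fun k => by
    rw [abs_div, abs_of_pos hr, div_le_one hr, ← Real.sqrt_sq_eq_abs]
    exact Real.sqrt_le_sqrt (Finset.single_le_sum (f := fun k => v k ^ 2)
      (fun k _ => sq_nonneg _) (Finset.mem_univ k))
  have e : quad A v = Q * quad A (fun k => v k / √Q) := by
    simp only [quad, Finset.mul_sum]
    refine Finset.sum_congr rfl fun k _ => Finset.sum_congr rfl fun l _ => ?_
    rw [div_mul_div_comm, Real.mul_self_sqrt hQ]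
    field_simp
  rw [e]
  have := mul_le_mul_of_nonneg_left hw hQ
  linarith

/-- Law, positivity and monotonicity of the levels, up to an error, for bounded observables. -/
structure LevFacts (n : ℕ) (P : VPot d) (π : VPrior N d R D) (Φ : VFac N d K)
    (c : VCIdx N M d R D K → ℝ) (B η : ℝ) : Prop where
  law : ∀ l : Fin (K + 1), |pairLev n P π Φ c (fun _ _ => 1) l - pi0 K| ≤ η
  pos : ∀ O : Fin π.c → Fin π.c → ℝ, (∀ σ τ, |O σ τ| ≤ B) →
    (∀ a : Fin π.c → ℝ, (∀ σ, 0 ≤ a σ) → ∑ σ, a σ = 1 → 0 ≤ ∑ σ, ∑ τ, O σ τ * (a σ * a τ)) →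
    ∀ l, -η ≤ pairLev n P π Φ c O l
  mono : ∀ φ : Fin π.c → ℝ, (∀ σ, |φ σ| ≤ B) → ∀ l l' : Fin (K + 1), l ≤ l' →
    pairLev n P π Φ c (fun σ τ => φ σ * φ τ) l ≤ pairLev n P π Φ c (fun σ τ => φ σ * φ τ) l' + η

/-- The facts hold for large trees, uniformly over a compact set of variances. -/
theorem levFacts_uniform (P : VPot d) (π : VPrior N d R D) (Φ : VFac N d K)
    {s : Set (VCIdx N M d R D K → ℝ)} (hs : IsCompact s) (B : ℝ) {η : ℝ} (hη : 0 < η) :
    ∃ n0, ∀ n ≥ n0, ∀ c ∈ s, LevFacts n P π Φ c B η := by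
  obtain ⟨n0, h⟩ := pairLev_uniform P π Φ hs B hη
  exact ⟨n0, fun n hn c hc => ⟨(h n hn c hc).1, (h n hn c hc).2.1, (h n hn c hc).2.2⟩⟩

variable {P : VPot d} {π : VPrior N d R D} {Φ : VFac N d K} {c : VCIdx N M d R D K → ℝ}
variable {ι : Type} [Fintype ι] (X : Fin π.c → ι → Fin e0 → ℝ) {B η θ : ℝ}

theorem syncB_ge (hθ : 0 < θ) (hB0 : 0 ≤ B) : (e0 : ℝ) ^ 2 * B + 1 ≤ syncB e0 B θ := by
  have : 0 ≤ 4 * θ * B ^ 2 + 576 / θ * B ^ 2 + 4 * B ^ 2 + (e0 : ℝ) ^ 2 * B := by positivity
  rw [syncB]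
  linarith

variable (hn : 0 < n) (hB : ∀ σ τ k l, |gov X σ τ k l| ≤ B) (hB0 : 0 ≤ B) (hθ : 0 < θ)
  (hη : η ≤ pi0 K) (H : LevFacts n P π Φ c (syncB e0 B θ) η)
include hn hB hB0 hθ hη H

omit hn hB hB0 hθ hη in
theorem lev_eta_nonneg : 0 ≤ η := (abs_nonneg _).trans (H.law 0)

omit hn hB hB0 hθ hη in
theorem gap_nonneg : 0 ≤ ((Fintype.card ι : ℝ) + 1) * η / pi0 K := by
  have := lev_eta_nonneg H
  have : 0 < pi0 K := by rw [pi0]; positivity
  positivity

omit hθ in
theorem abs_qsym_le (l : Fin (K + 1)) (k k' : Fin e0) : |qsym n P π Φ c X l k k'| ≤ 2 * B := by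
  have hπ : 0 < pi0 K := by rw [pi0]; positivity
  simp only [qsym, Matrix.of_apply]
  rw [abs_div, abs_of_pos (mul_pos two_pos hπ), div_le_iff₀ (by positivity)]
  refine (abs_add_le _ _).trans ((add_le_add
    (abs_pairLev_le_mul P π Φ c hn (fun σ τ => hB σ τ k k') l)
    (abs_pairLev_le_mul P π Φ c hn (fun σ τ => hB σ τ k' k) l)).trans ?_)
  have := mul_le_mul_of_nonneg_left (show pairLev n P π Φ c (fun _ _ => 1) l ≤ 2 * pi0 K by
    linarith [(abs_le.1 (H.law l)).2]) hB0
  linarith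

omit hn hB hB0 hθ hη H in
/-- The path is symmetric. -/
theorem qpath_symm (l : Fin (K + 1)) :
    (qpath n P π Φ c X η l).transpose = qpath n P π Φ c X η l := by
  rw [qpath, Matrix.transpose_add, Matrix.transpose_smul, Matrix.transpose_one, qsym_symm]

/-- The path starts at a nonnegative matrix and increases. -/
theorem qpath_mono :
    (qpath n P π Φ c X η 0).PosSemidef ∧
      ∀ l : Fin K, (qpath n P π Φ c X η l.succ - qpath n P π Φ c X η l.castSucc).PosSemidef := by
  have hπ : 0 < pi0 K := by rw [pi0]; positivity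
  have hη0 := lev_eta_nonneg H
  set γ := ((Fintype.card ι : ℝ) + 1) * η / pi0 K with hγ
  have hγ0 : 0 ≤ γ := gap_nonneg (ι := ι) H
  refine ⟨posSemidef_of_quad (qpath_symm X _) fun v => ?_,
    fun l => posSemidef_of_quad (by
      rw [Matrix.transpose_sub, qpath_symm X,
        qpath_symm X]) fun v => ?_⟩
  · rw [qpath, quad_add, quad_smul_one]
    simp only [Fin.val_zero, Nat.cast_zero, zero_add, mul_one, ← hγ]
    refine quad_nonneg_of_box hγ0 (fun w hw => ?_) v
    rw [quad, qsym_quad hn X w 0, le_div_iff₀ hπ]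
    refine le_trans ?_ (H.pos (gq X w) (fun σ τ => (abs_gq_le X hB hw σ τ).trans
      ((le_add_of_nonneg_right zero_le_one).trans (syncB_ge hθ hB0)))
      (fun a _ _ => gq_simplex_nonneg X w a) 0)
    rw [neg_mul, neg_le_neg_iff, hγ, div_mul_cancel₀ _ hπ.ne']
    have : 0 ≤ (Fintype.card ι : ℝ) * η := by positivity
    linarith
  · rw [qpath, qpath, quad_sub, quad_add, quad_add, quad_smul_one, quad_smul_one, ← hγ]
    simp only [Fin.val_succ, Fin.val_castSucc, Nat.cast_add, Nat.cast_one]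
    have hbox : ∀ w : Fin e0 → ℝ, (∀ k, |w k| ≤ 1) →
        -γ ≤ quad (qsym n P π Φ c X l.succ - qsym n P π Φ c X l.castSucc) w := fun w hw => by
      have hsum : gq X w = fun σ τ => ∑ j, (∑ k, w k * X σ j k) * ∑ k, w k * X τ j k := rfl
      rw [quad_sub, quad, quad, qsym_quad hn X w l.succ, qsym_quad hn X w l.castSucc, ← sub_div,
        le_div_iff₀ hπ, neg_mul, hγ, div_mul_cancel₀ _ hπ.ne', hsum]
      simp only [pairLev_sum P π Φ c hn]
      have h := Finset.sum_le_sum fun j (_ : j ∈ Finset.univ) => H.mono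
        (fun σ => ∑ k, w k * X σ j k)
        (fun σ => (abs_proj_le X hB hw j σ).trans (syncB_ge hθ hB0)) _ _
        (Fin.castSucc_le_succ l)
      rw [Finset.sum_add_distrib, Finset.sum_const, Finset.card_univ, nsmul_eq_mul] at h
      linarith
    have := quad_nonneg_of_box hγ0 hbox v
    rw [quad_sub] at this
    linarith

omit hθ in
theorem mabs_qpath_le (l : Fin (K + 1)) :
    mabs (qpath n P π Φ c X η l)
      ≤ (e0 : ℝ) ^ 2 * (2 * B) + e0 * (((Fintype.card ι : ℝ) + 1) * η / pi0 K * ((K : ℝ) + 1)) := by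
  have hπ : 0 < pi0 K := by rw [pi0]; positivity
  have := (abs_nonneg _).trans (H.law 0)
  refine (mabs_add _ _).trans (add_le_add ?_ ?_)
  · exact (Finset.sum_le_sum fun k _ => Finset.sum_le_sum (g := fun _ => 2 * B) fun k' _ =>
      abs_qsym_le X hn hB hB0 hη H l k k').trans_eq (by simp; ring)
  · rw [mabs_smul, show mabs (1 : Matrix (Fin e0) (Fin e0) ℝ) = e0 by
      simp [mabs, Matrix.one_apply, apply_ite abs], abs_of_nonneg (by positivity), mul_comm]
    refine mul_le_mul_of_nonneg_left (mul_le_mul_of_nonneg_left ?_ (by positivity)) (by positivity)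
    exact_mod_cast Nat.succ_le_succ (Nat.lt_succ_iff.1 l.isLt)

/-- The error of the path. -/
theorem qpath_err {e s : ℝ} (hs : 0 < s)
    (hsync : ∀ k l : Fin e0, ∃ g : Fin (K + 1) → ℝ,
      ∑ n', pairLev n P π Φ c (fun σ τ => |gq X (bvec k l) σ τ - g n'|) n' ≤ e) :
    reavg (venv N M d R D K n) (vposW P π Φ c) 2 (fun _ x =>
        mabs (gov X (x 0).1 (x 1).1 - qpath n P π Φ c X η (vlev π (x 0) (x 1))))
      ≤ (e0 : ℝ) ^ 2 * (2 * (2 * e + ((K : ℝ) + 1) * (8 * B * η))
          + (4 * θ * B ^ 2 + 192 * B / θ * (2 * e + ((K : ℝ) + 1) * (8 * B * η))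
            + ((K : ℝ) + 1) * η) / (4 * s) + s / 4)
        + e0 * (((Fintype.card ι : ℝ) + 1) * η / pi0 K * ((K : ℝ) + 1)) := by
  set γ := ((Fintype.card ι : ℝ) + 1) * η / pi0 K
  have hγ0 : 0 ≤ γ := gap_nonneg (ι := ι) H
  set E := 2 * (2 * e + ((K : ℝ) + 1) * (8 * B * η))
    + (4 * θ * B ^ 2 + 192 * B / θ * (2 * e + ((K : ℝ) + 1) * (8 * B * η))
      + ((K : ℝ) + 1) * η) / (4 * s) + s / 4
  have hent : ∀ k l : Fin e0,
      ∑ n', pairLev n P π Φ c (fun σ τ => |gov X σ τ k l - qsym n P π Φ c X n' k l|) n' ≤ E :=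
    entry_sync hn X hB H.law H.pos hθ hη hs hsync
  rw [← sum_pairLev P π Φ c hn fun n' σ τ => mabs (gov X σ τ - qpath n P π Φ c X η n')]
  have hpt : ∀ n' : Fin (K + 1), ∀ σ τ, mabs (gov X σ τ - qpath n P π Φ c X η n')
      ≤ (∑ k, ∑ l, |gov X σ τ k l - qsym n P π Φ c X n' k l|) + e0 * (γ * ((K : ℝ) + 1)) :=
    fun n' σ τ => by
      rw [qpath, ← sub_sub]
      refine (mabs_sub _ _).trans (add_le_add le_rfl ?_)
      rw [mabs_smul, show mabs (1 : Matrix (Fin e0) (Fin e0) ℝ) = e0 by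
        simp [mabs, Matrix.one_apply, apply_ite abs], abs_of_nonneg (by positivity), mul_comm]
      refine mul_le_mul_of_nonneg_left (mul_le_mul_of_nonneg_left ?_ hγ0) (by positivity)
      exact_mod_cast Nat.succ_le_succ (Nat.lt_succ_iff.1 n'.isLt)
  refine (Finset.sum_le_sum fun n' _ => pairLev_mono P π Φ c hn (hpt n') n').trans ?_
  simp only [pairLev_add P π Φ c hn, Finset.sum_add_distrib, sum_pairLev_const P π Φ c hn]
  refine add_le_add ?_ le_rfl
  simp only [pairLev_sum P π Φ c hn]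
  rw [Finset.sum_comm]
  refine (Finset.sum_le_sum fun k _ => ?_).trans_eq
    (show ∑ _k : Fin e0, (e0 : ℝ) * E = (e0 : ℝ) ^ 2 * E by simp; ring)
  rw [Finset.sum_comm]
  exact (Finset.sum_le_sum fun l _ => hent k l).trans_eq (by simp)

omit hη in
/-- The last value of the path is at most the mean self-overlap. -/
theorem qpath_top {δ : ℝ} (hδ : 0 ≤ δ)
    (hfirst : ∀ f : Fin π.c → ℝ, (∀ σ, |f σ| ≤ 1) →
      pairLev n P π Φ c (fun σ _ => f σ) (Fin.last K)
        ≤ reavg (venv N M d R D K n) (vposW P π Φ c) 1 (fun _ x => f (x 0).1)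
          * pairLev n P π Φ c (fun _ _ => 1) (Fin.last K) + δ)
    (hsecond : ∀ f : Fin π.c → ℝ, pairLev n P π Φ c (fun _ τ => f τ) (Fin.last K)
        = pairLev n P π Φ c (fun σ _ => f σ) (Fin.last K)) :
    (mexp (venv N M d R D K n) (vposW P π Φ c) 1 (fun _ x => gov X (x 0).1 (x 0).1)
      + (((Fintype.card ι : ℝ) + 1) * η / pi0 K * ((K : ℝ) + 1)
          + (((e0 : ℝ) ^ 2 * B + 1) * (η + δ) + η) / pi0 K) • (1 : Matrix (Fin e0) (Fin e0) ℝ)
      - qpath n P π Φ c X η (Fin.last K)).PosSemidef := by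
  have := vstate_nonempty (K := K) π hn
  have hm := measurable_vposW (n := n) P π Φ c
  have hp := vposW_pos (n := n) P π Φ c
  have hπ : 0 < pi0 K := by rw [pi0]; positivity
  have hη0 := lev_eta_nonneg H
  set Dm := mexp (venv N M d R D K n) (vposW P π Φ c) 1 (fun _ x => gov X (x 0).1 (x 0).1)
  have hD : Dm.transpose = Dm := by
    ext k l
    simp only [Dm, mexp, Matrix.transpose_apply, Matrix.of_apply]
    exact congrArg _ (funext fun _ => funext fun x => (gov_swap X (x 0).1 (x 0).1 k l).symm)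
  set C := (((e0 : ℝ) ^ 2 * B + 1) * (η + δ) + η) / pi0 K
  have hC : 0 ≤ C := by positivity
  refine posSemidef_of_quad (by
    rw [Matrix.transpose_sub, Matrix.transpose_add, Matrix.transpose_smul, Matrix.transpose_one,
      hD, qpath_symm X]) fun v => ?_
  rw [quad_sub, qpath, quad_add, quad_add, quad_smul_one, quad_smul_one, Fin.val_last]
  have hbox : ∀ w : Fin e0 → ℝ, (∀ k, |w k| ≤ 1) →
      -C ≤ quad (Dm - qsym n P π Φ c X (Fin.last K)) w := fun w hw => by
    set F := (e0 : ℝ) ^ 2 * B + 1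
    have hF : 0 < F := by positivity
    have hgF : ∀ σ τ, |gq X w σ τ| ≤ (e0 : ℝ) ^ 2 * B := abs_gq_le X hB hw
    set f : Fin π.c → ℝ := fun σ => gq X w σ σ / F
    have hf : ∀ σ, |f σ| ≤ 1 := fun σ => by
      rw [abs_div, abs_of_pos hF, div_le_one hF]
      exact (hgF σ σ).trans (le_add_of_nonneg_right zero_le_one)
    have hqD : quad Dm w = reavg (venv N M d R D K n) (vposW P π Φ c) 1
        (fun _ x => gq X w (x 0).1 (x 0).1) := by
      have hb : ∀ k k', BTest (fun (_ : (Node K n → ℝ) × (VGIdx N M d R D K n → ℝ))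
          (x : Fin 1 → VState π K n) => w k * w k' * gov X (x 0).1 (x 0).1 k k') B := fun k k' =>
        bTest_const _ fun x => by
          rw [abs_mul, abs_mul]
          exact (mul_le_of_le_one_left (abs_nonneg _)
            (mul_le_one₀ (hw k) (abs_nonneg _) (hw k'))).trans (hB _ _ k k')
      simp only [quad, Dm, mexp, Matrix.of_apply, ← reavg_smul]
      rw [Finset.sum_congr rfl fun k _ => (reavg_sum hm hp Finset.univ fun k' _ => hb k k').symm,
        ← reavg_sum hm hp (B := fun _ => (e0 : ℝ) * B) Finset.univ fun k _ =>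
          bTest_const _ fun x => (Finset.abs_sum_le_sum_abs _ _).trans
            ((Finset.sum_le_sum fun k' _ => (hb k k').bound (0, 0) x).trans_eq (by simp))]
      exact congrArg _ (funext fun _ => funext fun x => (gq_eq_sum X w _ _).symm)
    -- the simplex form
    have hO := H.pos (fun σ τ => (gq X w σ σ + gq X w τ τ) / 2 - gq X w σ τ) (fun σ τ => by
        have h1 := abs_le.1 (hgF σ σ); have h2 := abs_le.1 (hgF τ τ); have h3 := abs_le.1 (hgF σ τ)
        have : 0 ≤ 4 * θ * B ^ 2 + 576 / θ * B ^ 2 + 4 * B ^ 2 := by positivity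
        simp only [syncB]
        rw [abs_le]
        constructor <;> linarith)
      (fun a h0 h1 => ?_) (Fin.last K)
    swap
    · have e1 : ∑ σ, ∑ τ, ((gq X w σ σ + gq X w τ τ) / 2 - gq X w σ τ) * (a σ * a τ)
          = (∑ σ, a σ * gq X w σ σ) - ∑ σ, ∑ τ, gq X w σ τ * (a σ * a τ) := by
        simp only [sub_mul, add_div, add_mul, Finset.sum_sub_distrib, Finset.sum_add_distrib]
        have l1 : ∑ σ, ∑ τ, gq X w σ σ / 2 * (a σ * a τ) = (∑ σ, a σ * gq X w σ σ) / 2 := by
          rw [Finset.sum_div]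
          refine Finset.sum_congr rfl fun σ _ => ?_
          rw [← Finset.mul_sum, ← Finset.mul_sum, h1]; ring
        have l2 : ∑ σ, ∑ τ, gq X w τ τ / 2 * (a σ * a τ) = (∑ σ, a σ * gq X w σ σ) / 2 := by
          rw [Finset.sum_comm, ← l1]
          exact Finset.sum_congr rfl fun σ _ => Finset.sum_congr rfl fun τ _ => by ring
        rw [l1, l2]; ring
      rw [e1, sub_nonneg]
      have e2 : ∑ σ, ∑ τ, gq X w σ τ * (a σ * a τ) ≤ ∑ σ, ∑ τ,
          (gq X w σ σ + gq X w τ τ) / 2 * (a σ * a τ) := Finset.sum_le_sum fun σ _ =>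
        Finset.sum_le_sum fun τ _ => mul_le_mul_of_nonneg_right (by
          simp only [gq, ← Finset.sum_add_distrib, Finset.sum_div]
          exact Finset.sum_le_sum fun j _ => by
            have := sq_nonneg ((∑ k, w k * X σ j k) - ∑ k, w k * X τ j k)
            simp only [pow_two] at this
            linarith) (mul_nonneg (h0 σ) (h0 τ))
      refine e2.trans_eq ?_
      simp only [add_div, add_mul, Finset.sum_add_distrib]
      rw [Finset.sum_comm (f := fun σ τ => gq X w τ τ / 2 * (a σ * a τ)), ← Finset.sum_add_distrib]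
      refine Finset.sum_congr rfl fun σ _ => ?_
      rw [← Finset.mul_sum, ← Finset.mul_sum, h1, ← Finset.mul_sum, ← Finset.sum_mul, h1]
      ring
    simp only [add_div, pairLev_sub P π Φ c hn, pairLev_add P π Φ c hn, div_eq_inv_mul (a := gq X w _ _),
      pairLev_smul P π Φ c hn] at hO
    rw [hsecond (fun τ => gq X w τ τ)] at hO
    have h1 := hfirst f hf
    have e1 : pairLev n P π Φ c (fun σ _ => f σ) (Fin.last K)
        = pairLev n P π Φ c (fun σ _ => gq X w σ σ) (Fin.last K) / F := by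
      simp only [f, div_eq_inv_mul, pairLev_smul P π Φ c hn]
    have e3 : reavg (venv N M d R D K n) (vposW P π Φ c) 1 (fun _ x => f (x 0).1) = quad Dm w / F := by
      simp only [hqD, f, div_eq_inv_mul, reavg_smul]
    rw [e1, e3, div_le_iff₀ hF] at h1
    set L := pairLev n P π Φ c (fun _ _ => 1) (Fin.last K)
    have hQ : |quad Dm w| ≤ F := by
      rw [hqD]
      exact (abs_reavg_le (B := (e0 : ℝ) ^ 2 * B) hp (bTest_const _ fun x => hgF _ _)).trans
        (le_add_of_nonneg_right zero_le_one)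
    rw [quad_sub, quad, quad, qsym_quad hn X w (Fin.last K), ← quad]
    have hL := H.law (Fin.last K)
    have hmul : quad Dm w * (L - pi0 K) ≤ F * η :=
      (le_abs_self _).trans ((abs_mul _ _).trans_le (mul_le_mul hQ hL (abs_nonneg _) hF.le))
    have e4 : quad Dm w / F * L * F = quad Dm w * L := by field_simp
    rw [neg_le_sub_iff_le_add, div_le_iff₀ hπ, add_mul, show C = (F * (η + δ) + η) / pi0 K from rfl,
      div_mul_cancel₀ _ hπ.ne']
    linarith
  have := quad_nonneg_of_box hC hbox v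
  rw [quad_sub] at this
  linarith

end Vale.Agent.P166.Casc
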