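import Vale.Agent.P166.Casc.VInterp

/-!
Gaussian integration by parts for the derivative of the energy along a move of one replica.
-/

open MeasureTheory ProbabilityTheory Filter Topology Set

namespace Vale.Agent.P166.Casc

open Vale.Agent.P157.Casc Vale.Agent.P157.Casc.Itp VItp

variable {T I : Type*} [Fintype T] [Fintype I] {M d : ℕ}

/-- Derivative of the fields along a move, per unit move of a coordinate. -/
noncomputable def tdir (P : VPot d) (b db : Fin M → Fin d → T → I → ℝ) (dbz : T → I → ℝ)
    (lam G : I → ℝ) (x : T) (i : I) : ℝ :=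
  (∑ a, ∑ k, P.g k (vfld b lam G x a) * db a k x i) + dbz x i

/-- Its curvature per unit move of the same coordinate. -/
noncomputable def tcrv (P : VPot d) (b db : Fin M → Fin d → T → I → ℝ) (lam G : I → ℝ) (x : T)
    (i : I) : ℝ :=
  ∑ a, ∑ k, ∑ l, P.h k l (vfld b lam G x a) * (db a k x i * b a l x i)

/-- Derivative of the Gaussian part of the energy along a move. -/
noncomputable def vtan (P : VPot d) (b db : Fin M → Fin d → T → I → ℝ) (dbz : T → I → ℝ)
    (lam G : I → ℝ) (x : T) : ℝ :=
  ∑ i, √(lam i) * G i * tdir P b db dbz lam G x i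

/-- Covariance of a move of the first state with the field of the second. -/
noncomputable def tcov (P : VPot d) (b db : Fin M → Fin d → T → I → ℝ) (bz dbz : T → I → ℝ)
    (lam G : I → ℝ) (x y : T) : ℝ :=
  ∑ i, lam i * (tdir P b db dbz lam G x i * vdir P b bz lam G y i)

/-- The two-replica kernel left by integration by parts against `O`. -/
noncomputable def tkern (P : VPot d) (w : T → ℝ) (b db : Fin M → Fin d → T → I → ℝ)
    (bz dbz qd : T → I → ℝ) (lam : I → ℝ) (O : T → T → ℝ) (G : I → ℝ) (x y : T) : ℝ :=
  O x y * ((∑ i, lam i * tcrv P b db lam G x i) + tcov P b db bz dbz lam G x x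
    + tcov P b db bz dbz lam G x y
    - 2 * ∑ z, gibbs (vbw P w b bz qd lam G) z * tcov P b db bz dbz lam G x z)

/-- Bound on `tdir` and `tcrv`. -/
noncomputable def tbd (P : VPot d) (b db : Fin M → Fin d → T → I → ℝ) (dbz : T → I → ℝ) : ℝ :=
  ∑ x, ∑ i, ((∑ a, ∑ k, |P.b1| * |db a k x i|)
    + (∑ a, ∑ k, ∑ l, |P.b2| * (|db a k x i| * |b a l x i|)) + |dbz x i|)

variable (P : VPot d) {w : T → ℝ} (b db : Fin M → Fin d → T → I → ℝ) (bz dbz qd : T → I → ℝ)

theorem tbd_ge (x : T) (i : I) :
    (∑ a, ∑ k, |P.b1| * |db a k x i|)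
      + (∑ a, ∑ k, ∑ l, |P.b2| * (|db a k x i| * |b a l x i|)) + |dbz x i|
      ≤ tbd P b db dbz := by
  have hpos : ∀ y j, 0 ≤ (∑ a, ∑ k, |P.b1| * |db a k y j|)
      + (∑ a, ∑ k, ∑ l, |P.b2| * (|db a k y j| * |b a l y j|)) + |dbz y j| := fun y j =>
    add_nonneg (add_nonneg
      (Finset.sum_nonneg fun a _ => Finset.sum_nonneg fun k _ => by positivity)
      (Finset.sum_nonneg fun a _ => Finset.sum_nonneg fun k _ =>
        Finset.sum_nonneg fun l _ => by positivity)) (abs_nonneg _)
  exact (Finset.single_le_sum (fun j _ => hpos x j) (Finset.mem_univ i)).trans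
    (Finset.single_le_sum
      (f := fun y => ∑ j, ((∑ a, ∑ k, |P.b1| * |db a k y j|)
        + (∑ a, ∑ k, ∑ l, |P.b2| * (|db a k y j| * |b a l y j|)) + |dbz y j|))
      (fun y _ => Finset.sum_nonneg fun j _ => hpos y j) (Finset.mem_univ x))

theorem abs_tdir_le (lam G : I → ℝ) (x : T) (i : I) :
    |tdir P b db dbz lam G x i| ≤ tbd P b db dbz := by
  refine le_trans ?_ (tbd_ge P b db dbz x i)
  refine (abs_add_le _ _).trans (add_le_add ?_ le_rfl)
  refine le_add_of_le_of_nonneg ((Finset.abs_sum_le_sum_abs _ _).trans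
    (Finset.sum_le_sum fun a _ => (Finset.abs_sum_le_sum_abs _ _).trans
      (Finset.sum_le_sum fun k _ => ?_))) (Finset.sum_nonneg fun a _ =>
        Finset.sum_nonneg fun k _ => Finset.sum_nonneg fun l _ => by positivity)
  rw [abs_mul]
  exact mul_le_mul_of_nonneg_right ((P.h1 _ _).trans (le_abs_self _)) (abs_nonneg _)

theorem abs_tcrv_le (lam G : I → ℝ) (x : T) (i : I) :
    |tcrv P b db lam G x i| ≤ tbd P b db dbz := by
  refine le_trans ?_ (tbd_ge P b db dbz x i)
  refine le_add_of_le_of_nonneg ?_ (abs_nonneg _)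
  refine le_add_of_nonneg_of_le (Finset.sum_nonneg fun a _ =>
    Finset.sum_nonneg fun k _ => by positivity) ?_
  refine (Finset.abs_sum_le_sum_abs _ _).trans (Finset.sum_le_sum fun a _ =>
    (Finset.abs_sum_le_sum_abs _ _).trans (Finset.sum_le_sum fun k _ =>
      (Finset.abs_sum_le_sum_abs _ _).trans (Finset.sum_le_sum fun l _ => ?_)))
  rw [abs_mul, abs_mul]
  exact mul_le_mul_of_nonneg_right ((P.h2 _ _ _).trans (le_abs_self _)) (by positivity)

omit [Fintype T] in
theorem cont_tdir (lam : I → ℝ) (x : T) (i : I) :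
    Continuous fun G => tdir P b db dbz lam G x i := by
  unfold tdir
  exact ((continuous_finsetSum _ fun a _ => continuous_finsetSum _ fun k _ =>
    ((P.cg k).comp (cont_vfld b lam x a)).mul_const _)).add continuous_const

omit [Fintype T] in
theorem cont_tcrv (lam : I → ℝ) (x : T) (i : I) :
    Continuous fun G => tcrv P b db lam G x i := by
  unfold tcrv
  exact continuous_finsetSum _ fun a _ => continuous_finsetSum _ fun k _ =>
    continuous_finsetSum _ fun l _ => ((P.ch k l).comp (cont_vfld b lam x a)).mul_const _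

omit [Fintype T] in
theorem deriv_tdir_G [DecidableEq I] (lam G : I → ℝ) (j : I) (x : T) :
    HasDerivAt (fun z => tdir P b db dbz lam (Function.update G j z) x j)
      (√(lam j) * tcrv P b db lam G x j) (G j) := by
  refine ((HasDerivAt.fun_sum (u := Finset.univ) fun a _ =>
    HasDerivAt.fun_sum (u := Finset.univ) fun k _ =>
      (deriv_chain (F := P.g k) (F' := P.h k) (P.ch k) (P.d2 k)
        (h := fun z => vfld b lam (Function.update G j z) x a)
        fun l => deriv_lin_G (b a l) lam G j (G j) x).mul_const (db a k x j)).add_const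
      _).congr_deriv ?_
  simp only [Function.update_eq_self, tcrv, Finset.mul_sum, Finset.sum_mul]
  exact Finset.sum_congr rfl fun a _ => Finset.sum_congr rfl fun k _ =>
    Finset.sum_congr rfl fun l _ => by ring

/-- Integration by parts of the derivative of the energy along a move of the first replica. -/
theorem integral_vtan [Nonempty T] (hw : ∀ x, 0 < w x) {lam : I → ℝ} (hlam : ∀ i, 0 ≤ lam i)
    (O : T → T → ℝ) :
    ∫ G, avg2 (vbw P w b bz qd lam G) (fun x y => O x y * vtan P b db dbz lam G x) ∂gaus I
      = ∫ G, avg2 (vbw P w b bz qd lam G) (tkern P w b db bz dbz qd lam O G) ∂gaus I := by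
  classical
  set γ := fun G => gibbs (vbw P w b bz qd lam G) with hγ
  set U := fun G i => vfU P w b bz qd lam i G with hU
  set V := fun G x i => vdir P b bz lam G x i with hV
  set S := fun G x i => tdir P b db dbz lam G x i with hS
  set F := fun (i : I) G => ∑ x, γ G x * (S G x i * ∑ y, γ G y * O x y) with hF
  set F' := fun (i : I) G => ∑ x, γ G x * (tcrv P b db lam G x i * (∑ y, γ G y * O x y)
    + S G x i * (∑ y, γ G y * (O x y * (V G y i - U G i)))
    + S G x i * (∑ y, γ G y * O x y) * (V G x i - U G i)) with hF'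
  have hpos : ∀ G x, 0 < vbw P w b bz qd lam G x := fun G x => vbw_pos P b bz qd hw lam G x
  set B := ∑ x, ∑ y, |O x y| with hB
  have hB0 : 0 ≤ B := Finset.sum_nonneg fun x _ => Finset.sum_nonneg fun y _ => abs_nonneg _
  have hOB : ∀ x y, |O x y| ≤ B := fun x y =>
    (Finset.single_le_sum (f := fun y => |O x y|) (fun j _ => abs_nonneg _)
      (Finset.mem_univ y)).trans (Finset.single_le_sum (f := fun x => ∑ y, |O x y|)
      (fun j _ => Finset.sum_nonneg fun k _ => abs_nonneg _) (Finset.mem_univ x))
  have hg : ∀ x, Continuous fun G => γ G x := fun x => cont_vgibbs P b bz qd hw lam x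
  have hUc : ∀ i, Continuous fun G => U G i := fun i => cont_vfU P b bz qd hw lam i
  have hVc : ∀ x i, Continuous fun G => V G x i := fun x i => cont_vdir P b bz lam x i
  have hSc : ∀ x i, Continuous fun G => S G x i := fun x i => cont_tdir P b db dbz lam x i
  have hCc : ∀ x i, Continuous fun G => tcrv P b db lam G x i := fun x i => cont_tcrv P b db lam x i
  have hFc : ∀ i, Continuous (F i) := fun i => by rw [hF]; fun_prop
  have hF'c : ∀ i, Continuous (F' i) := fun i => by rw [hF']; fun_prop
  have hOm : ∀ G x, |∑ y, γ G y * O x y| ≤ B := fun G x => abs_mean_le (hpos G) (hOB x)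
  have hVU : ∀ G x i, |V G x i - U G i| ≤ 2 * vbd P b bz := fun G x i =>
    ((abs_sub _ _).trans (add_le_add (abs_vdir_le P b bz lam G x i)
      (abs_vfU_le P b bz qd hw lam i G))).trans_eq (two_mul _).symm
  have hS0 : ∀ G x i, |S G x i| ≤ tbd P b db dbz := fun G x i => abs_tdir_le P b db dbz lam G x i
  have hT0 : 0 ≤ tbd P b db dbz := Finset.sum_nonneg fun x _ => Finset.sum_nonneg fun i _ =>
    add_nonneg (add_nonneg
      (Finset.sum_nonneg fun a _ => Finset.sum_nonneg fun k _ => by positivity)
      (Finset.sum_nonneg fun a _ => Finset.sum_nonneg fun k _ =>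
        Finset.sum_nonneg fun l _ => by positivity)) (abs_nonneg _)
  have hFb : ∀ i G, |F i G| ≤ tbd P b db dbz * B := fun i G => abs_mean_le (hpos G) fun x => by
    rw [abs_mul]
    exact mul_le_mul (hS0 G x i) (hOm G x) (abs_nonneg _) hT0
  have hF'b : ∀ i G, |F' i G| ≤ tbd P b db dbz * B + tbd P b db dbz * (B * (2 * vbd P b bz))
      + tbd P b db dbz * B * (2 * vbd P b bz) := fun i G => abs_mean_le (hpos G) fun x => by
    refine (abs_add_le _ _).trans (add_le_add ((abs_add_le _ _).trans (add_le_add ?_ ?_)) ?_)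
    · rw [abs_mul]
      exact mul_le_mul (abs_tcrv_le P b db dbz lam G x i) (hOm G x) (abs_nonneg _) hT0
    · rw [abs_mul]
      refine mul_le_mul (hS0 G x i) (abs_mean_le (hpos G) fun y => ?_) (abs_nonneg _) hT0
      rw [abs_mul]
      exact mul_le_mul (hOB x y) (hVU G y i) (abs_nonneg _) hB0
    · rw [abs_mul, abs_mul]
      exact mul_le_mul (mul_le_mul (hS0 G x i) (hOm G x) (abs_nonneg _) hT0) (hVU G x i)
        (abs_nonneg _) (mul_nonneg hT0 hB0)
  have hd : ∀ i G, HasDerivAt (fun z => F i (Function.update G i z))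
      (√(lam i) * F' i G) (G i) := fun i G => by
    have hbw := fun x => deriv_vbw_G P (w := w) b bz qd lam G i x
    have hv := hpos G
    have hinner : ∀ x, HasDerivAt (fun z => ∑ y, γ (Function.update G i z) y * O x y)
        (√(lam i) * ∑ y, γ G y * (O x y * (V G y i - U G i))) (G i) := fun x => by
      refine (deriv_mean (v := fun z => vbw P w b bz qd lam (Function.update G i z))
        (dv := fun y => √(lam i) * V G y i) (s := G i) (fun y => by simpa using hv y)
        (fun y => by simpa using hbw y) (F := fun _ y => O x y)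
        (fun y => hasDerivAt_const _ _)).congr_deriv ?_
      simp only [Function.update_eq_self, hU, vfU, hγ, hV, Finset.mul_sum]
      refine Finset.sum_congr rfl fun y _ => ?_
      simp only [← Finset.mul_sum, mul_left_comm (gibbs _ _) (√(lam i))]
      ring
    refine (deriv_mean (v := fun z => vbw P w b bz qd lam (Function.update G i z))
      (dv := fun y => √(lam i) * V G y i) (s := G i) (fun y => by simpa using hv y)
      (fun y => by simpa using hbw y)
      (F := fun z x => S (Function.update G i z) x i * ∑ y, γ (Function.update G i z) y * O x y)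
      (fun x => (deriv_tdir_G P b db dbz lam G i x).mul (hinner x))).congr_deriv ?_
    simp only [Function.update_eq_self, hF', hU, vfU, hγ, hV, hS, Finset.mul_sum]
    refine Finset.sum_congr rfl fun x _ => ?_
    simp only [← Finset.mul_sum, mul_left_comm (gibbs _ _) (√(lam i))]
    ring
  have hibp : ∀ i, ∫ G, G i * F i G ∂gaus I = √(lam i) * ∫ G, F' i G ∂gaus I := fun i => by
    rw [← integral_const_mul]
    exact ibp_gaus i (hFc i) ((hF'c i).const_mul _) (hFb i)
      (fun G => (abs_mul _ _).trans_le (mul_le_mul_of_nonneg_left (hF'b i G) (abs_nonneg _)))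
      (hd i)
  have e1 : ∀ G, avg2 (vbw P w b bz qd lam G) (fun x y => O x y * vtan P b db dbz lam G x)
      = ∑ i, √(lam i) * (G i * F i G) := fun G => by
    simp only [avg2_eq, vtan, hF, hS, hγ, Finset.mul_sum]
    rw [Finset.sum_comm (s := (Finset.univ : Finset I))]
    refine Finset.sum_congr rfl fun x _ => ?_
    rw [Finset.sum_comm]
    exact Finset.sum_congr rfl fun i _ => Finset.sum_congr rfl fun y _ => by ring
  have e2 : ∀ G, avg2 (vbw P w b bz qd lam G) (tkern P w b db bz dbz qd lam O G)
      = ∑ i, lam i * F' i G := fun G => by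
    have hcov : ∀ x, ∑ z, γ G z * tcov P b db bz dbz lam G x z
        = ∑ i, lam i * (S G x i * U G i) := fun x => by
      simp only [tcov, hU, vfU, hS, hγ, Finset.mul_sum]
      rw [Finset.sum_comm]
      exact Finset.sum_congr rfl fun i _ => Finset.sum_congr rfl fun z _ => by ring
    have hxy : ∀ x y, tkern P w b db bz dbz qd lam O G x y
        = ∑ i, lam i * (O x y * (tcrv P b db lam G x i + S G x i * (V G x i - U G i)
            + S G x i * (V G y i - U G i))) := fun x y => by
      simp only [hγ] at hcov
      simp only [tkern, hcov x]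
      simp only [tcov, hS, hV, Finset.mul_sum, ← Finset.sum_add_distrib, ← Finset.sum_sub_distrib]
      exact Finset.sum_congr rfl fun i _ => by ring
    simp only [avg2_eq, hxy, hF']
    have hr : ∀ x, γ G x * ∑ y, γ G y * ∑ i, lam i * (O x y * (tcrv P b db lam G x i
          + S G x i * (V G x i - U G i) + S G x i * (V G y i - U G i)))
        = ∑ i, lam i * (γ G x * (tcrv P b db lam G x i * (∑ y, γ G y * O x y)
          + S G x i * (∑ y, γ G y * (O x y * (V G y i - U G i)))
          + S G x i * (∑ y, γ G y * O x y) * (V G x i - U G i))) := fun x => by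
      simp only [Finset.mul_sum, Finset.sum_mul, ← Finset.sum_add_distrib]
      rw [Finset.sum_comm]
      exact Finset.sum_congr rfl fun i _ => Finset.sum_congr rfl fun y _ => by ring
    refine (Finset.sum_congr rfl fun x _ => hr x).trans ?_
    rw [Finset.sum_comm]
    exact Finset.sum_congr rfl fun i _ => (Finset.mul_sum ..).symm
  simp only [e1, e2]
  rw [integral_finsetSum _ fun i _ => (integrable_coord_mul (hFc i) (hFb i) i).const_mul _,
    integral_finsetSum _ fun i _ => (integrable_bdd (hF'c i) (hF'b i)).const_mul _]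
  refine Finset.sum_congr rfl fun i _ => ?_
  rw [integral_const_mul, integral_const_mul, hibp i, ← mul_assoc, Real.mul_self_sqrt (hlam i)]

end Vale.Agent.P166.Casc
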