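import Vale.Agent.P166.Casc.VUpperSeg
import Vale.Agent.P166.Casc.VEnd
import Vale.Agent.P166.Formula.NearInf

/-!
The upper bound of the penalised free energy at a definite centre by the variational value.
-/

open MeasureTheory ProbabilityTheory Filter Topology Set
open scoped MatrixOrder

namespace Vale.Agent.P166.Casc

open Vale.Agent.P157.Casc Vale.Agent.P166.Pen
open Vale.Agent.P166.Formula (TPath tfrac typD dTot qTot IsPath pairing gridM ent rowVal)

variable {d : ℕ}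

/-- The pairings of the paths of the types are bounded. -/
theorem abs_pairing_le {γ : Fin d → ℝ} (hγ : ∀ k, 0 < γ k ∧ γ k ≤ 1) {dd : OIdx d → ℝ} {K : ℕ}
    {BT : ℝ} (hBT : 0 ≤ BT) {Q : TPath d} (hQ : Formula.Adm γ dd K Q)
    (h : ∀ t, Occupied γ t → TypeBd γ dd t K (Q t) BT) :
    |∑ t, tfrac γ t * pairing (gridM K) K (respL γ dd K Q t) (Q t)|
      ≤ Fintype.card (Finset (Fin d)) * BT ^ 2 := by
  have e : ∑ t, tfrac γ t * pairing (gridM K) K (respL γ dd K Q t) (Q t)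
      = ∑ l : Fin (K + 1), pi0 K * ∑ t, tfrac γ t * minner (Q t l.val) (respL γ dd K Q t l.val) := by
    simp only [Finset.mul_sum]
    rw [Finset.sum_comm]
    refine Finset.sum_congr rfl fun t _ => ?_
    by_cases h0 : tfrac γ t = 0
    · simp [h0]
    rw [pairing_minner _ (Q t) (path_symm hγ hQ t h0), Finset.mul_sum]
    exact Finset.sum_congr rfl fun l _ => by ring
  have hπ : 0 ≤ pi0 K := by rw [pi0]; positivity
  rw [e]
  refine (Finset.abs_sum_le_sum_abs _ _).trans ((Finset.sum_le_sum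
    (g := fun _ => pi0 K * (Fintype.card (Finset (Fin d)) * BT ^ 2)) fun l _ => ?_).trans_eq ?_)
  · rw [abs_mul, abs_of_nonneg hπ]
    refine mul_le_mul_of_nonneg_left ?_ hπ
    refine ((Finset.abs_sum_le_sum_abs _ _).trans_eq ?_).trans (pair_abs_le hγ hBT h l)
    simp [abs_mul, abs_of_nonneg (Formula.tfrac_nonneg γ _)]
  · rw [Finset.sum_const, Finset.card_univ, Fintype.card_fin, nsmul_eq_mul, ← mul_assoc]
    have : ((K + 1 : ℕ) : ℝ) * pi0 K = 1 := by rw [pi0]; push_cast; field_simp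
    rw [this, one_mul]

/-- The perturbations cost less than the order of the system. -/
theorem eventually_vpertBd_le (R : ℕ) {ε : ℝ} (hε : 0 < ε) :
    ∀ᶠ N : ℕ in atTop, vpertBd R N 2 ≤ ε * N := by
  have h0 : Tendsto (fun N : ℕ => (N : ℝ) ^ (-(1 / 4 : ℝ))) atTop (𝓝 0) :=
    (tendsto_rpow_neg_atTop (by norm_num)).comp tendsto_natCast_atTop_atTop
  have h1 := h0.const_mul ((R : ℝ) * (4 / 3))
  rw [mul_zero] at h1
  filter_upwards [h1.eventually_le_const hε, eventually_gt_atTop 0] with N hN hpos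
  have hN' : (0 : ℝ) < N := Nat.cast_pos.2 hpos
  refine le_of_eq_of_le ?_ (mul_le_mul_of_nonneg_right hN hN'.le)
  rw [vpertBd, show (-(1 / 4 : ℝ)) = 3 / 4 - 1 by norm_num, Real.rpow_sub hN', Real.rpow_one]
  field_simp
  ring

/-- The end of the line against its start, at fixed atoms and degree. -/
theorem line_total_le {N M R D K n : ℕ} (P : VPot d) (π : VPrior N d R D) (Φ : VFac N d K)
    (hn : 0 < n) {s0 C X Y : ℝ} (hs0 : 0 ≤ s0) (hs1 : s0 ≤ 1)
    (hC : ∀ (c : VCIdx N M d R D K → ℝ) G (x z : VState π K n),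
      |vkern P (vbpat π Φ) (vbspin π Φ) (vqd π Φ) (vpull c) (vpull lineD) G x z| ≤ C)
    (hX : ∀ s ∈ Icc s0 1, -X ≤ ∫ y, vmpair (M := M) n P π Φ (vsys (lineC s) y)
      (vkern P (vbpat π Φ) (vbspin π Φ) (vqd π Φ) (vpull (vsys (lineC s) y)) (vpull lineD))
      ∂vxlaw R N)
    (hY : vmfree (M := M) n P π Φ (lineC 0) ≤ Y) :
    vmfree (M := M) n P π Φ (lineC 1) ≤ Y + 1 / 2 * ((1 - s0) * X) + 1 / 2 * (s0 * C)
      + vpertBd R N 2 := by
  obtain ⟨t, ht, he⟩ := meanF_seg (M := M) P π Φ hn hs0 hs1 le_rfl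
  obtain ⟨u, -, hu⟩ := meanF_seg (M := M) P π Φ hn le_rfl hs0 hs1
  have h1 := mul_le_mul_of_nonneg_left (hX t ht) (sub_nonneg.2 hs1)
  have h2 := mul_le_mul_of_nonneg_left
    (abs_le.1 (abs_integral_der_le (M := M) P π Φ hn (fun y => vsys (lineC u) y)
      fun y G x z => hC _ G x z)).1 hs0
  have h3 := abs_le.1 (meanF_pert (M := M) P π Φ hn (s := 1) ⟨zero_le_one, le_rfl⟩)
  have h4 := abs_le.1 (meanF_pert (M := M) P π Φ hn (s := 0) ⟨le_rfl, zero_le_one⟩)
  rw [sub_zero] at hu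
  linarith

/-- The arithmetic of the bound. -/
theorem upper_arith {N R S E C e g s0 V : ℝ} (hN : 0 ≤ N) (he : 0 ≤ e)
    (hmid : s0 * (C - S - e) ≤ e) (hval : R + E ≤ g + e) (hV : V ≤ e * N) :
    N * R + N * (E - S / 2 + e) + 1 / 2 * ((1 - s0) * (N * (S + e))) + 1 / 2 * (s0 * (N * C)) + V
      ≤ N * (g + 6 * e) := by
  have h1 := mul_le_mul_of_nonneg_left hmid hN
  have h2 := mul_le_mul_of_nonneg_left hval hN
  have h3 : 0 ≤ N * e := mul_nonneg hN he
  linarith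

variable {τ B κ Lc : ℝ} {γ : Fin d → ℝ} {dd : OIdx d → ℝ}

/-- The model with rows only has a free energy at most that of the value, at every degree. -/
theorem rows_le {N nA L J K : ℕ} {ν : Measure (Fin d → Fin N → ℝ)} {εa : ℝ} (hτ : 0 ≤ τ)
    (A : Coeffs d nA) (a : Atoms ν (cutSet B d N) εa) (hL : 0 < L) (P : VPot d)
    (Φ : VFac N d K) {n : ℕ} (hn : 0 < n) :
    vmfree (M := N) 1 P (penPrior (γ := γ) hτ A a hL J) Φ (rowc 1)
      = vmfree (M := N) n P (penPrior (γ := γ) hτ A a hL J) Φ (lineC 1) := by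
  rw [show (lineC 1 : VCIdx N N d (nker d nA) (N + L + J) K → ℝ) = rowc 1 from lineC_one,
    vmfree_penPrior hτ P A a hL J one_pos Φ, vmfree_penPrior hτ P A a hL J hn Φ]

/-- The penalised free energy at a definite centre is at most the variational value. -/
theorem line_upper {η : ℝ} (hτ : 0 < τ) (hB : 0 < B) (hd0 : 0 < d) (P : VPot d)
    (hh : ∀ k k' y, P.h k k' y = P.h k' k y) (hγ : ∀ k, 0 < γ k ∧ γ k ≤ 1) (hκ : 0 < κ)
    (hd : GoodCentre γ κ Lc dd) (hBd : ((∑ t, ∑ k, dd (t, k, k)) + d) / τ + 2 * d ≤ B)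
    (hS : ∀ᶠ N : ℕ in atTop, 0 < (spinLaw d N).real (cutSet B d N)) (hη : 0 < η) :
    ∃ lam0 : ℝ, ∀ lam ≥ lam0, ∀ᶠ N in atTop,
      freePen τ P.f γ B lam dd N ≤ Formula.gVal τ P.f γ 1 dd + η := by
  classical
  have hγ' : ∀ k, 0 < γ k ∧ γ k ≤ 1 := hγ
  set e := η / 6
  have he : 0 < e := by positivity
  obtain ⟨BT, hBT, hinf⟩ := Formula.exists_near_inf (τ := τ) (α := 1) (f := P.f) hγ' hκ hd he
  set cd := (Fintype.card (Finset (Fin d)) : ℝ)
  set P0 := cd * BT ^ 2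
  set C := cd * (((d : ℝ) ^ 2 * (τ * B) + BT) * ((d : ℝ) ^ 2 * (|(1 : ℝ)| * P.b1 ^ 2) + BT) + BT ^ 2)
      + (cd * ((d : ℝ) ^ 2 * BT) + tblSum dd) * ((d : ℝ) ^ 2 * (|(1 : ℝ)| * P.b1 ^ 2))
      + (cd * ((d : ℝ) ^ 2 * (τ * B)) + tblSum dd)
        * ((d : ℝ) ^ 2 * (|(1 : ℝ)| * (|P.b2| + P.b1 ^ 2)))
  have hts := tblSum_nonneg dd
  have hC : 0 ≤ C := by positivity
  set s0 := min (1 / 2) (e / (C + P0 + 1))
  have hs0 : 0 < s0 := lt_min (by norm_num) (by positivity)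
  have hs1 : s0 ≤ 1 := (min_le_left _ _).trans (by norm_num)
  have hsmall : s0 * (C + P0) ≤ e := by
    have h := mul_le_mul_of_nonneg_right (min_le_right (1 / 2) (e / (C + P0 + 1)))
      (show 0 ≤ C + P0 + 1 by positivity)
    rw [div_mul_cancel₀ _ (by positivity)] at h
    simp only [s0] at hs0 ⊢
    linarith
  obtain ⟨lam1, hlam1, hder⟩ := line_der_ge (Lc := Lc) (a0 := 1) hτ hB hd0 P hh hγ hκ hd hBd hBT he hs0
  obtain ⟨lam2, hstart⟩ := line_start (B := B) (Bt := BT) hτ hγ' P hd.1 he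
  refine ⟨max lam1 lam2, fun lam hlam => ?_⟩
  have hlam0 : 0 ≤ lam := zero_le_one.trans (hlam1.trans ((le_max_left _ _).trans hlam))
  obtain ⟨K0, hK0⟩ := hder lam ((le_max_left _ _).trans hlam)
  obtain ⟨K, hK, Q, hQ, hval, hbds⟩ := hinf (K0 + 1)
  have hKpos : 0 < K := by omega
  have hQb : ∀ t, Occupied γ t → TypeBd γ dd t K (Q t) BT := fun t ht =>
    ⟨hQ.path t ht, hQ.top t ht, (hbds t ht).1, (hbds t ht).2.1, (hbds t ht).2.2.1,
      (hbds t ht).2.2.2.1, (hbds t ht).2.2.2.2.1⟩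
  obtain ⟨N1, hN1⟩ := hK0 K (by omega) Q hQ hQb
  obtain ⟨N2, hN2⟩ := hstart lam ((le_max_right _ _).trans hlam) K hKpos Q hQ
    fun t ht => (hbds t ht).2.2.2.2.2
  filter_upwards [eventually_ge_atTop (N1 + N2 + 1), hS,
    eventually_vpertBd_le (nker d (d * d)) he] with N hN hSN hpert
  have hN0 : 0 < N := by omega
  have hN' : (0 : ℝ) < N := Nat.cast_pos.2 hN0
  obtain ⟨L0, hL0⟩ := hN1 N (by omega) N (le_of_eq (one_mul _).symm)
  have hL : 0 < max L0 1 := lt_of_lt_of_le one_pos (le_max_right _ _)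
  obtain ⟨δa, hδa, hderA⟩ := hL0 (max L0 1) (le_max_left _ _) hL 0
  set εs : ℕ → ℝ := fun W => 1 / ((W : ℝ) + 1)
  have hεs : Tendsto εs atTop (𝓝 0) := tendsto_one_div_add_atTop_nhds_zero_nat
  have hfin := spinMeas_finite (τ := τ) (γ := γ) (B := B) (N := N) hlam0 dd
  have hne : (cutSet B d N).Nonempty := ⟨0, by
    show ∑ k : Fin d, ∑ j : Fin N, (0 : Fin d → Fin N → ℝ) k j ^ 2 ≤ B * N
    simp only [Pi.zero_apply, ne_eq, OfNat.ofNat_ne_zero, not_false_eq_true, zero_pow,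
      Finset.sum_const_zero]
    positivity⟩
  set at0 : ∀ W, Atoms (spinMeas τ γ B lam dd N) (cutSet B d N) (εs W) := fun W =>
    Classical.choice (exists_atoms _ (spinMeas_ne hlam0 dd hSN) (isCompact_cut B d N) hne
      (by positivity))
  have hlim := tendsto_vmfree_rows (γ := γ) (K' := K) (n := 1) hτ.le hlam0 dd P hN0 hSN hεs
    (basicCoeffs d) at0 hL 0 one_pos (lineFac (K := K) γ (topAt K (dTot dd) (qTot γ Q)) (respL γ dd K Q))
  have hev : ∀ᶠ W in atTop, vmfree (M := N) 1 P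
      (penPrior (γ := γ) hτ.le (basicCoeffs d) (at0 W) hL 0)
      (lineFac (K := K) γ (topAt K (dTot dd) (qTot γ Q)) (respL γ dd K Q)) (rowc 1)
      ≤ N * (Formula.gVal τ P.f γ 1 dd + η) := by
    filter_upwards [hN2 N (by omega) N (d * d) (basicCoeffs d) (max L0 1) hL 0 εs hεs at0,
      hεs.eventually_le_const hδa] with W hW hWδ
    obtain ⟨n0, hn0, hn0d⟩ := hderA (at0 W) hWδ
    obtain ⟨n, hnY, hnn⟩ := (hW.and (eventually_ge_atTop n0)).exists
    have hn : 0 < n := hn0.trans_le hnn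
    rw [rows_le hτ.le (basicCoeffs d) (at0 W) hL P _ hn]
    refine (line_total_le P _ _ hn hs0.le hs1 (fun c G x z => abs_der_le (a0 := 1) P hτ.le hB.le hγ'
      hd.1 (basicCoeffs d) (at0 W) hL hN0 hBT (le_of_eq (one_mul _).symm) hKpos hQ hQb c G x z)
      (fun s hs => hn0d n hnn s hs) hnY).trans ?_
    have hp := abs_le.1 (abs_pairing_le hγ' (zero_le_one.trans hBT) hQ hQb)
    have hpart : ∑ t, tfrac γ t * (ent (gridM K) K τ (typD γ dd t) (Q t)
          - pairing (gridM K) K (endPath γ dd K Q t) (Q t) / 2)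
        = (∑ t, tfrac γ t * ent (gridM K) K τ (typD γ dd t) (Q t))
          - (∑ t, tfrac γ t * pairing (gridM K) K (respL γ dd K Q t) (Q t)) / 2 := by
      rw [Finset.sum_div, ← Finset.sum_sub_distrib]
      exact Finset.sum_congr rfl fun t _ => by simp only [endPath, respL]; ring
    rw [hpart]
    simp only [Formula.pathVal, one_mul] at hval
    set S := ∑ t, tfrac γ t * pairing (gridM K) K (respL γ dd K Q t) (Q t)
    set E := ∑ t, tfrac γ t * ent (gridM K) K τ (typD γ dd t) (Q t)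
    have hmid : s0 * (C - S - e) ≤ e := le_trans (mul_le_mul_of_nonneg_left
      (show C - S - e ≤ C + P0 by simp only [P0]; linarith) hs0.le) hsmall
    rw [show η = 6 * e by simp only [e]; ring]
    exact upper_arith hN'.le he.le hmid hval hpert
  exact le_of_mul_le_mul_left (le_of_tendsto hlim hev) hN'

end Vale.Agent.P166.Casc
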