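import Vale.Agent.P166.Casc.VUpperPaths

/-!
The mean derivative along the line is at least minus the pairing of the paths, up to a small error.
-/

open MeasureTheory ProbabilityTheory Filter Topology Set
open scoped MatrixOrder

namespace Vale.Agent.P166.Casc

open Vale.Agent.P157.Casc Vale.Agent.P166.Pen
open Vale.Agent.P166.Formula (TPath tfrac typD dTot qTot IsPath pairing gridM)

variable {d : ℕ}

/-- Lower bounds of the products of the deviations of all types, from those of the occupied types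
scaled by a parameter bounded below. -/
theorem sum_types_ge {γ : Fin d → ℝ} [DecidablePred (Occupied γ)] {X : Finset (Fin d) → ℝ}
    {C E : {t : Finset (Fin d) // Occupied γ t} → ℝ} {s s0 η : ℝ} (hs0 : 0 < s0) (hs : s0 ≤ s)
    (hzero : ∀ t, ¬Occupied γ t → X t = 0) (hη : 0 ≤ η) (hC : ∀ t, 0 ≤ C t) (hE : ∀ t, 0 ≤ E t)
    (h : ∀ t, -(η + C t * E t) ≤ s * X t.1) :
    -((∑ t : {t : Finset (Fin d) // Occupied γ t}, (η + C t * E t)) / s0) ≤ ∑ t, X t := by
  have h1 : ∑ t, X t = ∑ t : {t : Finset (Fin d) // Occupied γ t}, X t.1 := by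
    rw [← Finset.sum_filter_of_ne (p := Occupied γ) fun t _ ht =>
      not_not.1 fun h => ht (hzero t h)]
    exact Finset.sum_subtype _ (by simp) _
  rw [h1, Finset.sum_div, ← Finset.sum_neg_distrib]
  refine Finset.sum_le_sum fun t _ => ?_
  have ht : 0 ≤ η + C t * E t := add_nonneg hη (mul_nonneg (hC t) (hE t))
  rcases le_total 0 (X t.1) with hx | hx
  · exact (neg_nonpos.2 (div_nonneg ht hs0.le)).trans hx
  · rw [neg_le, le_div_iff₀ hs0]
    have := mul_le_mul_of_nonpos_right hs hx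
    linarith [h t]

/-- A positive number below a given one and below all values of a positive function. -/
theorem exists_pos_le {ι : Type*} [Finite ι] {c : ℝ} (hc : 0 < c) {f : ι → ℝ} (hf : ∀ i, 0 < f i) :
    ∃ e > 0, e ≤ c ∧ ∀ i, e ≤ f i := by
  classical
  have := Fintype.ofFinite ι
  have hne : (insert c (Finset.univ.image f)).Nonempty := ⟨c, Finset.mem_insert_self _ _⟩
  refine ⟨(insert c (Finset.univ.image f)).min' hne,
    (Finset.lt_min'_iff _ hne).2 fun x hx => ?_, Finset.min'_le _ _ (Finset.mem_insert_self _ _),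
    fun i => Finset.min'_le _ _ (Finset.mem_insert_of_mem
      (Finset.mem_image_of_mem _ (Finset.mem_univ i)))⟩
  rcases Finset.mem_insert.1 hx with rfl | hx
  · exact hc
  · obtain ⟨i, -, rfl⟩ := Finset.mem_image.1 hx
    exact hf i

/-- The number of indices of an occupied type, for large dimension. -/
theorem type_count {γ : Fin d → ℝ} (hγ : ∀ k, 0 < γ k ∧ γ k ≤ 1) {t : Finset (Fin d)}
    (ht : Occupied γ t) {δ δ' C : ℝ} (hδ : 0 < δ) (hδ' : 0 < δ') :
    ∀ᶠ N : ℕ in atTop, 2 ≤ (typS γ N t).card ∧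
      |(((typS γ N t).card : ℝ) - 1) / N - tfrac γ t| ≤ δ ∧
      C * (N : ℝ) ^ ((3 : ℝ) / 4) / N ≤ δ' := by
  have ha := Formula.tfrac_pos hγ ht
  obtain ⟨N1, hN1⟩ := exists_nat_gt (3 / tfrac γ t + 2 / δ)
  have hlim : Tendsto (fun N : ℕ => C * (N : ℝ) ^ ((3 : ℝ) / 4) / N) atTop (𝓝 0) := by
    have h0 : Tendsto (fun N : ℕ => (N : ℝ) ^ (-(1 / 4 : ℝ))) atTop (𝓝 0) :=
      (tendsto_rpow_neg_atTop (by norm_num)).comp tendsto_natCast_atTop_atTop
    have h1 := h0.const_mul C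
    rw [mul_zero] at h1
    refine h1.congr' ?_
    filter_upwards [eventually_gt_atTop 0] with N hN
    have hN' : (0 : ℝ) < N := Nat.cast_pos.2 hN
    rw [show (-(1 / 4 : ℝ)) = 3 / 4 - 1 by norm_num, Real.rpow_sub hN', Real.rpow_one]
    ring
  filter_upwards [eventually_ge_atTop (N1 + 1), hlim.eventually_le_const hδ'] with N hN hp
  have hN0 : 0 < N := by omega
  have hN' : (0 : ℝ) < N := Nat.cast_pos.2 hN0
  have hc : |((typS γ N t).card : ℝ) / N - tfrac γ t| ≤ 1 / N :=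
    Formula.count_typ (γ := γ) hγ hN0 t
  have hbig : 3 / tfrac γ t + 2 / δ ≤ N :=
    hN1.le.trans (by exact_mod_cast (by omega : N1 ≤ N))
  have p1 : 0 < 3 / tfrac γ t := by positivity
  have p2 : 0 < 2 / δ := div_pos two_pos hδ
  have h3 : 3 ≤ tfrac γ t * N := by
    have : 3 / tfrac γ t ≤ N := by linarith
    rwa [div_le_iff₀' ha] at this
  have h2 : 2 / (N : ℝ) ≤ δ := by
    have : 2 / δ ≤ N := by linarith
    rwa [div_le_iff₀ hδ, mul_comm, ← div_le_iff₀ hN'] at this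
  have h12 : (1 : ℝ) / N + 1 / N = 2 / N := by ring
  refine ⟨?_, ?_, hp⟩
  · have h5 : tfrac γ t - 1 / N ≤ ((typS γ N t).card : ℝ) / N := by linarith [(abs_le.1 hc).1]
    rw [le_div_iff₀ hN', sub_mul, div_mul_cancel₀ _ hN'.ne'] at h5
    have : (2 : ℝ) ≤ (typS γ N t).card := by linarith
    exact_mod_cast this
  · have h6 : |(1 : ℝ) / N| = 1 / N := abs_of_pos (by positivity)
    rw [sub_div, sub_right_comm]
    refine (abs_sub _ _).trans ?_
    linarith

/-- The mean of an affine combination of two functions. -/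
theorem integral_low {Ω : Type*} [MeasurableSpace Ω] {μ : Measure Ω} [IsProbabilityMeasure μ]
    {f g : Ω → ℝ} (hf : Integrable f μ) (hg : Integrable g μ) (N A c W W2 e : ℝ) :
    Integrable (fun y => -(N * (A + (c + W * f y + W2 * g y + e)))) μ ∧
    ∫ y, -(N * (A + (c + W * f y + W2 * g y + e))) ∂μ
      = -(N * (A + (c + W * ∫ y, f y ∂μ + W2 * ∫ y, g y ∂μ + e))) := by
  have e0 : (fun y => -(N * (A + (c + W * f y + W2 * g y + e))))
      = fun y => -(N * (A + c + e)) + ((-(N * W)) * f y + (-(N * W2)) * g y) := funext fun y => by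
    ring
  have h1 := (hf.const_mul (-(N * W))).fun_add (hg.const_mul (-(N * W2)))
  refine ⟨by rw [e0]; exact (integrable_const _).fun_add h1, ?_⟩
  rw [e0, integral_add (integrable_const _) h1,
    integral_add (hf.const_mul _) (hg.const_mul _), integral_const, probReal_univ, one_smul,
    integral_const_mul, integral_const_mul]
  ring

/-- The sizes of the two kinds of overlaps of the first derivatives of the potential. -/
theorem pv_bounds {N M R D n K : ℕ} (P : VPot d) (π : VPrior N d R D) (hN : 0 < N) {a0 : ℝ}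
    (hM : (M : ℝ) ≤ a0 * N) (Φ : VFac N d K) (c : VCIdx N M d R D K → ℝ)
    (G : VGIdx N M d R D K n → ℝ) (x z : VState π K n) :
    mabs (pmat P π Φ c G x z) ≤ (d : ℝ) ^ 2 * (|a0| * P.b1 ^ 2) ∧
      mabs (hmat P π Φ c G x) ≤ (d : ℝ) ^ 2 * (|a0| * (|P.b2| + P.b1 ^ 2)) := by
  have h : (M : ℝ) / N ≤ |a0| := by
    rw [div_le_iff₀ (Nat.cast_pos.2 hN)]
    exact hM.trans (mul_le_mul_of_nonneg_right (le_abs_self a0) (Nat.cast_nonneg N))
  refine ⟨(mabs_pmat_le P π Φ c G x z).trans (mul_le_mul_of_nonneg_left ?_ (sq_nonneg _)),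
    (mabs_hmat_le P π Φ c G x).trans (mul_le_mul_of_nonneg_left ?_ (sq_nonneg _))⟩
  all_goals
    rw [mul_div_right_comm]
    exact mul_le_mul_of_nonneg_right h (by positivity)

/-- The derivative at fixed parameters, from the bounds of the products of the occupied types. -/
theorem der_point_ge {N M R D n K : ℕ} (P : VPot d) (π : VPrior N d R D) (hN : 0 < N) (hn : 0 < n)
    {γ : Fin d → ℝ} [DecidablePred (Occupied γ)] (hγ : ∀ k, 0 < γ k ∧ γ k ≤ 1) (Q : TPath d)
    {p : TPath d} (Dt : Matrix (Fin d) (Fin d) ℝ) (hqr : IsPath K (topAt K Dt (qTot γ Q)))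
    (hp : ∀ j : Fin N, IsPath K (sitePath γ p j))
    (hsupp : ∀ t (x y : VState π K n) k l, k ∉ t ∨ l ∉ t → rmat π (typS γ N t) x y k l = 0)
    (c : VCIdx N M d R D K → ℝ) {X : Fin π.c → ℝ} {δ εl CP Ctop V H : ℝ} (hδ : 0 ≤ δ)
    (hεl : 0 ≤ εl)
    (hX : ∀ x : VState π K n, mabs (rmat π Finset.univ x x - Dt) ≤ X x.1)
    (hdev : reavg (venv N M d R D K n) (vposW P π (lineFac γ (topAt K Dt (qTot γ Q)) p) c) 2
      (fun _ x => X (x 0).1) ≤ δ)
    (hlaw : ∀ l, |levLaw (venv N M d R D K n)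
      (vposW P π (lineFac γ (topAt K Dt (qTot γ Q)) p) c) (vlev π) l - pi0 K| ≤ εl)
    (hCP : ∀ l : Fin (K + 1), ∑ t, tfrac γ t * |minner (Q t l.val) (p t l.val)| ≤ CP)
    (hsym : ∀ t, tfrac γ t ≠ 0 → ∀ l ≤ K, (Q t l).transpose = Q t l)
    (hCtop : mabs (qTot γ Q K - Dt) ≤ Ctop)
    (hV : ∀ G (x y : VState π K n), mabs (pmat P π (lineFac γ (topAt K Dt (qTot γ Q)) p) c G x y) ≤ V)
    (hH : ∀ G (x : VState π K n), mabs (hmat P π (lineFac γ (topAt K Dt (qTot γ Q)) p) c G x) ≤ H)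
    {s s0 η1 : ℝ} (hs0 : 0 < s0) (hs : s0 ≤ s) (hη1 : 0 ≤ η1)
    {Ct δt δK : {t : Finset (Fin d) // Occupied γ t} → ℝ} (hCt : ∀ t, 0 ≤ Ct t)
    (hδt : ∀ t, 0 < δt t) (hδK : ∀ t, 0 < δK t)
    (hty : ∀ t : {t : Finset (Fin d) // Occupied γ t},
      -(η1 + Ct t * (δ / δt t + εl / δK t)) ≤ s * reavg (venv N M d R D K n)
        (vposW P π (lineFac γ (topAt K Dt (qTot γ Q)) p) c) 2
        (fun ω x => linX P π γ (lineFac γ (topAt K Dt (qTot γ Q)) p) c t.1 (Q t.1) (p t.1)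
          ω.2 (x 0) (x 1))) :
    -((N : ℝ) * ((∑ t, tfrac γ t * pairing (gridM K) K (p t) (Q t))
        + (Fintype.card {t : Finset (Fin d) // Occupied γ t} * η1 / s0
          + ((∑ t, Ct t / δt t) / s0 + H + 1) * δ
          + ((∑ t, Ct t / δK t) / s0 + ((K : ℝ) + 1) * CP + Ctop * V + 1) * εl
          + pi0 K * (Ctop * V))))
      ≤ vmpair n P π (lineFac γ (topAt K Dt (qTot γ Q)) p) c
          (vkern P (vbpat π (lineFac γ (topAt K Dt (qTot γ Q)) p))
            (vbspin π (lineFac γ (topAt K Dt (qTot γ Q)) p))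
            (vqd π (lineFac γ (topAt K Dt (qTot γ Q)) p)) (vpull c) (vpull lineD)) := by
  have := vstate_nonempty (K := K) π hn
  set Φ : VFac N d K := lineFac γ (topAt K Dt (qTot γ Q)) p
  set Z := fun t => reavg (venv N M d R D K n) (vposW P π Φ c) 2
    (fun ω x => linX P π γ Φ c t (Q t) (p t) ω.2 (x 0) (x 1))
  have hsum := sum_types_ge (γ := γ) (X := Z) (C := Ct) (E := fun t => δ / δt t + εl / δK t)
    hs0 hs (fun t ht => by
      simp only [Z, linX_not_occupied P π Φ _ hγ ht]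
      exact reavg_const (fun ω x => vposW_pos (n := n) P π Φ _ ω x) 0)
    hη1 hCt (fun t => add_nonneg (div_nonneg hδ (hδt t).le) (div_nonneg hεl (hδK t).le)) hty
  refine le_trans ?_ (line_point_ge P π hN hn Q Dt hqr hp hsupp c hεl hX hdev hlaw hCP hsym hCtop
    hV hH)
  rw [← mul_neg]
  refine mul_le_mul_of_nonneg_left ?_ (Nat.cast_nonneg N)
  have e1 : (∑ t : {t : Finset (Fin d) // Occupied γ t}, (η1 + Ct t * (δ / δt t + εl / δK t)))
      = Fintype.card {t : Finset (Fin d) // Occupied γ t} * η1 + (∑ t, Ct t / δt t) * δ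
        + (∑ t, Ct t / δK t) * εl := by
    rw [Finset.sum_mul, Finset.sum_mul, add_assoc, ← Finset.sum_add_distrib, Finset.sum_add_distrib,
      Finset.sum_const, Finset.card_univ, nsmul_eq_mul]
    congr 1
    exact Finset.sum_congr rfl fun t _ => by ring
  have e2 : ∀ u v w : ℝ, (u + v * δ + w * εl) / s0 = u / s0 + v / s0 * δ + w / s0 * εl :=
    fun u v w => by ring
  rw [e1, e2] at hsum
  simp only [Z, Φ] at hsum ⊢
  linarith

/-- The mean derivative along the line. -/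
theorem line_der_ge {τ B κ Lc BT a0 η s0 : ℝ} (hτ : 0 < τ) (hB : 0 < B) (hd0 : 0 < d) (P : VPot d)
    (hh : ∀ k k' y, P.h k k' y = P.h k' k y) {γ : Fin d → ℝ} (hγ : ∀ k, 0 < γ k ∧ γ k ≤ 1)
    (hκ : 0 < κ) {dd : OIdx d → ℝ} (hd : GoodCentre γ κ Lc dd)
    (hBd : ((∑ t, ∑ k, dd (t, k, k)) + d) / τ + 2 * d ≤ B) (hBT : 1 ≤ BT) (hη : 0 < η)
    (hs0 : 0 < s0) :
    ∃ lam0 : ℝ, 1 ≤ lam0 ∧ ∀ lam ≥ lam0, ∃ K0 : ℕ, ∀ K ≥ K0, ∀ Q : TPath d,
      Formula.Adm γ dd K Q → (∀ t, Occupied γ t → TypeBd γ dd t K (Q t) BT) →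
      ∃ N0 : ℕ, ∀ N ≥ N0, ∀ M : ℕ, (M : ℝ) ≤ a0 * N → ∃ L0 : ℕ, ∀ L ≥ L0, ∀ (hL : 0 < L) (J : ℕ),
        ∃ δa > 0, ∀ {εa : ℝ} (a : Atoms (spinMeas τ γ B lam dd N) (cutSet B d N) εa), εa ≤ δa →
        ∃ n0 : ℕ, 0 < n0 ∧ ∀ n ≥ n0, ∀ s ∈ Icc s0 1,
          let π := penPrior (γ := γ) hτ.le (basicCoeffs d) a hL J
          let Φ : VFac N d K := lineFac γ (topAt K (dTot dd) (qTot γ Q)) (respL γ dd K Q);
          -(N * ((∑ t, tfrac γ t * pairing (gridM K) K (respL γ dd K Q t) (Q t)) + η))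
            ≤ ∫ y, vmpair (M := M) n P π Φ (vsys (lineC s) y)
                (vkern P (vbpat π Φ) (vbspin π Φ) (vqd π Φ) (vpull (vsys (lineC s) y))
                  (vpull lineD)) ∂vxlaw (nker d (d * d)) N := by
  classical
  have hγ' : ∀ k, 0 < γ k ∧ γ k ≤ 1 := hγ
  set I := {t : Finset (Fin d) // Occupied γ t}
  set BT2 := BT + 2 * (d : ℝ) ^ 2 * (τ * B) + 1
  have hBT2 : BT ≤ BT2 := by
    have : 0 ≤ 2 * (d : ℝ) ^ 2 * (τ * B) := by positivity
    simp only [BT2]; linarith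
  set η1 := s0 * η / (8 * ((Fintype.card I : ℝ) + 1))
  have hη1 : 0 < η1 := by positivity
  choose Ct hCt0 δt hδt0 Kt hKt using fun t : I =>
    line_type_ge (γ := γ) hτ hB.le P hh hγ' hd.1 t.2 (hBT.trans hBT2) (a0 := a0) hη1
  set cd := (Fintype.card (Finset (Fin d)) : ℝ)
  set D0 := ∑ t : I, Ct t / δt t
  have hD0 : 0 ≤ D0 := Finset.sum_nonneg fun t _ => div_nonneg (hCt0 t) (hδt0 t).le
  set V := (d : ℝ) ^ 2 * (|a0| * P.b1 ^ 2)
  set H := (d : ℝ) ^ 2 * (|a0| * (|P.b2| + P.b1 ^ 2))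
  set Ctop := cd * ((d : ℝ) ^ 2 * BT) + tblSum dd
  set CP := cd * BT ^ 2
  have hts := tblSum_nonneg dd
  have hV : 0 ≤ V := by positivity
  have hH : 0 ≤ H := by positivity
  have hCtop : 0 ≤ Ctop := by positivity
  set C0 := tblSum dd + (d : ℝ) ^ 2 * BT
  set Bs := (|a0| + C0) * (τ * B) + |a0| * C0
  set z0 := Bs + 3 * (nker d (d * d) : ℕ)
  obtain ⟨Cd, hCd⟩ := line_dev (B := B) (Lc := Lc) (a0 := a0) (z0 := z0) hτ hγ hκ P
  set W := D0 / s0 + H + 1
  have hW : 0 < W := by positivity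
  set εs := min 1 (η / (8 * W))
  have hεs : 0 < εs := lt_min one_pos (by positivity)
  obtain ⟨Ks, hKs⟩ := pen_sync_set (d := d) (τ := τ) (B := B) hτ hB P Bs hεs
  set lam0 := max 1 ((8 * W * |Cd| / η) ^ 2)
  refine ⟨lam0, le_max_left _ _, fun lam hlam => ?_⟩
  have hlam1 : 1 ≤ lam := (le_max_left _ _).trans hlam
  have hsl : 0 < √lam := Real.sqrt_pos.2 (by linarith)
  have hdev0 : W * (|Cd| / √lam) ≤ η / 8 := by
    have h1 : 8 * W * |Cd| / η ≤ √lam :=
      Real.le_sqrt_of_sq_le ((le_max_right _ _).trans hlam)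
    rw [div_le_iff₀ hη] at h1
    rw [mul_div_assoc', div_le_iff₀ hsl]
    linarith
  obtain ⟨K1, hK1⟩ := exists_nat_gt (8 * (Ctop * V) / η)
  refine ⟨Ks + K1 + 1 + ∑ t : I, Kt t, fun K hK Q hQ hQb => ?_⟩
  have hKpos : 0 < K := by omega
  have hπ : 0 < pi0 K := by rw [pi0]; positivity
  have hπtop : pi0 K * (Ctop * V) ≤ η / 8 := by
    rw [div_lt_iff₀ hη] at hK1
    have : (K1 : ℝ) * η ≤ ((K : ℝ) + 1) * η :=
      mul_le_mul_of_nonneg_right (by exact_mod_cast (by omega : K1 ≤ K + 1)) hη.le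
    rw [pi0, div_mul_eq_mul_div, one_mul, div_le_iff₀ (by positivity)]
    linarith
  choose δK hδK0 hδK using fun t : I => hKt t K (le_trans
    (Finset.single_le_sum (f := Kt) (fun _ _ => Nat.zero_le _) (Finset.mem_univ t)) (by omega))
  set DK := ∑ t : I, Ct t / δK t
  have hDK : 0 ≤ DK := Finset.sum_nonneg fun t _ => div_nonneg (hCt0 t) (hδK0 t).le
  set W2 := DK / s0 + ((K : ℝ) + 1) * CP + Ctop * V + 1
  have hW2 : 0 < W2 := by positivity
  set εv := η / (16 * W2)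
  have hεv : 0 < εv := by positivity
  obtain ⟨Nv, hNv⟩ := vsync P Bs (nker d (d * d)) hKpos hεv
  obtain ⟨Ns, hNs⟩ := hKs K (by omega) (d * d) (Nat.mul_pos hd0 hd0)
  obtain ⟨Nd, hNd⟩ := eventually_atTop.1 (hCd dd hd hBd lam hlam1)
  have hev := fun t : I => type_count hγ' t.2
    (C := (nker d (d * d) : ℝ) * 2 ^ 2 * (τ * B)) (hδt0 t) (hδK0 t)
  obtain ⟨Nt, hNt⟩ := eventually_atTop.1 (eventually_all.2 hev)
  refine ⟨Nv + Ns + Nd + Nt + 1, fun N hN M hM => ?_⟩
  have hN0 : 0 < N := by omega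
  obtain ⟨Ls, hLs⟩ := hNs N (by omega) M
  refine ⟨Ls, fun L hLL hL J => ?_⟩
  obtain ⟨del, hdel, hdevb⟩ := hNd N (by omega)
  set qr := topAt K (dTot dd) (qTot γ Q)
  set p := respL γ dd K Q
  have hqr : IsPath K qr := topAt_isPath hKpos hγ' hd.1 hQ
  have hp : ∀ j : Fin N, IsPath K (sitePath γ p j) := sitePath_adm hQ
  choose δat hδat0 hδat using fun t : I => hδK t qr p (Q t.1) ((hQb t.1 t.2).mono hBT2) rfl N M hp hM
    (hNt N (by omega) t).1 (hNt N (by omega) t).2.1 (d * d) L J (basicCoeffs d) hL lam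
    (zero_le_one.trans hlam1)
  obtain ⟨δa, hδa, hδale⟩ := exists_pos_le hdel hδat0
  refine ⟨δa, hδa, fun {εa} a hεa => ?_⟩
  set π := penPrior (γ := γ) hτ.le (basicCoeffs d) a hL J
  set Φ : VFac N d K := lineFac γ qr p
  set F : Set (VCIdx N M d (nker d (d * d)) (N + L + J) K → ℝ) := lineC '' Icc (0 : ℝ) 1
  have hFc : IsCompact F := isCompact_Icc.image (continuous_pi fun i => by
    rcases i with (⟨a, u⟩ | u) | ⟨l, ⟨z, a, r⟩ | ⟨z, u, r⟩ | q⟩ <;>
      simp only [lineC, vfldc] <;> fun_prop)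
  have hFs : ∀ fld ∈ F, PertZero fld ∧ VSized π Φ Bs fld := by
    rintro _ ⟨s, hs, rfl⟩
    refine ⟨pertZero_lineC s, lineC_sized hτ.le hB.le (basicCoeffs d) a hL hN0 hM hqr hp ?_
      (fun j => (mabs_sitePath_le (by linarith) hQb j).trans (le_add_of_nonneg_left hts)) hs⟩
    simp only [qr, topAt, if_true]
    exact (mabs_dTot_le dd).trans (le_add_of_nonneg_right (by positivity))
  obtain ⟨n1, hn1, hsync⟩ := hLs L hLL hL J γ (basicCoeffs d) basicCoeffs_spec _ εa a Φ F hFc hFs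
  obtain ⟨n2, hn2, hgg⟩ := hNv N (by omega) M (nker d (d * d)) (N + L + J) le_rfl (by omega) π Φ F
    hFc hFs
  obtain ⟨n3, hlawu⟩ := levFacts_uniform P π Φ (isCompact_vsysSet (s := F) hFc) 1
    (show 0 < εv from hεv)
  refine ⟨n1 + n2 + n3, by omega, fun n hn s hs => ?_⟩
  have hn' : 0 < n := by omega
  have hs' : s ∈ Icc (0 : ℝ) 1 := ⟨hs0.le.trans hs.1, hs.2⟩
  have hfld : (lineC s : VCIdx N M d (nker d (d * d)) (N + L + J) K → ℝ) ∈ F :=
    Set.mem_image_of_mem _ hs'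
  obtain ⟨δs, hδsi, hδs0, hδse, hδs⟩ := hsync n (by omega) _ hfld
  obtain ⟨δv, hδvi, hδv0, hδve, hδv⟩ := hgg n (by omega) _ hfld
  intro π' Φ'
  set δf := fun y => δs y + |Cd| / √lam
  set εf := fun y => δv y + εv
  set low := fun y => -((N : ℝ) * ((∑ t, tfrac γ t * pairing (gridM K) K (p t) (Q t))
    + (Fintype.card I * η1 / s0 + W * δf y + W2 * εf y + pi0 K * (Ctop * V))))
  set F0 := fun y => vmpair (M := M) n P π Φ (vsys (lineC s) y)
    (vkern P (vbpat π Φ) (vbspin π Φ) (vqd π Φ) (vpull (vsys (lineC s) y)) (vpull lineD))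
  have hδfi : Integrable δf (vxlaw (nker d (d * d)) N) := hδsi.add (integrable_const _)
  have hεfi : Integrable εf (vxlaw (nker d (d * d)) N) := hδvi.add (integrable_const _)
  obtain ⟨hlowi, hint⟩ := integral_low hδfi hεfi (N : ℝ)
    (∑ t, tfrac γ t * pairing (gridM K) K (p t) (Q t)) (Fintype.card I * η1 / s0) W W2
    (pi0 K * (Ctop * V))
  have hpt : ∀ᵐ y ∂vxlaw (nker d (d * d)) N, low y ≤ F0 y := by
    filter_upwards [ae_vxlaw_box (nker d (d * d)) N] with y hy
    have κ0 : Fin (nker d (d * d)) :=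
      Fintype.equivFin (Finset (Fin d) × Fin (d * d)) (∅, ⟨0, Nat.mul_pos hd0 hd0⟩)
    obtain ⟨-, -, hq⟩ := hδs y hy
    have hlaw : ∀ l, |levLaw (venv N M d (nker d (d * d)) (N + L + J) K n)
        (vposW P π Φ (vsys (lineC s) y)) (vlev π) l - pi0 K| ≤ εf y := fun l => by
      rw [levLaw_eq_pairLev P π Φ hn']
      exact ((hlawu n (by omega) _ (mem_vsysSet hfld hy)).law l).trans
        (le_add_of_nonneg_left (hδv0 y))
    have hgg' := fun l G hG => ((hδv y hy κ0).2 l 1 G hG).trans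
      (show δv y ≤ εf y from le_add_of_nonneg_right hεv.le)
    have hδle : δs y ≤ δf y := le_add_of_nonneg_right (by positivity)
    have hdev : reavg (venv N M d (nker d (d * d)) (N + L + J) K n)
        (vposW P π Φ (vsys (lineC s) y)) 2
        (fun _ x => ovlDev τ γ dd (penAtom hτ.le (basicCoeffs d) a hL J (x 0).1)) ≤ δf y := by
      have h := hdevb a (hεa.trans hδale.1) (basicCoeffs d) hL Φ (vsys (lineC s) y)
        (vsys_sized π Φ (hFs _ hfld).2 hN0 (by omega) le_rfl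
          fun q => ⟨by linarith [(hy q).1], by linarith [(hy q).2]⟩)
        (fun j => by simp [vsys, vpert, lineC, vfldc]) hn' hM
      rw [vmpair_eq_reavg] at h
      exact h.trans ((div_le_div_of_nonneg_right (le_abs_self _) hsl.le).trans
        (le_add_of_nonneg_left (hδs0 y)))
    have hδf0 : 0 ≤ δf y := (hδs0 y).trans hδle
    have hεf0 : 0 ≤ εf y := add_nonneg (hδv0 y) hεv.le
    have hX : ∀ t : I, -(η1 + Ct t * (δf y / δt t + εf y / δK t))
        ≤ s * reavg (venv N M d (nker d (d * d)) (N + L + J) K n)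
          (vposW P π Φ (vsys (lineC s) y)) 2
          (fun ω x => linX P π γ Φ (vsys (lineC s) y) t.1 (Q t.1) (p t.1) ω.2 (x 0) (x 1)) :=
        fun t => by
      obtain ⟨q, hq1, hq2, hq3, hq4, hq5, hq6⟩ := hq t.1
      have hgov : ∀ x z : VState π K n, gov (penX (γ := γ) hτ.le (basicCoeffs d) a hL J t.1) x.1 z.1
          = rmat π (typS γ N t.1) x z := fun x z => by
        ext k l
        exact gov_typX (γ := γ) (penAtom (γ := γ) hτ.le (basicCoeffs d) a hL J) t.1 x.1 z.1 k l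
      simp only [hgov] at hq5 hq6
      refine hδat t a (hεa.trans (hδale.2 t)) n hn' s hs' y hy ?_ (δf y) (εf y) hδf0 hεf0 hdev hlaw
        hgg' q hq1 hq2 hq3 (fun l => ?_) (hq5.trans hδle) ?_
      · refine (div_le_div_of_nonneg_right (mul_le_mul_of_nonneg_right (pertSize_ePert_le (X := 2) y
          fun q => ?_) (mul_nonneg hτ.le hB.le)) (Nat.cast_nonneg N)).trans
          (le_of_eq_of_le (by ring) (hNt N (by omega) t).2.2)
        exact abs_le.2 ⟨by linarith [(hy q).1], (hy q).2⟩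
      · refine (hq4 l).trans ?_
        have : εs ≤ 1 := min_le_left _ _
        simp only [BT2]
        linarith
      · have h := hq6.add (Matrix.PosSemidef.one.smul (sub_nonneg.2 hδle))
        convert h using 1
        module
    exact der_point_ge (X := fun σ => ovlDev τ γ dd (penAtom hτ.le (basicCoeffs d) a hL J σ))
      P π hN0 hn' hγ' Q (dTot dd) hqr hp
      (fun t x z k l h => rmat_supp (J := J) (S := typS γ N t) hτ.le (basicCoeffs d) a hL
        (fun u hu => (Finset.mem_filter.1 hu).2) x z k l h)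
      (vsys (lineC s) y) hδf0 hεf0 (fun x => mabs_total_le hτ.le (basicCoeffs d) a hL dd x) hdev hlaw
      (pair_abs_le hγ' (by linarith) hQb) (path_symm hγ' hQ) (mabs_top_le hγ' (by linarith) hQb)
      (fun G x z => (pv_bounds P π hN0 hM Φ _ G x z).1)
      (fun G x => (pv_bounds P π hN0 hM Φ _ G x x).2) hs0 hs.1 hη1.le hCt0 hδt0 hδK0 hX
  refine le_trans ?_ (integral_mono_ae hlowi (integrable_der P π Φ hn' (lineC s) lineD) hpt)
  have hI : ∀ (g : (Fin (nker d (d * d)) × Fin N → ℝ) → ℝ) (c e : ℝ),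
      Integrable g (vxlaw (nker d (d * d)) N) → ∫ y, g y ∂vxlaw (nker d (d * d)) N ≤ e →
      ∫ y, (g y + c) ∂vxlaw (nker d (d * d)) N ≤ e + c := fun g c e hg he => by
    rw [integral_add hg (integrable_const _), integral_const, probReal_univ, one_smul]
    exact add_le_add he le_rfl
  have hδint := hI δs (|Cd| / √lam) εs hδsi hδse
  have hεint := hI δv εv εv hδvi hδve
  rw [hint, neg_le_neg_iff]
  refine mul_le_mul_of_nonneg_left (add_le_add le_rfl ?_) (Nat.cast_nonneg N)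
  have i1 : (Fintype.card I : ℝ) * η1 / s0 ≤ η / 8 := by
    have hc : (Fintype.card I : ℝ) / ((Fintype.card I : ℝ) + 1) ≤ 1 :=
      div_le_one_of_le₀ (by linarith) (by positivity)
    have e : (Fintype.card I : ℝ) * η1 / s0
        = (Fintype.card I : ℝ) / ((Fintype.card I : ℝ) + 1) * (η / 8) := by
      simp only [η1]; field_simp
    rw [e]
    exact mul_le_of_le_one_left (by positivity) hc
  have i2 : W * εs ≤ η / 8 := by
    refine (mul_le_mul_of_nonneg_left (min_le_right _ _) hW.le).trans (le_of_eq ?_)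
    field_simp
  have i3 : W2 * (εv + εv) = η / 8 := by
    simp only [εv]; field_simp; ring
  have i4 := mul_le_mul_of_nonneg_left hδint hW.le
  have i5 := mul_le_mul_of_nonneg_left hεint hW2.le
  linarith

end Vale.Agent.P166.Casc
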