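import Vale.Agent.P166.Casc.VUpperType
import Vale.Agent.P166.Casc.VRowMean

/-!
Sizes along the line, the a priori distance of the self-overlaps from the centre, and the derivative
along the line at fixed parameters in terms of the types.
-/

open MeasureTheory ProbabilityTheory Filter Topology Set
open scoped MatrixOrder

namespace Vale.Agent.P166.Casc

open Vale.Agent.P157.Casc Vale.Agent.P166.Pen
open Vale.Agent.P166.Formula (facOf TPath liftM tfrac typD dTot qTot IsPath)

variable {d N M K n nA L J : ℕ} {τ B : ℝ} {γ : Fin d → ℝ}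
  {ν : Measure (Fin d → Fin N → ℝ)} {εa : ℝ}

theorem ae_vxlaw_box (R J : ℕ) : ∀ᵐ y ∂vxlaw R J, ∀ p, y p ∈ Icc (1 : ℝ) 2 := by
  have : IsProbabilityMeasure (volume.restrict (Icc (1 : ℝ) 2)) := ⟨by norm_num⟩
  exact ae_all_iff.2 fun _ =>
    Measure.tendsto_eval_ae_ae.eventually (ae_restrict_mem measurableSet_Icc)

/-- The overlaps of one type of the penalised prior are its overlap statistics. -/
theorem rmat_self_ovl (hτ : 0 ≤ τ) (A : Coeffs d nA) (a : Atoms ν (cutSet B d N) εa) (hL : 0 < L)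
    (t : Finset (Fin d)) (x : VState (penPrior (γ := γ) hτ A a hL J) K n) (k l : Fin d) :
    rmat (penPrior (γ := γ) hτ A a hL J) (typS γ N t) x x k l
      = ovl τ γ (penAtom hτ A a hL J x.1) (t, k, l) := by
  by_cases h : k ∈ t ∧ l ∈ t
  · rw [← cfg_ovl hτ _ t k l h.1 h.2]
    rfl
  · exact (rmat_supp (J := J) (S := typS γ N t) hτ A a hL (fun u hu => (Finset.mem_filter.1 hu).2)
      x x k l (not_and_or.1 h)).trans (by rw [ovl, if_neg h])

/-- The self-overlaps of all types against their targets. -/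
theorem mabs_total_le (hτ : 0 ≤ τ) (A : Coeffs d nA) (a : Atoms ν (cutSet B d N) εa) (hL : 0 < L)
    (dd : OIdx d → ℝ) (x : VState (penPrior (γ := γ) hτ A a hL J) K n) :
    mabs (rmat (penPrior (γ := γ) hτ A a hL J) Finset.univ x x - dTot dd)
      ≤ ovlDev τ γ dd (penAtom hτ A a hL J x.1) := by
  have e : rmat (penPrior (γ := γ) hτ A a hL J) Finset.univ x x = ∑ t, rmat (penPrior (γ := γ) hτ A a hL J) (typS γ N t) x x := by
    ext k l
    simp only [rmat, vov, Matrix.sum_apply, Matrix.of_apply, typS, ← Finset.sum_div]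
    rw [Finset.sum_fiberwise Finset.univ fun j : Fin N => typ γ j]
  have h : ∀ k l, |(rmat (penPrior (γ := γ) hτ A a hL J) Finset.univ x x - dTot dd) k l|
      ≤ ∑ t, |ovl τ γ (penAtom hτ A a hL J x.1) (t, k, l) - dd (t, k, l)| := fun k l => by
    simp only [e, dTot, Matrix.sub_apply, Matrix.sum_apply, Matrix.of_apply, ← Finset.sum_sub_distrib]
    refine (Finset.abs_sum_le_sum_abs _ _).trans_eq (Finset.sum_congr rfl fun t _ => ?_)
    rw [rmat_self_ovl hτ A a hL t x k l]
  simp only [mabs]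
  refine (Finset.sum_le_sum fun k _ => Finset.sum_le_sum fun l _ => h k l).trans_eq ?_
  rw [ovlDev, Fintype.sum_prod_type]
  simp only [Fintype.sum_prod_type]
  conv_lhs => arg 2; ext k; rw [Finset.sum_comm]
  rw [Finset.sum_comm]

/-- A quadratic form against the entrywise norm. -/
theorem sum_quad_le {m : ℕ} (v : Fin m → ℝ) (P : Matrix (Fin m) (Fin m) ℝ) :
    ∑ k, ∑ l, v k * v l * P k l ≤ mabs P * ∑ k, v k ^ 2 := by
  simp only [mabs, Finset.sum_mul]
  refine Finset.sum_le_sum fun k _ => Finset.sum_le_sum fun l _ => ?_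
  refine (le_abs_self _).trans ?_
  rw [abs_mul, mul_comm]
  refine mul_le_mul_of_nonneg_left ?_ (abs_nonneg _)
  have h1 := Finset.single_le_sum (f := fun j => v j ^ 2) (fun _ _ => sq_nonneg _) (Finset.mem_univ k)
  have h2 := Finset.single_le_sum (f := fun j => v j ^ 2) (fun _ _ => sq_nonneg _) (Finset.mem_univ l)
  rw [abs_mul]
  nlinarith [two_mul_le_add_sq (|v k|) (|v l|), sq_abs (v k), sq_abs (v l), abs_nonneg (v k),
    abs_nonneg (v l)]

/-- The variances of the line have sizes of the order of `N`. -/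
theorem lineC_sized (hτ : 0 ≤ τ) (hB : 0 ≤ B) (A : Coeffs d nA) (a : Atoms ν (cutSet B d N) εa)
    (hL : 0 < L) (hN : 0 < N) {a0 C0 : ℝ} (hM : (M : ℝ) ≤ a0 * N)
    {qr : ℕ → Matrix (Fin d) (Fin d) ℝ} {p : TPath d} (hqr : IsPath K qr)
    (hp : ∀ j : Fin N, IsPath K (sitePath γ p j)) (hC0 : mabs (qr K) ≤ C0)
    (hP : ∀ j : Fin N, mabs (sitePath γ p j K) ≤ C0) {s : ℝ} (hs : s ∈ Icc (0 : ℝ) 1) :
    VSized (penPrior (γ := γ) hτ A a hL J) (lineFac γ qr p) ((|a0| + C0) * (τ * B) + |a0| * C0)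
      (lineC s : VCIdx N M d (nker d nA) (N + L + J) K → ℝ) := by
  set π := penPrior (γ := γ) hτ A a hL J
  set Φ : VFac N d K := lineFac γ qr p
  have hN' : (0 : ℝ) < N := Nat.cast_pos.2 hN
  have hC00 : 0 ≤ C0 := (mabs_nonneg _).trans hC0
  have hτB : 0 ≤ τ * B := mul_nonneg hτ hB
  refine ⟨fun i => (lineC_nonneg hs i).1, fun σ => ⟨?_, ?_⟩⟩
  · set x : VState π K 1 := (σ, fun _ => 0)
    have hcut : ∑ k, ∑ j, π.cfg σ j k ^ 2 ≤ τ * (B * N) := sum_cfgOf_sq_le hτ (a.mem _)
    have e : ∀ (i : Fin M) (k : Fin d), ∑ q, vpull (lineC s : VCIdx N M d (nker d nA) (N + L + J)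
        K → ℝ) q * vbpat (n := 1) π Φ i k x q ^ 2
        ≤ (∑ j, π.cfg σ j k ^ 2) / N + |qr K k k| := fun i k => by
      simp only [sq (vbpat _ _ _ _ _ _)]
      rw [cov_vbpat]
      refine add_le_add (div_le_div_of_nonneg_right (Finset.sum_le_sum fun j _ => ?_) hN'.le) ?_
      · simp only [lineC, vfldc, ← sq]
        exact mul_le_of_le_one_left (sq_nonneg _) hs.2
      · rw [com_self]
        refine le_trans (le_of_eq ?_) (((le_abs_self _).trans_eq (abs_mul (1 - s) (qr K k k))).trans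
          (mul_le_of_le_one_left (abs_nonneg _) (abs_le.2 ⟨by linarith [hs.2], by linarith [hs.1]⟩)))
        rw [show qr K k k = qr (Fin.last K).val k k from rfl, ← slot_cum hqr (Fin.last K) k k,
          Finset.mul_sum]
        refine Finset.sum_congr rfl fun l _ => ?_
        rw [Finset.mul_sum]
        refine Finset.sum_congr rfl fun z _ => ?_
        rw [Finset.mul_sum]
        exact Finset.sum_congr rfl fun r _ => by simp [lineC, vfldc, Φ, lineFac]
    refine (Finset.sum_le_sum fun i _ => Finset.sum_le_sum fun k _ => e i k).trans ?_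
    rw [Finset.sum_const, Finset.card_univ, Fintype.card_fin, nsmul_eq_mul,
      Finset.sum_add_distrib, ← Finset.sum_div]
    have h1 : (∑ k, ∑ j, π.cfg σ j k ^ 2) / N ≤ τ * B := by
      rw [div_le_iff₀ hN', mul_assoc]; exact hcut
    have h2 : ∑ k, |qr K k k| ≤ C0 :=
      (Finset.sum_le_sum fun k _ => Finset.single_le_sum (f := fun l => |qr K k l|)
        (fun _ _ => abs_nonneg _) (Finset.mem_univ k)).trans hC0
    refine (mul_le_mul (hM.trans (mul_le_mul_of_nonneg_right (le_abs_self a0) hN'.le))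
      (add_le_add h1 h2) (by positivity) (by positivity)).trans ?_
    have h3 : 0 ≤ C0 * (τ * B) * N := by positivity
    linarith
  · set x : VState π K 1 := (σ, fun _ => 0)
    simp only [sq (vbspin _ _ _ _)]
    rw [cov_vbspin]
    simp only [com_self]
    have hpz : ∀ (l : Fin (K + 1)) u, (lineC s : VCIdx N M d (nker d nA) (N + L + J) K → ℝ)
        (Sum.inr (l, Sum.inr (Sum.inr u))) = 0 := fun l u => rfl
    simp only [hpz, Finset.sum_const_zero, mul_zero, add_zero]
    have e : ∀ j : Fin N, ∑ l ∈ Finset.Iic (Fin.last K), ∑ z : Fin 2, ∑ r,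
        (lineC s : VCIdx N M d (nker d nA) (N + L + J) K → ℝ) (Sum.inr (l, Sum.inr (Sum.inl (z, j, r))))
          * ((∑ k, π.cfg σ j k * Φ.2.1 z j l k r) * ∑ k, π.cfg σ j k * Φ.2.1 z j l k r)
        = (1 - s) * ∑ k, ∑ k', π.cfg σ j k * π.cfg σ j k' * sitePath γ p j K k k' := fun j => by
      have h : ∀ k k', sitePath γ p j K k k' = ∑ l ∈ Finset.Iic (Fin.last K), ∑ z : Fin 2, ∑ r,
          (Φ.2.1 z j l k r * Φ.2.1 z j l k' r) := fun k k' =>
        (slot_cum (hp j) (Fin.last K) k k').symm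
      simp only [h, lineC, vfldc, Finset.sum_mul_sum]
      simp only [Finset.mul_sum]
      conv_rhs => arg 2; ext k; rw [Finset.sum_comm]; arg 2; ext l; rw [Finset.sum_comm]; arg 2; ext z; rw [Finset.sum_comm]
      conv_rhs => rw [Finset.sum_comm]; arg 2; ext l; rw [Finset.sum_comm]; arg 2; ext z; rw [Finset.sum_comm]
      refine Finset.sum_congr rfl fun l _ => Finset.sum_congr rfl fun z _ => Finset.sum_congr rfl
        fun r _ => Finset.sum_congr rfl fun k _ => Finset.sum_congr rfl fun k' _ => ?_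
      ring
    rw [Finset.sum_congr rfl fun l _ => Finset.sum_comm, Finset.sum_comm,
      Finset.sum_congr rfl fun j _ => e j, ← Finset.mul_sum]
    have h1 : ∑ j, ∑ k, ∑ k', π.cfg σ j k * π.cfg σ j k' * sitePath γ p j K k k'
        ≤ C0 * (τ * (B * N)) := by
      refine (Finset.sum_le_sum fun j _ => (sum_quad_le _ _).trans
        (mul_le_mul_of_nonneg_right (hP j) (Finset.sum_nonneg fun k _ => sq_nonneg _))).trans ?_
      rw [← Finset.mul_sum, Finset.sum_comm]
      exact mul_le_mul_of_nonneg_left (sum_cfgOf_sq_le hτ (a.mem _)) hC00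
    refine ((mul_le_mul_of_nonneg_left h1 (sub_nonneg.2 hs.2)).trans
      (mul_le_of_le_one_left (by positivity) (sub_le_self 1 hs.1))).trans ?_
    have h3 : 0 ≤ |a0| * (τ * B) * N := by positivity
    have h4 : 0 ≤ |a0| * C0 * N := by positivity
    linarith

/-- The compensation of the linear field does not depend on the leaf. -/
theorem bz_self_le {R D : ℕ} (π : VPrior N d R D) (Φ : VFac N d K) {Bs : ℝ}
    {c : VCIdx N M d R D K → ℝ} (hc : VSized π Φ Bs c) (x : VState π K n) :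
    ∑ i, vpull c i * vbspin π Φ x i ^ 2 ≤ Bs * N := by
  refine le_of_eq_of_le ?_ (hc.2 x.1).2
  simp only [sq (vbspin _ _ _ _), cov_vbspin, com_self]

/-- The mean distance of the self-overlaps from the centre, at rate one over the square root of the
strength of the penalty, for fields of the order of `N`. -/
theorem line_dev {κ Lc a0 z0 : ℝ} (hτ : 0 < τ) (hγ : ∀ k, 0 < γ k ∧ γ k ≤ 1) (hκ : 0 < κ)
    (P : VPot d) :
    ∃ C : ℝ, ∀ dd, GoodCentre γ κ Lc dd → ((∑ t, ∑ k, dd (t, k, k)) + d) / τ + 2 * d ≤ B →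
      ∀ lam : ℝ, 1 ≤ lam → ∀ᶠ N : ℕ in atTop, ∃ del : ℝ, 0 < del ∧
        ∀ {ε : ℝ} (a : Atoms (spinMeas τ γ B lam dd N) (cutSet B d N) ε), ε ≤ del →
        ∀ {nA L J M K n : ℕ} (A : Coeffs d nA) (hL : 0 < L) (Φ : VFac N d K)
          (c : VCIdx N M d (nker d nA) (N + L + J) K → ℝ),
          VSized (penPrior (γ := γ) hτ.le A a hL J) Φ z0 c → (∀ j, c (Sum.inl (Sum.inr j)) = 0) →
          0 < n → (M : ℝ) ≤ a0 * N →
          vmpair n P (penPrior (γ := γ) hτ.le A a hL J) Φ c
            (fun _ x _ => ovlDev τ γ dd (penAtom hτ.le A a hL J x.1)) ≤ C / √lam := by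
  obtain ⟨C0, hC0⟩ := pen_mass (L := Lc) (B := B) hτ hγ hκ
  refine ⟨(Fintype.card (OIdx d) : ℝ) / 4 + 1 + C0 + 2 * |a0| * |P.bF| + |z0| / 2,
    fun dd hd hB lam hlam => ?_⟩
  filter_upwards [hC0 dd hd hB lam (zero_le_one.trans hlam), eventually_gt_atTop 0] with N hmass hN
  obtain ⟨del, hdel, hmom⟩ := dev_moment (τ := τ) (B := B) γ dd hlam N
  refine ⟨del, hdel, fun {ε} a hε {nA L J M K n} A hL Φ c hc htilt hn hM => ?_⟩
  have hfin : IsFiniteMeasure (spinMeas τ γ B lam dd N) := spinMeas_finite (zero_le_one.trans hlam) dd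
  have hNR : (0 : ℝ) < N := Nat.cast_pos.2 hN
  have hs : 0 < √lam := Real.sqrt_pos.2 (by linarith)
  set π := penPrior (γ := γ) hτ.le A a hL J
  have hq : ∀ x : VState π K n, ∑ i, vpull c i * vqd π Φ x i = 0 := fun x => by
    rw [sum_vqd]; simp [htilt]
  have h := vmpair_dev P π Φ hn hc.1 hq (fun x => bz_self_le π Φ hc x)
    (fun σ => ovlDev τ γ dd (penAtom hτ.le A a hL J σ)) (N * √lam)
  have hfib : ∀ F : Fin a.c → ℝ,
      ∑ σ, π.w σ * F (finProdFinEquiv.symm σ).1 = ∑ s, a.w s * F s := fun F => by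
    show ∑ σ : Fin (a.c * L), _ = _
    rw [← finProdFinEquiv.sum_comp, Fintype.sum_prod_type]
    refine Finset.sum_congr rfl fun s _ => ?_
    simp only [π, penPrior, Equiv.symm_apply_apply, Finset.sum_const, Finset.card_univ,
      Fintype.card_fin, nsmul_eq_mul]
    have : (L : ℝ) ≠ 0 := (Nat.cast_pos.2 hL).ne'
    field_simp
  have e1 : ∑ σ, π.w σ * Real.exp (N * √lam * ovlDev τ γ dd (penAtom hτ.le A a hL J σ))
      = ∑ s, a.w s * Real.exp (N * √lam * ovlDev τ γ dd (a.x s)) :=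
    hfib fun s => Real.exp (N * √lam * ovlDev τ γ dd (a.x s))
  have e2 := hfib fun _ => 1
  simp only [mul_one] at e2
  have : Nonempty (Fin a.c) := ⟨⟨0, a.c_pos⟩⟩
  have p2 : 0 < ∑ s, a.w s * Real.exp (N * √lam * ovlDev τ γ dd (a.x s)) :=
    Finset.sum_pos (fun s _ => mul_pos (a.w_pos s) (Real.exp_pos _)) Finset.univ_nonempty
  rw [e1, e2] at h
  have l1 := Real.log_le_log p2 (hmom a hε)
  rw [Real.log_exp] at l1
  have hsum : ∑ s, a.w s = (spinMeas τ γ B lam dd N).real Set.univ := by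
    simpa using a.repr fun _ => 1
  have l2 := Real.log_le_log (Real.exp_pos _) (hmass.trans_eq hsum.symm)
  rw [Real.log_exp] at l2
  have h5 : (M : ℝ) * P.bF ≤ |a0| * |P.bF| * N := by
    refine (mul_le_mul_of_nonneg_left (le_abs_self _) (Nat.cast_nonneg M)).trans ?_
    have := mul_le_mul_of_nonneg_right (hM.trans (mul_le_mul_of_nonneg_right (le_abs_self a0)
      hNR.le)) (abs_nonneg P.bF)
    linarith
  have h6 := mul_le_mul_of_nonneg_right (le_abs_self z0) hNR.le
  rw [le_div_iff₀ hs]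
  refine le_of_mul_le_mul_left ?_ hNR
  linarith

/-- The top level of the row path. -/
theorem top_term_ge (Q : TPath d) (Dt : Matrix (Fin d) (Fin d) ℝ) (l : Fin (K + 1)) {Ctop V : ℝ}
    (hCtop : mabs (qTot γ Q K - Dt) ≤ Ctop) {W : Matrix (Fin d) (Fin d) ℝ} (hV : mabs W ≤ V) :
    -(Ctop * V * if l = Fin.last K then 1 else 0)
      ≤ minner (qTot γ Q l.val - topAt K Dt (qTot γ Q) l.val) W := by
  by_cases h : l = Fin.last K
  · rw [if_pos h, h, topAt, Fin.val_last, if_pos rfl, mul_one]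
    exact (abs_le.1 ((abs_minner_le _ _).trans (mul_le_mul hCtop hV
      (mabs_nonneg _) ((mabs_nonneg _).trans hCtop)))).1
  · have hne : l.val ≠ K := fun e => h (Fin.ext e)
    rw [if_neg h, topAt, if_neg hne, sub_self, mul_zero, neg_zero]
    simp [minner]

theorem btest_linX {R D : ℕ} (P : VPot d) (π : VPrior N d R D) {Φ : VFac N d K}
    {c : VCIdx N M d R D K → ℝ} (t : Finset (Fin d))
    (Q p : ℕ → Matrix (Fin t.card) (Fin t.card) ℝ) {V : ℝ}
    (hV : ∀ G (x y : VState π K n), mabs (pmat P π Φ c G x y) ≤ V) :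
    BTest (fun (ω : (Node K n → ℝ) × (VGIdx N M d R D K n → ℝ))
      (x : Fin 2 → VState π K n) => linX P π γ Φ c t Q p ω.2 (x 0) (x 1))
      (∑ x : VState π K n, ∑ y : VState π K n, mabs (subM t (rmat π (typS γ N t) x y)
        - tfrac γ t • Q (vlev π x y).val) * (V + mabs (p (vlev π x y).val))) := by
  refine ⟨fun x => ?_, fun ω x => ?_⟩
  · have := fun b w q => (P.cg q).comp' (VItp.cont_vfld (vbpat (M := M) π Φ) (vpull (n := n) c) w b)
    have hcont : Continuous fun G => linX P π γ Φ c t Q p G (x 0) (x 1) := by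
      simp only [linX, minner, subM, Matrix.submatrix_apply, Matrix.sub_apply, pmat,
        Matrix.of_apply, vovP]
      fun_prop
    exact hcont.measurable.comp measurable_snd
  have hV0 : 0 ≤ V := (mabs_nonneg _).trans (hV ω.2 (x 0) (x 1))
  have hnn : ∀ a b : VState π K n, 0 ≤ mabs (subM t (rmat π (typS γ N t) a b)
      - tfrac γ t • Q (vlev π a b).val) * (V + mabs (p (vlev π a b).val)) := fun a b =>
    mul_nonneg (mabs_nonneg _) (add_nonneg hV0 (mabs_nonneg _))
  refine (abs_minner_le _ _).trans ((mul_le_mul_of_nonneg_left ((mabs_sub _ _).trans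
    (add_le_add ((mabs_subM_le t _).trans (hV _ _ _)) le_rfl)) (mabs_nonneg _)).trans ?_)
  exact (Finset.single_le_sum (fun b _ => hnn (x 0) b) (Finset.mem_univ (x 1))).trans
    (Finset.single_le_sum (f := fun a => ∑ b, mabs (subM t (rmat π (typS γ N t) a b)
      - tfrac γ t • Q (vlev π a b).val) * (V + mabs (p (vlev π a b).val)))
      (fun a _ => Finset.sum_nonneg fun b _ => hnn a b) (Finset.mem_univ (x 0)))

section Means

variable {T Ω : Type*} [Fintype T] [MeasurableSpace Ω] [Nonempty T]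
  {μ : Measure Ω} [IsProbabilityMeasure μ] {u : Ω → T → ℝ}
  (hm : ∀ x, Measurable fun ω => u ω x) (hp : ∀ ω x, 0 < u ω x)

include hm hp

/-- A function of the level against its mean over equal weights. -/
theorem reavg_level_le {U : T → T → Fin (K + 1)} {S : Fin (K + 1) → ℝ} {CP εl : ℝ}
    (hS : ∀ l, |S l| ≤ CP) (hεl : 0 ≤ εl) (hlaw : ∀ l, |levLaw μ u U l - pi0 K| ≤ εl) :
    reavg μ u 2 (fun _ x => S (U (x 0) (x 1))) ≤ (∑ l, pi0 K * S l) + ((K : ℝ) + 1) * (εl * CP) := by
  have e : (fun (_ : Ω) (x : Fin 2 → T) => S (U (x 0) (x 1)))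
      = fun _ x => ∑ l, S l * if U (x 0) (x 1) = l then 1 else 0 := by
    funext _ x
    simp
  rw [e, reavg_sum hm hp _ fun l _ => bTest_const (B := |S l|) _ fun x => by split_ifs <;> simp]
  simp only [reavg_smul]
  refine (Finset.sum_le_sum (g := fun l => pi0 K * S l + εl * CP) fun l _ => ?_).trans_eq ?_
  · have h1 : |(levLaw μ u U l - pi0 K) * S l| ≤ εl * CP := by
      rw [abs_mul]; exact mul_le_mul (hlaw l) (hS l) (abs_nonneg _) hεl
    simp only [levLaw] at h1
    linarith [(abs_le.1 h1).2]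
  · simp [Finset.sum_add_distrib]

/-- A lower bound of an observable by a combination of others, in mean. -/
theorem reavg_lower {ι : Type*} [Fintype ι] {f : ι → Ω → (Fin 2 → T) → ℝ} {B : ι → ℝ}
    (hf : ∀ i, BTest (f i) (B i)) (g : (Fin 2 → T) → ℝ) {F : Ω → (Fin 2 → T) → ℝ} {A : ℝ}
    (hF : BTest F A) {c : ℝ} (h : ∀ ω x, c * ((∑ i, f i ω x) + g x) ≤ F ω x) :
    c * ((∑ i, reavg μ u 2 (f i)) + reavg μ u 2 (fun _ x => g x)) ≤ reavg μ u 2 F := by
  obtain ⟨G, hG⟩ : ∃ G, ∀ x, |g x| ≤ G := ⟨∑ x, |g x|, fun x =>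
    Finset.single_le_sum (f := fun x => |g x|) (fun _ _ => abs_nonneg _) (Finset.mem_univ x)⟩
  have b0 : BTest (fun ω x => ∑ i, f i ω x) (∑ i, B i) :=
    ⟨fun x => Finset.measurable_sum _ fun i _ => (hf i).meas x, fun ω x =>
      (Finset.abs_sum_le_sum_abs _ _).trans (Finset.sum_le_sum fun i _ => (hf i).bound ω x)⟩
  have b1 : BTest (fun ω x => (∑ i, f i ω x) + g x) ((∑ i, B i) + G) :=
    ⟨fun x => (b0.meas x).add_const _, fun ω x =>
      (abs_add_le _ _).trans (add_le_add (b0.bound ω x) (hG x))⟩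
  rw [← reavg_sum hm hp _ fun i _ => hf i, ← reavg_add hm hp b0 (bTest_const _ hG), ← reavg_smul]
  exact reavg_mono hm hp (A := |c| * ((∑ i, B i) + G)) ⟨fun x => (b1.meas x).const_mul _,
    fun ω x => (abs_mul _ _).trans_le (mul_le_mul_of_nonneg_left (b1.bound ω x) (abs_nonneg _))⟩
    hF h

end Means

/-- The pairing as a mean over equal weights. -/
theorem pairing_minner {m : ℕ} (p Q : ℕ → Matrix (Fin m) (Fin m) ℝ)
    (hsym : ∀ l ≤ K, (Q l).transpose = Q l) :
    Formula.pairing (Formula.gridM K) K p Q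
      = ∑ l : Fin (K + 1), pi0 K * minner (Q l.val) (p l.val) := by
  rw [Formula.pairing, Formula.cum, Matrix.trace_sum, ← Fin.sum_univ_eq_sum_range
    (fun l => ((Formula.gridM K (l + 1) - Formula.gridM K l) • (p l * Q l)).trace)]
  refine Finset.sum_congr rfl fun l _ => ?_
  have hdm : Formula.gridM K (l.val + 1) - Formula.gridM K l.val = pi0 K := by
    simp only [Formula.gridM, pi0]; push_cast; ring
  rw [Matrix.trace_smul, smul_eq_mul, hdm]
  congr 1
  simp only [Matrix.trace, Matrix.diag, Matrix.mul_apply, minner]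
  refine Finset.sum_congr rfl fun i _ => Finset.sum_congr rfl fun j _ => ?_
  rw [mul_comm]
  congr 1
  exact congrFun (congrFun (hsym l.val (Nat.le_of_lt_succ l.isLt)).symm j) i

section Point

variable {R D : ℕ} (P : VPot d) (π : VPrior N d R D)

/-- The derivative at fixed parameters, from the products of the deviations of the types, the law
of the levels and the distance of the self-overlaps from the centre. -/
theorem line_point_ge (hN : 0 < N) (hn : 0 < n) (Q : TPath d) {p : TPath d}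
    (Dt : Matrix (Fin d) (Fin d) ℝ) (hqr : IsPath K (topAt K Dt (qTot γ Q)))
    (hp : ∀ j : Fin N, IsPath K (sitePath γ p j))
    (hsupp : ∀ t (x y : VState π K n) k l, k ∉ t ∨ l ∉ t → rmat π (typS γ N t) x y k l = 0)
    (c : VCIdx N M d R D K → ℝ) {X : Fin π.c → ℝ} {δ εl CP Ctop V H : ℝ} (hεl : 0 ≤ εl)
    (hX : ∀ x : VState π K n, mabs (rmat π Finset.univ x x - Dt) ≤ X x.1)
    (hdev : reavg (venv N M d R D K n) (vposW P π (lineFac γ (topAt K Dt (qTot γ Q)) p) c) 2
      (fun _ x => X (x 0).1) ≤ δ)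
    (hlaw : ∀ l, |levLaw (venv N M d R D K n)
      (vposW P π (lineFac γ (topAt K Dt (qTot γ Q)) p) c) (vlev π) l - pi0 K| ≤ εl)
    (hCP : ∀ l : Fin (K + 1), ∑ t, tfrac γ t * |minner (Q t l.val) (p t l.val)| ≤ CP)
    (hsym : ∀ t, tfrac γ t ≠ 0 → ∀ l ≤ K, (Q t l).transpose = Q t l)
    (hCtop : mabs (qTot γ Q K - Dt) ≤ Ctop)
    (hV : ∀ G (x y : VState π K n), mabs (pmat P π (lineFac γ (topAt K Dt (qTot γ Q)) p) c G x y) ≤ V)
    (hH : ∀ G (x : VState π K n), mabs (hmat P π (lineFac γ (topAt K Dt (qTot γ Q)) p) c G x) ≤ H) :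
    let Φ : VFac N d K := lineFac γ (topAt K Dt (qTot γ Q)) p
    N * ((∑ t, reavg (venv N M d R D K n) (vposW P π Φ c) 2
        (fun ω x => linX P π γ Φ c t (Q t) (p t) ω.2 (x 0) (x 1)))
      - (∑ t, tfrac γ t * Formula.pairing (Formula.gridM K) K (p t) (Q t))
      - (((K : ℝ) + 1) * (εl * CP) + (pi0 K + εl) * (Ctop * V) + δ * H))
      ≤ vmpair n P π Φ c
          (vkern P (vbpat π Φ) (vbspin π Φ) (vqd π Φ) (vpull c) (vpull lineD)) := by
  intro Φ
  have := vstate_nonempty (K := K) π hn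
  set μ := venv N M d R D K n
  set u := vposW (n := n) P π Φ c
  have hm := measurable_vposW (n := n) P π Φ c
  have hpos := vposW_pos (n := n) P π Φ c
  set U := vlev (K := K) (n := n) π
  have hV0 : 0 ≤ V := (mabs_nonneg _).trans
    (hV 0 (Classical.arbitrary _) (Classical.arbitrary _))
  have hH0 : 0 ≤ H := (mabs_nonneg _).trans (hH 0 (Classical.arbitrary _))
  have hC0 : 0 ≤ Ctop := (mabs_nonneg _).trans hCtop
  set S := fun l : Fin (K + 1) => ∑ t, tfrac γ t * minner (Q t l.val) (p t l.val)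
    + Ctop * V * if l = Fin.last K then 1 else 0
  have hlinX : ∀ t, BTest (fun (ω : (Node K n → ℝ) × (VGIdx N M d R D K n → ℝ))
      (x : Fin 2 → VState π K n) => linX P π γ Φ c t (Q t) (p t) ω.2 (x 0) (x 1))
      (∑ x : VState π K n, ∑ y : VState π K n, mabs (subM t (rmat π (typS γ N t) x y)
        - tfrac γ t • Q t (vlev π x y).val) * (V + mabs (p t (vlev π x y).val))) := fun t =>
    btest_linX P π t (Q t) (p t) hV
  have bker : BTest (fun (ω : (Node K n → ℝ) × (VGIdx N M d R D K n → ℝ))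
      (x : Fin 2 → VState π K n) => vkern P (vbpat π Φ) (vbspin π Φ) (vqd π Φ)
      (vpull c) (vpull lineD) ω.2 (x 0) (x 1))
      (VItp.vgbd P (vbpat (n := n) (M := M) π Φ) (vbspin π Φ) (vqd π Φ) (vpull lineD)) :=
    ⟨fun x => ((continuous_vkern P π Φ _ _ _ _).measurable.comp measurable_snd),
      fun ω x => VItp.abs_vkern_le P (vbpat π Φ) (vbspin π Φ) (vqd π Φ) _ _ _ _ _⟩
  rw [vmpair_eq_reavg]
  refine le_trans ?_ (reavg_lower hm hpos hlinX
    (fun x => (-1) * S (U (x 0) (x 1)) + (-H) * X (x 0).1) bker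
    (c := (N : ℝ)) fun ω x => ?_)
  · refine mul_le_mul_of_nonneg_left ?_ (Nat.cast_nonneg N)
    obtain ⟨A1, hA1⟩ : ∃ A, ∀ x : Fin 2 → VState π K n, |S (U (x 0) (x 1))| ≤ A :=
      ⟨∑ l, |S l|, fun x => Finset.single_le_sum (f := fun l => |S l|) (fun _ _ => abs_nonneg _)
        (Finset.mem_univ _)⟩
    obtain ⟨A2, hA2⟩ : ∃ A, ∀ x : Fin 2 → VState π K n, |X (x 0).1| ≤ A :=
      ⟨∑ σ, |X σ|, fun x => Finset.single_le_sum (f := fun σ => |X σ|) (fun _ _ => abs_nonneg _)
        (Finset.mem_univ _)⟩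
    rw [reavg_add hm hpos (B := A1) (B' := |H| * A2) (bTest_const _ fun x => by simpa using hA1 x)
      (bTest_const _ fun x => by
        rw [abs_mul, abs_neg]; exact mul_le_mul_of_nonneg_left (hA2 x) (abs_nonneg _)),
      reavg_smul, reavg_smul]
    have hl := reavg_level_le (S := fun l => ∑ t, tfrac γ t * minner (Q t l.val) (p t l.val))
      (μ := μ) hm hpos (U := U) (CP := CP) (fun l => ((Finset.abs_sum_le_sum_abs _ _).trans
        (Finset.sum_le_sum fun t _ => by
          rw [abs_mul, abs_of_nonneg (Formula.tfrac_nonneg γ t)])).trans (hCP l)) hεl hlaw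
    have hpair : ∑ l : Fin (K + 1), pi0 K * ∑ t, tfrac γ t * minner (Q t l.val) (p t l.val)
        = ∑ t, tfrac γ t * Formula.pairing (Formula.gridM K) K (p t) (Q t) := by
      simp only [Finset.mul_sum]
      rw [Finset.sum_comm]
      refine Finset.sum_congr rfl fun t _ => ?_
      by_cases h0 : tfrac γ t = 0
      · simp [h0]
      rw [pairing_minner (p t) (Q t) (hsym t h0), Finset.mul_sum]
      exact Finset.sum_congr rfl fun l _ => by ring
    have htop : levLaw μ u U (Fin.last K) ≤ pi0 K + εl := by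
      linarith [(abs_le.1 (hlaw (Fin.last K))).2]
    have hS : reavg μ u 2 (fun _ x => S (U (x 0) (x 1)))
        = reavg μ u 2 (fun _ x => ∑ t, tfrac γ t
            * minner (Q t (U (x 0) (x 1)).val) (p t (U (x 0) (x 1)).val))
          + Ctop * V * levLaw μ u U (Fin.last K) := by
      obtain ⟨A3, hA3⟩ : ∃ A, ∀ x : Fin 2 → VState π K n, |∑ t, tfrac γ t
          * minner (Q t (U (x 0) (x 1)).val) (p t (U (x 0) (x 1)).val)| ≤ A :=
        ⟨∑ l : Fin (K + 1), |∑ t, tfrac γ t * minner (Q t l.val) (p t l.val)|, fun x =>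
          Finset.single_le_sum (f := fun l : Fin (K + 1) =>
            |∑ t, tfrac γ t * minner (Q t l.val) (p t l.val)|) (fun _ _ => abs_nonneg _)
            (Finset.mem_univ (U (x 0) (x 1)))⟩
      rw [levLaw, ← reavg_smul, ← reavg_add hm hpos (bTest_const _ hA3)
        (bTest_const (B := Ctop * V) _ fun x => by
          split_ifs <;> simp [abs_of_nonneg hC0, abs_of_nonneg hV0, mul_nonneg hC0 hV0])]
    rw [hS]
    have h4 := mul_le_mul_of_nonneg_left htop (mul_nonneg hC0 hV0)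
    have h5 := mul_le_mul_of_nonneg_left hdev hH0
    linarith
  · rw [vkern_lineD_types P π hN Q Dt hqr hp hsupp c ω.2 (x 0) (x 1)]
    refine mul_le_mul_of_nonneg_left ?_ (Nat.cast_nonneg N)
    have h1 : -(Ctop * V * if U (x 0) (x 1) = Fin.last K then 1 else 0)
        ≤ minner (qTot γ Q (U (x 0) (x 1)).val - topAt K Dt (qTot γ Q) (U (x 0) (x 1)).val)
          (pmat P π Φ c ω.2 (x 0) (x 1)) :=
      top_term_ge Q Dt (U (x 0) (x 1)) hCtop (hV _ _ _)
    have h2 : minner (rmat π Finset.univ (x 0) (x 0) - Dt) (hmat P π Φ c ω.2 (x 0))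
        ≤ H * X (x 0).1 :=
      (le_abs_self _).trans ((abs_minner_le _ _).trans ((mul_le_mul (hX _) (hH _ _) (mabs_nonneg _)
        ((mabs_nonneg _).trans (hX _))).trans_eq (mul_comm _ _)))
    simp only [S, U] at h1 ⊢
    linarith

end Point

end Vale.Agent.P166.Casc
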