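import Vale.Agent.P166.Casc.VLine

/-!
The mean product of the two deviations of one type along the line: split over the levels and
bounded below by the approximate monotonicity of the response.
-/

open MeasureTheory ProbabilityTheory Filter Topology

namespace Vale.Agent.P166.Casc

open Vale.Agent.P157.Casc

section Levels

variable {T Ω : Type*} [Fintype T] [MeasurableSpace Ω] [Nonempty T] {m K : ℕ}
  {μ : Measure Ω} [IsProbabilityMeasure μ] {u : Ω → T → ℝ}
  (hm : ∀ x, Measurable fun ω => u ω x) (hp : ∀ ω x, 0 < u ω x)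

include hm hp

/-- A fixed matrix comes out of an expected product. -/
theorem reavg_minner {k : ℕ} (A : Matrix (Fin m) (Fin m) ℝ)
    {F : Ω → (Fin k → T) → Matrix (Fin m) (Fin m) ℝ} {B : ℝ} (hF : MTest F B) :
    reavg μ u k (fun ω x => minner A (F ω x)) = minner A (mexp μ u k F) := by
  have hb : ∀ i j, BTest (fun ω x => A i j * F ω x i j) (|A i j| * B) := fun i j =>
    ⟨fun x => (hF.meas x i j).const_mul _, fun ω x => (abs_mul _ _).trans_le
      (mul_le_mul_of_nonneg_left ((hF.entry i j).bound ω x) (abs_nonneg _))⟩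
  have hs : ∀ i, BTest (fun ω x => ∑ j, A i j * F ω x i j) (∑ j, |A i j| * B) := fun i =>
    ⟨fun x => Finset.measurable_sum _ fun j _ => (hb i j).meas x, fun ω x =>
      (Finset.abs_sum_le_sum_abs _ _).trans (Finset.sum_le_sum fun j _ => (hb i j).bound ω x)⟩
  simp only [minner]
  rw [reavg_sum hm hp _ fun i _ => hs i]
  refine Finset.sum_congr rfl fun i _ => ?_
  rw [reavg_sum hm hp _ fun j _ => hb i j]
  exact Finset.sum_congr rfl fun j _ => reavg_smul _ _

/-- The expected product of two deviations against the mean covariances of the levels. -/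
theorem lev_split {B δ εl : ℝ} (hB : 0 ≤ B) (U : T → T → Fin (K + 1))
    (R : T → T → Matrix (Fin m) (Fin m) ℝ) (C : Ω → T → T → Matrix (Fin m) (Fin m) ℝ)
    (A q p : Fin (K + 1) → Matrix (Fin m) (Fin m) ℝ)
    (hC : ∀ x y k l, Measurable fun ω => C ω x y k l) (hCb : ∀ ω x y, mabs (C ω x y) ≤ B)
    (hRb : ∀ x y, mabs (R x y) ≤ B) (hA : ∀ l, mabs (A l) ≤ B) (hq : ∀ l, mabs (q l) ≤ B)
    (hpb : ∀ l, mabs (p l) ≤ B)
    (hsync : reavg μ u 2 (fun _ x => mabs (R (x 0) (x 1) - q (U (x 0) (x 1)))) ≤ δ)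
    (hlaw : ∀ l, |levLaw μ u U l - pi0 K| ≤ εl) :
    |reavg μ u 2 (fun ω x => minner (R (x 0) (x 1) - A (U (x 0) (x 1)))
          (C ω (x 0) (x 1) - p (U (x 0) (x 1))))
        - ∑ l, pi0 K * minner (q l - A l) (levMean μ u U C l - p l)|
      ≤ 2 * B * δ + ((K : ℝ) + 1) * (εl * (2 * B ^ 2)) := by
  set D := fun ω (x : Fin 2 → T) => C ω (x 0) (x 1) - p (U (x 0) (x 1))
  have hD : MTest D (2 * B) := ⟨fun x k l => (hC _ _ k l).sub_const _, fun ω x =>
    (mabs_sub _ _).trans (by linarith [hCb ω (x 0) (x 1), hpb (U (x 0) (x 1))])⟩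
  set e := fun ω (x : Fin 2 → T) => minner (R (x 0) (x 1) - q (U (x 0) (x 1))) (D ω x)
  set g := fun l ω (x : Fin 2 → T) =>
    minner (q l - A l) (if U (x 0) (x 1) = l then D ω x else 0)
  have hmeas : ∀ (M : Matrix (Fin m) (Fin m) ℝ) (x : Fin 2 → T),
      Measurable fun ω => minner M (D ω x) := fun M x =>
    Finset.measurable_sum _ fun i _ => Finset.measurable_sum _ fun j _ => (hD.meas x i j).const_mul _
  have he : BTest e (2 * B * (2 * B)) := ⟨fun x => hmeas _ x, fun ω x =>
    (abs_minner_le _ _).trans (mul_le_mul ((mabs_sub _ _).trans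
      (by linarith [hRb (x 0) (x 1), hq (U (x 0) (x 1))])) (hD.bound ω x) (mabs_nonneg _)
      (by linarith))⟩
  have hite : ∀ l, MTest (fun ω x => if U (x 0) (x 1) = l then D ω x else 0) (2 * B) := fun l =>
    hD.ite fun x => U (x 0) (x 1) = l
  have hg : ∀ l, BTest (g l) (2 * B * (2 * B)) := fun l =>
    ⟨fun x => Finset.measurable_sum _ fun i _ => Finset.measurable_sum _ fun j _ =>
      ((hite l).meas x i j).const_mul _, fun ω x => (abs_minner_le _ _).trans
      (mul_le_mul ((mabs_sub _ _).trans (by linarith [hA l, hq l])) ((hite l).bound ω x)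
        (mabs_nonneg _) (by linarith))⟩
  have hsum : BTest (fun ω x => ∑ l, g l ω x) (∑ _l : Fin (K + 1), 2 * B * (2 * B)) :=
    ⟨fun x => Finset.measurable_sum _ fun l _ => (hg l).meas x, fun ω x =>
      (Finset.abs_sum_le_sum_abs _ _).trans (Finset.sum_le_sum fun l _ => (hg l).bound ω x)⟩
  have hdec : (fun ω (x : Fin 2 → T) => minner (R (x 0) (x 1) - A (U (x 0) (x 1))) (D ω x))
      = fun ω x => e ω x + ∑ l, g l ω x := by
    funext ω x
    have h : ∀ l, g l ω x = if U (x 0) (x 1) = l then minner (q l - A l) (D ω x) else 0 := fun l => by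
      simp only [g]
      split_ifs
      · rfl
      · simp [minner]
    simp only [e, h, Finset.sum_ite_eq, Finset.mem_univ, if_true, minner_sub]
    ring
  rw [hdec, reavg_add hm hp he hsum, reavg_sum hm hp _ fun l _ => hg l, add_sub_assoc,
    ← Finset.sum_sub_distrib]
  refine (abs_add_le _ _).trans (add_le_add ?_ ?_)
  · have hb : BTest (fun (_ : Ω) (x : Fin 2 → T) =>
        2 * B * mabs (R (x 0) (x 1) - q (U (x 0) (x 1)))) (2 * B * (2 * B)) :=
      bTest_const _ fun x => by
        rw [abs_of_nonneg (mul_nonneg (by linarith) (mabs_nonneg _))]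
        exact mul_le_mul_of_nonneg_left ((mabs_sub _ _).trans
          (by linarith [hRb (x 0) (x 1), hq (U (x 0) (x 1))])) (by linarith)
    have hb' : BTest (fun ω (x : Fin 2 → T) => -1 * e ω x) (2 * B * (2 * B)) :=
      ⟨fun x => (he.meas x).const_mul _, fun ω x => by simpa using he.bound ω x⟩
    have hpt : ∀ ω (x : Fin 2 → T),
        |e ω x| ≤ 2 * B * mabs (R (x 0) (x 1) - q (U (x 0) (x 1))) := fun ω x =>
      (abs_minner_le _ _).trans ((mul_le_mul_of_nonneg_left (hD.bound ω x) (mabs_nonneg _)).trans_eq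
        (mul_comm _ _))
    have h1 := reavg_mono (μ := μ) hm hp he hb fun ω x => (le_abs_self _).trans (hpt ω x)
    have h2 := reavg_mono (μ := μ) hm hp hb' hb fun ω x => by
      linarith [neg_abs_le (e ω x), hpt ω x]
    rw [reavg_smul] at h1 h2
    rw [reavg_smul] at h2
    have := mul_le_mul_of_nonneg_left hsync (show (0 : ℝ) ≤ 2 * B by linarith)
    exact abs_le.2 ⟨by linarith, by linarith⟩
  refine (Finset.abs_sum_le_sum_abs _ _).trans ((Finset.sum_le_sum
    (g := fun _ => εl * (2 * B ^ 2)) fun l _ => ?_).trans_eq (by simp))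
  simp only [g]
  rw [reavg_minner hm hp _ (hite l)]
  have hC' : MTest (fun ω (x : Fin 2 → T) => if U (x 0) (x 1) = l then C ω (x 0) (x 1) else 0) B :=
    (MTest.mk (F := fun ω (x : Fin 2 → T) => C ω (x 0) (x 1)) (fun x => hC _ _)
      fun ω x => hCb _ _ _).ite fun x => U (x 0) (x 1) = l
  have hp' : MTest (fun (_ : Ω) (x : Fin 2 → T) => if U (x 0) (x 1) = l then p l else 0) B :=
    mtest_const fun x => by split_ifs <;> simp [hpb l, hB]
  have hsplit : (fun ω (x : Fin 2 → T) => if U (x 0) (x 1) = l then D ω x else 0)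
      = fun ω x => (if U (x 0) (x 1) = l then C ω (x 0) (x 1) else 0)
          - if U (x 0) (x 1) = l then p l else 0 := by
    funext ω x
    simp only [D]
    split_ifs with h <;> simp [h]
  have hpl : mexp μ u 2 (fun (_ : Ω) (x : Fin 2 → T) => if U (x 0) (x 1) = l then p l else 0)
      = levLaw μ u U l • p l := by
    ext i j
    simp only [mexp, Matrix.of_apply, Matrix.smul_apply, smul_eq_mul, levLaw]
    rw [mul_comm, ← reavg_smul]
    congr 1
    funext ω x
    split_ifs <;> simp
  have hπ : 0 < pi0 K := by rw [pi0]; positivity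
  rw [hsplit, mexp_sub hm hp hC' hp', hpl]
  set E := mexp μ u 2 fun ω (x : Fin 2 → T) => if U (x 0) (x 1) = l then C ω (x 0) (x 1) else 0
  have hE : levMean μ u U C l = (pi0 K)⁻¹ • E := rfl
  rw [hE, minner_sub_right, minner_sub_right, minner_smul_right, minner_smul_right]
  have e2 : minner (q l - A l) E - levLaw μ u U l * minner (q l - A l) (p l)
      - pi0 K * ((pi0 K)⁻¹ * minner (q l - A l) E - minner (q l - A l) (p l))
      = (pi0 K - levLaw μ u U l) * minner (q l - A l) (p l) := by
    field_simp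
    ring
  rw [e2, abs_mul, abs_sub_comm]
  refine mul_le_mul (hlaw l) ?_ (abs_nonneg _) ((abs_nonneg _).trans (hlaw l))
  refine (abs_minner_le _ _).trans ((mul_le_mul ((mabs_sub _ _).trans (add_le_add (hq l) (hA l)))
    (hpb l) (mabs_nonneg _) (by linarith)).trans_eq (by ring))

end Levels

section Response

variable {m K : ℕ}

theorem bestPath_congr {μ ν : ℕ → ℝ} (h : ∀ l, l ≤ K + 1 → μ l = ν l)
    (D : Matrix (Fin m) (Fin m) ℝ) (q : ℕ → Matrix (Fin m) (Fin m) ℝ) {l : ℕ} (hl : l ≤ K) :
    Formula.bestPath μ K D q l = Formula.bestPath ν K D q l := by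
  have ht : ∀ j, j ≤ K → Formula.tT μ K D q j = Formula.tT ν K D q j := fun j hj => by
    simp only [Formula.tT, Formula.tail, h (j + 1) (by omega)]
    congr 2
    refine Finset.sum_congr rfl fun i hi => ?_
    have := (Finset.mem_Ioc.1 hi).2
    rw [h (i + 1) (by omega), h i (by omega)]
  simp only [Formula.bestPath, ht 0 (Nat.zero_le K)]
  congr 1
  refine Finset.sum_congr rfl fun j hj => ?_
  have := Finset.mem_range.1 hj
  rw [h (j + 1) (by omega), ht (j + 1) (by omega), ht j (by omega)]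

theorem ulev_eq_gridM {l : ℕ} (hl : l ≤ K + 1) : ulev K l = Formula.gridM K l := by
  rw [ulev, Formula.gridM, Nat.min_eq_left hl]

/-- The level mean of the product of the deviations is a difference of pairings. -/
theorem sum_minner_pairing (q A w p : ℕ → Matrix (Fin m) (Fin m) ℝ)
    (hq : ∀ l, l ≤ K → (q l).transpose = q l) (hA : ∀ l, l ≤ K → (A l).transpose = A l) :
    ∑ l : Fin (K + 1), pi0 K * minner (q l.val - A l.val) (w l.val - p l.val)
      = Formula.pairing (ulev K) K w q - Formula.pairing (ulev K) K w A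
        - Formula.pairing (ulev K) K p q + Formula.pairing (ulev K) K p A := by
  have h : ∀ (x y : ℕ → Matrix (Fin m) (Fin m) ℝ), (∀ l, l ≤ K → (y l).transpose = y l) →
      Formula.pairing (ulev K) K x y = ∑ l : Fin (K + 1), pi0 K * minner (y l.val) (x l.val) := by
    intro x y hy
    rw [Formula.pairing, Formula.cum, Matrix.trace_sum,
      ← Fin.sum_univ_eq_sum_range (fun l => ((ulev K (l + 1) - ulev K l) • (x l * y l)).trace)]
    refine Finset.sum_congr rfl fun l _ => ?_
    rw [Matrix.trace_smul, smul_eq_mul, show ulev K (l.val + 1) - ulev K l.val = pi0 K from dmOf_ulev K l]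
    congr 1
    simp only [Matrix.trace, Matrix.diag, Matrix.mul_apply, minner]
    refine Finset.sum_congr rfl fun i _ => Finset.sum_congr rfl fun j _ => ?_
    rw [mul_comm]
    congr 1
    exact congrFun (congrFun (hy l.val (Nat.le_of_lt_succ l.isLt)).symm j) i
  rw [h w q hq, h w A hA, h p q hq, h p A hA, ← Finset.sum_sub_distrib, ← Finset.sum_sub_distrib,
    ← Finset.sum_add_distrib]
  refine Finset.sum_congr rfl fun l _ => ?_
  simp only [minner_sub, minner_sub_right]
  ring

/-- Approximately stationary levels and a fixed path with its response: the mean product of the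
deviations is nearly nonnegative. -/
theorem response_mono {τm δ ε B av a : ℝ} (hτm : τm ≤ 1) (hπτ : pi0 K < τm) (hB : 1 ≤ B)
    (hav : 0 < av) {D : Matrix (Fin m) (Fin m) ℝ} (hD : D.det ≠ 0)
    (hDi : mabs D⁻¹ ≤ B) {w q : Fin (K + 1) → Matrix (Fin m) (Fin m) ℝ}
    (hw : ∀ l, mabs (w l) ≤ B) (hqb : ∀ l, mabs (av⁻¹ • q l) ≤ B)
    (hqs : ∀ l, (q l).transpose = q l) (hq0 : (q 0).PosSemidef)
    (hqstep : ∀ l : Fin K, (q l.succ - q l.castSucc).PosSemidef)
    (hL : mabs (sdL (ulev K) av (av • D) w q) ≤ B)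
    (hres : Formula.lmean (ulev K) K (Formula.resid (ulev K) K (sdL (ulev K) av (av • D) w q) D
      (extPath w) (extPath fun j => av⁻¹ • q j)) ≤ δ)
    (hδ : δ + δ / (τm - pi0 K) ≤ 1 / 2)
    (hup : (D - av⁻¹ • q (Fin.last K) + ε • (1 : Matrix (Fin m) (Fin m) ℝ)).PosSemidef)
    (hε : ε < 1 / (6 * B)) {Q : ℕ → Matrix (Fin m) (Fin m) ℝ} (hQ : Formula.IsPath K Q)
    (hQD : (D - Q K).PosDef) (hQB : ∀ l, l ≤ K → mabs (Q l) ≤ B)
    (hPB : ∀ l, l ≤ K → mabs (Formula.bestPath (Formula.gridM K) K D Q l) ≤ B) :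
    -(av * (Formula.monoC m B * (δ + τm)) + |av - a| * (2 * B ^ 2))
      ≤ ∑ l : Fin (K + 1), pi0 K * minner (q l - a • Q l.val)
          (w l - Formula.bestPath (Formula.gridM K) K D Q l.val) := by
  set qh : Fin (K + 1) → Matrix (Fin m) (Fin m) ℝ := fun j => av⁻¹ • q j with hqh
  have hlev := levels_ulev K
  have hdm : ∀ l, l ≤ K → Formula.dmAt (ulev K) l ≤ pi0 K := fun l hl =>
    le_of_eq (dmOf_ulev K ⟨l, Nat.lt_succ_of_le hl⟩)
  have hext : ∀ (x : Fin (K + 1) → Matrix (Fin m) (Fin m) ℝ) (l : ℕ) (hl : l ≤ K),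
      extPath x l = x ⟨l, Nat.lt_succ_of_le hl⟩ := fun x l hl =>
    extPath_val x ⟨l, Nat.lt_succ_of_le hl⟩
  have hbest : ∀ l, l ≤ K → Formula.bestPath (ulev K) K D Q l
      = Formula.bestPath (Formula.gridM K) K D Q l := fun l hl =>
    bestPath_congr (fun j hj => ulev_eq_gridM hj) D Q hl
  have hqp : Formula.IsPath K (extPath qh) := by
    refine ⟨?_, fun l hl => ?_⟩
    · rw [hext qh 0 (Nat.zero_le K)]
      exact (hq0 : (q ⟨0, _⟩).PosSemidef).smul (inv_nonneg.2 hav.le)
    · rw [hext qh (l + 1) hl, hext qh l hl.le]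
      simp only [hqh, ← smul_sub]
      exact (hqstep ⟨l, hl⟩).smul (inv_nonneg.2 hav.le)
  have hLd : sdL (ulev K) av (av • D) w q * D
      + Formula.cum (ulev K) (extPath w) (extPath qh) (K + 1) = 1 := by
    have hdet : (av • D).det ≠ 0 := by
      rw [Matrix.det_smul]; exact mul_ne_zero (pow_ne_zero _ hav.ne') hD
    have h := diag_sdL (m := ulev K) hav.ne' hdet w q
    rwa [inv_smul_smul₀ hav.ne'] at h
  have hup' : (D - extPath qh K + ε • (1 : Matrix (Fin m) (Fin m) ℝ)).PosSemidef := by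
    rw [hext qh K le_rfl]
    exact hup
  have hmono := Formula.monotone_approx hlev hdm hτm hπτ hB hD hDi hL hLd hres hδ
    (fun l hl => by rw [hext w l hl]; exact hw _) hqp
    (fun l hl => by rw [hext qh l hl]; exact hqb _) hup' hε hQ hQD hQB
    (fun l hl => by rw [hbest l hl]; exact hPB l hl)
  have hQs : ∀ l, l ≤ K → (Q l).transpose = Q l := fun l hl => by
    have h := (Formula.IsPath.psd hQ hl).isHermitian.eq
    rwa [Matrix.conjTranspose_eq_transpose_of_trivial] at h
  have hqhs : ∀ l, l ≤ K → (extPath qh l).transpose = extPath qh l := fun l hl => by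
    rw [hext qh l hl, hqh, Matrix.transpose_smul, hqs]
  rw [← sum_minner_pairing _ _ _ _ hqhs hQs] at hmono
  set S0 := ∑ l : Fin (K + 1), pi0 K * minner (qh l - Q l.val)
    (w l - Formula.bestPath (Formula.gridM K) K D Q l.val)
  set S1 := ∑ l : Fin (K + 1), pi0 K * minner (Q l.val)
    (w l - Formula.bestPath (Formula.gridM K) K D Q l.val)
  have hS0 : -(Formula.monoC m B * (δ + τm)) ≤ S0 := hmono.trans_eq
    (Finset.sum_congr rfl fun l _ => by
      rw [extPath_val, extPath_val, hbest l.val (Nat.le_of_lt_succ l.isLt)])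
  have hS1 : |S1| ≤ 2 * B ^ 2 := by
    refine (Finset.abs_sum_le_sum_abs _ _).trans ((Finset.sum_le_sum
      (g := fun _ => pi0 K * (2 * B ^ 2)) fun l _ => ?_).trans_eq ?_)
    · have hl : l.val ≤ K := Nat.le_of_lt_succ l.isLt
      have hπ : 0 < pi0 K := by rw [pi0]; positivity
      rw [abs_mul, abs_of_pos hπ]
      exact mul_le_mul_of_nonneg_left ((abs_minner_le _ _).trans ((mul_le_mul (hQB _ hl)
        ((mabs_sub _ _).trans (add_le_add (hw l) (hPB _ hl))) (mabs_nonneg _)
        (by linarith)).trans_eq (by ring))) hπ.le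
    · simp [pi0]
      field_simp
  have e : ∑ l : Fin (K + 1), pi0 K * minner (q l - a • Q l.val)
      (w l - Formula.bestPath (Formula.gridM K) K D Q l.val) = av * S0 + (av - a) * S1 := by
    simp only [S0, S1, Finset.mul_sum, ← Finset.sum_add_distrib]
    refine Finset.sum_congr rfl fun l _ => ?_
    simp only [hqh, minner_sub, minner_smul]
    field_simp
    ring
  rw [e]
  have h1 := mul_le_mul_of_nonneg_left hS0 hav.le
  have h2 : |(av - a) * S1| ≤ |av - a| * (2 * B ^ 2) := by
    rw [abs_mul]; exact mul_le_mul_of_nonneg_left hS1 (abs_nonneg _)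
  linarith [(abs_le.1 h2).1]

end Response

end Vale.Agent.P166.Casc
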