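import Vale.Agent.P166.Casc.VUpperLine

/-!
The paths of the line built from an admissible family: the row path, the responses at the sites,
their sizes, and the integrability of the derivative in the parameters.
-/

open MeasureTheory ProbabilityTheory Filter Topology Set
open scoped MatrixOrder

namespace Vale.Agent.P166.Casc

open Vale.Agent.P157.Casc Vale.Agent.P166.Pen
open Vale.Agent.P166.Formula (TPath liftM tfrac typD dTot qTot IsPath bestPath gridM)

variable {d K : ℕ} {γ : Fin d → ℝ} {dd : OIdx d → ℝ}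

/-- The responses of the types to a family of paths. -/
noncomputable def respL (γ : Fin d → ℝ) (dd : OIdx d → ℝ) (K : ℕ) (Q : TPath d) : TPath d :=
  fun t => bestPath (gridM K) K (typD γ dd t) (Q t)

theorem liftM_empty (X : Matrix (Fin (∅ : Finset (Fin d)).card) (Fin (∅ : Finset (Fin d)).card) ℝ) :
    liftM ∅ X = 0 := by
  have : X = 0 := Matrix.ext fun b => absurd b.isLt (by simp)
  rw [this, Formula.liftM_zero]

theorem linX_not_occupied {N M R D n : ℕ} (P : VPot d) (π : VPrior N d R D) (Φ : VFac N d K)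
    (c : VCIdx N M d R D K → ℝ) (hγ : ∀ k, 0 < γ k ∧ γ k ≤ 1) {t : Finset (Fin d)}
    (ht : ¬Occupied γ t) (q p : ℕ → Matrix (Fin t.card) (Fin t.card) ℝ)
    (G : VGIdx N M d R D K n → ℝ) (x y : VState π K n) :
    linX P π γ Φ c t q p G x y = 0 := by
  rcases t.eq_empty_or_nonempty with rfl | hne
  · rw [linX, minner]
    exact Finset.sum_eq_zero fun b _ => absurd b.isLt (by simp)
  · have hS : typS γ N t = ∅ := by
      refine Finset.filter_eq_empty_iff.2 fun j _ hj => ?_
      rcases typ_nonocc γ j with h | h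
      · exact hne.ne_empty (hj.symm.trans h)
      · exact ht (hj ▸ h)
    have h0 : subM t (rmat π (typS γ N t) x y) = 0 := by
      ext b b'
      simp [subM, rmat, vov, hS]
    simp [linX, Formula.tfrac_eq_zero hγ hne ht, h0, minner]

theorem respP_isPath {Q : TPath d} (hQ : Formula.Adm γ dd K Q) {t : Finset (Fin d)} (ht : Occupied γ t) :
    IsPath K (respL γ dd K Q t) :=
  Formula.bestPath_isPath (Formula.gridM_levels K) (hQ.path t ht) (hQ.top t ht)

theorem sitePath_adm {N : ℕ} {Q : TPath d} (hQ : Formula.Adm γ dd K Q) (j : Fin N) :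
    IsPath K (sitePath γ (respL γ dd K Q) j) := by
  rcases typ_nonocc γ j with h | h
  · have e : ∀ t, t = ∅ → ∀ l, liftM t (respL γ dd K Q t l) = 0 := fun t ht l => by
      subst ht; exact liftM_empty _
    refine ⟨?_, fun l _ => ?_⟩
    · rw [sitePath, e _ h]; exact Matrix.PosSemidef.zero
    · rw [sitePath, sitePath, e _ h, e _ h, sub_zero]; exact Matrix.PosSemidef.zero
  · refine ⟨Formula.liftM_psd (respP_isPath hQ h).nonneg, fun l hl => ?_⟩
    simp only [sitePath, ← Formula.liftM_sub]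
    exact Formula.liftM_psd ((respP_isPath hQ h).step l hl)

theorem topAt_isPath (hK : 0 < K) (hγ : ∀ k, 0 < γ k ∧ γ k ≤ 1) (hd : Clean γ dd) {Q : TPath d}
    (hQ : Formula.Adm γ dd K Q) : IsPath K (topAt K (dTot dd) (qTot γ Q)) := by
  have hq := Formula.qTot_isPath (r := K) hγ hQ.path
  refine ⟨?_, fun l hl => ?_⟩
  · rw [topAt, if_neg hK.ne]; exact hq.nonneg
  · rw [topAt, topAt, if_neg hl.ne]
    split_ifs with h
    · have h1 := (Formula.qTot_top hγ hd hQ).add (hq.step l hl)
      rw [h] at h1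
      rwa [sub_add_sub_cancel] at h1
    · exact hq.step l hl

/-- Sizes of one type may be enlarged. -/
theorem TypeBd.mono {t : Finset (Fin d)} {Q : ℕ → Matrix (Fin t.card) (Fin t.card) ℝ} {BT BT' : ℝ}
    (h : TypeBd γ dd t K Q BT) (hle : BT ≤ BT') : TypeBd γ dd t K Q BT' :=
  ⟨h.path, h.top, h.det, h.cen.trans hle, h.inv.trans hle, fun l hl => (h.bd l hl).trans hle,
    fun l hl => (h.resp l hl).trans hle⟩

/-- The total size of a table. -/
noncomputable def tblSum (dd : OIdx d → ℝ) : ℝ := ∑ i, |dd i|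

theorem tblSum_nonneg (dd : OIdx d → ℝ) : 0 ≤ tblSum dd :=
  Finset.sum_nonneg fun _ _ => abs_nonneg _

theorem mabs_dTot_le (dd : OIdx d → ℝ) : mabs (dTot dd) ≤ tblSum dd := by
  simp only [mabs, dTot, Matrix.of_apply, tblSum, Fintype.sum_prod_type]
  refine (Finset.sum_le_sum fun k _ => Finset.sum_le_sum fun l _ =>
    Finset.abs_sum_le_sum_abs _ _).trans_eq ?_
  conv_lhs => arg 2; ext k; rw [Finset.sum_comm]
  rw [Finset.sum_comm]

variable {BT : ℝ}

theorem mabs_sitePath_le {N : ℕ} (hBT : 0 ≤ BT) {Q : TPath d}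
    (h : ∀ t, Occupied γ t → TypeBd γ dd t K (Q t) BT) (j : Fin N) :
    mabs (sitePath γ (respL γ dd K Q) j K) ≤ (d : ℝ) ^ 2 * BT := by
  rcases typ_nonocc γ j with ht | ht
  · have e : ∀ t, t = ∅ → liftM t (respL γ dd K Q t K) = 0 := fun t ht => by
      subst ht; exact liftM_empty _
    rw [sitePath, e _ ht, mabs_zero]
    positivity
  · exact (mabs_liftM_bd _ _).trans
      (mul_le_mul_of_nonneg_left ((h _ ht).resp K le_rfl) (sq_nonneg _))

theorem mabs_top_le (hγ : ∀ k, 0 < γ k ∧ γ k ≤ 1) (hBT : 0 ≤ BT) {Q : TPath d}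
    (h : ∀ t, Occupied γ t → TypeBd γ dd t K (Q t) BT) :
    mabs (qTot γ Q K - dTot dd)
      ≤ Fintype.card (Finset (Fin d)) * ((d : ℝ) ^ 2 * BT) + tblSum dd := by
  refine (mabs_sub _ _).trans (add_le_add ?_ (mabs_dTot_le dd))
  refine (mabs_sum _ _).trans ((Finset.sum_le_sum (g := fun _ => (d : ℝ) ^ 2 * BT) fun t _ => ?_).trans_eq
    (by simp))
  rw [mabs_smul, abs_of_nonneg (Formula.tfrac_nonneg γ t)]
  by_cases ht : Occupied γ t
  · exact (mul_le_of_le_one_left (mabs_nonneg _) (Formula.tfrac_le_one γ t)).trans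
      ((mabs_liftM_bd _ _).trans (mul_le_mul_of_nonneg_left ((h t ht).bd K le_rfl) (sq_nonneg _)))
  rcases t.eq_empty_or_nonempty with rfl | hne
  · rw [liftM_empty, mabs_zero, mul_zero]; positivity
  · rw [Formula.tfrac_eq_zero hγ hne ht, zero_mul]; positivity

theorem pair_abs_le (hγ : ∀ k, 0 < γ k ∧ γ k ≤ 1) (hBT : 0 ≤ BT) {Q : TPath d}
    (h : ∀ t, Occupied γ t → TypeBd γ dd t K (Q t) BT) (l : Fin (K + 1)) :
    ∑ t, tfrac γ t * |minner (Q t l.val) (respL γ dd K Q t l.val)|
      ≤ Fintype.card (Finset (Fin d)) * BT ^ 2 := by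
  refine (Finset.sum_le_sum (g := fun _ => BT ^ 2) fun t _ => ?_).trans_eq (by simp)
  by_cases ht : Occupied γ t
  · refine (mul_le_of_le_one_left (abs_nonneg _) (Formula.tfrac_le_one γ t)).trans
      ((abs_minner_le _ _).trans ?_)
    rw [sq]
    have hl : l.val ≤ K := Nat.le_of_lt_succ l.isLt
    exact mul_le_mul ((h t ht).bd _ hl) ((h t ht).resp _ hl) (mabs_nonneg _) hBT
  rcases t.eq_empty_or_nonempty with rfl | hne
  · have : minner (Q ∅ l.val) (respL γ dd K Q ∅ l.val) = 0 :=
      Finset.sum_eq_zero fun b _ => absurd b.isLt (by simp)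
    rw [this, abs_zero, mul_zero]; positivity
  · rw [Formula.tfrac_eq_zero hγ hne ht, zero_mul]; positivity

theorem path_symm (hγ : ∀ k, 0 < γ k ∧ γ k ≤ 1) {Q : TPath d} (hQ : Formula.Adm γ dd K Q)
    (t : Finset (Fin d)) (ht : tfrac γ t ≠ 0) (l : ℕ) (hl : l ≤ K) :
    (Q t l).transpose = Q t l := by
  by_cases ho : Occupied γ t
  · have h := (Formula.IsPath.psd (hQ.path t ho) hl).isHermitian.eq
    rwa [Matrix.conjTranspose_eq_transpose_of_trivial] at h
  rcases t.eq_empty_or_nonempty with rfl | hne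
  · exact Matrix.ext fun b => absurd b.isLt (by simp)
  · exact absurd (Formula.tfrac_eq_zero hγ hne ho) ht

/-- The derivative is integrable in the parameters. -/
theorem integrable_der {N M R D n : ℕ} (P : VPot d) (π : VPrior N d R D) (Φ : VFac N d K)
    (hn : 0 < n) (fld e : VCIdx N M d R D K → ℝ) :
    Integrable (fun y : Fin R × Fin N → ℝ => vmpair n P π Φ (vsys fld y)
      (vkern P (vbpat π Φ) (vbspin π Φ) (vqd π Φ) (vpull (vsys fld y)) (vpull e))) (vxlaw R N) := by
  have hc : ∀ i, Measurable fun y : Fin R × Fin N → ℝ => vsys fld y i := fun i =>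
    ((continuous_apply i).comp' (continuous_vsys.comp' (continuous_const.prodMk continuous_id))).measurable
  have h := (integrable_vpair_seg P π Φ hn (vxlaw R N) hc e 0).integral_prod_left
  have e0 : ∀ y : Fin R × Fin N → ℝ, (fun i => vsys fld y i + 0 * e i) = vsys fld y := fun y =>
    funext fun i => by rw [zero_mul, add_zero]
  simp only [e0] at h
  refine h.congr (ae_of_all _ fun y => ?_)
  exact (vmpair_eq P π Φ hn _ (fun x z => continuous_vkern P π Φ _ _ x z)
    (fun G x z => VItp.abs_vkern_le P (vbpat π Φ) (vbspin π Φ) (vqd π Φ) _ _ G x z)).symm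

end Vale.Agent.P166.Casc
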