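import Vale.Agent.P166.Casc.VUpperDer
import Vale.Agent.P166.Casc.VPertCost
import Vale.Agent.P166.Casc.VInc

/-!
The averaged free energy along the line: mean value identity, cost of the perturbations, and a crude
bound of the derivative.
-/

open MeasureTheory ProbabilityTheory Filter Topology Set
open scoped MatrixOrder

namespace Vale.Agent.P166.Casc

open Vale.Agent.P157.Casc Vale.Agent.P166.Pen
open Vale.Agent.P166.Formula (TPath liftM tfrac typD dTot qTot IsPath)

variable {N M d R D K n : ℕ}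

/-- The derivative is linear in the direction. -/
theorem vkern_smul_dir (P : VPot d) {T I : Type*} [Fintype I] (b : Fin M → Fin d → T → I → ℝ)
    (bz qd : T → I → ℝ) (lam δ : I → ℝ) (r : ℝ) (G : I → ℝ) (x y : T) :
    vkern P b bz qd lam (fun i => r * δ i) G x y = r * vkern P b bz qd lam δ G x y := by
  have hb : ∀ a k l x y, bcov b (fun i => r * δ i) a k l x y = r * bcov b δ a k l x y :=
    fun a k l x y => by simp only [bcov, mul_assoc, ← Finset.mul_sum]
  simp only [vkern, vgrad, vdiag, hb]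
  simp only [mul_assoc, ← Finset.mul_sum]
  ring

/-- The averaged free energy on the line. -/
noncomputable def meanF (n : ℕ) (P : VPot d) (π : VPrior N d R D) (Φ : VFac N d K) (M : ℕ) (s : ℝ) :
    ℝ :=
  ∫ y, vmfree (M := M) n P π Φ (vsys (lineC s) (vclip y)) ∂vxlaw R N

variable (P : VPot d) (π : VPrior N d R D) (Φ : VFac N d K)

theorem measurable_lineSys (s : ℝ) (i : VCIdx N M d R D K) :
    Measurable fun y : Fin R × Fin N → ℝ => vsys (lineC s) (vclip y) i :=
  ((continuous_apply i).comp' (continuous_vsys.comp'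
    (continuous_const.prodMk continuous_vclip))).measurable

theorem exists_lineSys_bdd {s : ℝ} (hs : s ∈ Icc (0 : ℝ) 1) :
    ∃ Cb : ℝ, ∀ y : Fin R × Fin N → ℝ,
      ∀ i : VCIdx N M d R D K, |vsys (lineC s) (vclip y) i| ≤ Cb := by
  obtain ⟨Cb, hCb⟩ := exists_line_box N M d R D K
  exact ⟨Cb, fun y i => abs_le.2 ⟨by
    linarith [(hCb s hs (vclip y) (vclip_mem y) i).1, (hCb s hs (vclip y) (vclip_mem y) i).2],
    (hCb s hs (vclip y) (vclip_mem y) i).2⟩⟩

/-- The averaged free energy is near the one without perturbation. -/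
theorem meanF_pert (hn : 0 < n) {s : ℝ} (hs : s ∈ Icc (0 : ℝ) 1) :
    |meanF n P π Φ M s - vmfree (M := M) n P π Φ (lineC s)| ≤ 1 / 2 * vpertBd R N 2 := by
  obtain ⟨Cb, hCb⟩ := exists_lineSys_bdd (R := R) (D := D) (K := K) (N := N) (M := M) (d := d) hs
  have hi : Integrable (fun y => vmfree (M := M) n P π Φ (vsys (lineC s) (vclip y))) (vxlaw R N) :=
    (integrable_vfree_param P π Φ hn (vxlaw R N) (measurable_lineSys s) hCb).2
  have hb : ∀ y : Fin R × Fin N → ℝ,
      |vmfree (M := M) n P π Φ (vsys (lineC s) (vclip y)) - vmfree (M := M) n P π Φ (lineC s)|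
        ≤ 1 / 2 * vpertBd R N 2 := fun y => by
    refine vmfree_pert P π Φ hn (fun i => (lineC_nonneg hs i).1) N (x := vext (vclip y)) fun κ i => ?_
    unfold vext
    split_ifs with h
    · exact abs_le.2 ⟨by linarith [(vclip_mem y (κ, ⟨i, h⟩)).1], (vclip_mem y _).2⟩
    · simp
  have e : meanF n P π Φ M s - vmfree (M := M) n P π Φ (lineC s)
      = ∫ y, (vmfree (M := M) n P π Φ (vsys (lineC s) (vclip y))
          - vmfree (M := M) n P π Φ (lineC s)) ∂vxlaw R N := by
    rw [integral_sub hi (integrable_const _), integral_const, probReal_univ, one_smul]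
    rfl
  rw [e, ← Real.norm_eq_abs]
  exact (norm_integral_le_of_norm_le_const (ae_of_all _ fun y =>
    (Real.norm_eq_abs _).trans_le (hb y))).trans (by simp)

/-- Mean value identity along the line. -/
theorem meanF_seg (hn : 0 < n) {a b : ℝ} (ha : 0 ≤ a) (hab : a ≤ b) (hb : b ≤ 1) :
    ∃ t ∈ Icc a b, meanF n P π Φ M b - meanF n P π Φ M a
      = -(1 / 2) * ((b - a) * ∫ y, vmpair (M := M) n P π Φ (vsys (lineC t) y)
          (vkern P (vbpat π Φ) (vbspin π Φ) (vqd π Φ) (vpull (vsys (lineC t) y)) (vpull lineD))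
          ∂vxlaw R N) := by
  have hs : a ∈ Icc (0 : ℝ) 1 := ⟨ha, hab.trans hb⟩
  obtain ⟨Cb, hCb⟩ := exists_lineSys_bdd (R := R) (D := D) (K := K) (N := N) (M := M) (d := d) hs
  have hadd : ∀ (u : ℝ) (y : Fin R × Fin N → ℝ),
      (fun i => vsys (lineC a : VCIdx N M d R D K → ℝ) y i + u * ((b - a) * lineD i))
        = vsys (lineC (a + u * (b - a))) y := fun u y => funext fun i => by
    simp only [vsys]
    rw [← congrFun (lineC_add a (u * (b - a))) i]
    ring
  obtain ⟨t, ht, he⟩ := vmfree_mvt P π Φ hn (vxlaw R N)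
    (c := fun y => vsys (lineC a : VCIdx N M d R D K → ℝ) (vclip y)) (measurable_lineSys a) hCb
    (e := fun i => (b - a) * lineD i) (fun y u hu i => by
      rw [congrFun (hadd u (vclip y)) i]
      have hm : a + u * (b - a) ∈ Icc (0 : ℝ) 1 :=
        ⟨by nlinarith [hu.1], by nlinarith [hu.2]⟩
      exact add_nonneg (lineC_nonneg hm i).1 (vpert_nonneg _ _ i))
  refine ⟨a + t * (b - a), ⟨by nlinarith [ht.1], by nlinarith [ht.2]⟩, ?_⟩
  have h1 : ∀ y, (fun i => vsys (lineC a : VCIdx N M d R D K → ℝ) (vclip y) i + (b - a) * lineD i)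
      = vsys (lineC b) (vclip y) := fun y => by
    have := hadd 1 (vclip y)
    simpa using this
  simp only [h1, hadd] at he
  rw [meanF, meanF, he, ← integral_const_mul (b - a)]
  congr 1
  refine integral_congr_ae ?_
  filter_upwards [ae_vxlaw_box R N] with y hy
  rw [vclip_id hy]
  have hg : GoodObs (fun G (x z : VState π K n) => vkern P (vbpat (M := M) π Φ) (vbspin π Φ)
      (vqd π Φ) (vpull (vsys (lineC (a + t * (b - a))) y)) (vpull lineD) G x z) :=
    ⟨fun x z => continuous_vkern P π Φ _ _ x z, _, fun G x z =>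
      VItp.abs_vkern_le P (vbpat π Φ) (vbspin π Φ) (vqd π Φ) _ _ G x z⟩
  rw [← vmpair_smul P Φ _ hn hg]
  congr 1
  funext G x z
  rw [← vkern_smul_dir]
  congr 1
  funext i
  rcases i with q | ⟨o, i⟩ <;> rfl

/-- A bound of the derivative gives a bound of its mean. -/
theorem abs_integral_der_le (hn : 0 < n) {C : ℝ} (c : (Fin R × Fin N → ℝ) → VCIdx N M d R D K → ℝ)
    (h : ∀ y G (x z : VState π K n), |vkern P (vbpat π Φ) (vbspin π Φ) (vqd π Φ) (vpull (c y))
      (vpull lineD) G x z| ≤ C) :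
    |∫ y, vmpair (M := M) n P π Φ (c y) (vkern P (vbpat π Φ) (vbspin π Φ) (vqd π Φ) (vpull (c y))
      (vpull lineD)) ∂vxlaw R N| ≤ C := by
  have := vstate_nonempty (K := K) π hn
  rw [← Real.norm_eq_abs]
  refine (norm_integral_le_of_norm_le_const (C := C) (ae_of_all _ fun y => ?_)).trans (by simp)
  rw [vmpair]
  refine (norm_integral_le_of_norm_le_const (C := C) ?_).trans (by simp)
  filter_upwards [ae_vmbw_pos P π Φ (c y)] with p hp
  rw [Real.norm_eq_abs]
  exact Itp.abs_avg2_le hp fun x z => h y p.2 x z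

/-- A crude bound of the derivative along the line. -/
theorem abs_der_le {τ B : ℝ} {γ : Fin d → ℝ} {dd : OIdx d → ℝ} {nA L J : ℕ}
    {ν : Measure (Fin d → Fin N → ℝ)} {εa : ℝ} (hτ : 0 ≤ τ) (hB : 0 ≤ B)
    (hγ : ∀ k, 0 < γ k ∧ γ k ≤ 1) (hd : Clean γ dd)
    (A : Coeffs d nA) (at0 : Atoms ν (cutSet B d N) εa) (hL : 0 < L) (hN : 0 < N) {a0 BT : ℝ}
    (hBT : 1 ≤ BT) (hM : (M : ℝ) ≤ a0 * N) (hK : 0 < K) {Q : TPath d} (hQ : Formula.Adm γ dd K Q)
    (hQb : ∀ t, Occupied γ t → TypeBd γ dd t K (Q t) BT)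
    (c : VCIdx N M d (nker d nA) (N + L + J) K → ℝ) (G : VGIdx N M d (nker d nA) (N + L + J) K n → ℝ)
    (x z : VState (penPrior (γ := γ) hτ A at0 hL J) K n) :
    let π := penPrior (γ := γ) hτ A at0 hL J
    let Φ : VFac N d K := lineFac γ (topAt K (dTot dd) (qTot γ Q)) (respL γ dd K Q);
    |vkern P (vbpat π Φ) (vbspin π Φ) (vqd π Φ) (vpull c) (vpull lineD) G x z|
      ≤ N * ((Fintype.card (Finset (Fin d)) : ℝ) * (((d : ℝ) ^ 2 * (τ * B) + BT)
            * ((d : ℝ) ^ 2 * (|a0| * P.b1 ^ 2) + BT) + BT ^ 2)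
          + ((Fintype.card (Finset (Fin d)) : ℝ) * ((d : ℝ) ^ 2 * BT) + tblSum dd)
            * ((d : ℝ) ^ 2 * (|a0| * P.b1 ^ 2))
          + ((Fintype.card (Finset (Fin d)) : ℝ) * ((d : ℝ) ^ 2 * (τ * B)) + tblSum dd)
            * ((d : ℝ) ^ 2 * (|a0| * (|P.b2| + P.b1 ^ 2)))) := by
  intro π Φ
  have hBT0 : (0 : ℝ) ≤ BT := zero_le_one.trans hBT
  set V := (d : ℝ) ^ 2 * (|a0| * P.b1 ^ 2)
  set H := (d : ℝ) ^ 2 * (|a0| * (|P.b2| + P.b1 ^ 2))
  set W := (d : ℝ) ^ 2 * (τ * B)
  set cd := (Fintype.card (Finset (Fin d)) : ℝ)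
  have hW : 0 ≤ W := by positivity
  have hV : mabs (pmat P π Φ c G x z) ≤ V ∧ mabs (hmat P π Φ c G x) ≤ H :=
    ⟨(pv_bounds P π hN hM Φ c G x z).1, (pv_bounds P π hN hM Φ c G x z).2⟩
  have hV0 : 0 ≤ V := (mabs_nonneg _).trans hV.1
  have hr : ∀ t (x z : VState π K n), mabs (rmat π (typS γ N t) x z) ≤ W := fun t x z =>
    mabs_le_of_entry fun k l => by
      have h := abs_gov_typX_le (γ := γ) hτ (fun σ => penAtom hτ A at0 hL J σ)
        (fun σ => at0.mem _) hN t x.1 z.1 k l
      rw [gov_typX] at h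
      exact h
  rw [vkern_lineD_types P π hN Q (dTot dd) (topAt_isPath hK hγ hd hQ) (sitePath_adm hQ)
    (fun t x z k l h => rmat_supp (J := J) (S := typS γ N t) hτ A at0 hL
      (fun u hu => (Finset.mem_filter.1 hu).2) x z k l h) c G x z, abs_mul, Nat.abs_cast]
  refine mul_le_mul_of_nonneg_left ?_ (Nat.cast_nonneg N)
  have hl : (vlev π x z).val ≤ K := Nat.le_of_lt_succ (vlev π x z).isLt
  have h1 : |∑ t, linX P π γ Φ c t (Q t) (respL γ dd K Q t) G x z| ≤ cd * ((W + BT) * (V + BT)) := by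
    refine (Finset.abs_sum_le_sum_abs _ _).trans
      ((Finset.sum_le_sum (g := fun _ => (W + BT) * (V + BT)) fun t _ => ?_).trans_eq (by simp [cd]))
    by_cases ht : Occupied γ t
    · refine (abs_minner_le _ _).trans (mul_le_mul ((mabs_sub _ _).trans (add_le_add
        ((mabs_subM_le t _).trans (hr t x z)) ?_)) ((mabs_sub _ _).trans (add_le_add
        ((mabs_subM_le t _).trans hV.1) ((hQb t ht).resp _ hl))) (mabs_nonneg _) (by positivity))
      rw [mabs_smul, abs_of_nonneg (Formula.tfrac_nonneg γ t)]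
      exact (mul_le_of_le_one_left (mabs_nonneg _) (Formula.tfrac_le_one γ t)).trans
        ((hQb t ht).bd _ hl)
    · rw [linX_not_occupied P π Φ c hγ ht, abs_zero]
      positivity
  have h2 : |∑ t, tfrac γ t * minner (Q t (vlev π x z).val) (respL γ dd K Q t (vlev π x z).val)|
      ≤ cd * BT ^ 2 := by
    refine ((Finset.abs_sum_le_sum_abs _ _).trans_eq ?_).trans (pair_abs_le hγ hBT0 hQb (vlev π x z))
    simp [abs_mul, abs_of_nonneg (Formula.tfrac_nonneg γ _)]
  have h3 : |minner (qTot γ Q (vlev π x z).val - topAt K (dTot dd) (qTot γ Q) (vlev π x z).val)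
      (pmat P π Φ c G x z)| ≤ (cd * ((d : ℝ) ^ 2 * BT) + tblSum dd) * V := by
    refine (abs_minner_le _ _).trans (mul_le_mul ?_ hV.1 (mabs_nonneg _)
      (add_nonneg (by positivity) (tblSum_nonneg dd)))
    rw [topAt]
    split_ifs with h
    · rw [h]; exact mabs_top_le hγ hBT0 hQb
    · rw [sub_self, mabs_zero]
      exact add_nonneg (by positivity) (tblSum_nonneg dd)
  have h4 : |minner (rmat π Finset.univ x x - dTot dd) (hmat P π Φ c G x)|
      ≤ (cd * W + tblSum dd) * H := by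
    refine (abs_minner_le _ _).trans (mul_le_mul ((mabs_sub _ _).trans (add_le_add ?_
      (mabs_dTot_le dd))) hV.2 (mabs_nonneg _) (add_nonneg (by positivity) (tblSum_nonneg dd)))
    have e : rmat π Finset.univ x x = ∑ t, rmat π (typS γ N t) x x := by
      ext k l
      simp only [rmat, vov, Matrix.sum_apply, Matrix.of_apply, typS, ← Finset.sum_div]
      rw [Finset.sum_fiberwise Finset.univ fun j : Fin N => typ γ j]
    rw [e]
    exact (mabs_sum _ _).trans
      ((Finset.sum_le_sum fun t _ => hr t x x).trans_eq (by simp [cd]))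
  have := abs_le.1 h1
  have := abs_le.1 h2
  have := abs_le.1 h3
  have := abs_le.1 h4
  rw [abs_le]
  constructor <;> linarith

end Vale.Agent.P166.Casc
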