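import Vale.Agent.P166.Casc.VUpperMono
import Vale.Agent.P166.Casc.VSyncPen
import Vale.Agent.P166.Casc.VMass
import Vale.Agent.P166.Formula.Block

/-!
Along the line the mean product of the two deviations of one type is nearly nonnegative when the
self-overlaps are close to the centre and the overlaps are synchronised.
-/

open MeasureTheory ProbabilityTheory Filter Topology Set
open scoped MatrixOrder

namespace Vale.Agent.P166.Casc

open Vale.Agent.P157.Casc Vale.Agent.P166.Pen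
open Vale.Agent.P166.Formula (TPath liftM tfrac typD tmat IsPath bestPath gridM)

variable {d : ℕ}

theorem mabs_liftM_bd (t : Finset (Fin d)) (X : Matrix (Fin t.card) (Fin t.card) ℝ) :
    mabs (liftM t X) ≤ (d : ℝ) ^ 2 * mabs X := by
  refine mabs_le_of_entry fun k l => ?_
  by_cases h : k ∈ t ∧ l ∈ t
  · obtain ⟨b, rfl⟩ := exists_comp h.1
    obtain ⟨b', rfl⟩ := exists_comp h.2
    rw [Formula.liftM_apply_comp]
    exact abs_le_mabs X b b'
  · rw [liftM_supp t X k l (not_and_or.1 h), abs_zero]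
    exact mabs_nonneg X

/-- The perturbed variances of the line have a common type on the sites of a type. -/
theorem typeVar_line {N M R D K : ℕ} {γ : Fin d → ℝ} {qr : ℕ → Matrix (Fin d) (Fin d) ℝ}
    {p : TPath d} (hp : ∀ j : Fin N, IsPath K (sitePath γ p j)) (t : Finset (Fin d)) (s : ℝ)
    (y : Fin R × Fin N → ℝ) :
    TypeVar (lineFac γ qr p) (vsys (lineC s : VCIdx N M d R D K → ℝ) y) (typS γ N t) s
      (fun l k k' => (1 - s) * liftM t (p t l.val) k k') (ePert y) := by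
  refine typeVar_vsys (pertZero_lineC s) (fun a u _ => rfl) (fun u hu l k k' => ?_) y
  have hu' : typ γ u = t := (Finset.mem_filter.1 hu).2
  have h := slot_cum (hp u) l k k'
  rw [sitePath, hu'] at h
  rw [← h, Finset.mul_sum]
  refine Finset.sum_congr rfl fun l' _ => ?_
  rw [Finset.mul_sum]
  refine Finset.sum_congr rfl fun z _ => ?_
  rw [Finset.mul_sum]
  exact Finset.sum_congr rfl fun r _ => by simp [lineC, vfldc, lineFac]

/-- The variances of the line with all parameters are bounded. -/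
theorem exists_line_box (N M d R D K : ℕ) :
    ∃ Cb : ℝ, ∀ s ∈ Icc (0 : ℝ) 1, ∀ y : Fin R × Fin N → ℝ, (∀ p, y p ∈ Icc (1 : ℝ) 2) →
      ∀ q, vsys (lineC s : VCIdx N M d R D K → ℝ) y q ∈ Icc (0 : ℝ) Cb := by
  have hc : Continuous fun s : ℝ => (lineC s : VCIdx N M d R D K → ℝ) := by
    refine continuous_pi fun q => ?_
    rcases q with (⟨a, u⟩ | u) | ⟨l, ⟨z, a, r⟩ | ⟨z, u, r⟩ | p⟩ <;>
      simp only [lineC, vfldc] <;> fun_prop
  have hs := (isCompact_Icc (a := (0 : ℝ)) (b := 1)).image hc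
  obtain ⟨Cb, hCb⟩ := (isCompact_vsysSet (R := R) hs).exists_bound_of_continuousOn
    (f := fun x => x) continuousOn_id
  refine ⟨Cb, fun s hs' y hy q => ⟨add_nonneg (lineC_nonneg hs' q).1 (vpert_nonneg _ _ q), ?_⟩⟩
  have h := hCb _ (mem_vsysSet (Set.mem_image_of_mem _ hs') hy)
  exact (le_abs_self _).trans ((Real.norm_eq_abs _).symm.trans_le ((norm_le_pi_norm _ q).trans h))

section OneType

variable {τ B κ L : ℝ} {γ : Fin d → ℝ}

theorem cfg_ovl (hτ : 0 ≤ τ) {N : ℕ} (ω : Fin d → Fin N → ℝ) (t : Finset (Fin d)) (k l : Fin d)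
    (hk : k ∈ t) (hl : l ∈ t) :
    (∑ j ∈ typS γ N t, cfgOf τ γ ω j k * cfgOf τ γ ω j l) / N = ovl τ γ ω (t, k, l) := by
  simp only [typS]
  rw [ovl, if_pos ⟨hk, hl⟩, div_mul_eq_mul_div, Finset.mul_sum]
  congr 1
  refine Finset.sum_congr rfl fun j hj => ?_
  have hj' : typ γ j = t := (Finset.mem_filter.1 hj).2
  have h : ∀ m ∈ t, j.val < blk γ N m := fun m hm => by
    rw [← hj'] at hm; exact (Finset.mem_filter.1 hm).2
  rw [cfgOf, cfgOf, if_pos (h k hk), if_pos (h l hl)]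
  linear_combination (ω k j * ω l j) * Real.mul_self_sqrt hτ

/-- The self-overlaps of one type against the centre. -/
theorem mabs_self_le (hτ : 0 ≤ τ) {N nA nL J K n : ℕ} {ν : Measure (Fin d → Fin N → ℝ)} {ε : ℝ}
    (A : Coeffs d nA) (a : Atoms ν (cutSet B d N) ε) (hL : 0 < nL) (t : Finset (Fin d))
    (dd : OIdx d → ℝ) (x : VState (penPrior (γ := γ) hτ A a hL J) K n) :
    mabs (subM t (rmat (penPrior (γ := γ) hτ A a hL J) (typS γ N t) x x) - tmat dd t)
      ≤ ovlDev τ γ dd (penAtom hτ A a hL J x.1) := by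
  rw [ovlDev, Fintype.sum_prod_type]
  refine le_trans ?_ (Finset.single_le_sum (f := fun t' => ∑ p : Fin d × Fin d,
    |ovl τ γ (penAtom hτ A a hL J x.1) (t', p) - dd (t', p)|)
    (fun t' _ => Finset.sum_nonneg fun p _ => abs_nonneg _) (Finset.mem_univ t))
  have e : ∀ b b', (subM t (rmat (penPrior (γ := γ) hτ A a hL J) (typS γ N t) x x) - tmat dd t) b b'
      = ovl τ γ (penAtom hτ A a hL J x.1) (t, comp t b, comp t b') - dd (t, comp t b, comp t b') :=
    fun b b' => by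
      rw [← cfg_ovl hτ _ t _ _ (comp_mem t b) (comp_mem t b')]
      simp [subM, rmat, vov, tmat, penPrior, penAtom]
  simp only [mabs, e]
  rw [Fintype.sum_prod_type,
    ← sum_comp_eq t fun k => ∑ b', |ovl τ γ (penAtom hτ A a hL J x.1) (t, k, comp t b')
      - dd (t, k, comp t b')|]
  refine (Finset.sum_le_sum fun k _ => ?_).trans
    (Finset.sum_le_sum_of_subset_of_nonneg (Finset.subset_univ t) fun k _ _ =>
      Finset.sum_nonneg fun l _ => abs_nonneg _)
  rw [← sum_comp_eq t fun l => |ovl τ γ (penAtom hτ A a hL J x.1) (t, k, l) - dd (t, k, l)|]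
  exact Finset.sum_le_sum_of_subset_of_nonneg (Finset.subset_univ t) fun l _ _ => abs_nonneg _

/-- Sizes on one type: the centre, its inverse, a path and its response. -/
structure TypeBd (γ : Fin d → ℝ) (dd : OIdx d → ℝ) (t : Finset (Fin d)) (K : ℕ)
    (Q : ℕ → Matrix (Fin t.card) (Fin t.card) ℝ) (BT : ℝ) : Prop where
  path : IsPath K Q
  top : (typD γ dd t - Q K).PosDef
  det : (typD γ dd t).det ≠ 0
  cen : mabs (typD γ dd t) ≤ BT
  inv : mabs (typD γ dd t)⁻¹ ≤ BT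
  bd : ∀ l, l ≤ K → mabs (Q l) ≤ BT
  resp : ∀ l, l ≤ K → mabs (bestPath (gridM K) K (typD γ dd t) Q l) ≤ BT

/-- A common bound for the matrices of one type along the line. -/
noncomputable def typB (d : ℕ) (τ B V BT a : ℝ) : ℝ :=
  2 * ((d : ℝ) ^ 2 * (τ * B) + V + (d : ℝ) ^ 2 * BT + 2 * BT / a + 1)

theorem typB_spec {V BT a : ℝ} (hτB : 0 ≤ τ * B) (hV : 0 ≤ V) (hBT : 1 ≤ BT) (ha : 0 < a)
    (ha1 : a ≤ 1) :
    1 ≤ typB d τ B V BT a ∧ BT ≤ typB d τ B V BT a ∧ (d : ℝ) ^ 2 * (τ * B) ≤ typB d τ B V BT a ∧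
      V + (d : ℝ) ^ 2 * BT ≤ typB d τ B V BT a ∧ 2 / a * BT ≤ typB d τ B V BT a := by
  have h1 : BT ≤ 2 * BT / a := by
    rw [le_div_iff₀ ha]
    have := mul_le_mul_of_nonneg_left ha1 (zero_le_one.trans hBT)
    linarith
  have h2 : 0 ≤ (d : ℝ) ^ 2 * BT := by positivity
  have h3 : 0 ≤ (d : ℝ) ^ 2 * (τ * B) := by positivity
  simp only [typB, div_mul_eq_mul_div]
  exact ⟨by linarith, by linarith, by linarith, by linarith, by linarith⟩

/-- The parameters: a threshold, small errors, many levels, then small errors of the levels. -/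
theorem type_params (d m : ℕ) {B1 BT a η : ℝ} (hB1 : 1 ≤ B1) (hBT : 0 ≤ BT) (ha : 0 < a)
    (hη : 0 < η) :
    ∃ τm δ1 δ0 : ℝ, 0 < τm ∧ τm ≤ 1 ∧ 0 < δ1 ∧ 0 < δ0 ∧ δ0 ≤ a / 2 ∧
      ∃ K0 : ℕ, ∀ K ≥ K0, pi0 K < τm ∧ δ1 + δ1 / (τm - pi0 K) ≤ 1 / 2 ∧
        ∃ δK : ℝ, 0 < δK ∧ δK ≤ pi0 K ∧ ∀ av δ εl r : ℝ, a / 2 ≤ av → av ≤ 1 → |av - a| ≤ δ0 →
          0 ≤ δ → δ ≤ δ0 → 0 ≤ εl → εl ≤ δK → r ≤ 5 * δK →
          |av⁻¹| ^ 2 * (B1 ^ 3 * ((d : ℝ) ^ 2 * r + (δ + δ0 * BT) * (4 * (2 * B1) ^ 2)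
              + εl * (2 * ((K : ℝ) + 1) * (2 * B1) ^ 2))
            + B1 * (((K : ℝ) + 1) * ((d : ℝ) ^ 2 * r) + (δ + δ0 * BT) * (13 * (2 * B1) ^ 2)
              + εl * (((K : ℝ) + 1) * sdC K m (2 * B1)))) ≤ δ1 ∧
          (2 * δ + δ0 * BT) / av < 1 / (6 * (((d : ℝ) + (2 * B1) ^ 2 + 1) * (2 * B1))) ∧
          av * (Formula.monoC m (((d : ℝ) + (2 * B1) ^ 2 + 1) * (2 * B1)) * (δ1 + τm))
            + |av - a| * (2 * (((d : ℝ) + (2 * B1) ^ 2 + 1) * (2 * B1)) ^ 2)
            + (2 * B1 * δ + ((K : ℝ) + 1) * (εl * (2 * B1 ^ 2))) ≤ η := by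
  set BB := ((d : ℝ) + (2 * B1) ^ 2 + 1) * (2 * B1)
  have hBB : 0 < BB := by positivity
  set Cm := |Formula.monoC m BB| + 1
  have hCm : 0 < Cm := by positivity
  set τm := min 1 (η / (8 * Cm))
  have hτm : 0 < τm := lt_min one_pos (by positivity)
  have hτ1 : τm ≤ 1 := min_le_left _ _
  set δ1 := min (τm / 8) (η / (8 * Cm))
  have hδ1 : 0 < δ1 := lt_min (by positivity) (by positivity)
  set e0 := (2 / a) ^ 2 * (B1 ^ 3 * (4 * (2 * B1) ^ 2) + B1 * (13 * (2 * B1) ^ 2)) * (1 + BT) + 1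
  have he0 : 0 < e0 := by positivity
  set δ0 := min (min (a / 2) (δ1 / (2 * e0)))
    (min (η / (8 * (2 * B1 + 2 * BB ^ 2))) (a / (48 * BB * (2 + BT))))
  have hδ0 : 0 < δ0 := lt_min (lt_min (by positivity) (by positivity))
    (lt_min (by positivity) (by positivity))
  obtain ⟨K0, hK0⟩ := exists_nat_gt (2 / τm)
  refine ⟨τm, δ1, δ0, hτm, hτ1, hδ1, hδ0, (min_le_left _ _).trans (min_le_left _ _), K0,
    fun K hK => ?_⟩
  have hπ : 0 < pi0 K := by rw [pi0]; positivity
  have hπτ : pi0 K ≤ τm / 2 := by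
    rw [pi0, div_le_div_iff₀ (by positivity) two_pos, one_mul]
    rw [div_lt_iff₀ hτm] at hK0
    have : (K0 : ℝ) * τm ≤ ((K : ℝ) + 1) * τm :=
      mul_le_mul_of_nonneg_right (by exact_mod_cast (by omega : K0 ≤ K + 1)) hτm.le
    linarith
  refine ⟨by linarith, ?_, ?_⟩
  · have h1 : δ1 ≤ τm / 8 := min_le_left _ _
    have h3 : δ1 / (τm - pi0 K) ≤ δ1 / (τm / 2) :=
      div_le_div_of_nonneg_left hδ1.le (by positivity) (by linarith)
    have h4 : δ1 / (τm / 2) ≤ 1 / 4 := by rw [div_le_iff₀ (by positivity)]; linarith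
    linarith
  set eK := (2 / a) ^ 2 * (B1 ^ 3 * ((d : ℝ) ^ 2 * 5 + 2 * ((K : ℝ) + 1) * (2 * B1) ^ 2)
    + B1 * (((K : ℝ) + 1) * ((d : ℝ) ^ 2 * 5) + ((K : ℝ) + 1) * |sdC K m (2 * B1)|)) + 1
  have heK : 0 < eK := by positivity
  set δK := min (min (pi0 K) (δ1 / (2 * eK))) (η / (8 * (((K : ℝ) + 1) * (2 * B1 ^ 2))))
  have hδK : 0 < δK := lt_min (lt_min hπ (by positivity)) (by positivity)
  refine ⟨δK, hδK, (min_le_left _ _).trans (min_le_left _ _),
    fun av δ εl r hav hav1 hava hδ hδ' hεl hεl' hr' => ?_⟩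
  have hav0 : 0 < av := lt_of_lt_of_le (half_pos ha) hav
  refine ⟨?_, ?_, ?_⟩
  · have hinv : |av⁻¹| ≤ 2 / a := by
      rw [abs_inv, abs_of_pos hav0, inv_le_iff_one_le_mul₀ hav0, div_mul_eq_mul_div,
        le_div_iff₀ ha]
      linarith
    have hd0 : δ + δ0 * BT ≤ δ0 * (1 + BT) := by linarith
    have hsd := mul_le_mul_of_nonneg_left (le_abs_self (sdC K m (2 * B1)))
      (show (0 : ℝ) ≤ (K : ℝ) + 1 by positivity)
    have i1 : (d : ℝ) ^ 2 * r ≤ (d : ℝ) ^ 2 * (5 * δK) := mul_le_mul_of_nonneg_left hr' (sq_nonneg _)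
    have i2 := mul_le_mul_of_nonneg_right hd0 (show (0 : ℝ) ≤ 4 * (2 * B1) ^ 2 by positivity)
    have i3 := mul_le_mul_of_nonneg_right hd0 (show (0 : ℝ) ≤ 13 * (2 * B1) ^ 2 by positivity)
    have i4 := mul_le_mul_of_nonneg_right hεl'
      (show (0 : ℝ) ≤ 2 * ((K : ℝ) + 1) * (2 * B1) ^ 2 by positivity)
    have i5 : εl * (((K : ℝ) + 1) * sdC K m (2 * B1))
        ≤ δK * (((K : ℝ) + 1) * |sdC K m (2 * B1)|) :=
      (mul_le_mul_of_nonneg_left hsd hεl).trans (mul_le_mul_of_nonneg_right hεl' (by positivity))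
    have i6 := mul_le_mul_of_nonneg_left i1 (show (0 : ℝ) ≤ (K : ℝ) + 1 by positivity)
    calc |av⁻¹| ^ 2 * (B1 ^ 3 * ((d : ℝ) ^ 2 * r + (δ + δ0 * BT) * (4 * (2 * B1) ^ 2)
              + εl * (2 * ((K : ℝ) + 1) * (2 * B1) ^ 2))
            + B1 * (((K : ℝ) + 1) * ((d : ℝ) ^ 2 * r) + (δ + δ0 * BT) * (13 * (2 * B1) ^ 2)
              + εl * (((K : ℝ) + 1) * sdC K m (2 * B1))))
        ≤ |av⁻¹| ^ 2 * (B1 ^ 3 * ((d : ℝ) ^ 2 * (5 * δK) + δ0 * (1 + BT) * (4 * (2 * B1) ^ 2)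
              + δK * (2 * ((K : ℝ) + 1) * (2 * B1) ^ 2))
            + B1 * (((K : ℝ) + 1) * ((d : ℝ) ^ 2 * (5 * δK)) + δ0 * (1 + BT) * (13 * (2 * B1) ^ 2)
              + δK * (((K : ℝ) + 1) * |sdC K m (2 * B1)|))) :=
          mul_le_mul_of_nonneg_left (add_le_add (mul_le_mul_of_nonneg_left (by linarith)
            (by positivity)) (mul_le_mul_of_nonneg_left (by linarith) (by positivity))) (sq_nonneg _)
      _ ≤ (2 / a) ^ 2 * (B1 ^ 3 * ((d : ℝ) ^ 2 * (5 * δK) + δ0 * (1 + BT) * (4 * (2 * B1) ^ 2)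
              + δK * (2 * ((K : ℝ) + 1) * (2 * B1) ^ 2))
            + B1 * (((K : ℝ) + 1) * ((d : ℝ) ^ 2 * (5 * δK)) + δ0 * (1 + BT) * (13 * (2 * B1) ^ 2)
              + δK * (((K : ℝ) + 1) * |sdC K m (2 * B1)|))) :=
          mul_le_mul_of_nonneg_right (pow_le_pow_left₀ (abs_nonneg _) hinv 2) (by positivity)
      _ = δ0 * (e0 - 1) + δK * (eK - 1) := by simp only [e0, eK]; ring
      _ ≤ δ1 := by
          have h1 : δ0 ≤ δ1 / (2 * e0) := (min_le_left _ _).trans (min_le_right _ _)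
          have h2 : δK ≤ δ1 / (2 * eK) := (min_le_left _ _).trans (min_le_right _ _)
          rw [le_div_iff₀ (by positivity)] at h1 h2
          linarith
  · rw [div_lt_div_iff₀ hav0 (by positivity), one_mul]
    have h1 : δ0 ≤ a / (48 * BB * (2 + BT)) := (min_le_right _ _).trans (min_le_right _ _)
    rw [le_div_iff₀ (by positivity)] at h1
    have h2 := mul_le_mul_of_nonneg_right hδ' (show (0 : ℝ) ≤ 12 * BB by positivity)
    have h3 : 0 ≤ δ0 * BB := by positivity
    have h4 : 0 ≤ δ0 * BT * BB := by positivity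
    linarith
  · have hsum : δ1 + τm ≤ η / (4 * Cm) := by
      have : η / (4 * Cm) = η / (8 * Cm) + η / (8 * Cm) := by ring
      rw [this]
      exact add_le_add (min_le_right _ _) (min_le_right _ _)
    have h1 : av * (Formula.monoC m BB * (δ1 + τm)) ≤ η / 4 := by
      refine (le_abs_self _).trans ?_
      rw [abs_mul, abs_mul, abs_of_pos hav0, abs_of_pos (add_pos hδ1 hτm)]
      refine (mul_le_of_le_one_left (by positivity) hav1).trans
        ((mul_le_mul (le_add_of_nonneg_right zero_le_one) hsum (by positivity) hCm.le).trans_eq ?_)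
      show Cm * (η / (4 * Cm)) = η / 4
      field_simp
    have h2 : δ0 * (2 * B1 + 2 * BB ^ 2) ≤ η / 8 := by
      have := (min_le_right _ _).trans (min_le_left _ _) |>.trans' (le_refl δ0)
      rw [le_div_iff₀ (by positivity)] at this
      linarith
    have h3 : δK * (((K : ℝ) + 1) * (2 * B1 ^ 2)) ≤ η / 8 := by
      have : δK ≤ η / (8 * (((K : ℝ) + 1) * (2 * B1 ^ 2))) := min_le_right _ _
      rw [le_div_iff₀ (by positivity)] at this
      linarith
    have i1 := mul_le_mul_of_nonneg_right hava (show (0 : ℝ) ≤ 2 * BB ^ 2 by positivity)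
    have i2 := mul_le_mul_of_nonneg_right hδ' (show (0 : ℝ) ≤ 2 * B1 by linarith)
    have i3 := mul_le_mul_of_nonneg_right hεl'
      (show (0 : ℝ) ≤ ((K : ℝ) + 1) * (2 * B1 ^ 2) by positivity)
    linarith

section Generic

variable {T Ω : Type*} [Fintype T] [MeasurableSpace Ω] [Nonempty T] {m : ℕ}
  {μ : Measure Ω} [IsProbabilityMeasure μ] {u : Ω → T → ℝ}
  (hm : ∀ x, Measurable fun ω => u ω x) (hp : ∀ ω x, 0 < u ω x)

include hm hp

omit hm in
theorem reavg_const {k : ℕ} (c : ℝ) : reavg μ u k (fun _ _ => c) = c := by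
  simp [reavg, avg, ← Finset.sum_mul, ← Fintype.prod_sum, gibbs_sum' (hp _)]

/-- A pointwise bound by an observable and a constant. -/
theorem reavg_le_add {X f : T → ℝ} {c δ : ℝ} (hf : ∀ x, f x ≤ X x + c)
    (hX : reavg μ u 2 (fun _ x => X (x 0)) ≤ δ) :
    reavg μ u 1 (fun _ x => f (x 0)) ≤ δ + c := by
  rw [← reavg_snoc (n := 1) hm hp]
  obtain ⟨A, hA⟩ : ∃ A, ∀ x, |X x| ≤ A := ⟨∑ x, |X x|, fun x =>
    Finset.single_le_sum (f := fun x => |X x|) (fun _ _ => abs_nonneg _) (Finset.mem_univ x)⟩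
  obtain ⟨A', hA'⟩ : ∃ A, ∀ x, |f x| ≤ A := ⟨∑ x, |f x|, fun x =>
    Finset.single_le_sum (f := fun x => |f x|) (fun _ _ => abs_nonneg _) (Finset.mem_univ x)⟩
  refine (reavg_mono hm hp (bTest_const (B := A') _ fun x => hA' _)
    (bTest_const (B := A + |c|) _ fun x => ?_) (g := fun _ x => X (x 0) + c)
    fun _ x => hf (x 0)).trans ?_
  · exact (abs_add_le _ _).trans (add_le_add (hA _) le_rfl)
  · rw [reavg_add hm hp (bTest_const _ fun x => hA _) (bTest_const _ fun _ => le_refl |c|),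
      reavg_const hp]
    exact add_le_add hX le_rfl

/-- The mean of an observable of one replica near a fixed matrix. -/
theorem mexp_near {R : T → Matrix (Fin m) (Fin m) ℝ} {D : Matrix (Fin m) (Fin m) ℝ} {δ : ℝ}
    (h : reavg μ u 1 (fun _ x => mabs (R (x 0) - D)) ≤ δ) :
    mabs (mexp μ u 1 (fun _ x => R (x 0)) - D) ≤ δ := by
  set A := ∑ x, mabs (R x) + mabs D
  have hA : ∀ x, mabs (R x) ≤ A ∧ mabs D ≤ A := fun x =>
    ⟨le_add_of_le_of_nonneg (Finset.single_le_sum (f := fun x => mabs (R x))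
      (fun _ _ => mabs_nonneg _) (Finset.mem_univ x)) (mabs_nonneg _),
      le_add_of_nonneg_left (Finset.sum_nonneg fun x _ => mabs_nonneg _)⟩
  have hD : mexp μ u 1 (fun (_ : Ω) (_ : Fin 1 → T) => D) = D := by
    ext i j
    exact reavg_const hp (D i j)
  have hc := mexp_close (μ := μ) hm hp (F := fun _ x => R (x 0)) (G := fun _ _ => D)
    (mtest_const fun x => (hA _).1) (mtest_const fun x => (hA (x 0)).2)
    (bTest_const (B := A + A) (fun x : Fin 1 → T => mabs (R (x 0) - D)) fun x => by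
      rw [abs_of_nonneg (mabs_nonneg _)]
      exact (mabs_sub _ _).trans (add_le_add (hA _).1 (hA (x 0)).2))
    fun _ _ => le_rfl
  rw [hD] at hc
  exact hc.trans h

end Generic

/-- The top of the path under the centre, rescaled. -/
theorem top_psd {m : ℕ} {D E q : Matrix (Fin m) (Fin m) ℝ} {av e δ : ℝ} (hav : 0 < av)
    (hD : D.IsHermitian) (hE : E.IsHermitian) (he : mabs (E - av • D) ≤ e)
    (h : (E + δ • (1 : Matrix (Fin m) (Fin m) ℝ) - q).PosSemidef) :
    (D - av⁻¹ • q + ((e + δ) / av) • (1 : Matrix (Fin m) (Fin m) ℝ)).PosSemidef := by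
  have h1 := Formula.sub_smul_one_psd (e := av • D - E) ((hD.smul (star_trivial av)).sub hE)
    (c := e) (by rwa [mabs_sub_comm])
  have h3 := (h1.add h).smul (inv_nonneg.2 hav.le)
  convert h3 using 1
  simp only [smul_add, smul_sub, smul_smul, inv_mul_cancel₀ hav.ne', one_smul, div_eq_inv_mul]
  module

theorem mabs_sdL_le {K m : ℕ} (hmd : m ≤ d) {av B1 : ℝ} (hB1 : 0 ≤ B1) (hav : av ≠ 0)
    {D : Matrix (Fin m) (Fin m) ℝ} {w q : Fin (K + 1) → Matrix (Fin m) (Fin m) ℝ}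
    (hw : ∀ l, mabs (w l) ≤ B1) (hq : ∀ l, mabs (av⁻¹ • q l) ≤ B1) (hD : mabs D⁻¹ ≤ B1) :
    mabs (sdL (ulev K) av (av • D) w q) ≤ ((d : ℝ) + B1 ^ 2 + 1) * B1 := by
  rw [sdL, Formula.rotL, inv_smul_smul₀ hav]
  refine mabs_mul_le ((mabs_sub _ _).trans ((add_le_add (b := (d : ℝ)) (d := B1 ^ 2) ?_ ?_).trans
    (le_add_of_nonneg_right zero_le_one))) hD
  · refine le_trans (le_of_eq ?_) (Nat.cast_le.2 hmd)
    simp [mabs, Matrix.one_apply, apply_ite]
  · refine (Formula.mabs_cum_le (levels_ulev K) (x := extPath w) (B := B1)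
      (y := extPath fun j => av⁻¹ • q j) (fun l _ => hq _) le_rfl).1.trans ?_
    rw [sq]
    exact mul_le_mul_of_nonneg_right
      (Formula.lmean_le_of_bound (levels_ulev K) (fun l _ => hw _)) hB1

/-- The covariance of the moves on the line. -/
theorem cmat_line {N M R D K n : ℕ} (P : VPot d) (π : VPrior N d R D) (Φ : VFac N d K)
    (c : VCIdx N M d R D K → ℝ) (t : Finset (Fin d)) (p : ℕ → Matrix (Fin t.card) (Fin t.card) ℝ)
    (s : ℝ) (G : VGIdx N M d R D K n → ℝ) (x z : VState π K n) :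
    cmat P π Φ c s (fun l k k' => (1 - s) * liftM t (p l.val) k k') G x z
      = s • pmat P π Φ c G x z + (1 - s) • liftM t (p (vlev π x z).val) := by
  ext k l
  simp [cmat, rC, pmat, vlev]

/-- The product of the deviations through the covariance of the moves. -/
theorem linX_cmat {N M R D K n : ℕ} (P : VPot d) (π : VPrior N d R D) (Φ : VFac N d K)
    (c : VCIdx N M d R D K → ℝ) (t : Finset (Fin d))
    (Q p : ℕ → Matrix (Fin t.card) (Fin t.card) ℝ) (s : ℝ) (G : VGIdx N M d R D K n → ℝ)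
    (x z : VState π K n) :
    s * linX P π γ Φ c t Q p G x z
      = minner (subM t (rmat π (typS γ N t) x z) - tfrac γ t • Q (vlev π x z).val)
          (subM t (cmat P π Φ c s (fun l k k' => (1 - s) * liftM t (p l.val) k k') G x z)
            - p (vlev π x z).val) := by
  rw [linX, cmat_line, ← minner_smul_right]
  congr 1
  ext b b'
  simp only [subM, Matrix.submatrix_apply, Matrix.add_apply, Matrix.smul_apply, Matrix.sub_apply,
    smul_eq_mul, Formula.liftM_apply_comp]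
  ring

theorem measurable_cmat_sub {N M R D K n : ℕ} (P : VPot d) (π : VPrior N d R D) (Φ : VFac N d K)
    (c : VCIdx N M d R D K → ℝ) (t : Finset (Fin d)) (θ : ℝ)
    (pF : Fin (K + 1) → Fin d → Fin d → ℝ) (x z : VState π K n) (k l : Fin t.card) :
    Measurable fun ω : (Node K n → ℝ) × (VGIdx N M d R D K n → ℝ) =>
      subM t (cmat P π Φ c θ pF ω.2 x z) k l := by
  have := fun b w q => (P.cg q).comp' (VItp.cont_vfld (vbpat (M := M) π Φ) (vpull (n := n) c) w b)
  have hcont : Continuous fun G => subM t (cmat P π Φ c θ pF G x z) k l := by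
    simp only [subM, Matrix.submatrix_apply, cmat, Matrix.of_apply, rC, vovP]
    fun_prop
  exact hcont.measurable.comp measurable_snd

/-- The mean product of the deviations of one type, up to the errors of the self-overlaps, of the
synchronisation and of the levels. -/
theorem line_type_ge (hτ : 0 < τ) (hB : 0 ≤ B) (P : VPot d) (hh : ∀ k k' y, P.h k k' y = P.h k' k y)
    (hγ : ∀ k, 0 < γ k ∧ γ k ≤ 1) {dd : OIdx d → ℝ} (hd : Clean γ dd) {t : Finset (Fin d)}
    (ht : Occupied γ t) {BT : ℝ} (hBT : 1 ≤ BT) {a0 η : ℝ} (hη : 0 < η) :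
    ∃ C : ℝ, 0 ≤ C ∧ ∃ δ0 > 0, ∃ K0 : ℕ, ∀ K ≥ K0, ∃ δK > 0, ∀ (qr : ℕ → Matrix (Fin d) (Fin d) ℝ)
      (p : TPath d) (Q : ℕ → Matrix (Fin t.card) (Fin t.card) ℝ), TypeBd γ dd t K Q BT →
      p t = bestPath (gridM K) K (typD γ dd t) Q →
      ∀ (N M : ℕ), (∀ j : Fin N, IsPath K (sitePath γ p j)) → (M : ℝ) ≤ a0 * N →
      2 ≤ (typS γ N t).card → |(((typS γ N t).card : ℝ) - 1) / N - tfrac γ t| ≤ δ0 →
      ∀ (nA nL J : ℕ) (A : Coeffs d nA) (hL : 0 < nL) (lam : ℝ), 0 ≤ lam →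
      ∃ δa > 0, ∀ {εa : ℝ} (a : Atoms (spinMeas τ γ B lam dd N) (cutSet B d N) εa), εa ≤ δa →
      ∀ n : ℕ, 0 < n → ∀ s ∈ Icc (0 : ℝ) 1, ∀ y : Fin (nker d nA) × Fin N → ℝ,
      (∀ q, y q ∈ Icc (1 : ℝ) 2) →
      pertSize (ePert (K := K) (D := N + nL + J) y) * (τ * B) / N ≤ δK →
      let π := penPrior (γ := γ) hτ.le A a hL J
      let Φ : VFac N d K := lineFac γ qr p
      let c : VCIdx N M d (nker d nA) (N + nL + J) K → ℝ := vsys (lineC s) y
      let μ := venv N M d (nker d nA) (N + nL + J) K n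
      ∀ δ εl : ℝ, 0 ≤ δ → 0 ≤ εl →
      reavg μ (vposW P π Φ c) 2 (fun _ x => ovlDev τ γ dd (penAtom hτ.le A a hL J (x 0).1)) ≤ δ →
      (∀ l, |levLaw μ (vposW P π Φ c) (vlev π) l - pi0 K| ≤ εl) →
      (∀ (l : Fin (K + 1)) (F : (Node K n → ℝ) × (VGIdx N M d (nker d nA) (N + nL + J) K n → ℝ) →
          (Fin 2 → VState π K n) → ℝ), PertFree F →
        |rdef μ (vmbw P π Φ c) (fun x z => if vlev π x z = l then 1 else 0) 1 F| ≤ εl) →
      ∀ q : Fin (K + 1) → Matrix (Fin d) (Fin d) ℝ,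
      (∀ l, (q l).transpose = q l) → (q 0).PosSemidef →
      (∀ l : Fin K, (q l.succ - q l.castSucc).PosSemidef) → (∀ l, mabs (q l) ≤ BT) →
      reavg μ (vposW P π Φ c) 2 (fun _ x =>
        mabs (rmat π (typS γ N t) (x 0) (x 1) - q (vlev π (x 0) (x 1)))) ≤ δ →
      (mexp μ (vposW P π Φ c) 1 (fun _ x => rmat π (typS γ N t) (x 0) (x 0))
        + δ • (1 : Matrix (Fin d) (Fin d) ℝ) - q (Fin.last K)).PosSemidef →
      -(η + C * (δ / δ0 + εl / δK))
        ≤ s * reavg μ (vposW P π Φ c) 2 (fun ω x => linX P π γ Φ c t Q (p t) ω.2 (x 0) (x 1)) := by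
  set at0 := tfrac γ t
  have hat : 0 < at0 := Formula.tfrac_pos hγ ht
  have hat1 : at0 ≤ 1 := Formula.tfrac_le_one γ t
  set V0 := (d : ℝ) ^ 2 * (|a0| * P.b1 ^ 2)
  have hV0 : 0 ≤ V0 := by positivity
  set B1 := typB d τ B V0 BT at0
  obtain ⟨hB1, hBTB, hτBB, hVB, h2a⟩ :=
    typB_spec (d := d) (τ := τ) (B := B) (mul_nonneg hτ.le hB) hV0 hBT hat hat1
  obtain ⟨τm, δ1, δ0, hτm, hτm1, hδ1, hδ0, hδ0a, K0, hpar⟩ :=
    type_params d t.card (B1 := B1) (BT := BT) (a := at0) (η := η) (by linarith)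
      (by linarith) hat hη
  refine ⟨4 * B1 ^ 2, by positivity, δ0, hδ0, K0, fun K hK => ?_⟩
  obtain ⟨hπτ, hδτ, δK, hδK, hδKπ, hnum⟩ := hpar K hK
  refine ⟨δK, hδK, fun qr p Q hQ hpQ N M hp hM hS2 hav0 nA nL J A hL lam hlam => ?_⟩
  have hN : 0 < N := by
    have := (hS2.trans (Finset.card_le_univ _)).trans_eq (Fintype.card_fin N)
    omega
  have hN' : (0 : ℝ) < N := Nat.cast_pos.2 hN
  set S := typS γ N t
  have hS : ∀ u ∈ S, typ γ u = t := fun u hu => (Finset.mem_filter.1 hu).2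
  set av := ((S.card : ℝ) - 1) / N
  have hav : at0 / 2 ≤ av := by linarith [(abs_le.1 hav0).1]
  have hav' : 0 < av := lt_of_lt_of_le (half_pos hat) hav
  have hav1 : av ≤ 1 := by
    rw [div_le_one hN']
    have : (S.card : ℝ) ≤ N :=
      Nat.cast_le.2 ((Finset.card_le_univ _).trans_eq (Fintype.card_fin N))
    linarith
  obtain ⟨Cb, hCb⟩ := exists_line_box N M d (nker d nA) (N + nL + J) K
  obtain ⟨δa, hδa, hstat⟩ := stat_pen_typ (K' := K) (J := J) hτ.le hlam dd A hL P hh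
    (lineFac γ qr p) hN Cb S t hS hS2 δK hδK
  refine ⟨δa, hδa, fun {εa} a hεa n hn s hs y hy hpert => ?_⟩
  intro π Φ c μ δ εl hδ hεl hdev hlaw hgg q hqs hq0 hqstep hqb hsync hupd
  have : Nonempty (VState π K n) := ⟨(⟨0, π.c_pos⟩, fun _ => ⟨0, hn⟩)⟩
  set u := vposW (n := n) P π Φ c
  have hm := measurable_vposW (n := n) P π Φ c
  have hpos := vposW_pos (n := n) P π Φ c
  set pF := fun (l : Fin (K + 1)) k k' => (1 - s) * liftM t (p t l.val) k k'
  set R := fun x z : VState π K n => subM t (rmat π S x z)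
  set U := vlev (K := K) (n := n) π
  set D := typD γ dd t
  have hrb : ∀ x z : VState π K n, mabs (rmat π S x z) ≤ B1 := fun x z => by
    refine (mabs_le_of_entry fun k l => ?_).trans hτBB
    have h := abs_gov_typX_le (γ := γ) hτ.le (fun σ => penAtom hτ.le A a hL J σ)
      (fun σ => a.mem _) hN t x.1 z.1 k l
    rw [gov_typX] at h
    exact h
  have hpt : ∀ l : Fin (K + 1), mabs (p t l.val) ≤ BT := fun l => by
    rw [hpQ]; exact hQ.resp _ (Nat.le_of_lt_succ l.isLt)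
  have hcb : ∀ G (x z : VState π K n), mabs (cmat P π Φ c s pF G x z) ≤ B1 := fun G x z => by
    rw [cmat_line P π Φ c t (p t) s G x z]
    refine (mabs_add _ _).trans ((add_le_add ?_ ?_).trans hVB)
    · rw [mabs_smul, abs_of_nonneg hs.1]
      refine (mul_le_of_le_one_left (mabs_nonneg _) hs.2).trans
        ((mabs_pmat_le P π Φ c G x z).trans (mul_le_mul_of_nonneg_left ?_ (sq_nonneg _)))
      rw [div_le_iff₀ hN', mul_assoc, mul_comm (P.b1 ^ 2), ← mul_assoc]
      exact mul_le_mul_of_nonneg_right (hM.trans (mul_le_mul_of_nonneg_right (le_abs_self a0)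
        hN'.le)) (sq_nonneg _)
    · rw [mabs_smul, abs_of_nonneg (sub_nonneg.2 hs.2)]
      exact (mul_le_of_le_one_left (mabs_nonneg _) (sub_le_self 1 hs.1)).trans
        ((mabs_liftM_bd t _).trans (mul_le_mul_of_nonneg_left (hpt _) (sq_nonneg _)))
  set C := fun (ω : (Node K n → ℝ) × (VGIdx N M d (nker d nA) (N + nL + J) K n → ℝ))
    (x z : VState π K n) => subM t (cmat P π Φ c s pF ω.2 x z)
  rw [show s * reavg μ u 2 (fun ω x => linX P π γ Φ c t Q (p t) ω.2 (x 0) (x 1))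
      = reavg μ u 2 (fun ω x => minner (R (x 0) (x 1) - at0 • Q (U (x 0) (x 1)).val)
        (C ω (x 0) (x 1) - p t (U (x 0) (x 1)).val)) by
    rw [← reavg_smul]
    simp only [linX_cmat P π Φ c t Q (p t) s]
    rfl]
  have hCm : ∀ x z k l, Measurable fun ω => C ω x z k l := fun x z k l =>
    measurable_cmat_sub P π Φ c t s pF x z k l
  have hCb' : ∀ ω x z, mabs (C ω x z) ≤ B1 := fun ω x z => (mabs_subM_le t _).trans (hcb _ _ _)
  have hRb : ∀ x z, mabs (R x z) ≤ B1 := fun x z => (mabs_subM_le t _).trans (hrb x z)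
  have hAb : ∀ l : Fin (K + 1), mabs (at0 • Q l.val) ≤ B1 := fun l => by
    rw [mabs_smul, abs_of_pos hat]
    exact (mul_le_of_le_one_left (mabs_nonneg _) hat1).trans
      ((hQ.bd _ (Nat.le_of_lt_succ l.isLt)).trans hBTB)
  have hqb' : ∀ l, mabs (subM t (q l)) ≤ BT := fun l => (mabs_subM_le t _).trans (hqb l)
  by_cases hgood : δ ≤ δ0 ∧ εl ≤ δK
  swap
  · have hbad : 1 ≤ δ / δ0 + εl / δK := by
      rcases not_and_or.1 hgood with h | h
      · exact ((one_le_div hδ0).2 (not_le.1 h).le).trans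
          (le_add_of_nonneg_right (div_nonneg hεl hδK.le))
      · exact ((one_le_div hδK).2 (not_le.1 h).le).trans
          (le_add_of_nonneg_left (div_nonneg hδ hδ0.le))
    have h : |reavg μ u 2 (fun ω x => minner (R (x 0) (x 1) - at0 • Q (U (x 0) (x 1)).val)
        (C ω (x 0) (x 1) - p t (U (x 0) (x 1)).val))| ≤ 4 * B1 ^ 2 := by
      refine abs_reavg_le hpos ⟨fun x => ?_, fun ω x => ?_⟩
      · exact Finset.measurable_sum _ fun i _ => Finset.measurable_sum _ fun j _ =>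
          ((hCm _ _ i j).sub_const _).const_mul _
      · exact (abs_minner_le _ _).trans ((mul_le_mul ((mabs_sub _ _).trans (add_le_add (hRb _ _)
          (hAb _))) ((mabs_sub _ _).trans (add_le_add (hCb' _ _ _) ((hpt _).trans hBTB)))
          (mabs_nonneg _) (by linarith)).trans_eq (by ring))
    have h2 := le_mul_of_one_le_right (show (0 : ℝ) ≤ 4 * B1 ^ 2 by positivity) hbad
    linarith [(abs_le.1 h).1]
  obtain ⟨hδ', hεl'⟩ := hgood
  set q' := fun l => subM t (q l)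
  have hq's : ∀ l, (q' l).transpose = q' l := fun l => by
    simp only [q', subM, Matrix.transpose_submatrix, hqs]
  have hinv : av⁻¹ ≤ 2 / at0 := by
    rw [inv_le_iff_one_le_mul₀ hav', div_mul_eq_mul_div, le_div_iff₀ hat]; linarith
  have hDmb : mabs (av • D) ≤ B1 := by
    rw [mabs_smul, abs_of_pos hav']
    exact (mul_le_of_le_one_left (mabs_nonneg _) hav1).trans (hQ.cen.trans hBTB)
  have hqh : ∀ j, mabs (av⁻¹ • q' j) ≤ B1 := fun j => by
    rw [mabs_smul, abs_inv, abs_of_pos hav']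
    exact (mul_le_mul hinv (hqb' j) (mabs_nonneg _) (by positivity)).trans h2a
  have hdiff : at0 • D = tmat dd t := by
    simp only [D, typD, smul_smul, at0, mul_inv_cancel₀ (show tfrac γ t ≠ 0 from hat.ne'), one_smul]
  have hself : reavg μ u 1 (fun _ x => mabs (R (x 0) (x 0) - av • D)) ≤ δ + δ0 * BT :=
    reavg_le_add (X := fun x => ovlDev τ γ dd (penAtom hτ.le A a hL J x.1))
      (f := fun x => mabs (R x x - av • D)) hm hpos (fun x => by
        have e : R x x - av • D = (R x x - tmat dd t) + (at0 - av) • D := by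
          rw [sub_smul, hdiff]; abel
        rw [e]
        refine (mabs_add _ _).trans (add_le_add (mabs_self_le hτ.le A a hL t dd x) ?_)
        rw [mabs_smul, abs_sub_comm]
        exact mul_le_mul hav0 hQ.cen (mabs_nonneg _) hδ0.le) hdev
  have hsync' : reavg μ u 2 (fun _ x => mabs (R (x 0) (x 1) - q' (U (x 0) (x 1)))) ≤ δ := by
    refine (reavg_mono hm hpos (A := 2 * B1) (bTest_const _ fun x => ?_)
      (bTest_const (B := 2 * B1) _ fun x => ?_)
      (g := fun _ x => mabs (rmat π S (x 0) (x 1) - q (U (x 0) (x 1)))) fun _ x => ?_).trans hsync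
    · rw [abs_of_nonneg (mabs_nonneg _)]
      exact (mabs_sub _ _).trans ((add_le_add (hRb _ _) ((hqb' _).trans hBTB)).trans_eq (by ring))
    · rw [abs_of_nonneg (mabs_nonneg _)]
      exact (mabs_sub _ _).trans ((add_le_add (hrb _ _) ((hqb _).trans hBTB)).trans_eq (by ring))
    · exact mabs_subM_le t (rmat π S (x 0) (x 1) - q (U (x 0) (x 1)))
  have hdet : (av • D).det ≠ 0 := by
    rw [Matrix.det_smul]; exact mul_ne_zero (pow_ne_zero _ hav'.ne') hQ.det
  have hpFs : ∀ l k k', pF l k k' = pF l k' k := fun l k k' => by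
    have hT : (p t l.val).transpose = p t l.val := by
      rw [hpQ]
      have h := (Formula.IsPath.psd (Formula.bestPath_isPath (Formula.gridM_levels K) hQ.path
        hQ.top) (Nat.le_of_lt_succ l.isLt)).isHermitian.eq
      rwa [Matrix.conjTranspose_eq_transpose_of_trivial] at h
    have h2 : (liftM t (p t l.val)).transpose = liftM t (p t l.val) := by
      simp [Formula.liftM, Matrix.mul_assoc, hT]
    simp only [pF]
    rw [← congrFun (congrFun h2 k) k', Matrix.transpose_apply]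
  have hBT0 : 0 ≤ δ0 * BT := mul_nonneg hδ0.le (by linarith)
  obtain ⟨hw, hres⟩ := hstat a hεa n hn c (fun i => hCb s hs y hy i)
    (fun v => by simp [c, vsys, vpert, lineC, vfldc]) s pF (ePert y)
    (typeVar_line hp t s y) hpFs
    (av • D) q' B1 B1 (δ + δ0 * BT) εl hB1 hdet hq's hDmb
    (fun j => (hqb' j).trans hBTB)
    (by rw [inv_smul_smul₀ hav'.ne' D]; exact hQ.inv.trans hBTB)
    hqh (by rw [abs_of_pos hav']; linarith) hrb hcb hεl (hεl'.trans hδKπ)
    (add_nonneg hδ hBT0) hself (hsync'.trans (le_add_of_nonneg_right hBT0)) hlaw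
    (fun l F hF => by rw [rdef_vposW]; exact hgg l F hF)
  set w := levMean μ u U C
  rw [inv_smul_smul₀ hav'.ne' D] at hres
  obtain ⟨hn1, hn2, hn3⟩ := hnum av δ εl
    (δK + 4 * (pertSize (ePert (K := K) (D := N + nL + J) y) * (τ * B)) / N)
    hav hav1 hav0 hδ hδ' hεl hεl' (by rw [mul_div_assoc]; linarith)
  have hmono_res : Formula.lmean (ulev K) K (Formula.resid (ulev K) K
      (sdL (ulev K) av (av • D) w q') D (extPath w) (extPath fun j => av⁻¹ • q' j)) ≤ δ1 := by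
    exact hres.trans hn1
  have hsymm : (subM t (mexp μ u 1 fun _ x => rmat π S (x 0) (x 0))).IsHermitian := by
    refine Matrix.IsHermitian.ext fun i j => ?_
    simp only [star_trivial, subM, mexp, Matrix.submatrix_apply, Matrix.of_apply, rmat,
      vov_symm π S (comp t j) (comp t i)]
  have hDh : D.IsHermitian := by
    refine Matrix.IsHermitian.ext fun i j => ?_
    simp only [D, typD, tmat, Matrix.smul_apply, Matrix.of_apply, star_trivial]
    rw [hd.1 t]
  have hup := top_psd (δ := δ) hav' hDh hsymm (q := q' (Fin.last K))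
    (mexp_near hm hpos (R := fun x => R x x) hself) (by
      have h := hupd.submatrix (comp t)
      convert h using 1
      ext i j
      simp [subM, q', Matrix.one_apply, (comp t).injective.eq_iff])
  have hcard : t.card ≤ d := (Finset.card_le_univ t).trans_eq (Fintype.card_fin d)
  have hw2 : ∀ l, mabs (w l) ≤ 2 * B1 := fun l => (hw l).2
  have hle : B1 ≤ 2 * B1 := by linarith
  have hBB : 2 * B1 ≤ ((d : ℝ) + (2 * B1) ^ 2 + 1) * (2 * B1) :=
    le_mul_of_one_le_left (by linarith)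
      (le_add_of_nonneg_left (add_nonneg (Nat.cast_nonneg d) (sq_nonneg _)))
  have hmono := response_mono (a := at0) (τm := τm) (δ := δ1)
    (ε := (δ + δ0 * BT + δ) / av) hτm1 hπτ
    ((show (1 : ℝ) ≤ 2 * B1 by linarith).trans hBB) hav' hQ.det
    ((hQ.inv.trans hBTB).trans (hle.trans hBB)) (w := w) (q := q')
    (fun l => (hw2 l).trans hBB) (fun l => (hqh l).trans (hle.trans hBB)) hq's
    (hq0.submatrix _) (fun l => (hqstep l).submatrix _)
    (mabs_sdL_le (d := d) hcard (by linarith) hav'.ne' hw2 (fun l => (hqh l).trans hle)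
      ((hQ.inv.trans hBTB).trans hle))
    hmono_res hδτ hup (by convert hn2 using 2; ring_nf) hQ.path hQ.top
    (fun l hl => ((hQ.bd l hl).trans hBTB).trans (hle.trans hBB))
    (fun l hl => ((hQ.resp l hl).trans hBTB).trans (hle.trans hBB))
  rw [← hpQ] at hmono
  have hsplit := lev_split (μ := μ) hm hpos (B := B1) (by linarith) U R C
    (fun l => at0 • Q l.val) q' (fun l => p t l.val) hCm hCb' hRb hAb
    (fun l => (hqb' l).trans hBTB) (fun l => (hpt l).trans hBTB) hsync' hlaw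
  have h8 : 0 ≤ 4 * B1 ^ 2 * (δ / δ0 + εl / δK) := by positivity
  linarith [(abs_le.1 hsplit).1]

end OneType

end Vale.Agent.P166.Casc
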